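import Vale.Agent.P062.Checker

namespace Vale.Agent.P062.Data.D0

open Vale.Agent.P062

noncomputable def t0 : T := .cons 227 (.cons 226 (.leaf 202 1623 (.cons 228 (.leaf 204 1629 (.cons 298 (.leaf 322 1814 (.cons 225 (.cons 201 (.leaf 200 1603 (.cons 229 (.cons 206 (.leaf 205 1617 (.cons 230 (.leaf 250 1810 (.leaf 207 1625 .nil)) .nil)) (.cons 206 (.leaf 205 1617 (.cons 230 (.leaf 207 1625 (.cons 254 (.leaf 253 1808 (.leaf 255 1816 .nil)) .nil)) .nil)) (.cons 250 (.leaf 249 1802 (.leaf 274 1615 .nil)) .nil))) .nil)) (.cons 200 (.leaf 201 1603 (.cons 224 (.leaf 252 1792 (.leaf 199 1595 .nil)) .nil)) (.cons 224 (.leaf 252 1792 (.cons 248 (.leaf 247 1786 (.leaf 249 1794 .nil)) .nil)) .nil))) .nil)) .nil)) .nil)) (.cons 298 (.leaf 322 1814 (.cons 202 (.leaf 226 1623 (.cons 203 (.leaf 178 1431 (.leaf 274 1622 .nil)) .nil)) .nil)) (.cons 298 (.leaf 322 1814 (.cons 203 (.leaf 274 1622 (.cons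 204 (.leaf 180 1437 (.leaf 228 1629 .nil)) .nil)) .nil)) (.cons 202 (.leaf 226 1623 (.cons 203 (.leaf 178 1431 (.cons 204 (.leaf 180 1437 (.leaf 228 1629 .nil)) .nil)) .nil)) .nil)))) (.cons 323 (.cons 226 (.leaf 250 1815 (.cons 346 (.leaf 322 2006 (.cons 347 (.leaf 370 2198 (.cons 348 (.leaf 324 2012 (.leaf 372 2204 .nil)) .nil)) .nil)) .nil)) (.cons 252 (.leaf 228 1821 (.cons 347 (.leaf 276 2013 (.cons 348 (.leaf 324 2012 (.leaf 372 2204 .nil)) .nil)) .nil)) (.cons 226 (.leaf 250 1815 (.cons 252 (.leaf 228 1821 (.cons 346 (.leaf 322 2006 (.cons 347 (.leaf 276 2013 (.leaf 370 2198 .nil)) .nil)) .nil)) .nil)) (.cons 250 (.leaf 226 1815 (.cons 252 (.leaf 228 1821 (.cons 322 (.leaf 346 2006 (.cons 324 (.leaf 348 2012 (.cons 249 (.cons 224 (.leaf 225 1795 (.cons 248 (.leaf 276 1984 (.leaf 223 1787 .nil)) .nil)) (.cons 224 (.leaf 225 1795 (.cons 248 (.leaf 223 1787 (.cons 272 (.leaf 271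 1978 (.leaf 273 1986 .nil)) .nil)) .nil)) (.cons 224 (.leaf 225 1795 (.cons 273 (.leaf 272 1986 (.cons 253 (.leaf 274 1994 (.cons 277 (.leaf 276 1992 (.leaf 278 2000 .nil)) .nil)) .nil)) .nil)) (.cons 276 (.leaf 248 1984 (.leaf 277 1992 .nil)) .nil)))) .nil)) .nil)) .nil)) .nil)) .nil)))) (.cons 227 (.cons 202 (.leaf 226 1623 (.cons 203 (.leaf 178 1431 (.cons 298 (.leaf 274 1622 (.leaf 322 1814 .nil)) .nil)) .nil)) (.cons 202 (.leaf 226 1623 (.cons 228 (.leaf 204 1629 (.cons 323 (.leaf 252 1821 (.cons 346 (.leaf 322 2006 (.cons 347 (.leaf 370 2198 (.cons 348 (.leaf 324 2012 (.leaf 372 2204 .nil)) .nil)) .nil)) .nil)) .nil)) .nil)) (.cons 298 (.leaf 322 1814 (.cons 203 (.leaf 274 1622 (.cons 204 (.leaf 180 1437 (.leaf 228 1629 .nil)) .nil)) .nil)) (.cons 202 (.leaf 226 1623 (.cons 203 (.leaf 178 1431 (.cons 204 (.leaf 180 1437 (.leaf 228 1629 .nil)) .nil)) .nil)) .nil)))) (.cons 227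 (.cons 204 (.leaf 228 1629 (.cons 202 (.leaf 226 1623 (.cons 203 (.leaf 178 1431 (.leaf 180 1437 .nil)) .nil)) .nil)) (.cons 298 (.leaf 322 1814 (.cons 203 (.leaf 274 1622 (.cons 204 (.leaf 180 1437 (.leaf 228 1629 .nil)) .nil)) .nil)) (.cons 202 (.leaf 226 1623 (.cons 203 (.leaf 178 1431 (.cons 298 (.leaf 274 1622 (.leaf 322 1814 .nil)) .nil)) .nil)) (.cons 204 (.leaf 228 1629 (.cons 322 (.leaf 298 1814 (.cons 226 (.leaf 202 1623 (.cons 323 (.leaf 250 1815 (.leaf 346 2006 .nil)) .nil)) .nil)) .nil)) .nil)))) (.cons 323 (.cons 322 (.leaf 346 2006 (.cons 298 (.leaf 227 1814 (.cons 348 (.leaf 324 2012 (.cons 347 (.leaf 372 2204 (.cons 274 (.leaf 250 2004 (.leaf 371 2199 .nil)) .nil)) .nil)) .nil)) .nil)) (.cons 252 (.leaf 228 1821 (.cons 347 (.leaf 276 2013 (.cons 348 (.leaf 324 2012 (.leaf 372 2204 .nil)) .nil)) .nil)) (.cons 228 (.leaf 252 1821 (.cons 227 (.leaf 204 1629 (.cons 298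 (.leaf 322 1814 (.cons 274 (.leaf 203 1622 (.cons 347 (.leaf 250 2007 (.leaf 371 2199 .nil)) .nil)) .nil)) .nil)) .nil)) (.cons 228 (.leaf 252 1821 (.cons 227 (.leaf 204 1629 (.cons 322 (.leaf 298 1814 (.leaf 346 2006 .nil)) .nil)) .nil)) .nil)))) (.cons 323 (.cons 250 (.leaf 226 1815 (.cons 347 (.leaf 274 2007 (.cons 348 (.leaf 324 2012 (.leaf 372 2204 .nil)) .nil)) .nil)) (.cons 322 (.leaf 346 2006 (.cons 298 (.leaf 227 1814 (.cons 348 (.leaf 324 2012 (.cons 347 (.leaf 372 2204 (.cons 371 (.leaf 274 2199 (.leaf 395 2391 .nil)) .nil)) .nil)) .nil)) .nil)) (.cons 226 (.leaf 250 1815 (.cons 227 (.leaf 202 1623 (.cons 322 (.leaf 298 1814 (.leaf 346 2006 .nil)) .nil)) .nil)) .nil))) (.cons 323 (.cons 250 (.leaf 226 1815 (.cons 347 (.leaf 274 2007 (.cons 348 (.leaf 324 2012 (.leaf 372 2204 .nil)) .nil)) .nil)) (.cons 252 (.leaf 228 1821 (.cons 347 (.leaf 276 2013 (.cons 348 (.leaf 324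 2012 (.leaf 372 2204 .nil)) .nil)) .nil)) (.cons 226 (.leaf 250 1815 (.cons 227 (.leaf 202 1623 (.cons 228 (.leaf 204 1629 (.leaf 252 1821 .nil)) .nil)) .nil)) .nil))) .nil))))))
noncomputable def t1 : T := .cons 226 (.leaf 202 1623 (.cons 228 (.leaf 204 1629 (.cons 298 (.leaf 322 1814 (.cons 225 (.cons 201 (.leaf 200 1603 (.cons 249 (.leaf 248 1794 (.cons 274 (.leaf 203 1622 (.leaf 250 1615 .nil)) .nil)) .nil)) (.cons 200 (.leaf 201 1603 (.cons 224 (.leaf 252 1792 (.leaf 199 1595 .nil)) .nil)) (.cons 224 (.leaf 252 1792 (.cons 248 (.leaf 247 1786 (.leaf 249 1794 .nil)) .nil)) .nil))) .nil)) .nil)) .nil)) (.cons 204 (.leaf 228 1629 (.cons 202 (.leaf 226 1623 (.cons 203 (.leaf 178 1431 (.leaf 180 1437 .nil)) .nil)) .nil)) (.cons 202 (.leaf 226 1623 (.cons 203 (.leaf 178 1431 (.cons 298 (.leaf 274 1622 (.leaf 322 1814 .nil)) .nil)) .nil)) (.cons 298 (.leaf 322 1814 (.cons 203 (.leaf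 274 1622 (.cons 204 (.leaf 180 1437 (.leaf 228 1629 .nil)) .nil)) .nil)) (.cons 226 (.leaf 202 1623 (.cons 228 (.leaf 204 1629 (.cons 298 (.leaf 322 1814 (.cons 225 (.cons 201 (.leaf 200 1603 (.cons 249 (.leaf 248 1794 (.cons 274 (.leaf 250 1615 (.leaf 273 1612 .nil)) .nil)) .nil)) (.cons 200 (.leaf 201 1603 (.cons 224 (.leaf 252 1792 (.leaf 199 1595 .nil)) .nil)) (.cons 224 (.leaf 252 1792 (.cons 248 (.leaf 247 1786 (.leaf 249 1794 .nil)) .nil)) .nil))) .nil)) .nil)) .nil)) .nil))))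
noncomputable def t2 : T := .cons 227 (.cons 202 (.leaf 226 1623 (.cons 203 (.leaf 178 1431 (.cons 298 (.leaf 274 1622 (.leaf 322 1814 .nil)) .nil)) .nil)) (.cons 204 (.leaf 228 1629 (.cons 203 (.leaf 180 1437 (.cons 298 (.leaf 274 1622 (.leaf 322 1814 .nil)) .nil)) .nil)) (.cons 202 (.leaf 226 1623 (.cons 228 (.leaf 204 1629 (.cons 323 (.leaf 252 1821 (.cons 346 (.leaf 322 2006 (.cons 347 (.leaf 370 2198 (.cons 348 (.leaf 324 2012 (.leaf 372 2204 .nil)) .nil)) .nil)) .nil)) .nil)) .nil)) (.cons 202 (.leaf 226 1623 (.cons 203 (.leaf 178 1431 (.cons 204 (.leaf 180 1437 (.leaf 228 1629 .nil)) .nil)) .nil)) .nil)))) (.cons 227 t1 (.cons 323 (.cons 226 (.leaf 250 1815 (.cons 346 (.leaf 322 2006 (.cons 347 (.leaf 370 2198 (.cons 348 (.leaf 324 2012 (.leaf 372 2204 .nil)) .nil)) .nil)) .nil)) (.cons 252 (.leaf 228 1821 (.cons 347 (.leaf 276 2013 (.cons 348 (.leaf 324 2012 (.leaf 372 2204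 .nil)) .nil)) .nil)) (.cons 226 (.leaf 250 1815 (.cons 252 (.leaf 228 1821 (.cons 346 (.leaf 322 2006 (.cons 347 (.leaf 276 2013 (.leaf 370 2198 .nil)) .nil)) .nil)) .nil)) (.cons 250 (.leaf 226 1815 (.cons 252 (.leaf 228 1821 (.cons 322 (.leaf 346 2006 (.cons 324 (.leaf 348 2012 (.cons 249 (.cons 225 (.leaf 224 1795 (.cons 272 (.leaf 273 1986 (.cons 298 (.leaf 274 1807 (.cons 297 (.leaf 296 2368 (.leaf 325 2379 .nil)) .nil)) .nil)) .nil)) (.cons 276 (.leaf 248 1984 (.leaf 277 1992 .nil)) .nil)) .nil)) .nil)) .nil)) .nil)) .nil)))) (.cons 323 (.cons 322 (.leaf 346 2006 (.cons 298 (.leaf 227 1814 (.cons 324 (.leaf 348 2012 (.cons 297 (.leaf 296 2368 (.leaf 325 2379 .nil)) .nil)) .nil)) .nil)) (.cons 252 (.leaf 228 1821 (.cons 347 (.leaf 276 2013 (.cons 348 (.leaf 324 2012 (.leaf 372 2204 .nil)) .nil)) .nil)) (.cons 228 (.leaf 252 1821 (.cons 227 (.leaf 204 1629 (.cons 298 (.leaf 322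 1814 (.cons 274 (.leaf 203 1622 (.cons 347 (.leaf 250 2007 (.leaf 371 2199 .nil)) .nil)) .nil)) .nil)) .nil)) .nil))) (.cons 323 (.cons 226 (.leaf 250 1815 (.cons 346 (.leaf 322 2006 (.cons 347 (.leaf 370 2198 (.cons 348 (.leaf 324 2012 (.leaf 372 2204 .nil)) .nil)) .nil)) .nil)) (.cons 322 (.leaf 346 2006 (.cons 298 (.leaf 227 1814 (.cons 324 (.leaf 348 2012 (.cons 297 (.leaf 296 2368 (.leaf 325 2379 .nil)) .nil)) .nil)) .nil)) (.cons 250 (.leaf 226 1815 (.cons 347 (.leaf 274 2007 (.cons 348 (.leaf 324 2012 (.leaf 372 2204 .nil)) .nil)) .nil)) (.cons 226 (.leaf 250 1815 (.cons 227 (.leaf 202 1623 (.cons 322 (.leaf 298 1814 (.leaf 346 2006 .nil)) .nil)) .nil)) .nil)))) (.cons 323 (.cons 226 (.leaf 250 1815 (.cons 346 (.leaf 322 2006 (.cons 347 (.leaf 370 2198 (.cons 348 (.leaf 324 2012 (.leaf 372 2204 .nil)) .nil)) .nil)) .nil)) (.cons 228 (.leaf 252 1821 (.cons 346 (.leaf 322 2006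 (.cons 347 (.leaf 370 2198 (.cons 348 (.leaf 324 2012 (.leaf 372 2204 .nil)) .nil)) .nil)) .nil)) (.cons 226 (.leaf 250 1815 (.cons 227 (.leaf 202 1623 (.cons 228 (.leaf 204 1629 (.leaf 252 1821 .nil)) .nil)) .nil)) .nil))) (.cons 323 (.cons 250 (.leaf 226 1815 (.cons 347 (.leaf 274 2007 (.cons 348 (.leaf 324 2012 (.leaf 372 2204 .nil)) .nil)) .nil)) (.cons 252 (.leaf 228 1821 (.cons 347 (.leaf 276 2013 (.cons 348 (.leaf 324 2012 (.leaf 372 2204 .nil)) .nil)) .nil)) (.cons 226 (.leaf 250 1815 (.cons 227 (.leaf 202 1623 (.cons 228 (.leaf 204 1629 (.leaf 252 1821 .nil)) .nil)) .nil)) .nil))) .nil))))))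
noncomputable def t3 : T := .cons 323 (.cons 226 (.leaf 250 1815 (.cons 227 (.leaf 202 1623 (.cons 228 (.leaf 204 1629 (.leaf 252 1821 .nil)) .nil)) .nil)) (.cons 252 (.leaf 228 1821 (.cons 347 (.leaf 276 2013 (.cons 348 (.leaf 324 2012 (.leaf 372 2204 .nil)) .nil)) .nil)) (.cons 250 (.leaf 226 1815 (.cons 347 (.leaf 274 2007 (.cons 348 (.leaf 324 2012 (.leaf 372 2204 .nil)) .nil)) .nil)) .nil))) (.cons 227 (.cons 226 (.leaf 202 1623 (.cons 228 (.leaf 204 1629 (.cons 298 (.leaf 322 1814 (.cons 225 (.cons 201 (.leaf 200 1603 (.cons 249 (.leaf 248 1794 (.cons 250 (.leaf 229 1802 (.leaf 274 1615 .nil)) .nil)) .nil)) (.cons 200 (.leaf 201 1603 (.cons 224 (.leaf 252 1792 (.leaf 199 1595 .nil)) .nil)) (.cons 224 (.leaf 252 1792 (.cons 248 (.leaf 247 1786 (.leaf 249 1794 .nil)) .nil)) .nil))) .nil)) .nil)) .nil)) (.cons 204 (.leaf 228 1629 (.cons 202 (.leaf 226 1623 (.cons 203 (.leaf 178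 1431 (.leaf 180 1437 .nil)) .nil)) .nil)) (.cons 298 (.leaf 322 1814 (.cons 203 (.leaf 274 1622 (.cons 204 (.leaf 180 1437 (.leaf 228 1629 .nil)) .nil)) .nil)) (.cons 298 (.leaf 322 1814 (.cons 202 (.leaf 226 1623 (.cons 203 (.leaf 178 1431 (.leaf 274 1622 .nil)) .nil)) .nil)) .nil)))) (.cons 323 (.cons 226 (.leaf 250 1815 (.cons 252 (.leaf 228 1821 (.cons 347 (.leaf 276 2013 (.cons 346 (.leaf 322 2006 (.leaf 370 2198 .nil)) .nil)) .nil)) .nil)) (.cons 252 (.leaf 228 1821 (.cons 347 (.leaf 276 2013 (.cons 348 (.leaf 324 2012 (.leaf 372 2204 .nil)) .nil)) .nil)) (.cons 250 (.leaf 226 1815 (.cons 347 (.leaf 274 2007 (.cons 348 (.leaf 324 2012 (.leaf 372 2204 .nil)) .nil)) .nil)) (.cons 250 (.leaf 226 1815 (.cons 252 (.leaf 228 1821 (.cons 322 (.leaf 346 2006 (.cons 324 (.leaf 348 2012 (.cons 249 (.cons 225 (.leaf 224 1795 (.cons 272 (.leaf 273 1986 (.cons 298 (.leaf 274 1807 (.cons 297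 (.leaf 296 2368 (.leaf 325 2379 .nil)) .nil)) .nil)) .nil)) (.cons 276 (.leaf 248 1984 (.leaf 277 1992 .nil)) .nil)) .nil)) .nil)) .nil)) .nil)) .nil)))) (.cons 227 (.cons 202 (.leaf 226 1623 (.cons 203 (.leaf 178 1431 (.cons 298 (.leaf 274 1622 (.leaf 322 1814 .nil)) .nil)) .nil)) (.cons 202 (.leaf 226 1623 (.cons 228 (.leaf 204 1629 (.cons 323 (.leaf 252 1821 (.cons 346 (.leaf 322 2006 (.cons 347 (.leaf 370 2198 (.cons 348 (.leaf 324 2012 (.leaf 372 2204 .nil)) .nil)) .nil)) .nil)) .nil)) .nil)) (.cons 202 (.leaf 226 1623 (.cons 203 (.leaf 178 1431 (.cons 204 (.leaf 180 1437 (.leaf 228 1629 .nil)) .nil)) .nil)) (.cons 204 (.leaf 228 1629 (.cons 203 (.leaf 180 1437 (.cons 298 (.leaf 274 1622 (.leaf 322 1814 .nil)) .nil)) .nil)) .nil)))) (.cons 323 (.cons 322 (.leaf 346 2006 (.cons 298 (.leaf 227 1814 (.cons 324 (.leaf 348 2012 (.cons 297 (.leaf 296 2368 (.leaf 325 2379 .nil)) .nil))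 .nil)) .nil)) (.cons 252 (.leaf 228 1821 (.cons 347 (.leaf 276 2013 (.cons 348 (.leaf 324 2012 (.leaf 372 2204 .nil)) .nil)) .nil)) (.cons 228 (.leaf 252 1821 (.cons 227 (.leaf 204 1629 (.cons 298 (.leaf 322 1814 (.cons 274 (.leaf 203 1622 (.cons 347 (.leaf 250 2007 (.leaf 371 2199 .nil)) .nil)) .nil)) .nil)) .nil)) .nil))) (.cons 323 (.cons 250 (.leaf 226 1815 (.cons 347 (.leaf 274 2007 (.cons 348 (.leaf 324 2012 (.leaf 372 2204 .nil)) .nil)) .nil)) (.cons 322 (.leaf 346 2006 (.cons 298 (.leaf 227 1814 (.cons 324 (.leaf 348 2012 (.cons 297 (.leaf 296 2368 (.leaf 325 2379 .nil)) .nil)) .nil)) .nil)) (.cons 226 (.leaf 250 1815 (.cons 227 (.leaf 202 1623 (.cons 322 (.leaf 298 1814 (.leaf 346 2006 .nil)) .nil)) .nil)) .nil))) (.cons 323 (.cons 322 (.leaf 346 2006 (.cons 298 (.leaf 227 1814 (.cons 324 (.leaf 348 2012 (.cons 297 (.leaf 296 2368 (.leaf 325 2379 .nil)) .nil)) .nil)) .nil))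 (.cons 252 (.leaf 228 1821 (.cons 347 (.leaf 276 2013 (.cons 348 (.leaf 324 2012 (.leaf 372 2204 .nil)) .nil)) .nil)) (.cons 226 (.leaf 250 1815 (.cons 227 (.leaf 202 1623 (.cons 228 (.leaf 204 1629 (.leaf 252 1821 .nil)) .nil)) .nil)) .nil))) .nil))))))
noncomputable def t4 : T := .cons 298 (.leaf 322 1814 (.cons 203 (.leaf 274 1622 (.cons 204 (.leaf 180 1437 (.leaf 228 1629 .nil)) .nil)) .nil)) (.cons 202 (.leaf 226 1623 (.cons 203 (.leaf 178 1431 (.cons 204 (.leaf 180 1437 (.leaf 228 1629 .nil)) .nil)) .nil)) (.cons 298 (.leaf 322 1814 (.cons 202 (.leaf 226 1623 (.cons 203 (.leaf 178 1431 (.leaf 274 1622 .nil)) .nil)) .nil)) (.cons 228 (.leaf 204 1629 (.cons 226 (.leaf 202 1623 (.cons 298 (.leaf 322 1814 (.cons 229 (.cons 206 (.leaf 205 1617 (.cons 230 (.leaf 250 1810 (.leaf 207 1625 .nil)) .nil)) (.cons 206 (.leaf 205 1617 (.cons 230 (.leaf 207 1625 (.cons 254 (.leaf 253 1808 (.leaf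 255 1816 .nil)) .nil)) .nil)) (.cons 250 (.leaf 249 1802 (.cons 253 (.leaf 254 1808 (.cons 205 (.leaf 206 1617 (.cons 181 (.cons 156 (.leaf 180 1255 (.cons 276 (.leaf 252 1446 (.cons 277 (.leaf 278 2194 (.cons 297 (.leaf 274 2186 (.leaf 296 2177 .nil)) .nil)) .nil)) .nil)) (.cons 156 (.leaf 180 1255 (.cons 157 (.leaf 132 1063 (.cons 158 (.leaf 134 1069 (.leaf 182 1261 .nil)) .nil)) .nil)) (.cons 252 (.leaf 157 1254 (.leaf 276 1446 .nil)) .nil))) .nil)) .nil)) .nil)) (.cons 250 (.leaf 230 1810 (.leaf 249 1802 .nil)) .nil)))) .nil)) .nil)) .nil)) .nil)))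
noncomputable def t5 : T := .cons 323 (.cons 226 (.leaf 250 1815 (.cons 227 (.leaf 202 1623 (.cons 228 (.leaf 204 1629 (.leaf 252 1821 .nil)) .nil)) .nil)) (.cons 252 (.leaf 228 1821 (.cons 347 (.leaf 276 2013 (.cons 348 (.leaf 324 2012 (.leaf 372 2204 .nil)) .nil)) .nil)) (.cons 250 (.leaf 226 1815 (.cons 347 (.leaf 274 2007 (.cons 348 (.leaf 324 2012 (.leaf 372 2204 .nil)) .nil)) .nil)) .nil))) (.cons 227 t4 (.cons 323 (.cons 226 (.leaf 250 1815 (.cons 252 (.leaf 228 1821 (.cons 347 (.leaf 276 2013 (.cons 346 (.leaf 322 2006 (.leaf 370 2198 .nil)) .nil)) .nil)) .nil)) (.cons 252 (.leaf 228 1821 (.cons 347 (.leaf 276 2013 (.cons 348 (.leaf 324 2012 (.leaf 372 2204 .nil)) .nil)) .nil)) (.cons 250 (.leaf 226 1815 (.cons 347 (.leaf 274 2007 (.cons 348 (.leaf 324 2012 (.leaf 372 2204 .nil)) .nil)) .nil)) (.cons 250 (.leaf 226 1815 (.cons 252 (.leaf 228 1821 (.cons 322 (.leaf 346 2006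 (.cons 324 (.leaf 348 2012 (.cons 325 (.cons 297 (.leaf 298 2379 (.cons 301 (.leaf 302 2385 (.cons 321 (.leaf 296 2371 (.cons 344 (.leaf 345 2562 (.cons 320 (.leaf 343 2554 (.cons 273 (.leaf 249 1990 (.cons 274 (.leaf 272 1985 (.leaf 253 1994 .nil)) .nil)) .nil)) .nil)) .nil)) .nil)) .nil)) (.cons 302 (.leaf 301 2385 (.cons 326 (.leaf 303 2393 (.cons 350 (.leaf 349 2576 (.leaf 351 2584 .nil)) .nil)) .nil)) (.cons 298 (.leaf 326 2387 (.leaf 297 2379 .nil)) .nil))) .nil)) .nil)) .nil)) .nil)) .nil)))) (.cons 323 (.cons 322 (.leaf 346 2006 (.cons 298 (.leaf 227 1814 (.cons 324 (.leaf 348 2012 (.cons 297 (.leaf 296 2368 (.leaf 325 2379 .nil)) .nil)) .nil)) .nil)) (.cons 252 (.leaf 228 1821 (.cons 347 (.leaf 276 2013 (.cons 348 (.leaf 324 2012 (.leaf 372 2204 .nil)) .nil)) .nil)) (.cons 228 (.leaf 252 1821 (.cons 227 (.leaf 204 1629 (.cons 322 (.leaf 298 1814 (.leaf 346 2006 .nil)) .nil))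 .nil)) .nil))) (.cons 227 (.cons 204 (.leaf 228 1629 (.cons 202 (.leaf 226 1623 (.cons 203 (.leaf 178 1431 (.leaf 180 1437 .nil)) .nil)) .nil)) (.cons 204 (.leaf 228 1629 (.cons 203 (.leaf 180 1437 (.cons 298 (.leaf 274 1622 (.leaf 322 1814 .nil)) .nil)) .nil)) (.cons 298 (.leaf 322 1814 (.cons 202 (.leaf 226 1623 (.cons 203 (.leaf 178 1431 (.leaf 274 1622 .nil)) .nil)) .nil)) (.cons 204 (.leaf 228 1629 (.cons 322 (.leaf 298 1814 (.cons 226 (.leaf 202 1623 (.cons 323 (.leaf 250 1815 (.leaf 346 2006 .nil)) .nil)) .nil)) .nil)) .nil)))) (.cons 323 (.cons 250 (.leaf 226 1815 (.cons 347 (.leaf 274 2007 (.cons 348 (.leaf 324 2012 (.leaf 372 2204 .nil)) .nil)) .nil)) (.cons 322 (.leaf 346 2006 (.cons 298 (.leaf 227 1814 (.cons 324 (.leaf 348 2012 (.cons 297 (.leaf 296 2368 (.leaf 325 2379 .nil)) .nil)) .nil)) .nil)) (.cons 226 (.leaf 250 1815 (.cons 227 (.leaf 202 1623 (.cons 322 (.leaf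 298 1814 (.leaf 346 2006 .nil)) .nil)) .nil)) .nil))) .nil)))))
noncomputable def t6 : T := .cons 323 (.cons 226 (.leaf 250 1815 (.cons 227 (.leaf 202 1623 (.cons 228 (.leaf 204 1629 (.leaf 252 1821 .nil)) .nil)) .nil)) (.cons 252 (.leaf 228 1821 (.cons 347 (.leaf 276 2013 (.cons 348 (.leaf 324 2012 (.leaf 372 2204 .nil)) .nil)) .nil)) (.cons 250 (.leaf 226 1815 (.cons 347 (.leaf 274 2007 (.cons 348 (.leaf 324 2012 (.leaf 372 2204 .nil)) .nil)) .nil)) .nil))) (.cons 227 (.cons 298 (.leaf 322 1814 (.cons 202 (.leaf 226 1623 (.cons 203 (.leaf 178 1431 (.leaf 274 1622 .nil)) .nil)) .nil)) (.cons 202 (.leaf 226 1623 (.cons 203 (.leaf 178 1431 (.cons 204 (.leaf 180 1437 (.leaf 228 1629 .nil)) .nil)) .nil)) (.cons 298 (.leaf 322 1814 (.cons 203 (.leaf 274 1622 (.cons 204 (.leaf 180 1437 (.leaf 228 1629 .nil)) .nil)) .nil)) (.cons 228 (.leaf 204 1629 (.cons 226 (.leaf 202 1623 (.cons 298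 (.leaf 322 1814 (.cons 229 (.cons 206 (.leaf 205 1617 (.cons 230 (.leaf 250 1810 (.leaf 207 1625 .nil)) .nil)) (.cons 206 (.leaf 205 1617 (.cons 230 (.leaf 207 1625 (.cons 254 (.leaf 253 1808 (.leaf 255 1816 .nil)) .nil)) .nil)) (.cons 205 (.leaf 206 1617 (.cons 253 (.leaf 254 1808 (.cons 252 (.leaf 225 1800 (.cons 181 (.leaf 157 1254 (.leaf 276 1446 .nil)) .nil)) .nil)) .nil)) (.cons 250 (.leaf 230 1810 (.leaf 249 1802 .nil)) .nil)))) .nil)) .nil)) .nil)) .nil)))) (.cons 323 (.cons 226 (.leaf 250 1815 (.cons 252 (.leaf 228 1821 (.cons 347 (.leaf 276 2013 (.cons 346 (.leaf 322 2006 (.leaf 370 2198 .nil)) .nil)) .nil)) .nil)) (.cons 252 (.leaf 228 1821 (.cons 347 (.leaf 276 2013 (.cons 348 (.leaf 324 2012 (.leaf 372 2204 .nil)) .nil)) .nil)) (.cons 250 (.leaf 226 1815 (.cons 347 (.leaf 274 2007 (.cons 348 (.leaf 324 2012 (.leaf 372 2204 .nil)) .nil)) .nil)) (.cons 250 (.leaf 226 1815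 (.cons 252 (.leaf 228 1821 (.cons 322 (.leaf 346 2006 (.cons 324 (.leaf 348 2012 (.cons 325 (.cons 297 (.leaf 298 2379 (.cons 301 (.leaf 302 2385 (.cons 321 (.leaf 296 2371 (.cons 344 (.leaf 345 2562 (.cons 320 (.leaf 343 2554 (.cons 273 (.leaf 249 1990 (.cons 274 (.leaf 272 1985 (.leaf 253 1994 .nil)) .nil)) .nil)) .nil)) .nil)) .nil)) .nil)) (.cons 302 (.leaf 301 2385 (.cons 326 (.leaf 303 2393 (.cons 350 (.leaf 349 2576 (.leaf 351 2584 .nil)) .nil)) .nil)) (.cons 298 (.leaf 326 2387 (.leaf 297 2379 .nil)) .nil))) .nil)) .nil)) .nil)) .nil)) .nil)))) (.cons 323 (.cons 322 (.leaf 346 2006 (.cons 298 (.leaf 227 1814 (.cons 324 (.leaf 348 2012 (.cons 297 (.leaf 296 2368 (.leaf 325 2379 .nil)) .nil)) .nil)) .nil)) (.cons 252 (.leaf 228 1821 (.cons 347 (.leaf 276 2013 (.cons 348 (.leaf 324 2012 (.leaf 372 2204 .nil)) .nil)) .nil)) (.cons 228 (.leaf 252 1821 (.cons 227 (.leaf 204 1629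 (.cons 322 (.leaf 298 1814 (.leaf 346 2006 .nil)) .nil)) .nil)) .nil))) (.cons 227 (.cons 204 (.leaf 228 1629 (.cons 202 (.leaf 226 1623 (.cons 203 (.leaf 178 1431 (.leaf 180 1437 .nil)) .nil)) .nil)) (.cons 298 (.leaf 322 1814 (.cons 203 (.leaf 274 1622 (.cons 204 (.leaf 180 1437 (.leaf 228 1629 .nil)) .nil)) .nil)) (.cons 202 (.leaf 226 1623 (.cons 203 (.leaf 178 1431 (.cons 298 (.leaf 274 1622 (.leaf 322 1814 .nil)) .nil)) .nil)) (.cons 204 (.leaf 228 1629 (.cons 322 (.leaf 298 1814 (.cons 226 (.leaf 202 1623 (.cons 323 (.leaf 250 1815 (.leaf 346 2006 .nil)) .nil)) .nil)) .nil)) .nil)))) (.cons 323 (.cons 250 (.leaf 226 1815 (.cons 347 (.leaf 274 2007 (.cons 348 (.leaf 324 2012 (.leaf 372 2204 .nil)) .nil)) .nil)) (.cons 322 (.leaf 346 2006 (.cons 298 (.leaf 227 1814 (.cons 324 (.leaf 348 2012 (.cons 297 (.leaf 296 2368 (.leaf 325 2379 .nil)) .nil)) .nil)) .nil)) (.cons 226 (.leaf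 250 1815 (.cons 227 (.leaf 202 1623 (.cons 322 (.leaf 298 1814 (.leaf 346 2006 .nil)) .nil)) .nil)) .nil))) .nil)))))
noncomputable def t7 : T := .cons 226 (.leaf 202 1623 (.cons 228 (.leaf 204 1629 (.cons 298 (.leaf 322 1814 (.cons 229 (.cons 206 (.leaf 205 1617 (.cons 230 (.leaf 250 1810 (.leaf 207 1625 .nil)) .nil)) (.cons 206 (.leaf 205 1617 (.cons 230 (.leaf 207 1625 (.cons 254 (.leaf 253 1808 (.leaf 255 1816 .nil)) .nil)) .nil)) (.cons 205 (.leaf 206 1617 (.cons 253 (.leaf 254 1808 (.cons 252 (.leaf 323 1821 (.leaf 225 1800 .nil)) .nil)) .nil)) (.cons 250 (.leaf 323 1815 (.leaf 230 1810 .nil)) .nil)))) .nil)) .nil)) .nil)) (.cons 298 (.leaf 322 1814 (.cons 203 (.leaf 274 1622 (.cons 204 (.leaf 180 1437 (.leaf 228 1629 .nil)) .nil)) .nil)) (.cons 298 (.leaf 322 1814 (.cons 202 (.leaf 226 1623 (.cons 203 (.leaf 178 1431 (.leaf 274 1622 .nil)) .nil)) .nil)) (.cons 226 (.leaf 202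 1623 (.cons 204 (.leaf 228 1629 (.cons 323 (.leaf 250 1815 (.cons 203 (.leaf 180 1437 (.cons 205 (.leaf 206 1618 (.cons 224 (.leaf 225 1601 (.cons 346 (.leaf 322 2006 (.cons 347 (.leaf 370 2198 (.cons 348 (.leaf 324 2012 (.leaf 372 2204 .nil)) .nil)) .nil)) .nil)) .nil)) .nil)) .nil)) .nil)) .nil)) (.cons 226 (.leaf 202 1623 (.cons 204 (.leaf 228 1629 (.cons 203 (.leaf 180 1437 (.cons 205 (.leaf 206 1618 (.cons 224 (.leaf 225 1601 (.cons 250 (.leaf 323 1815 (.cons 179 (.leaf 274 1430 (.leaf 155 1238 .nil)) .nil)) .nil)) .nil)) .nil)) .nil)) .nil)) .nil))))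
noncomputable def t8 : T := .cons 227 t7 (.cons 227 (.cons 298 (.leaf 322 1814 (.cons 202 (.leaf 226 1623 (.cons 203 (.leaf 178 1431 (.leaf 274 1622 .nil)) .nil)) .nil)) (.cons 202 (.leaf 226 1623 (.cons 203 (.leaf 178 1431 (.cons 204 (.leaf 180 1437 (.leaf 228 1629 .nil)) .nil)) .nil)) (.cons 298 (.leaf 322 1814 (.cons 203 (.leaf 274 1622 (.cons 204 (.leaf 180 1437 (.leaf 228 1629 .nil)) .nil)) .nil)) (.cons 226 (.leaf 202 1623 (.cons 228 (.leaf 204 1629 (.cons 298 (.leaf 322 1814 (.cons 229 (.cons 206 (.leaf 205 1617 (.cons 230 (.leaf 250 1810 (.leaf 207 1625 .nil)) .nil)) (.cons 206 (.leaf 205 1617 (.cons 230 (.leaf 207 1625 (.cons 254 (.leaf 253 1808 (.leaf 255 1816 .nil)) .nil)) .nil)) (.cons 205 (.leaf 206 1617 (.cons 253 (.leaf 254 1808 (.cons 252 (.leaf 225 1800 (.cons 181 (.leaf 157 1254 (.leaf 276 1446 .nil)) .nil)) .nil)) .nil)) (.cons 250 (.leaf 230 1810 (.leaf 249 1802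 .nil)) .nil)))) .nil)) .nil)) .nil)) .nil)))) (.cons 323 (.cons 252 (.leaf 228 1821 (.cons 347 (.leaf 276 2013 (.cons 348 (.leaf 324 2012 (.leaf 372 2204 .nil)) .nil)) .nil)) (.cons 250 (.leaf 226 1815 (.cons 347 (.leaf 274 2007 (.cons 348 (.leaf 324 2012 (.leaf 372 2204 .nil)) .nil)) .nil)) (.cons 226 (.leaf 250 1815 (.cons 252 (.leaf 228 1821 (.cons 346 (.leaf 322 2006 (.cons 347 (.leaf 276 2013 (.leaf 370 2198 .nil)) .nil)) .nil)) .nil)) (.cons 252 (.leaf 228 1821 (.cons 250 (.leaf 226 1815 (.cons 322 (.leaf 346 2006 (.cons 324 (.leaf 348 2012 (.cons 325 (.cons 297 (.leaf 298 2379 (.cons 301 (.leaf 302 2385 (.cons 321 (.leaf 296 2371 (.cons 344 (.leaf 345 2562 (.cons 320 (.leaf 343 2554 (.cons 273 (.leaf 249 1990 (.cons 274 (.leaf 272 1985 (.leaf 253 1994 .nil)) .nil)) .nil)) .nil)) .nil)) .nil)) .nil)) (.cons 302 (.leaf 301 2385 (.cons 326 (.leaf 303 2393 (.cons 350 (.leaf 349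 2576 (.leaf 351 2584 .nil)) .nil)) .nil)) (.cons 298 (.leaf 326 2387 (.leaf 297 2379 .nil)) .nil))) .nil)) .nil)) .nil)) .nil)) .nil)))) (.cons 323 (.cons 250 (.leaf 226 1815 (.cons 347 (.leaf 274 2007 (.cons 348 (.leaf 324 2012 (.leaf 372 2204 .nil)) .nil)) .nil)) (.cons 322 (.leaf 346 2006 (.cons 298 (.leaf 227 1814 (.cons 324 (.leaf 348 2012 (.cons 297 (.leaf 296 2368 (.leaf 325 2379 .nil)) .nil)) .nil)) .nil)) (.cons 226 (.leaf 250 1815 (.cons 227 (.leaf 202 1623 (.cons 322 (.leaf 298 1814 (.leaf 346 2006 .nil)) .nil)) .nil)) .nil))) (.cons 323 (.cons 228 (.leaf 252 1821 (.cons 346 (.leaf 322 2006 (.cons 347 (.leaf 370 2198 (.cons 348 (.leaf 324 2012 (.leaf 372 2204 .nil)) .nil)) .nil)) .nil)) (.cons 252 (.leaf 228 1821 (.cons 347 (.leaf 276 2013 (.cons 348 (.leaf 324 2012 (.leaf 372 2204 .nil)) .nil)) .nil)) (.cons 322 (.leaf 346 2006 (.cons 298 (.leaf 227 1814 (.cons 324 (.leaf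 348 2012 (.cons 297 (.leaf 296 2368 (.leaf 325 2379 .nil)) .nil)) .nil)) .nil)) (.cons 252 (.leaf 228 1821 (.cons 276 (.leaf 347 2013 (.cons 322 (.leaf 346 2006 (.cons 298 (.leaf 227 1814 (.cons 277 (.leaf 278 2194 (.cons 297 (.leaf 274 2186 (.leaf 296 2177 .nil)) .nil)) .nil)) .nil)) .nil)) .nil)) .nil)))) (.cons 323 (.cons 226 (.leaf 250 1815 (.cons 227 (.leaf 202 1623 (.cons 228 (.leaf 204 1629 (.leaf 252 1821 .nil)) .nil)) .nil)) (.cons 226 (.leaf 250 1815 (.cons 202 (.leaf 227 1623 (.cons 346 (.leaf 322 2006 (.cons 347 (.leaf 370 2198 (.cons 348 (.leaf 324 2012 (.leaf 372 2204 .nil)) .nil)) .nil)) .nil)) .nil)) (.cons 252 (.leaf 228 1821 (.cons 347 (.leaf 276 2013 (.cons 348 (.leaf 324 2012 (.leaf 372 2204 .nil)) .nil)) .nil)) .nil))) (.cons 323 (.cons 226 (.leaf 250 1815 (.cons 227 (.leaf 202 1623 (.cons 228 (.leaf 204 1629 (.leaf 252 1821 .nil)) .nil)) .nil)) (.cons 250 (.leaf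 226 1815 (.cons 347 (.leaf 274 2007 (.cons 348 (.leaf 324 2012 (.leaf 372 2204 .nil)) .nil)) .nil)) (.cons 252 (.leaf 228 1821 (.cons 347 (.leaf 276 2013 (.cons 348 (.leaf 324 2012 (.leaf 372 2204 .nil)) .nil)) .nil)) .nil))) .nil))))))
noncomputable def t9 : T := .cons 249 (.leaf 248 1793 (.cons 273 (.cons 272 (.leaf 252 1985 (.leaf 271 2168 .nil)) (.cons 272 (.leaf 271 2168 (.cons 229 (.leaf 230 1810 (.leaf 226 1802 .nil)) .nil)) (.cons 225 (.leaf 201 1612 (.cons 252 (.leaf 224 1795 (.leaf 229 1801 .nil)) .nil)) .nil))) .nil)) (.cons 229 (.leaf 230 1810 (.cons 226 (.cons 205 (.leaf 206 1617 (.cons 297 (.leaf 321 1806 (.cons 225 (.leaf 201 1615 (.cons 224 (.leaf 223 1784 (.leaf 252 1792 .nil)) .nil)) .nil)) .nil)) (.cons 253 (.leaf 254 1808 (.cons 205 (.leaf 206 1617 (.cons 252 (.leaf 273 1994 (.cons 277 (.leaf 278 2000 (.cons 297 (.leaf 276 2186 (.leaf 321 1806 .nil)) .nil)) .nil))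 .nil)) .nil)) (.cons 205 (.leaf 206 1617 (.cons 225 (.leaf 201 1615 (.cons 252 (.leaf 224 1792 (.leaf 253 1800 .nil)) .nil)) .nil)) (.cons 201 (.leaf 225 1615 (.cons 205 (.leaf 206 1617 (.cons 297 (.leaf 321 1806 (.cons 276 (.leaf 277 2186 (.leaf 296 2177 .nil)) .nil)) .nil)) .nil)) (.cons 201 (.leaf 225 1615 (.cons 253 (.leaf 254 1808 (.cons 297 (.leaf 321 1806 (.cons 276 (.leaf 277 2186 (.leaf 296 2177 .nil)) .nil)) .nil)) .nil)) .nil))))) .nil)) (.cons 249 (.leaf 248 1793 (.cons 273 (.cons 272 (.leaf 252 1985 (.leaf 271 2168 .nil)) (.cons 225 (.leaf 201 1612 (.cons 252 (.leaf 224 1795 (.leaf 253 1994 .nil)) .nil)) (.cons 272 (.leaf 271 2168 (.cons 201 (.leaf 225 1612 (.cons 276 (.leaf 277 1995 (.cons 296 (.leaf 295 2170 (.leaf 297 2177 .nil)) .nil)) .nil)) .nil)) .nil))) .nil)) (.cons 249 (.leaf 248 1793 (.cons 276 (.leaf 277 1995 (.cons 229 (.leaf 230 1810 (.leaf 226 1802 .nil))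 .nil)) .nil)) .nil)))
noncomputable def t10 : T := .cons 323 (.cons 322 (.leaf 346 2006 (.cons 228 (.leaf 252 1821 (.cons 298 (.leaf 227 1814 (.cons 324 (.leaf 348 2012 (.cons 297 (.leaf 296 2368 (.leaf 325 2379 .nil)) .nil)) .nil)) .nil)) .nil)) (.cons 250 (.leaf 226 1815 (.cons 347 (.leaf 274 2007 (.cons 348 (.leaf 324 2012 (.leaf 372 2204 .nil)) .nil)) .nil)) (.cons 226 (.leaf 250 1815 (.cons 252 (.leaf 228 1821 (.cons 346 (.leaf 322 2006 (.cons 347 (.leaf 276 2013 (.leaf 370 2198 .nil)) .nil)) .nil)) .nil)) .nil))) (.cons 227 (.cons 298 (.leaf 322 1814 (.cons 202 (.leaf 226 1623 (.cons 203 (.leaf 178 1431 (.leaf 274 1622 .nil)) .nil)) .nil)) (.cons 226 (.leaf 202 1623 (.cons 228 (.leaf 204 1629 (.cons 225 (.cons 249 (.leaf 248 1794 (.cons 252 (.leaf 224 1792 (.leaf 253 1800 .nil)) .nil)) (.cons 249 (.leaf 248 1794 (.cons 200 (.leaf 201 1603 (.cons 229 (.leaf 250 1802 (.cons 206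 (.leaf 205 1617 (.cons 230 (.leaf 207 1625 (.cons 254 (.leaf 253 1808 (.leaf 255 1816 .nil)) .nil)) .nil)) .nil)) .nil)) .nil)) (.cons 252 (.leaf 224 1792 (.leaf 253 1800 .nil)) (.cons 200 (.leaf 201 1603 (.cons 224 (.leaf 252 1792 (.leaf 199 1595 .nil)) .nil)) .nil)))) .nil)) .nil)) (.cons 298 (.leaf 322 1814 (.cons 203 (.leaf 274 1622 (.cons 178 (.leaf 202 1431 (.cons 179 (.leaf 154 1239 (.cons 228 (.leaf 204 1629 (.cons 252 (.leaf 276 1436 (.leaf 155 1244 .nil)) .nil)) .nil)) .nil)) .nil)) .nil)) (.cons 298 (.leaf 322 1814 (.cons 274 (.leaf 203 1622 (.cons 228 (.leaf 204 1629 (.cons 250 t9 .nil)) .nil)) .nil)) .nil)))) (.cons 323 (.cons 250 (.leaf 226 1815 (.cons 347 (.leaf 274 2007 (.cons 348 (.leaf 324 2012 (.leaf 372 2204 .nil)) .nil)) .nil)) (.cons 252 (.leaf 228 1821 (.cons 347 (.leaf 276 2013 (.cons 348 (.leaf 324 2012 (.leaf 372 2204 .nil)) .nil)) .nil)) (.cons 250 (.leaf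 226 1815 (.cons 228 (.leaf 252 1821 (.cons 346 (.leaf 322 2006 (.cons 347 (.leaf 274 2007 (.leaf 370 2198 .nil)) .nil)) .nil)) .nil)) (.cons 250 (.leaf 226 1815 (.cons 252 (.leaf 228 1821 (.cons 322 (.leaf 346 2006 (.cons 324 (.leaf 348 2012 (.cons 249 (.cons 225 (.leaf 224 1795 (.cons 272 (.leaf 273 1986 (.cons 298 (.leaf 274 1807 (.cons 297 (.leaf 296 2368 (.leaf 325 2379 .nil)) .nil)) .nil)) .nil)) (.cons 276 (.leaf 248 1984 (.leaf 277 1992 .nil)) .nil)) .nil)) .nil)) .nil)) .nil)) .nil)))) (.cons 323 (.cons 322 (.leaf 346 2006 (.cons 298 (.leaf 227 1814 (.cons 324 (.leaf 348 2012 (.cons 297 (.leaf 296 2368 (.leaf 325 2379 .nil)) .nil)) .nil)) .nil)) (.cons 252 (.leaf 228 1821 (.cons 347 (.leaf 276 2013 (.cons 348 (.leaf 324 2012 (.leaf 372 2204 .nil)) .nil)) .nil)) (.cons 228 (.leaf 252 1821 (.cons 227 (.leaf 204 1629 (.cons 322 (.leaf 298 1814 (.leaf 346 2006 .nil)) .nil)) .nil))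 .nil))) (.cons 323 (.cons 226 (.leaf 250 1815 (.cons 227 (.leaf 202 1623 (.cons 228 (.leaf 204 1629 (.leaf 252 1821 .nil)) .nil)) .nil)) (.cons 252 (.leaf 228 1821 (.cons 347 (.leaf 276 2013 (.cons 348 (.leaf 324 2012 (.leaf 372 2204 .nil)) .nil)) .nil)) (.cons 250 (.leaf 226 1815 (.cons 347 (.leaf 274 2007 (.cons 348 (.leaf 324 2012 (.leaf 372 2204 .nil)) .nil)) .nil)) .nil))) (.cons 323 (.cons 226 (.leaf 250 1815 (.cons 227 (.leaf 202 1623 (.cons 322 (.leaf 298 1814 (.leaf 346 2006 .nil)) .nil)) .nil)) (.cons 322 (.leaf 346 2006 (.cons 298 (.leaf 227 1814 (.cons 324 (.leaf 348 2012 (.cons 297 (.leaf 296 2368 (.leaf 325 2379 .nil)) .nil)) .nil)) .nil)) (.cons 250 (.leaf 226 1815 (.cons 347 (.leaf 274 2007 (.cons 348 (.leaf 324 2012 (.leaf 372 2204 .nil)) .nil)) .nil)) .nil))) .nil)))))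
noncomputable def t11 : T := .cons 250 (.leaf 226 1815 (.cons 252 (.leaf 228 1821 (.cons 322 (.leaf 346 2006 (.cons 324 (.leaf 348 2012 (.cons 249 (.cons 225 (.leaf 224 1795 (.cons 272 (.leaf 273 1986 (.cons 298 (.leaf 274 1807 (.cons 297 (.leaf 296 2368 (.leaf 325 2379 .nil)) .nil)) .nil)) .nil)) (.cons 276 (.leaf 248 1984 (.leaf 347 2013 .nil)) .nil)) .nil)) .nil)) .nil)) .nil)) (.cons 252 (.leaf 228 1821 (.cons 347 (.leaf 276 2013 (.cons 348 (.leaf 324 2012 (.leaf 372 2204 .nil)) .nil)) .nil)) (.cons 250 (.leaf 226 1815 (.cons 347 (.leaf 274 2007 (.cons 348 (.leaf 324 2012 (.leaf 372 2204 .nil)) .nil)) .nil)) (.cons 250 (.leaf 226 1815 (.cons 228 (.leaf 252 1821 (.cons 346 (.leaf 322 2006 (.cons 347 (.leaf 274 2007 (.leaf 370 2198 .nil)) .nil)) .nil)) .nil)) (.cons 250 (.leaf 226 1815 (.cons 252 (.leaf 228 1821 (.cons 322 (.leaf 346 2006 (.cons 324 (.leaf 348 2012 (.cons 249 (.cons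 225 (.leaf 224 1795 (.cons 272 (.leaf 273 1986 (.cons 298 (.leaf 274 1807 (.cons 297 (.leaf 296 2368 (.leaf 325 2379 .nil)) .nil)) .nil)) .nil)) (.cons 276 (.leaf 248 1984 (.leaf 277 1992 .nil)) .nil)) .nil)) .nil)) .nil)) .nil)) .nil))))
noncomputable def t12 : T := .cons 298 (.leaf 322 1814 (.cons 203 (.leaf 274 1622 (.cons 180 (.leaf 204 1437 (.cons 179 (.leaf 156 1245 (.cons 226 (.leaf 202 1623 (.cons 250 (.leaf 155 1238 (.cons 252 (.leaf 276 1436 (.cons 225 (.leaf 224 1792 (.leaf 253 1803 .nil)) .nil)) .nil)) .nil)) .nil)) .nil)) .nil)) .nil)) (.cons 228 (.leaf 204 1629 (.cons 226 (.leaf 202 1623 (.cons 225 (.cons 249 (.leaf 248 1794 (.cons 252 (.leaf 224 1792 (.leaf 253 1800 .nil)) .nil)) (.cons 249 (.leaf 248 1794 (.cons 200 (.leaf 201 1603 (.cons 229 (.leaf 250 1802 (.cons 206 (.leaf 205 1617 (.cons 230 (.leaf 207 1625 (.cons 254 (.leaf 253 1808 (.leaf 255 1816 .nil)) .nil))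 .nil)) .nil)) .nil)) .nil)) (.cons 252 (.leaf 224 1792 (.leaf 253 1800 .nil)) (.cons 200 (.leaf 201 1603 (.cons 224 (.leaf 252 1792 (.leaf 199 1595 .nil)) .nil)) .nil)))) .nil)) .nil)) (.cons 298 (.leaf 322 1814 (.cons 274 (.leaf 203 1622 (.cons 226 (.leaf 202 1623 (.cons 297 (.cons 276 (.leaf 277 2186 (.leaf 296 2177 .nil)) (.cons 276 (.leaf 277 2186 (.cons 250 (.leaf 321 1806 (.cons 225 (.leaf 201 1615 (.cons 224 (.leaf 223 1784 (.leaf 252 1792 .nil)) .nil)) .nil)) .nil)) (.cons 250 (.leaf 321 1806 (.cons 225 (.leaf 201 1615 (.cons 224 (.leaf 223 1784 (.leaf 252 1792 .nil)) .nil)) .nil)) .nil))) .nil)) .nil)) .nil)) (.cons 298 (.leaf 322 1814 (.cons 203 (.leaf 274 1622 (.cons 204 (.leaf 180 1437 (.leaf 228 1629 .nil)) .nil)) .nil)) .nil)))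
noncomputable def t13 : T := .cons 323 (.cons 250 (.leaf 226 1815 (.cons 228 (.leaf 252 1821 (.cons 347 (.leaf 274 2007 (.cons 348 (.leaf 324 2012 (.leaf 372 2204 .nil)) .nil)) .nil)) .nil)) (.cons 252 (.leaf 228 1821 (.cons 347 (.leaf 276 2013 (.cons 348 (.leaf 324 2012 (.leaf 372 2204 .nil)) .nil)) .nil)) (.cons 250 (.leaf 226 1815 (.cons 347 (.leaf 274 2007 (.cons 348 (.leaf 324 2012 (.leaf 372 2204 .nil)) .nil)) .nil)) (.cons 226 (.leaf 250 1815 (.cons 252 (.leaf 228 1821 (.cons 346 (.leaf 322 2006 (.cons 347 (.leaf 276 2013 (.leaf 370 2198 .nil)) .nil)) .nil)) .nil)) (.cons 226 (.leaf 250 1815 (.cons 227 (.leaf 202 1623 (.cons 228 (.leaf 204 1629 (.leaf 252 1821 .nil)) .nil)) .nil)) .nil))))) (.cons 227 t12 (.cons 323 t11 (.cons 323 (.cons 322 (.leaf 346 2006 (.cons 298 (.leaf 227 1814 (.cons 324 (.leaf 348 2012 (.cons 297 (.leaf 296 2368 (.leaf 325 2379 .nil)) .nil)) .nil)) .nil))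 (.cons 250 (.leaf 226 1815 (.cons 347 (.leaf 274 2007 (.cons 348 (.leaf 324 2012 (.leaf 372 2204 .nil)) .nil)) .nil)) (.cons 226 (.leaf 250 1815 (.cons 227 (.leaf 202 1623 (.cons 322 (.leaf 298 1814 (.leaf 346 2006 .nil)) .nil)) .nil)) .nil))) (.cons 323 (.cons 252 (.leaf 228 1821 (.cons 347 (.leaf 276 2013 (.cons 348 (.leaf 324 2012 (.leaf 372 2204 .nil)) .nil)) .nil)) (.cons 322 (.leaf 346 2006 (.cons 298 (.leaf 227 1814 (.cons 324 (.leaf 348 2012 (.cons 297 (.leaf 296 2368 (.leaf 325 2379 .nil)) .nil)) .nil)) .nil)) (.cons 228 (.leaf 252 1821 (.cons 227 (.leaf 204 1629 (.cons 322 (.leaf 298 1814 (.leaf 346 2006 .nil)) .nil)) .nil)) .nil))) (.cons 323 (.cons 250 (.leaf 226 1815 (.cons 347 (.leaf 274 2007 (.cons 348 (.leaf 324 2012 (.leaf 372 2204 .nil)) .nil)) .nil)) (.cons 252 (.leaf 228 1821 (.cons 347 (.leaf 276 2013 (.cons 348 (.leaf 324 2012 (.leaf 372 2204 .nil)) .nil)) .nil))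 (.cons 226 (.leaf 250 1815 (.cons 227 (.leaf 202 1623 (.cons 228 (.leaf 204 1629 (.leaf 252 1821 .nil)) .nil)) .nil)) .nil))) .nil)))))
noncomputable def t14 : T := .cons 226 (.leaf 202 1623 (.cons 228 (.leaf 204 1629 (.cons 298 (.leaf 322 1814 (.cons 225 (.cons 201 (.leaf 200 1603 (.cons 229 (.cons 206 (.leaf 205 1617 (.cons 230 (.leaf 250 1810 (.leaf 207 1625 .nil)) .nil)) (.cons 206 (.leaf 205 1617 (.cons 230 (.leaf 207 1625 (.cons 254 (.leaf 253 1808 (.leaf 255 1816 .nil)) .nil)) .nil)) (.cons 250 (.leaf 249 1802 (.leaf 274 1615 .nil)) .nil))) .nil)) (.cons 200 (.leaf 201 1603 (.cons 224 (.leaf 252 1792 (.leaf 199 1595 .nil)) .nil)) (.cons 224 (.leaf 252 1792 (.cons 248 (.leaf 247 1786 (.leaf 249 1794 .nil)) .nil)) .nil))) .nil)) .nil)) .nil)) (.cons 298 (.leaf 322 1814 (.cons 203 (.leaf 274 1622 (.cons 204 (.leaf 180 1437 (.leaf 228 1629 .nil)) .nil)) .nil)) (.cons 226 (.leaf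 202 1623 (.cons 228 (.leaf 204 1629 (.cons 225 (.cons 249 (.leaf 248 1794 (.cons 252 (.leaf 224 1792 (.leaf 253 1800 .nil)) .nil)) (.cons 249 (.leaf 248 1794 (.cons 200 (.leaf 201 1603 (.cons 229 (.leaf 250 1802 (.cons 206 (.leaf 205 1617 (.cons 230 (.leaf 207 1625 (.cons 254 (.leaf 253 1808 (.leaf 255 1816 .nil)) .nil)) .nil)) .nil)) .nil)) .nil)) (.cons 252 (.leaf 224 1792 (.leaf 253 1800 .nil)) (.cons 200 (.leaf 201 1603 (.cons 224 (.leaf 252 1792 (.leaf 199 1595 .nil)) .nil)) .nil)))) .nil)) .nil)) (.cons 298 (.leaf 322 1814 (.cons 202 (.leaf 226 1623 (.cons 203 (.leaf 178 1431 (.leaf 274 1622 .nil)) .nil)) .nil)) .nil)))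
noncomputable def t15 : T := .cons 323 (.cons 226 (.leaf 250 1815 (.cons 227 (.leaf 202 1623 (.cons 228 (.leaf 204 1629 (.leaf 252 1821 .nil)) .nil)) .nil)) (.cons 252 (.leaf 228 1821 (.cons 347 (.leaf 276 2013 (.cons 348 (.leaf 324 2012 (.leaf 372 2204 .nil)) .nil)) .nil)) (.cons 226 (.leaf 250 1815 (.cons 227 (.leaf 202 1623 (.cons 322 (.leaf 298 1814 (.leaf 346 2006 .nil)) .nil)) .nil)) .nil))) (.cons 227 t14 (.cons 323 (.cons 226 (.leaf 250 1815 (.cons 346 (.leaf 322 2006 (.cons 347 (.leaf 370 2198 (.cons 348 (.leaf 324 2012 (.leaf 372 2204 .nil)) .nil)) .nil)) .nil)) (.cons 252 (.leaf 228 1821 (.cons 347 (.leaf 276 2013 (.cons 348 (.leaf 324 2012 (.leaf 372 2204 .nil)) .nil)) .nil)) (.cons 226 (.leaf 250 1815 (.cons 252 (.leaf 228 1821 (.cons 346 (.leaf 322 2006 (.cons 347 (.leaf 276 2013 (.leaf 370 2198 .nil)) .nil)) .nil)) .nil)) (.cons 250 (.leaf 226 1815 (.cons 252 (.leaf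 228 1821 (.cons 322 (.leaf 346 2006 (.cons 324 (.leaf 348 2012 (.cons 325 (.cons 297 (.leaf 298 2379 (.cons 301 (.leaf 302 2385 (.cons 321 (.leaf 296 2371 (.cons 344 (.leaf 345 2562 (.cons 320 (.leaf 343 2554 (.cons 273 (.leaf 249 1990 (.cons 274 (.leaf 272 1985 (.leaf 253 1994 .nil)) .nil)) .nil)) .nil)) .nil)) .nil)) .nil)) (.cons 302 (.leaf 301 2385 (.cons 326 (.leaf 303 2393 (.cons 350 (.leaf 349 2576 (.leaf 351 2584 .nil)) .nil)) .nil)) (.cons 298 (.leaf 326 2387 (.leaf 297 2379 .nil)) .nil))) .nil)) .nil)) .nil)) .nil)) .nil)))) (.cons 323 (.cons 322 (.leaf 346 2006 (.cons 298 (.leaf 227 1814 (.cons 324 (.leaf 348 2012 (.cons 297 (.leaf 296 2368 (.leaf 325 2379 .nil)) .nil)) .nil)) .nil)) (.cons 252 (.leaf 228 1821 (.cons 347 (.leaf 276 2013 (.cons 348 (.leaf 324 2012 (.leaf 372 2204 .nil)) .nil)) .nil)) (.cons 228 (.leaf 252 1821 (.cons 227 (.leaf 204 1629 (.cons 298 (.leaf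 322 1814 (.cons 274 (.leaf 203 1622 (.cons 347 (.leaf 250 2007 (.leaf 371 2199 .nil)) .nil)) .nil)) .nil)) .nil)) .nil))) (.cons 227 (.cons 202 (.leaf 226 1623 (.cons 203 (.leaf 178 1431 (.cons 298 (.leaf 274 1622 (.leaf 322 1814 .nil)) .nil)) .nil)) (.cons 202 (.leaf 226 1623 (.cons 203 (.leaf 178 1431 (.cons 204 (.leaf 180 1437 (.leaf 228 1629 .nil)) .nil)) .nil)) (.cons 298 (.leaf 322 1814 (.cons 203 (.leaf 274 1622 (.cons 204 (.leaf 180 1437 (.leaf 228 1629 .nil)) .nil)) .nil)) (.cons 202 (.leaf 226 1623 (.cons 228 (.leaf 204 1629 (.cons 298 (.leaf 322 1814 (.cons 323 (.leaf 252 1821 (.cons 348 (.leaf 324 2012 (.cons 347 (.leaf 372 2204 (.cons 370 (.leaf 346 2198 (.cons 371 (.leaf 274 2199 (.leaf 394 2390 .nil)) .nil)) .nil)) .nil)) .nil)) .nil)) .nil)) .nil)) .nil)))) (.cons 227 (.cons 202 (.leaf 226 1623 (.cons 203 (.leaf 178 1431 (.cons 298 (.leaf 274 1622 (.leaf 322 1814 .nil))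 .nil)) .nil)) (.cons 298 (.leaf 322 1814 (.cons 203 (.leaf 274 1622 (.cons 204 (.leaf 180 1437 (.leaf 228 1629 .nil)) .nil)) .nil)) (.cons 204 (.leaf 228 1629 (.cons 202 (.leaf 226 1623 (.cons 203 (.leaf 178 1431 (.leaf 180 1437 .nil)) .nil)) .nil)) (.cons 204 (.leaf 228 1629 (.cons 226 (.leaf 202 1623 (.cons 323 (.leaf 250 1815 (.cons 322 (.leaf 298 1814 (.leaf 346 2006 .nil)) .nil)) .nil)) .nil)) .nil)))) (.cons 323 (.cons 226 (.leaf 250 1815 (.cons 346 (.leaf 322 2006 (.cons 347 (.leaf 370 2198 (.cons 348 (.leaf 324 2012 (.leaf 372 2204 .nil)) .nil)) .nil)) .nil)) (.cons 250 (.leaf 226 1815 (.cons 347 (.leaf 274 2007 (.cons 348 (.leaf 324 2012 (.leaf 372 2204 .nil)) .nil)) .nil)) (.cons 322 (.leaf 346 2006 (.cons 298 (.leaf 227 1814 (.cons 324 (.leaf 348 2012 (.cons 297 (.leaf 296 2368 (.leaf 325 2379 .nil)) .nil)) .nil)) .nil)) (.cons 226 (.leaf 250 1815 (.cons 227 (.leaf 202 1623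 (.cons 322 (.leaf 298 1814 (.leaf 346 2006 .nil)) .nil)) .nil)) .nil)))) (.cons 323 (.cons 226 (.leaf 250 1815 (.cons 227 (.leaf 202 1623 (.cons 228 (.leaf 204 1629 (.leaf 252 1821 .nil)) .nil)) .nil)) (.cons 252 (.leaf 228 1821 (.cons 347 (.leaf 276 2013 (.cons 348 (.leaf 324 2012 (.leaf 372 2204 .nil)) .nil)) .nil)) (.cons 250 (.leaf 226 1815 (.cons 347 (.leaf 274 2007 (.cons 348 (.leaf 324 2012 (.leaf 372 2204 .nil)) .nil)) .nil)) .nil))) .nil)))))))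
noncomputable def t16 : T := .cons 323 (.cons 226 (.leaf 250 1815 (.cons 227 (.leaf 202 1623 (.cons 228 (.leaf 204 1629 (.leaf 252 1821 .nil)) .nil)) .nil)) (.cons 322 (.leaf 346 2006 (.cons 298 (.leaf 227 1814 (.cons 324 (.leaf 348 2012 (.cons 297 (.leaf 296 2368 (.leaf 325 2379 .nil)) .nil)) .nil)) .nil)) (.cons 250 (.leaf 226 1815 (.cons 347 (.leaf 274 2007 (.cons 348 (.leaf 324 2012 (.leaf 372 2204 .nil)) .nil)) .nil)) .nil))) (.cons 227 (.cons 202 (.leaf 226 1623 (.cons 203 (.leaf 178 1431 (.cons 204 (.leaf 180 1437 (.leaf 228 1629 .nil)) .nil)) .nil)) (.cons 298 (.leaf 322 1814 (.cons 203 (.leaf 274 1622 (.cons 204 (.leaf 180 1437 (.leaf 228 1629 .nil)) .nil)) .nil)) (.cons 298 (.leaf 322 1814 (.cons 202 (.leaf 226 1623 (.cons 203 (.leaf 178 1431 (.leaf 274 1622 .nil)) .nil)) .nil)) (.cons 228 (.leaf 204 1629 (.cons 226 (.leaf 202 1623 (.cons 298 (.leaf 322 1814 (.cons 225 (.cons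 201 (.leaf 200 1603 (.cons 249 (.leaf 248 1794 (.cons 250 (.leaf 229 1802 (.leaf 274 1615 .nil)) .nil)) .nil)) (.cons 200 (.leaf 201 1603 (.cons 224 (.leaf 252 1792 (.leaf 199 1595 .nil)) .nil)) (.cons 224 (.leaf 252 1792 (.cons 248 (.leaf 247 1786 (.leaf 249 1794 .nil)) .nil)) .nil))) .nil)) .nil)) .nil)) .nil)))) (.cons 323 (.cons 250 (.leaf 226 1815 (.cons 347 (.leaf 274 2007 (.cons 348 (.leaf 324 2012 (.leaf 372 2204 .nil)) .nil)) .nil)) (.cons 346 (.leaf 322 2006 (.cons 228 (.leaf 252 1821 (.cons 347 (.leaf 370 2198 (.cons 348 (.leaf 324 2012 (.leaf 372 2204 .nil)) .nil)) .nil)) .nil)) (.cons 250 (.leaf 226 1815 (.cons 228 (.leaf 252 1821 (.cons 346 (.leaf 322 2006 (.cons 347 (.leaf 274 2007 (.leaf 370 2198 .nil)) .nil)) .nil)) .nil)) (.cons 250 (.leaf 226 1815 (.cons 252 (.leaf 228 1821 (.cons 322 (.leaf 346 2006 (.cons 324 (.leaf 348 2012 (.cons 249 (.cons 225 (.leaf 224 1795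 (.cons 272 (.leaf 273 1986 (.cons 298 (.leaf 274 1807 (.cons 297 (.leaf 296 2368 (.leaf 325 2379 .nil)) .nil)) .nil)) .nil)) (.cons 276 (.leaf 248 1984 (.leaf 277 1992 .nil)) .nil)) .nil)) .nil)) .nil)) .nil)) .nil)))) (.cons 323 (.cons 228 (.leaf 252 1821 (.cons 227 (.leaf 204 1629 (.cons 322 (.leaf 298 1814 (.leaf 346 2006 .nil)) .nil)) .nil)) (.cons 252 (.leaf 228 1821 (.cons 347 (.leaf 276 2013 (.cons 348 (.leaf 324 2012 (.leaf 372 2204 .nil)) .nil)) .nil)) (.cons 322 (.leaf 346 2006 (.cons 298 (.leaf 227 1814 (.cons 324 (.leaf 348 2012 (.cons 297 (.leaf 296 2368 (.leaf 325 2379 .nil)) .nil)) .nil)) .nil)) .nil))) (.cons 323 (.cons 226 (.leaf 250 1815 (.cons 227 (.leaf 202 1623 (.cons 228 (.leaf 204 1629 (.leaf 252 1821 .nil)) .nil)) .nil)) (.cons 252 (.leaf 228 1821 (.cons 347 (.leaf 276 2013 (.cons 348 (.leaf 324 2012 (.leaf 372 2204 .nil)) .nil)) .nil)) (.cons 250 (.leaf 226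 1815 (.cons 322 (.leaf 346 2006 (.cons 347 (.leaf 274 2007 (.cons 348 (.leaf 324 2012 (.leaf 372 2204 .nil)) .nil)) .nil)) .nil)) .nil))) (.cons 323 (.cons 250 (.leaf 226 1815 (.cons 347 (.leaf 274 2007 (.cons 348 (.leaf 324 2012 (.leaf 372 2204 .nil)) .nil)) .nil)) (.cons 252 (.leaf 228 1821 (.cons 347 (.leaf 276 2013 (.cons 348 (.leaf 324 2012 (.leaf 372 2204 .nil)) .nil)) .nil)) (.cons 250 (.leaf 226 1815 (.cons 228 (.leaf 252 1821 (.cons 227 (.leaf 204 1629 (.cons 229 (.leaf 230 1810 (.cons 248 (.leaf 249 1793 (.cons 274 (.leaf 347 2007 (.cons 203 (.leaf 298 1622 (.leaf 179 1430 .nil)) .nil)) .nil)) .nil)) .nil)) .nil)) .nil)) (.cons 226 (.leaf 250 1815 (.cons 227 (.leaf 202 1623 (.cons 228 (.leaf 204 1629 (.leaf 252 1821 .nil)) .nil)) .nil)) .nil)))) (.cons 323 (.cons 322 (.leaf 346 2006 (.cons 298 (.leaf 227 1814 (.cons 324 (.leaf 348 2012 (.cons 297 (.leaf 296 2368 (.leaf 325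 2379 .nil)) .nil)) .nil)) .nil)) (.cons 250 (.leaf 226 1815 (.cons 347 (.leaf 274 2007 (.cons 348 (.leaf 324 2012 (.leaf 372 2204 .nil)) .nil)) .nil)) (.cons 226 (.leaf 250 1815 (.cons 227 (.leaf 202 1623 (.cons 322 (.leaf 298 1814 (.leaf 346 2006 .nil)) .nil)) .nil)) .nil))) .nil))))))
noncomputable def t17 : T := .cons 227 (.cons 202 (.leaf 226 1623 (.cons 203 (.leaf 178 1431 (.cons 204 (.leaf 180 1437 (.leaf 228 1629 .nil)) .nil)) .nil)) (.cons 298 (.leaf 322 1814 (.cons 202 (.leaf 226 1623 (.cons 203 (.leaf 178 1431 (.leaf 274 1622 .nil)) .nil)) .nil)) (.cons 298 (.leaf 322 1814 (.cons 203 (.leaf 274 1622 (.cons 204 (.leaf 180 1437 (.leaf 228 1629 .nil)) .nil)) .nil)) (.cons 226 (.leaf 202 1623 (.cons 228 (.leaf 204 1629 (.cons 298 (.leaf 322 1814 (.cons 225 (.cons 200 (.leaf 201 1603 (.cons 224 (.leaf 252 1792 (.leaf 199 1595 .nil)) .nil)) (.cons 200 (.leaf 201 1603 (.cons 224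 (.leaf 199 1595 (.cons 223 (.leaf 250 1784 (.cons 247 (.leaf 248 1786 (.leaf 246 1778 .nil)) .nil)) .nil)) .nil)) (.cons 200 (.leaf 201 1603 (.cons 253 (.leaf 252 1800 (.cons 229 (.leaf 254 1808 (.cons 206 (.leaf 205 1617 (.cons 230 (.leaf 250 1810 (.leaf 207 1625 .nil)) .nil)) .nil)) .nil)) .nil)) (.cons 252 (.leaf 224 1792 (.leaf 253 1800 .nil)) .nil)))) .nil)) .nil)) .nil)) .nil)))) (.cons 323 (.cons 226 (.leaf 250 1815 (.cons 252 (.leaf 228 1821 (.cons 347 (.leaf 276 2013 (.cons 346 (.leaf 322 2006 (.leaf 370 2198 .nil)) .nil)) .nil)) .nil)) (.cons 226 (.leaf 250 1815 (.cons 346 (.leaf 322 2006 (.cons 347 (.leaf 370 2198 (.cons 348 (.leaf 324 2012 (.leaf 372 2204 .nil)) .nil)) .nil)) .nil)) (.cons 226 (.leaf 250 1815 (.cons 252 (.leaf 228 1821 (.cons 347 (.leaf 276 2013 (.cons 348 (.leaf 324 2012 (.leaf 372 2204 .nil)) .nil)) .nil)) .nil)) (.cons 252 (.leaf 228 1821 (.cons 346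 (.leaf 322 2006 (.cons 347 (.leaf 276 2013 (.leaf 370 2198 .nil)) .nil)) .nil)) (.cons 252 (.leaf 228 1821 (.cons 250 (.leaf 226 1815 (.cons 322 (.leaf 346 2006 (.cons 324 (.leaf 348 2012 (.cons 325 (.cons 301 (.leaf 302 2385 (.cons 349 (.leaf 350 2576 (.cons 277 (.leaf 276 2023 (.cons 278 (.leaf 253 2000 (.leaf 254 2029 .nil)) .nil)) .nil)) .nil)) (.cons 298 (.leaf 326 2387 (.leaf 297 2379 .nil)) .nil)) .nil)) .nil)) .nil)) .nil)) .nil))))) (.cons 323 (.cons 228 (.leaf 252 1821 (.cons 346 (.leaf 322 2006 (.cons 347 (.leaf 370 2198 (.cons 348 (.leaf 324 2012 (.leaf 372 2204 .nil)) .nil)) .nil)) .nil)) (.cons 228 (.leaf 252 1821 (.cons 204 (.leaf 227 1629 (.cons 348 (.leaf 324 2012 (.cons 347 (.leaf 372 2204 (.cons 274 (.leaf 250 2007 (.cons 371 (.leaf 298 2199 (.cons 370 (.leaf 346 2198 (.leaf 394 2390 .nil)) .nil)) .nil)) .nil)) .nil)) .nil)) .nil)) (.cons 322 (.leaf 346 2006 (.cons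 298 (.leaf 227 1814 (.cons 324 (.leaf 348 2012 (.cons 297 (.leaf 296 2368 (.leaf 325 2379 .nil)) .nil)) .nil)) .nil)) (.cons 228 (.leaf 252 1821 (.cons 227 (.leaf 204 1629 (.cons 298 (.leaf 322 1814 (.cons 274 (.leaf 203 1622 (.cons 347 (.leaf 250 2007 (.leaf 371 2199 .nil)) .nil)) .nil)) .nil)) .nil)) .nil)))) (.cons 323 (.cons 250 (.leaf 226 1815 (.cons 347 (.leaf 274 2007 (.cons 348 (.leaf 324 2012 (.leaf 372 2204 .nil)) .nil)) .nil)) (.cons 322 (.leaf 346 2006 (.cons 298 (.leaf 227 1814 (.cons 324 (.leaf 348 2012 (.cons 297 (.leaf 296 2368 (.leaf 325 2379 .nil)) .nil)) .nil)) .nil)) (.cons 226 (.leaf 250 1815 (.cons 227 (.leaf 202 1623 (.cons 322 (.leaf 298 1814 (.leaf 346 2006 .nil)) .nil)) .nil)) .nil))) (.cons 323 (.cons 228 (.leaf 252 1821 (.cons 346 (.leaf 322 2006 (.cons 347 (.leaf 370 2198 (.cons 348 (.leaf 324 2012 (.leaf 372 2204 .nil)) .nil)) .nil)) .nil)) (.cons 250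 (.leaf 226 1815 (.cons 347 (.leaf 274 2007 (.cons 348 (.leaf 324 2012 (.leaf 372 2204 .nil)) .nil)) .nil)) (.cons 226 (.leaf 250 1815 (.cons 227 (.leaf 202 1623 (.cons 228 (.leaf 204 1629 (.leaf 252 1821 .nil)) .nil)) .nil)) .nil))) (.cons 323 (.cons 250 (.leaf 226 1815 (.cons 347 (.leaf 274 2007 (.cons 348 (.leaf 324 2012 (.leaf 372 2204 .nil)) .nil)) .nil)) (.cons 252 (.leaf 228 1821 (.cons 347 (.leaf 276 2013 (.cons 348 (.leaf 324 2012 (.leaf 372 2204 .nil)) .nil)) .nil)) (.cons 226 (.leaf 250 1815 (.cons 227 (.leaf 202 1623 (.cons 228 (.leaf 204 1629 (.leaf 252 1821 .nil)) .nil)) .nil)) .nil))) (.cons 227 (.cons 298 (.leaf 322 1814 (.cons 203 (.leaf 274 1622 (.cons 204 (.leaf 180 1437 (.leaf 228 1629 .nil)) .nil)) .nil)) (.cons 298 (.leaf 322 1814 (.cons 202 (.leaf 226 1623 (.cons 203 (.leaf 178 1431 (.leaf 274 1622 .nil)) .nil)) .nil)) (.cons 202 (.leaf 226 1623 (.cons 203 (.leaf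 178 1431 (.cons 204 (.leaf 180 1437 (.leaf 228 1629 .nil)) .nil)) .nil)) (.cons 202 (.leaf 226 1623 (.cons 228 (.leaf 204 1629 (.cons 298 (.leaf 322 1814 (.cons 323 (.leaf 252 1821 (.cons 348 (.leaf 324 2012 (.cons 347 (.leaf 372 2204 (.cons 370 (.leaf 346 2198 (.cons 371 (.leaf 274 2199 (.leaf 394 2390 .nil)) .nil)) .nil)) .nil)) .nil)) .nil)) .nil)) .nil)) .nil)))) .nil))))))
noncomputable def t18 : T := .cons 228 (.leaf 229 1801 (.cons 180 (.leaf 204 1438 (.cons 273 (.leaf 272 1986 (.cons 253 (.leaf 274 1994 (.cons 277 (.leaf 276 1992 (.leaf 278 2000 .nil)) .nil)) .nil)) .nil)) .nil)) (.cons 228 (.leaf 229 1801 (.cons 180 (.leaf 204 1438 (.cons 273 (.leaf 272 1986 (.cons 253 (.leaf 274 1994 (.cons 278 (.leaf 277 2000 (.cons 254 (.leaf 279 2008 (.cons 227 (.leaf 226 1811 (.leaf 255 1819 .nil)) .nil)) .nil)) .nil)) .nil)) .nil)) .nil)) (.cons 272 (.leaf 273 1986 (.cons 277 (.leaf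 276 1992 (.cons 253 (.leaf 278 2000 (.cons 230 (.leaf 229 1809 (.cons 254 (.leaf 274 2002 (.leaf 231 1817 .nil)) .nil)) .nil)) .nil)) .nil)) (.cons 273 (.leaf 272 1986 (.cons 229 (.leaf 228 1801 (.cons 253 (.leaf 230 1809 (.leaf 274 1994 .nil)) .nil)) .nil)) (.cons 277 (.leaf 276 1992 (.cons 228 (.leaf 229 1801 (.cons 180 (.leaf 204 1438 (.cons 253 (.leaf 278 2000 (.cons 254 (.leaf 274 2002 (.cons 227 (.leaf 226 1811 (.leaf 255 1819 .nil)) .nil)) .nil)) .nil)) .nil)) .nil)) (.cons 228 (.leaf 229 1801 (.cons 204 (.leaf 180 1438 (.cons 299 (.leaf 227 1629 (.leaf 276 1630 .nil)) .nil)) .nil)) (.cons 277 (.leaf 276 1992 (.cons 253 (.leaf 278 2000 (.cons 273 (.leaf 272 1986 (.leaf 274 1994 .nil)) .nil)) .nil)) .nil))))))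
noncomputable def t19 : T := .cons 248 (.leaf 276 1984 (.cons 227 (.leaf 228 1793 (.cons 226 (.leaf 247 1785 (.cons 272 (.leaf 271 1978 (.cons 252 (.leaf 273 1986 (.cons 253 (.leaf 225 1803 (.leaf 254 1811 .nil)) .nil)) .nil)) .nil)) .nil)) .nil)) (.cons 252 t18 (.cons 248 (.cons 227 (.leaf 228 1793 (.cons 226 (.leaf 247 1785 (.cons 272 (.leaf 271 1978 (.cons 252 (.leaf 273 1986 (.cons 253 (.leaf 225 1803 (.leaf 254 1811 .nil)) .nil)) .nil)) .nil)) .nil)) (.cons 228 (.leaf 227 1793 (.cons 252 (.leaf 229 1801 (.cons 272 (.leaf 271 1978 (.leaf 273 1986 .nil)) .nil)) .nil)) (.cons 247 (.leaf 274 1976 (.cons 271 (.leaf 272 1978 (.leaf 270 1970 .nil)) .nil)) (.cons 227 (.leaf 228 1793 (.cons 247 (.leaf 274 1976 (.leaf 226 1785 .nil)) .nil)) .nil)))) (.cons 248 (.leaf 276 1984 (.cons 227 (.leaf 228 1793 (.cons 247 (.leaf 274 1976 (.leaf 226 1785 .nil)) .nil)) .nil)) (.cons 248 (.leaf 276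 1984 (.cons 228 (.leaf 227 1793 (.cons 252 (.leaf 229 1801 (.cons 272 (.leaf 271 1978 (.leaf 273 1986 .nil)) .nil)) .nil)) .nil)) (.cons 276 (.leaf 248 1984 (.cons 252 (.leaf 277 1992 (.cons 273 (.leaf 272 1986 (.cons 274 (.leaf 253 1993 (.cons 297 (.leaf 296 2178 (.cons 226 (.leaf 202 1614 (.leaf 321 1805 .nil)) .nil)) .nil)) .nil)) .nil)) .nil)) .nil)))))
noncomputable def t20 : T := .cons 248 (.leaf 276 1984 (.cons 227 (.leaf 228 1793 (.leaf 247 1785 .nil)) .nil)) (.cons 252 (.cons 272 (.leaf 273 1986 (.cons 277 (.leaf 276 1992 (.cons 253 (.leaf 225 1803 (.leaf 278 2000 .nil)) .nil)) .nil)) (.cons 272 (.leaf 273 1986 (.cons 277 (.leaf 276 1992 (.cons 253 (.leaf 278 2000 (.cons 254 (.leaf 274 2002 (.leaf 227 1811 .nil)) .nil)) .nil)) .nil)) (.cons 224 (.leaf 225 1795 (.cons 228 (.leaf 229 1801 (.cons 273 (.leaf 272 1986 (.cons 276 (.leaf 277 1992 (.cons 297 (.leaf 321 1805 (.cons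 296 (.leaf 274 2178 (.leaf 298 2177 .nil)) .nil)) .nil)) .nil)) .nil)) .nil)) (.cons 225 (.leaf 224 1795 (.leaf 253 1803 .nil)) .nil)))) (.cons 248 (.cons 227 (.leaf 228 1793 (.leaf 247 1785 .nil)) (.cons 223 (.leaf 224 1787 (.cons 227 (.leaf 228 1793 (.cons 272 (.leaf 271 1978 (.cons 252 (.leaf 273 1986 (.cons 253 (.leaf 225 1803 (.leaf 254 1811 .nil)) .nil)) .nil)) .nil)) .nil)) (.cons 223 (.leaf 224 1787 (.cons 247 (.leaf 274 1976 (.leaf 222 1779 .nil)) .nil)) .nil))) (.cons 248 (.leaf 276 1984 (.cons 223 (.leaf 224 1787 (.cons 247 (.leaf 274 1976 (.leaf 222 1779 .nil)) .nil)) .nil)) .nil)))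
noncomputable def t21 : T := .cons 202 (.leaf 178 1428 (.cons 274 (.leaf 299 1620 (.cons 177 (.leaf 201 1423 (.cons 273 (.leaf 297 1614 (.cons 252 (.leaf 272 1985 (.leaf 253 1994 .nil)) .nil)) .nil)) .nil)) .nil)) (.cons 299 (.leaf 323 1815 (.cons 249 t20 .nil)) (.cons 202 (.leaf 178 1428 (.cons 274 (.cons 177 (.leaf 201 1423 (.cons 273 (.leaf 297 1614 (.cons 252 (.leaf 272 1985 (.leaf 253 1994 .nil)) .nil)) .nil)) (.cons 179 (.leaf 203 1429 (.cons 201 (.leaf 177 1423 (.cons 225 (.leaf 298 1615 (.cons 224 (.leaf 223 1784 (.cons 252 (.leaf 227 1792 (.leaf 249 1795 .nil)) .nil)) .nil)) .nil)) .nil)) (.cons 273 (.leaf 297 1614 (.cons 252 (.leaf 272 1985 (.leaf 253 1994 .nil)) .nil)) (.cons 177 (.leaf 201 1423 (.cons 273 (.leaf 297 1614 (.cons 272 (.leaf 271 1977 (.cons 248 (.leaf 247 1979 (.cons 249 (.leaf 276 1984 (.cons 223 (.leaf 224 1787 (.cons 227 (.leaf 228 1793 (.cons 296 (.leaf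 295 2170 (.cons 203 (.leaf 298 1621 (.leaf 179 1429 .nil)) .nil)) .nil)) .nil)) .nil)) .nil)) .nil)) .nil)) .nil)) .nil)))) .nil)) (.cons 202 (.leaf 178 1428 (.cons 299 (.leaf 227 1623 (.leaf 323 1815 .nil)) .nil)) .nil)))
noncomputable def t22 : T := .cons 248 (.leaf 276 1984 (.cons 227 (.leaf 228 1793 (.cons 223 (.leaf 224 1787 (.cons 247 (.leaf 274 1976 (.leaf 222 1779 .nil)) .nil)) .nil)) .nil)) (.cons 252 (.cons 272 (.leaf 273 1986 (.cons 277 (.leaf 276 1992 (.cons 253 (.leaf 278 2000 (.cons 230 (.leaf 229 1809 (.cons 254 (.leaf 274 2002 (.leaf 231 1817 .nil)) .nil)) .nil)) .nil)) .nil)) (.cons 228 (.leaf 229 1801 (.cons 180 (.leaf 204 1438 (.cons 273 (.leaf 272 1986 (.cons 253 (.leaf 274 1994 (.cons 278 (.leaf 277 2000 (.cons 254 (.leaf 279 2008 (.cons 227 (.leaf 226 1811 (.leaf 255 1819 .nil)) .nil)) .nil)) .nil)) .nil)) .nil)) .nil)) (.cons 228 (.leaf 229 1801 (.cons 204 (.leaf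 180 1438 (.cons 299 (.leaf 227 1629 (.leaf 276 1630 .nil)) .nil)) .nil)) (.cons 272 (.leaf 273 1986 (.cons 277 (.leaf 276 1992 (.cons 253 (.leaf 278 2000 (.cons 254 (.leaf 274 2002 (.cons 227 (.leaf 226 1811 (.cons 228 (.leaf 255 1819 (.cons 204 (.leaf 180 1444 (.leaf 299 1629 .nil)) .nil)) .nil)) .nil)) .nil)) .nil)) .nil)) .nil)))) (.cons 248 (.cons 227 (.leaf 228 1793 (.cons 223 (.leaf 224 1787 (.cons 247 (.leaf 274 1976 (.leaf 222 1779 .nil)) .nil)) .nil)) (.cons 223 (.leaf 224 1787 (.cons 228 (.leaf 227 1793 (.cons 252 (.leaf 229 1801 (.cons 272 (.leaf 271 1978 (.leaf 273 1986 .nil)) .nil)) .nil)) .nil)) (.cons 223 (.leaf 224 1787 (.cons 247 (.leaf 274 1976 (.leaf 222 1779 .nil)) .nil)) (.cons 227 (.leaf 228 1793 (.cons 247 (.leaf 274 1976 (.leaf 226 1785 .nil)) .nil)) .nil)))) (.cons 248 (.leaf 276 1984 (.cons 223 (.leaf 224 1787 (.cons 247 (.leaf 222 1779 (.cons 271 (.leaf 272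 1978 (.leaf 270 1970 .nil)) .nil)) .nil)) .nil)) .nil)))
noncomputable def t23 : T := .cons 248 (.leaf 276 1984 (.cons 224 (.leaf 223 1787 (.cons 228 (.leaf 227 1793 (.cons 252 (.leaf 225 1795 (.leaf 229 1801 .nil)) .nil)) .nil)) .nil)) (.cons 252 (.cons 224 (.leaf 225 1795 (.cons 277 (.leaf 276 1992 (.cons 253 (.leaf 278 2000 (.cons 230 (.leaf 229 1809 (.cons 254 (.leaf 274 2002 (.leaf 231 1817 .nil)) .nil)) .nil)) .nil)) .nil)) (.cons 228 (.leaf 229 1801 (.cons 180 (.leaf 204 1438 (.cons 225 (.leaf 224 1795 (.cons 226 (.leaf 253 1803 (.cons 299 (.leaf 323 1821 (.cons 202 (.leaf 178 1428 (.leaf 227 1623 .nil)) .nil)) .nil)) .nil)) .nil)) .nil)) (.cons 228 (.leaf 229 1801 (.cons 204 (.leaf 180 1438 (.cons 299 (.leaf 227 1629 (.leaf 276 1630 .nil)) .nil)) .nil)) (.cons 277 (.leaf 276 1992 (.cons 225 (.leaf 224 1795 (.cons 253 (.leaf 226 1803 (.leaf 278 2000 .nil)) .nil)) .nil)) .nil))))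 (.cons 248 (.cons 224 (.leaf 223 1787 (.cons 228 (.leaf 227 1793 (.cons 252 (.leaf 225 1795 (.leaf 229 1801 .nil)) .nil)) .nil)) (.cons 223 (.leaf 224 1787 (.cons 247 (.leaf 274 1976 (.leaf 222 1779 .nil)) .nil)) (.cons 227 (.leaf 228 1793 (.cons 247 (.leaf 274 1976 (.leaf 226 1785 .nil)) .nil)) .nil))) (.cons 276 (.leaf 248 1984 (.cons 277 (.leaf 274 1995 (.leaf 278 2003 .nil)) .nil)) .nil)))
noncomputable def t24 : T := .cons 248 (.leaf 276 1984 (.cons 223 (.leaf 224 1787 (.cons 247 (.leaf 274 1976 (.leaf 222 1779 .nil)) .nil)) .nil)) (.cons 252 (.cons 224 (.leaf 225 1795 (.cons 277 (.leaf 276 1992 (.cons 253 (.leaf 278 2000 (.cons 230 (.leaf 229 1809 (.cons 254 (.leaf 274 2002 (.leaf 231 1817 .nil)) .nil)) .nil)) .nil)) .nil)) (.cons 224 (.leaf 225 1795 (.cons 228 (.leaf 229 1801 (.cons 204 (.leaf 180 1438 (.cons 299 (.leaf 227 1629 (.leaf 276 1630 .nil)) .nil)) .nil)) .nil)) (.cons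 224 (.leaf 225 1795 (.cons 228 (.leaf 229 1801 (.cons 204 (.leaf 180 1438 (.cons 299 (.leaf 227 1629 (.leaf 323 1821 .nil)) .nil)) .nil)) .nil)) (.cons 228 (.leaf 229 1801 (.cons 180 (.leaf 204 1438 (.cons 277 (.leaf 276 1992 (.cons 253 (.leaf 278 2000 (.cons 254 (.leaf 274 2002 (.cons 227 (.leaf 226 1811 (.leaf 255 1819 .nil)) .nil)) .nil)) .nil)) .nil)) .nil)) (.cons 224 (.leaf 225 1795 (.cons 277 (.leaf 276 1992 (.cons 253 (.leaf 278 2000 (.cons 254 (.leaf 274 2002 (.cons 227 (.leaf 226 1811 (.cons 228 (.leaf 255 1819 (.cons 204 (.leaf 180 1444 (.leaf 299 1629 .nil)) .nil)) .nil)) .nil)) .nil)) .nil)) .nil)) .nil))))) (.cons 248 (.cons 223 (.leaf 224 1787 (.cons 247 (.leaf 274 1976 (.leaf 222 1779 .nil)) .nil)) (.cons 224 (.leaf 223 1787 (.cons 225 (.leaf 252 1795 (.cons 272 (.leaf 271 1978 (.cons 201 (.leaf 177 1414 (.leaf 296 1605 .nil)) .nil)) .nil)) .nil)) (.cons 227 (.leaf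 228 1793 (.cons 247 (.leaf 274 1976 (.leaf 226 1785 .nil)) .nil)) .nil))) (.cons 248 (.leaf 276 1984 (.cons 223 (.leaf 224 1787 (.cons 247 (.leaf 222 1779 (.cons 271 (.leaf 272 1978 (.leaf 270 1970 .nil)) .nil)) .nil)) .nil)) (.cons 248 (.leaf 276 1984 (.cons 227 (.leaf 228 1793 (.cons 247 (.leaf 274 1976 (.leaf 226 1785 .nil)) .nil)) .nil)) .nil))))
noncomputable def t25 : T := .cons 252 (.leaf 253 1803 (.cons 249 (.leaf 224 1795 (.cons 276 (.leaf 248 1984 (.leaf 277 1992 .nil)) .nil)) .nil)) (.cons 252 (.leaf 253 1803 (.cons 249 (.cons 276 (.leaf 248 1984 (.leaf 277 1992 .nil)) (.cons 272 (.leaf 273 1986 (.cons 248 (.leaf 271 1978 (.cons 247 (.leaf 274 1976 (.leaf 227 1785 .nil)) .nil)) .nil)) (.cons 273 (.leaf 272 1986 (.cons 276 (.leaf 277 1992 (.cons 297 (.leaf 321 1805 (.cons 296 (.leaf 274 2178 (.leaf 298 2177 .nil)) .nil)) .nil)) .nil)) .nil))) .nil)) (.cons 224 (.leaf 223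 1784 (.cons 227 (.cons 199 (.leaf 200 1595 (.cons 203 (.leaf 204 1601 (.cons 274 (.leaf 298 1621 (.leaf 179 1430 .nil)) .nil)) .nil)) (.cons 248 (.leaf 247 1786 (.cons 199 (.leaf 200 1595 (.cons 249 (.leaf 276 1984 (.cons 272 (.leaf 271 1978 (.cons 201 (.leaf 177 1414 (.leaf 296 1605 .nil)) .nil)) .nil)) .nil)) .nil)) (.cons 203 (.leaf 204 1601 (.cons 274 (.leaf 298 1621 (.leaf 179 1430 .nil)) .nil)) .nil))) .nil)) (.cons 252 (.leaf 253 1803 (.cons 224 (.leaf 223 1784 (.leaf 227 1792 .nil)) .nil)) .nil)))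
noncomputable def t26 : T := .cons 202 (.leaf 178 1428 (.cons 274 (.leaf 299 1620 (.cons 177 (.leaf 201 1423 (.cons 273 (.leaf 297 1614 (.cons 252 (.leaf 272 1985 (.leaf 253 1994 .nil)) .nil)) .nil)) .nil)) .nil)) (.cons 299 (.leaf 323 1815 (.cons 225 t25 .nil)) (.cons 202 (.leaf 178 1428 (.cons 274 (.cons 177 (.leaf 201 1423 (.cons 273 (.leaf 297 1614 (.cons 252 (.leaf 272 1985 (.leaf 253 1994 .nil)) .nil)) .nil)) (.cons 179 (.leaf 203 1429 (.cons 201 (.leaf 177 1423 (.cons 225 (.leaf 298 1615 (.cons 224 (.leaf 223 1784 (.cons 252 (.leaf 227 1792 (.leaf 249 1795 .nil)) .nil)) .nil)) .nil)) .nil)) (.cons 273 (.leaf 297 1614 (.cons 252 (.leaf 272 1985 (.leaf 253 1994 .nil)) .nil)) (.cons 177 (.leaf 201 1423 (.cons 273 (.leaf 297 1614 (.cons 272 (.leaf 271 1977 (.cons 248 (.leaf 247 1979 (.cons 249 (.leaf 276 1984 (.cons 224 (.leaf 223 1787 (.cons 200 (.leaf 176 1412 (.cons 296 (.leaf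 295 2170 (.cons 320 (.leaf 344 1989 (.leaf 225 1797 .nil)) .nil)) .nil)) .nil)) .nil)) .nil)) .nil)) .nil)) .nil)) .nil)))) .nil)) (.cons 202 (.leaf 178 1428 (.cons 299 (.leaf 227 1623 (.leaf 323 1815 .nil)) .nil)) .nil)))
noncomputable def t27 : T := .cons 273 (.leaf 272 1986 (.cons 224 (.leaf 225 1795 (.cons 253 (.leaf 274 1994 (.cons 230 (.leaf 229 1809 (.cons 254 (.leaf 231 1817 (.cons 278 (.leaf 277 2000 (.leaf 279 2008 .nil)) .nil)) .nil)) .nil)) .nil)) .nil)) (.cons 228 (.leaf 229 1801 (.cons 180 (.leaf 204 1438 (.cons 224 (.leaf 225 1795 (.cons 248 (.leaf 223 1787 (.cons 247 (.leaf 274 1976 (.cons 271 (.leaf 272 1978 (.leaf 270 1970 .nil)) .nil)) .nil)) .nil)) .nil)) .nil)) (.cons 228 (.leaf 229 1801 (.cons 180 (.leaf 204 1438 (.cons 224 (.leaf 225 1795 (.cons 248 (.leaf 223 1787 (.cons 274 (.leaf 247 1976 (.cons 253 (.leaf 254 2002 (.leaf 273 1994 .nil)) .nil)) .nil)) .nil))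 .nil)) .nil)) (.cons 273 (.leaf 272 1986 (.cons 229 (.leaf 228 1801 (.cons 253 (.leaf 230 1809 (.leaf 274 1994 .nil)) .nil)) .nil)) (.cons 273 (.leaf 272 1986 (.cons 224 (.leaf 225 1795 (.cons 248 (.leaf 223 1787 (.cons 274 (.leaf 247 1976 (.leaf 253 1994 .nil)) .nil)) .nil)) .nil)) (.cons 228 (.leaf 229 1801 (.cons 180 (.leaf 204 1438 (.cons 224 (.leaf 225 1795 (.cons 248 (.leaf 223 1787 (.cons 272 (.leaf 271 1978 (.leaf 273 1986 .nil)) .nil)) .nil)) .nil)) .nil)) .nil)))))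
noncomputable def t28 : T := .cons 277 (.leaf 276 1992 (.cons 224 (.leaf 225 1795 (.cons 253 (.leaf 278 2000 (.cons 230 (.leaf 229 1809 (.cons 254 (.leaf 274 2002 (.leaf 231 1817 .nil)) .nil)) .nil)) .nil)) .nil)) (.cons 273 (.leaf 272 1986 (.cons 224 (.leaf 225 1795 (.cons 253 (.leaf 274 1994 (.cons 230 (.leaf 229 1809 (.cons 254 (.leaf 231 1817 (.cons 255 (.leaf 276 2010 (.cons 279 (.leaf 278 2008 (.leaf 280 2016 .nil)) .nil)) .nil)) .nil)) .nil)) .nil)) .nil)) (.cons 273 (.leaf 272 1986 (.cons 224 (.leaf 225 1795 (.cons 253 (.leaf 274 1994 (.cons 230 (.leaf 229 1809 (.cons 254 (.leaf 231 1817 (.cons 278 (.leaf 277 2000 (.leaf 279 2008 .nil)) .nil)) .nil)) .nil)) .nil)) .nil)) (.cons 276 (.leaf 277 1992 (.cons 224 (.leaf 225 1795 (.cons 228 (.leaf 229 1801 (.cons 204 (.leaf 180 1438 (.leaf 299 1630 .nil)) .nil)) .nil)) .nil)) (.cons 277 (.leaf 276 1992 (.cons 228 (.leaf 229 1801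 (.cons 180 (.leaf 204 1438 (.cons 253 (.leaf 278 2000 (.cons 273 (.leaf 272 1986 (.leaf 274 1994 .nil)) .nil)) .nil)) .nil)) .nil)) (.cons 277 (.leaf 276 1992 (.cons 225 (.leaf 224 1795 (.cons 253 (.leaf 226 1803 (.leaf 278 2000 .nil)) .nil)) .nil)) .nil)))))
noncomputable def t29 : T := .cons 224 (.leaf 225 1795 (.cons 228 (.leaf 229 1801 (.cons 180 (.leaf 204 1438 (.cons 277 (.leaf 276 1992 (.cons 253 (.leaf 278 2000 (.cons 273 (.leaf 272 1986 (.leaf 274 1994 .nil)) .nil)) .nil)) .nil)) .nil)) .nil)) (.cons 224 (.leaf 225 1795 (.cons 273 (.leaf 272 1986 (.cons 253 (.leaf 274 1994 (.cons 230 (.leaf 229 1809 (.cons 254 (.leaf 231 1817 (.cons 255 (.leaf 276 2010 (.cons 279 (.leaf 278 2008 (.leaf 280 2016 .nil)) .nil)) .nil)) .nil)) .nil)) .nil)) .nil)) (.cons 277 (.leaf 276 1992 (.cons 224 (.leaf 225 1795 (.cons 253 (.leaf 278 2000 (.cons 230 (.leaf 229 1809 (.cons 254 (.leaf 274 2002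 (.leaf 231 1817 .nil)) .nil)) .nil)) .nil)) .nil)) (.cons 273 (.leaf 272 1986 (.cons 224 (.leaf 225 1795 (.cons 253 (.leaf 274 1994 (.cons 230 (.leaf 229 1809 (.cons 254 (.leaf 231 1817 (.cons 278 (.leaf 277 2000 (.leaf 279 2008 .nil)) .nil)) .nil)) .nil)) .nil)) .nil)) (.cons 276 (.leaf 277 1992 (.cons 225 (.leaf 224 1795 (.cons 228 (.leaf 229 1801 (.cons 204 (.leaf 180 1438 (.cons 205 (.leaf 181 1445 (.cons 226 (.leaf 227 1609 (.cons 202 (.leaf 178 1428 (.leaf 203 1610 .nil)) .nil)) .nil)) .nil)) .nil)) .nil)) .nil)) (.cons 277 (.leaf 276 1992 (.cons 228 (.leaf 229 1801 (.cons 180 (.leaf 204 1438 (.cons 253 (.leaf 278 2000 (.cons 254 (.leaf 274 2002 (.cons 227 (.leaf 226 1811 (.leaf 255 1819 .nil)) .nil)) .nil)) .nil)) .nil)) .nil)) (.cons 277 (.leaf 276 1992 (.cons 225 (.leaf 224 1795 (.cons 253 (.leaf 226 1803 (.leaf 278 2000 .nil)) .nil)) .nil)) .nil))))))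
noncomputable def t30 : T := .cons 224 (.leaf 223 1784 (.cons 252 (.leaf 227 1792 (.leaf 249 1795 .nil)) .nil)) (.cons 224 (.leaf 223 1784 (.cons 227 (.cons 199 (.leaf 200 1595 (.cons 203 (.leaf 204 1601 (.cons 274 (.leaf 298 1621 (.leaf 179 1430 .nil)) .nil)) .nil)) (.cons 248 (.leaf 247 1786 (.cons 228 (.leaf 249 1793 (.cons 200 (.leaf 199 1595 (.leaf 201 1603 .nil)) .nil)) .nil)) (.cons 203 (.leaf 204 1601 (.cons 274 (.leaf 298 1621 (.leaf 179 1430 .nil)) .nil)) .nil))) .nil)) (.cons 252 (.leaf 253 1803 (.cons 228 (.cons 229 (.leaf 249 1801 (.cons 230 (.leaf 227 1810 (.leaf 231 1818 .nil)) .nil)) (.cons 180 (.leaf 204 1438 (.cons 249 (.leaf 229 1801 (.cons 272 (.leaf 273 1986 (.cons 248 (.leaf 271 1978 (.cons 247 (.leaf 274 1976 (.leaf 246 1777 .nil)) .nil)) .nil)) .nil)) .nil)) (.cons 204 (.leaf 180 1438 (.leaf 227 1629 .nil)) .nil))) .nil)) (.cons 252 (.leaf 253 1803 (.cons 224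 (.leaf 223 1784 (.leaf 249 1795 .nil)) .nil)) (.cons 224 (.leaf 223 1784 (.cons 227 (.leaf 252 1792 (.cons 199 (.leaf 200 1595 (.cons 203 (.leaf 204 1601 (.cons 274 (.leaf 298 1621 (.leaf 179 1430 .nil)) .nil)) .nil)) .nil)) .nil)) .nil))))
noncomputable def t31 : T := .cons 248 (.leaf 276 1984 (.cons 223 (.leaf 224 1787 (.cons 228 (.leaf 227 1793 (.cons 252 (.leaf 229 1801 (.cons 272 (.leaf 271 1978 (.leaf 273 1986 .nil)) .nil)) .nil)) .nil)) .nil)) (.cons 252 (.cons 224 (.leaf 225 1795 (.cons 228 (.leaf 229 1801 (.cons 204 (.leaf 180 1438 (.cons 299 (.leaf 227 1629 (.leaf 276 1630 .nil)) .nil)) .nil)) .nil)) (.cons 277 (.leaf 276 1992 (.cons 225 (.leaf 224 1795 (.cons 253 (.leaf 226 1803 (.leaf 278 2000 .nil)) .nil)) .nil)) (.cons 224 (.leaf 225 1795 (.cons 228 (.leaf 229 1801 (.cons 204 (.leaf 180 1438 (.cons 299 (.leaf 227 1629 (.leaf 323 1821 .nil)) .nil)) .nil)) .nil)) (.cons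 228 (.leaf 229 1801 (.cons 204 (.leaf 180 1438 (.cons 299 (.leaf 227 1629 (.leaf 276 1630 .nil)) .nil)) .nil)) .nil)))) (.cons 252 (.cons 224 (.leaf 225 1795 (.cons 248 (.leaf 223 1787 (.cons 272 (.leaf 271 1978 (.leaf 273 1986 .nil)) .nil)) .nil)) (.cons 228 (.leaf 229 1801 (.cons 180 (.leaf 204 1438 (.cons 227 (.leaf 248 1793 (.cons 272 (.leaf 273 1986 (.cons 299 (.leaf 323 1821 (.cons 202 (.leaf 226 1623 (.cons 203 (.leaf 178 1431 (.cons 179 (.leaf 156 1245 (.leaf 155 1244 .nil)) .nil)) .nil)) .nil)) .nil)) .nil)) .nil)) .nil)) (.cons 228 (.leaf 229 1801 (.cons 180 (.leaf 204 1438 (.cons 224 (.leaf 225 1795 (.cons 248 (.leaf 223 1787 (.leaf 227 1793 .nil)) .nil)) .nil)) .nil)) (.cons 228 (.leaf 229 1801 (.cons 180 (.leaf 204 1438 (.cons 225 (.leaf 224 1795 (.cons 226 (.leaf 253 1803 (.cons 299 (.leaf 323 1821 (.cons 202 (.leaf 178 1428 (.leaf 227 1623 .nil)) .nil)) .nil)) .nil))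 .nil)) .nil)) .nil)))) (.cons 248 (.leaf 276 1984 (.cons 223 (.leaf 224 1787 (.cons 227 (.leaf 228 1793 (.cons 247 (.leaf 222 1779 (.leaf 226 1785 .nil)) .nil)) .nil)) .nil)) (.cons 248 (.leaf 276 1984 (.cons 223 (.leaf 224 1787 (.cons 247 (.leaf 222 1779 (.cons 271 (.leaf 272 1978 (.leaf 270 1970 .nil)) .nil)) .nil)) .nil)) (.cons 248 (.leaf 276 1984 (.cons 227 (.leaf 228 1793 (.cons 226 (.leaf 247 1785 (.cons 272 (.leaf 271 1978 (.cons 252 (.leaf 273 1986 (.cons 253 (.leaf 225 1803 (.leaf 254 1811 .nil)) .nil)) .nil)) .nil)) .nil)) .nil)) .nil)))))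
noncomputable def t32 : T := .cons 203 (.cons 202 (.leaf 178 1431 (.cons 204 (.leaf 180 1437 (.cons 228 (.leaf 299 1629 (.cons 229 (.leaf 230 1810 (.leaf 201 1608 .nil)) .nil)) .nil)) .nil)) (.cons 274 (.leaf 298 1622 (.leaf 179 1430 .nil)) .nil)) (.cons 226 (.cons 299 (.leaf 202 1623 (.leaf 323 1815 .nil)) (.cons 299 (.leaf 323 1815 (.cons 228 (.leaf 204 1629 (.cons 229 (.leaf 230 1810 (.leaf 249 1802 .nil)) .nil)) .nil)) (.cons 202 (.leaf 178 1428 (.cons 201 (.cons 177 (.leaf 274 1423 (.cons 153 (.leaf 225 1228 (.leaf 129 1036 .nil)) .nil)) (.cons 200 (.leaf 199 1592 (.cons 228 (.leaf 225 1603 (.leaf 229 1611 .nil)) .nil)) (.cons 177 (.leaf 274 1423 (.cons 153 (.leaf 129 1036 (.cons 228 (.leaf 229 1611 (.cons 200 (.leaf 199 1592 (.cons 248 (.leaf 249 1793 (.cons 224 (.leaf 272 1413 (.leaf 176 1221 .nil)) .nil)) .nil)) .nil)) .nil)) .nil)) .nil))) .nil)) .nil))) (.cons 203 (.cons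 204 (.leaf 180 1437 (.cons 274 (.leaf 298 1622 (.leaf 179 1430 .nil)) .nil)) (.cons 180 (.leaf 204 1437 (.cons 179 (.leaf 156 1245 (.cons 154 (.leaf 178 1239 (.cons 155 (.leaf 226 1238 (.leaf 130 1047 .nil)) .nil)) .nil)) .nil)) (.cons 204 (.leaf 180 1437 (.cons 274 (.leaf 298 1622 (.cons 228 (.leaf 299 1629 (.cons 229 (.leaf 230 1810 (.cons 249 (.leaf 248 1793 (.leaf 226 1802 .nil)) .nil)) .nil)) .nil)) .nil)) (.cons 274 (.leaf 298 1622 (.leaf 179 1430 .nil)) .nil)))) (.cons 228 (.cons 229 (.leaf 230 1810 (.cons 299 (.leaf 204 1629 (.cons 226 (.leaf 202 1623 (.leaf 323 1815 .nil)) .nil)) .nil)) (.cons 229 (.leaf 230 1810 (.cons 249 (.leaf 248 1793 (.leaf 226 1802 .nil)) .nil)) (.cons 204 (.leaf 299 1629 (.cons 180 (.leaf 203 1437 (.leaf 156 1246 .nil)) .nil)) .nil))) (.cons 203 (.cons 180 (.leaf 204 1437 (.cons 202 (.leaf 178 1431 (.cons 226 (.leaf 299 1623 (.cons 274 (.leaf 298 1621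 (.leaf 179 1429 .nil)) .nil)) .nil)) .nil)) (.cons 180 (.leaf 204 1437 (.cons 179 (.leaf 156 1245 (.cons 154 (.leaf 178 1239 (.cons 155 (.leaf 226 1238 (.leaf 130 1047 .nil)) .nil)) .nil)) .nil)) (.cons 180 (.leaf 204 1437 (.cons 202 (.leaf 178 1431 (.cons 226 (.leaf 299 1623 (.cons 274 (.leaf 298 1621 (.cons 177 (.leaf 201 1423 (.cons 273 (.leaf 297 1614 (.cons 272 (.leaf 271 1977 (.cons 248 (.leaf 247 1979 (.cons 249 (.leaf 276 1984 (.cons 296 (.leaf 295 2170 (.cons 320 (.leaf 344 1989 (.leaf 225 1797 .nil)) .nil)) .nil)) .nil)) .nil)) .nil)) .nil)) .nil)) .nil)) .nil)) .nil)) (.cons 274 (.leaf 298 1622 (.leaf 179 1430 .nil)) .nil)))) (.cons 203 (.cons 178 (.leaf 202 1431 (.cons 179 (.leaf 154 1239 (.leaf 274 1430 .nil)) .nil)) (.cons 178 (.leaf 202 1431 (.cons 179 (.leaf 154 1239 (.cons 155 (.leaf 226 1238 (.cons 156 (.leaf 180 1245 (.leaf 132 1053 .nil)) .nil)) .nil)) .nil)) (.cons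 202 (.leaf 178 1431 (.cons 274 (.leaf 298 1622 (.cons 204 (.leaf 180 1437 (.cons 226 (.cons 225 (.leaf 224 1601 (.leaf 205 1610 .nil)) (.cons 201 (.leaf 177 1423 (.cons 200 (.leaf 199 1592 (.leaf 228 1600 .nil)) .nil)) .nil)) .nil)) .nil)) .nil)) (.cons 274 (.leaf 298 1622 (.leaf 179 1430 .nil)) .nil)))) (.cons 203 (.cons 202 (.leaf 178 1431 (.cons 226 (.leaf 299 1623 (.cons 274 (.leaf 298 1621 (.leaf 179 1429 .nil)) .nil)) .nil)) (.cons 178 (.leaf 202 1431 (.cons 179 (.leaf 154 1239 (.cons 155 (.leaf 226 1238 (.cons 156 (.leaf 180 1245 (.leaf 132 1053 .nil)) .nil)) .nil)) .nil)) (.cons 274 (.leaf 298 1622 (.leaf 179 1430 .nil)) (.cons 202 (.leaf 178 1431 (.cons 226 (.leaf 299 1623 (.cons 274 (.leaf 298 1621 (.cons 177 (.leaf 201 1423 (.cons 273 (.leaf 297 1614 (.cons 272 (.leaf 271 1977 (.cons 248 (.leaf 247 1979 (.cons 249 (.leaf 276 1984 (.leaf 228 1793 .nil)) .nil)) .nil)) .nil))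 .nil)) .nil)) .nil)) .nil)) .nil)))) .nil))))))
noncomputable def t33 : T := .cons 203 (.cons 274 (.leaf 298 1622 (.leaf 179 1430 .nil)) (.cons 178 (.leaf 202 1431 (.cons 179 (.leaf 154 1239 (.cons 155 (.leaf 226 1238 (.cons 156 (.leaf 180 1245 (.leaf 132 1053 .nil)) .nil)) .nil)) .nil)) (.cons 202 (.leaf 178 1431 (.cons 274 (.leaf 298 1622 (.cons 226 (.leaf 299 1620 (.cons 177 (.leaf 201 1423 (.cons 204 (.leaf 180 1437 (.cons 224 (.leaf 225 1601 (.cons 273 (.leaf 297 1614 (.cons 252 (.leaf 272 1985 (.leaf 253 1994 .nil)) .nil)) .nil)) .nil)) .nil)) .nil)) .nil)) .nil)) .nil))) (.cons 203 (.cons 178 (.leaf 202 1431 (.cons 179 (.leaf 154 1239 (.leaf 274 1430 .nil)) .nil)) (.cons 178 (.leaf 202 1431 (.cons 179 (.leaf 154 1239 (.cons 180 (.leaf 204 1437 (.leaf 156 1245 .nil)) .nil)) .nil)) (.cons 202 (.leaf 178 1431 (.cons 204 (.leaf 180 1437 (.cons 228 (.leaf 299 1629 (.cons 229 (.leaf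 230 1810 (.leaf 201 1608 .nil)) .nil)) .nil)) .nil)) (.cons 274 (.leaf 298 1622 (.leaf 179 1430 .nil)) .nil)))) (.cons 299 (.cons 226 (.leaf 202 1623 (.leaf 323 1815 .nil)) (.cons 228 (.leaf 204 1629 (.cons 229 (.leaf 230 1810 (.cons 323 (.leaf 252 1821 (.cons 347 (.leaf 274 2007 (.cons 348 (.leaf 324 2012 (.leaf 372 2204 .nil)) .nil)) .nil)) .nil)) .nil)) (.cons 226 (.leaf 202 1623 (.cons 228 (.leaf 204 1629 (.cons 229 (.leaf 230 1810 (.cons 205 (.leaf 206 1617 (.cons 253 (.leaf 254 1808 (.cons 225 (.leaf 252 1800 (.cons 200 (.leaf 201 1603 (.cons 224 (.leaf 223 1784 (.leaf 199 1595 .nil)) .nil)) .nil)) .nil)) .nil)) .nil)) .nil)) .nil)) .nil))) (.cons 203 (.cons 178 (.leaf 202 1431 (.cons 179 (.leaf 154 1239 (.cons 155 (.leaf 226 1238 (.cons 156 (.leaf 180 1245 (.leaf 132 1053 .nil)) .nil)) .nil)) .nil)) (.cons 204 (.leaf 180 1437 (.cons 299 (.leaf 228 1629 (.cons 226 (.leaf 323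 1815 (.cons 179 (.leaf 155 1238 (.cons 154 (.leaf 178 1239 (.cons 205 (.leaf 206 1618 (.cons 225 (.leaf 224 1601 (.cons 252 (.leaf 276 1436 (.leaf 253 1803 .nil)) .nil)) .nil)) .nil)) .nil)) .nil)) .nil)) .nil)) (.cons 204 (.leaf 180 1437 (.cons 299 (.leaf 228 1629 (.cons 226 (.leaf 202 1623 (.leaf 323 1815 .nil)) .nil)) .nil)) (.cons 202 (.leaf 178 1431 (.cons 204 (.leaf 180 1437 (.cons 228 (.leaf 299 1629 (.cons 229 (.leaf 230 1810 (.leaf 201 1608 .nil)) .nil)) .nil)) .nil)) (.cons 202 (.leaf 178 1431 (.cons 226 (.leaf 299 1623 (.cons 179 (.leaf 155 1238 (.cons 252 (.leaf 276 1436 (.cons 225 (.leaf 224 1792 (.leaf 253 1803 .nil)) .nil)) .nil)) .nil)) .nil)) .nil))))) (.cons 203 (.cons 274 (.leaf 298 1622 (.leaf 179 1430 .nil)) (.cons 204 (.leaf 180 1437 (.cons 299 (.leaf 228 1629 (.cons 226 (.leaf 323 1815 (.cons 179 (.leaf 155 1238 (.cons 154 (.leaf 178 1239 (.cons 205 (.leaf 206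 1618 (.cons 225 (.leaf 224 1601 (.cons 252 (.leaf 276 1436 (.leaf 253 1803 .nil)) .nil)) .nil)) .nil)) .nil)) .nil)) .nil)) .nil)) (.cons 204 (.leaf 180 1437 (.cons 274 (.leaf 298 1622 (.cons 299 (.leaf 228 1629 (.cons 323 (.leaf 226 1815 (.leaf 347 2007 .nil)) .nil)) .nil)) .nil)) .nil))) (.cons 203 (.cons 202 (.leaf 178 1431 (.cons 274 (.leaf 298 1622 (.leaf 179 1430 .nil)) .nil)) (.cons 178 (.leaf 202 1431 (.cons 179 (.leaf 154 1239 (.cons 155 (.leaf 226 1238 (.cons 156 (.leaf 180 1245 (.leaf 132 1053 .nil)) .nil)) .nil)) .nil)) (.cons 202 (.leaf 178 1431 (.cons 274 (.leaf 298 1622 (.cons 204 (.leaf 180 1437 (.cons 226 (.cons 177 (.leaf 201 1423 (.cons 224 (.leaf 225 1601 (.cons 273 (.leaf 297 1614 (.cons 252 (.leaf 272 1985 (.leaf 253 1994 .nil)) .nil)) .nil)) .nil)) (.cons 201 (.leaf 177 1423 (.cons 228 (.leaf 200 1600 (.leaf 229 1608 .nil)) .nil)) (.cons 225 (.leaf 224 1601 (.leaf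 205 1610 .nil)) .nil))) .nil)) .nil)) .nil)) (.cons 274 (.leaf 298 1622 (.leaf 179 1430 .nil)) .nil)))) (.cons 203 (.cons 202 (.leaf 178 1431 (.cons 226 (.leaf 299 1623 (.cons 179 (.leaf 274 1429 (.leaf 155 1238 .nil)) .nil)) .nil)) (.cons 178 (.leaf 202 1431 (.cons 179 (.leaf 154 1239 (.cons 155 (.leaf 226 1238 (.cons 156 (.leaf 180 1245 (.leaf 132 1053 .nil)) .nil)) .nil)) .nil)) (.cons 202 (.leaf 178 1431 (.cons 226 (.leaf 299 1623 (.cons 274 (.leaf 298 1621 (.cons 177 (.leaf 201 1423 (.cons 273 (.leaf 297 1614 (.cons 252 (.leaf 272 1985 (.leaf 253 1994 .nil)) .nil)) .nil)) .nil)) .nil)) .nil)) (.cons 274 (.leaf 298 1622 (.leaf 179 1430 .nil)) .nil)))) .nil))))))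
noncomputable def t34 : T := .cons 228 (.leaf 229 1801 (.cons 180 (.leaf 204 1438 (.cons 277 (.leaf 276 1992 (.cons 253 (.leaf 278 2000 (.cons 254 (.leaf 274 2002 (.cons 227 (.leaf 226 1811 (.leaf 255 1819 .nil)) .nil)) .nil)) .nil)) .nil)) .nil)) (.cons 228 (.leaf 229 1801 (.cons 180 (.leaf 204 1438 (.cons 273 (.leaf 272 1986 (.cons 253 (.leaf 274 1994 (.cons 278 (.leaf 277 2000 (.cons 254 (.leaf 279 2008 (.cons 227 (.leaf 226 1811 (.leaf 255 1819 .nil)) .nil)) .nil)) .nil)) .nil)) .nil)) .nil)) (.cons 277 (.leaf 276 1992 (.cons 224 (.leaf 225 1795 (.cons 253 (.leaf 278 2000 (.cons 230 (.leaf 229 1809 (.cons 254 (.leaf 274 2002 (.leaf 231 1817 .nil)) .nil)) .nil)) .nil)) .nil)) (.cons 224 (.leaf 225 1795 (.cons 228 (.leaf 229 1801 (.cons 204 (.leaf 180 1438 (.cons 299 (.leaf 227 1629 (.leaf 276 1630 .nil)) .nil)) .nil)) .nil)) (.cons 277 (.leaf 276 1992 (.cons 224 (.leaf 225 1795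 (.cons 253 (.leaf 278 2000 (.cons 254 (.leaf 274 2002 (.cons 227 (.leaf 226 1811 (.cons 228 (.leaf 255 1819 (.cons 204 (.leaf 180 1444 (.leaf 299 1629 .nil)) .nil)) .nil)) .nil)) .nil)) .nil)) .nil)) .nil))))
noncomputable def t35 : T := .cons 249 (.cons 276 (.leaf 248 1984 (.cons 252 (.leaf 277 1992 (.cons 228 (.leaf 229 1801 (.cons 299 (.leaf 204 1630 (.leaf 323 1821 .nil)) .nil)) .nil)) .nil)) (.cons 252 t34 (.cons 248 (.cons 227 (.leaf 228 1793 (.cons 224 (.leaf 223 1787 (.cons 225 (.leaf 252 1795 (.cons 272 (.leaf 271 1978 (.cons 201 (.leaf 177 1414 (.leaf 296 1605 .nil)) .nil)) .nil)) .nil)) .nil)) (.cons 227 (.leaf 228 1793 (.cons 223 (.leaf 224 1787 (.cons 247 (.leaf 274 1976 (.leaf 222 1779 .nil)) .nil)) .nil)) (.cons 247 (.leaf 274 1976 (.cons 271 (.leaf 272 1978 (.leaf 270 1970 .nil)) .nil)) .nil))) (.cons 248 (.leaf 276 1984 (.cons 227 (.leaf 228 1793 (.cons 223 (.leaf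 224 1787 (.cons 247 (.leaf 274 1976 (.leaf 222 1779 .nil)) .nil)) .nil)) .nil)) (.cons 248 (.leaf 276 1984 (.cons 247 (.leaf 274 1976 (.cons 271 (.leaf 272 1978 (.leaf 270 1970 .nil)) .nil)) .nil)) .nil))))) (.cons 249 (.cons 248 (.leaf 276 1984 (.cons 223 (.leaf 224 1787 (.cons 247 (.leaf 274 1976 (.leaf 222 1779 .nil)) .nil)) .nil)) (.cons 252 (.cons 228 (.leaf 229 1801 (.cons 204 (.leaf 180 1438 (.cons 299 (.leaf 227 1629 (.leaf 276 1630 .nil)) .nil)) .nil)) (.cons 224 (.leaf 225 1795 (.cons 228 (.leaf 229 1801 (.cons 204 (.leaf 180 1438 (.cons 299 (.leaf 227 1629 (.leaf 323 1821 .nil)) .nil)) .nil)) .nil)) (.cons 224 (.leaf 225 1795 (.cons 273 (.leaf 272 1986 (.cons 253 (.leaf 274 1994 (.cons 277 (.leaf 276 1992 (.leaf 278 2000 .nil)) .nil)) .nil)) .nil)) .nil))) (.cons 248 (.cons 223 (.leaf 224 1787 (.cons 247 (.leaf 274 1976 (.leaf 222 1779 .nil)) .nil)) (.cons 228 (.leaf 227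 1793 (.cons 252 (.leaf 229 1801 (.cons 272 (.leaf 271 1978 (.leaf 273 1986 .nil)) .nil)) .nil)) .nil)) (.cons 248 (.leaf 276 1984 (.cons 228 (.leaf 227 1793 (.cons 252 (.leaf 229 1801 (.cons 272 (.leaf 271 1978 (.leaf 273 1986 .nil)) .nil)) .nil)) .nil)) .nil)))) (.cons 227 (t33) (.cons 227 t32 (.cons 249 t31 (.cons 226 (.cons 202 (.leaf 178 1428 (.cons 274 (.leaf 299 1620 (.cons 177 (.leaf 201 1423 (.cons 273 (.leaf 297 1614 (.cons 252 (.leaf 272 1985 (.leaf 253 1994 .nil)) .nil)) .nil)) .nil)) .nil)) (.cons 299 (.leaf 323 1815 (.cons 225 t30 .nil)) (.cons 202 (.leaf 178 1428 (.cons 274 (.cons 177 (.leaf 201 1423 (.cons 273 (.leaf 297 1614 (.cons 252 (.leaf 272 1985 (.leaf 253 1994 .nil)) .nil)) .nil)) (.cons 177 (.leaf 201 1423 (.cons 203 (.leaf 179 1429 (.cons 227 (.leaf 298 1621 (.cons 204 (.leaf 180 1437 (.cons 225 (.leaf 205 1610 (.leaf 224 1601 .nil)) .nil)) .nil)) .nil)) .nil))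 (.cons 273 (.leaf 297 1614 (.cons 252 (.leaf 272 1985 (.leaf 253 1994 .nil)) .nil)) .nil))) .nil)) (.cons 202 (.leaf 178 1428 (.cons 299 (.leaf 227 1623 (.leaf 323 1815 .nil)) .nil)) .nil)))) (.cons 249 (.cons 248 (.leaf 276 1984 (.cons 223 (.leaf 224 1787 (.cons 247 (.leaf 274 1976 (.leaf 222 1779 .nil)) .nil)) .nil)) (.cons 252 t29 (.cons 248 (.cons 223 (.leaf 224 1787 (.cons 247 (.leaf 274 1976 (.leaf 222 1779 .nil)) .nil)) (.cons 223 (.leaf 224 1787 (.cons 228 (.leaf 227 1793 (.cons 252 (.leaf 229 1801 (.cons 272 (.leaf 271 1978 (.leaf 273 1986 .nil)) .nil)) .nil)) .nil)) (.cons 227 (.leaf 228 1793 (.cons 226 (.leaf 247 1785 (.cons 272 (.leaf 271 1978 (.cons 252 (.leaf 273 1986 (.cons 253 (.leaf 225 1803 (.leaf 254 1811 .nil)) .nil)) .nil)) .nil)) .nil)) .nil))) (.cons 248 (.leaf 276 1984 (.cons 223 (.leaf 224 1787 (.cons 247 (.leaf 222 1779 (.cons 271 (.leaf 272 1978 (.leaf 270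 1970 .nil)) .nil)) .nil)) .nil)) (.cons 248 (.leaf 276 1984 (.cons 227 (.leaf 228 1793 (.cons 226 (.leaf 247 1785 (.cons 272 (.leaf 271 1978 (.cons 252 (.leaf 273 1986 (.cons 253 (.leaf 225 1803 (.leaf 254 1811 .nil)) .nil)) .nil)) .nil)) .nil)) .nil)) .nil))))) (.cons 249 (.cons 276 (.leaf 248 1984 (.cons 252 (.leaf 277 1992 (.cons 225 (.leaf 224 1795 (.cons 273 (.leaf 272 1986 (.cons 274 (.leaf 253 1993 (.cons 201 (.leaf 177 1420 (.leaf 298 1612 .nil)) .nil)) .nil)) .nil)) .nil)) .nil)) (.cons 252 t28 (.cons 252 t27 (.cons 276 (.leaf 248 1984 (.cons 277 (.leaf 274 1995 (.leaf 278 2003 .nil)) .nil)) (.cons 248 (.leaf 276 1984 (.cons 223 (.leaf 224 1787 (.cons 247 (.leaf 222 1779 (.cons 271 (.leaf 272 1978 (.leaf 270 1970 .nil)) .nil)) .nil)) .nil)) .nil))))) (.cons 226 t26 (.cons 249 t24 (.cons 249 t23 (.cons 249 t22 (.cons 226 t21 (.cons 249 t19 .nil)))))))))))))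
noncomputable def t36 : T := .cons 226 (.leaf 250 1815 (.cons 346 (.leaf 322 2006 (.cons 347 (.leaf 370 2198 (.cons 348 (.leaf 324 2012 (.leaf 372 2204 .nil)) .nil)) .nil)) .nil)) (.cons 346 (.leaf 322 2006 (.cons 228 (.leaf 252 1821 (.cons 347 (.leaf 370 2198 (.cons 348 (.leaf 324 2012 (.leaf 372 2204 .nil)) .nil)) .nil)) .nil)) (.cons 250 (.leaf 226 1815 (.cons 252 (.leaf 228 1821 (.cons 324 (.leaf 348 2012 (.cons 249 (.cons 224 (.leaf 225 1795 (.cons 248 (.leaf 276 1984 (.leaf 223 1787 .nil)) .nil)) (.cons 224 (.leaf 225 1795 (.cons 248 (.leaf 223 1787 (.cons 272 (.leaf 271 1978 (.leaf 273 1986 .nil)) .nil)) .nil)) (.cons 224 (.leaf 225 1795 (.cons 272 (.leaf 273 1986 (.cons 276 (.leaf 347 2013 (.leaf 277 1992 .nil)) .nil)) .nil)) (.cons 276 (.leaf 248 1984 (.leaf 347 2013 .nil)) .nil)))) .nil)) .nil)) .nil)) (.cons 250 (.leaf 226 1815 (.cons 228 (.leaf 252 1821 (.cons 346 (.leaf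 322 2006 (.cons 347 (.leaf 274 2007 (.leaf 370 2198 .nil)) .nil)) .nil)) .nil)) (.cons 250 (.leaf 226 1815 (.cons 252 (.leaf 228 1821 (.cons 322 (.leaf 346 2006 (.cons 324 (.leaf 348 2012 (.cons 253 (.cons 230 (.leaf 229 1809 (.cons 254 (.leaf 274 2002 (.leaf 231 1817 .nil)) .nil)) (.cons 230 (.leaf 229 1809 (.cons 254 (.leaf 231 1817 (.cons 278 (.leaf 277 2000 (.leaf 279 2008 .nil)) .nil)) .nil)) (.cons 229 (.leaf 230 1809 (.cons 273 (.leaf 274 1994 (.cons 249 (.leaf 272 1986 (.cons 276 (.leaf 248 1984 (.leaf 277 1992 .nil)) .nil)) .nil)) .nil)) (.cons 274 (.leaf 254 2002 (.leaf 273 1994 .nil)) .nil)))) .nil)) .nil)) .nil)) .nil)) .nil))))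
noncomputable def t37 : T := .cons 298 (.cons 322 (.leaf 227 1814 (.leaf 346 2005 .nil)) (.cons 227 (.leaf 203 1622 (.cons 226 (.leaf 202 1623 (.cons 252 (.cons 253 (.leaf 254 2002 (.cons 225 (.leaf 224 1792 (.leaf 250 1803 .nil)) .nil)) (.cons 225 (.leaf 224 1792 (.cons 201 (.leaf 250 1615 (.cons 273 (.leaf 272 1985 (.leaf 249 1612 .nil)) .nil)) .nil)) (.cons 253 (.leaf 254 2002 (.cons 273 (.leaf 272 1985 (.leaf 250 1994 .nil)) .nil)) (.cons 253 (.leaf 254 2002 (.cons 225 (.leaf 224 1792 (.leaf 228 1800 .nil)) .nil)) .nil)))) .nil)) .nil)) (.cons 322 (.leaf 346 2005 (.cons 250 (.cons 226 (.leaf 202 1620 (.cons 321 (.leaf 297 1806 (.leaf 345 1998 .nil)) .nil)) (.cons 249 (.leaf 225 1807 (.cons 248 (.leaf 247 1976 (.cons 223 (.leaf 224 1787 (.cons 272 (.leaf 271 1978 (.cons 252 (.leaf 273 1985 (.cons 229 (.leaf 228 1801 (.cons 253 (.leaf 254 2002 (.leaf 230 1809 .nil)) .nil)) .nil))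 .nil)) .nil)) .nil)) .nil)) .nil)) .nil)) .nil))) (.cons 227 (.cons 298 (.leaf 203 1622 (.leaf 322 1814 .nil)) (.cons 252 (.cons 202 (.leaf 226 1623 (.cons 178 (.leaf 203 1431 (.cons 253 (.leaf 254 2002 (.cons 273 (.leaf 272 1985 (.leaf 276 1993 .nil)) .nil)) .nil)) .nil)) (.cons 202 (.leaf 226 1623 (.cons 203 (.leaf 178 1431 (.cons 179 (.leaf 250 1430 (.leaf 276 1436 .nil)) .nil)) .nil)) (.cons 253 (.leaf 254 2002 (.cons 273 (.leaf 272 1985 (.leaf 276 1993 .nil)) .nil)) (.cons 253 (.leaf 254 2002 (.cons 273 (.leaf 272 1985 (.leaf 250 1994 .nil)) .nil)) .nil)))) (.cons 298 (.leaf 322 1814 (.cons 226 (.leaf 202 1623 (.cons 297 (.cons 296 (.leaf 295 2169 (.leaf 276 2177 .nil)) (.cons 250 (.leaf 321 1806 (.cons 225 (.leaf 201 1615 (.cons 224 (.leaf 223 1784 (.leaf 252 1792 .nil)) .nil)) .nil)) .nil)) .nil)) .nil)) .nil))) (.cons 227 (.cons 202 (.leaf 226 1623 (.cons 203 (.leaf 178 1431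 (.leaf 298 1622 .nil)) .nil)) (.cons 202 (.leaf 226 1623 (.cons 203 (.leaf 178 1431 (.cons 179 (.leaf 250 1430 (.cons 156 (.leaf 180 1245 (.cons 155 (.leaf 132 1053 (.cons 252 (.leaf 276 1436 (.leaf 228 1244 .nil)) .nil)) .nil)) .nil)) .nil)) .nil)) (.cons 298 (.leaf 322 1814 (.cons 226 (.leaf 202 1623 (.cons 252 (.cons 253 (.leaf 254 2002 (.cons 273 (.leaf 272 1985 (.leaf 276 1993 .nil)) .nil)) (.cons 225 (.leaf 224 1792 (.cons 201 (.leaf 250 1615 (.cons 273 (.leaf 272 1985 (.leaf 249 1612 .nil)) .nil)) .nil)) (.cons 253 (.leaf 254 2002 (.cons 225 (.leaf 224 1792 (.leaf 250 1803 .nil)) .nil)) .nil))) .nil)) .nil)) (.cons 298 (.leaf 203 1622 (.leaf 322 1814 .nil)) .nil)))) (.cons 227 (.cons 298 (.leaf 203 1622 (.leaf 322 1814 .nil)) (.cons 202 (.leaf 226 1623 (.cons 203 (.leaf 178 1431 (.cons 179 (.leaf 250 1430 (.cons 156 (.leaf 180 1245 (.cons 155 (.leaf 132 1053 (.cons 252 (.leaf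 276 1436 (.leaf 228 1244 .nil)) .nil)) .nil)) .nil)) .nil)) .nil)) (.cons 298 (.leaf 322 1814 (.cons 226 (.leaf 202 1623 (.cons 297 (.cons 276 (.leaf 277 2186 (.leaf 296 2177 .nil)) (.cons 276 (.leaf 277 2186 (.cons 321 (.leaf 250 1806 (.cons 345 (.leaf 369 2189 (.cons 273 (.cons 272 (.leaf 252 1985 (.leaf 271 2168 .nil)) (.cons 249 (.leaf 248 1987 (.cons 344 (.leaf 320 1990 (.leaf 368 2182 .nil)) .nil)) .nil)) .nil)) .nil)) .nil)) (.cons 296 (.leaf 295 2169 (.cons 250 (.leaf 321 1806 (.cons 272 (.leaf 271 2171 (.cons 273 (.leaf 252 1985 (.cons 248 (.leaf 247 1979 (.cons 224 (.leaf 200 1604 (.cons 223 (.leaf 249 1787 (.leaf 199 1599 .nil)) .nil)) .nil)) .nil)) .nil)) .nil)) .nil)) .nil))) .nil)) .nil)) .nil))) (.cons 298 (.cons 227 (.leaf 203 1622 (.leaf 322 1814 .nil)) (.cons 227 (.leaf 203 1622 (.cons 226 (.leaf 202 1623 (.cons 297 (.cons 276 (.leaf 277 2186 (.leaf 296 2177 .nil))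 (.cons 276 (.leaf 277 2186 (.cons 321 (.leaf 250 1806 (.cons 345 (.leaf 369 2189 (.cons 273 (.cons 272 (.leaf 252 1985 (.leaf 271 2168 .nil)) (.cons 249 (.leaf 248 1987 (.cons 344 (.leaf 320 1990 (.leaf 368 2182 .nil)) .nil)) .nil)) .nil)) .nil)) .nil)) (.cons 250 (.leaf 321 1806 (.cons 201 (.leaf 225 1615 (.cons 296 (.leaf 295 2169 (.cons 272 (.leaf 271 2171 (.cons 273 (.leaf 252 1985 (.cons 320 (.leaf 319 2362 (.cons 344 (.leaf 368 2181 (.leaf 249 1989 .nil)) .nil)) .nil)) .nil)) .nil)) .nil)) .nil)) .nil))) .nil)) .nil)) (.cons 322 (.leaf 346 2005 (.cons 250 (.cons 226 (.leaf 202 1620 (.cons 321 (.leaf 297 1806 (.leaf 345 1998 .nil)) .nil)) (.cons 249 (.leaf 225 1807 (.cons 248 (.leaf 247 1976 (.leaf 276 1984 .nil)) .nil)) .nil)) .nil)) .nil))) .nil))))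
noncomputable def t38 : T := .cons 322 (.leaf 227 1814 (.leaf 346 2005 .nil)) (.cons 227 (.leaf 203 1622 (.cons 276 (.cons 277 (.leaf 297 2186 (.leaf 278 2194 .nil)) (.cons 297 (.leaf 296 2177 (.cons 273 (.cons 272 (.leaf 252 1985 (.leaf 271 2168 .nil)) (.cons 249 (.leaf 248 1987 (.cons 225 (.leaf 201 1612 (.cons 224 (.leaf 200 1607 (.cons 252 (.leaf 253 1993 (.leaf 250 1795 .nil)) .nil)) .nil)) .nil)) (.cons 272 (.leaf 271 2168 (.cons 248 (.leaf 247 1979 (.leaf 249 1987 .nil)) .nil)) .nil))) .nil)) (.cons 277 (.leaf 278 2194 (.cons 249 (.leaf 250 1995 (.cons 273 (.leaf 248 1987 (.cons 252 (.leaf 272 1985 (.leaf 253 1993 .nil)) .nil)) .nil)) .nil)) .nil))) .nil)) (.cons 322 (.leaf 346 2005 (.cons 297 (.cons 276 (.leaf 277 2186 (.leaf 296 2177 .nil)) (.cons 276 (.leaf 277 2186 (.cons 273 (.cons 252 (.leaf 272 1985 (.leaf 253 1993 .nil)) (.cons 249 (.leaf 248 1987 (.leaf 225 1804 .nil))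 .nil)) .nil)) (.cons 273 (.cons 272 (.leaf 252 1985 (.leaf 271 2168 .nil)) (.cons 249 (.leaf 225 1804 (.cons 296 (.leaf 295 2169 (.cons 320 (.leaf 319 2362 (.cons 344 (.leaf 321 1990 (.leaf 368 2181 .nil)) .nil)) .nil)) .nil)) .nil)) .nil))) .nil)) .nil))
noncomputable def t39 : T := .cons 227 (.leaf 203 1622 (.leaf 322 1814 .nil)) (.cons 227 (.leaf 203 1622 (.cons 226 (.leaf 202 1623 (.cons 297 (.cons 250 (.leaf 321 1806 (.cons 225 (.leaf 201 1615 (.cons 224 (.leaf 223 1784 (.cons 199 (.leaf 200 1595 (.cons 276 (.leaf 277 2186 (.leaf 296 2177 .nil)) .nil)) .nil)) .nil)) .nil)) (.cons 250 (.leaf 321 1806 (.cons 225 (.leaf 201 1615 (.cons 224 (.leaf 223 1784 (.cons 199 (.leaf 200 1595 (.cons 248 (.leaf 247 1786 (.cons 276 (.leaf 249 1984 (.leaf 277 2186 .nil)) .nil)) .nil)) .nil)) .nil)) .nil)) (.cons 250 (.leaf 321 1806 (.cons 225 (.leaf 201 1615 (.cons 223 (.leaf 224 1784 (.cons 296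 (.leaf 295 2169 (.cons 320 (.leaf 319 2362 (.cons 249 (.leaf 273 1798 (.cons 248 (.leaf 247 1976 (.leaf 228 1793 .nil)) .nil)) .nil)) .nil)) .nil)) .nil)) .nil)) (.cons 296 (.leaf 295 2169 (.leaf 276 2177 .nil)) .nil)))) .nil)) .nil)) (.cons 322 (.leaf 346 2005 (.cons 250 (.cons 226 (.leaf 202 1620 (.cons 321 (.leaf 297 1806 (.leaf 345 1998 .nil)) .nil)) (.cons 249 (.leaf 225 1807 (.cons 248 (.leaf 247 1976 (.leaf 276 1984 .nil)) .nil)) .nil)) .nil)) .nil))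
noncomputable def t40 : T := .cons 273 (.leaf 272 1985 (.cons 253 (.leaf 254 2002 (.leaf 276 1993 .nil)) .nil)) (.cons 253 (.leaf 254 2002 (.cons 250 (.cons 229 (.leaf 230 1809 (.cons 228 (.leaf 249 1801 (.cons 277 (.leaf 278 2000 (.cons 301 (.leaf 325 1831 (.cons 302 (.leaf 276 2192 (.leaf 326 1836 .nil)) .nil)) .nil)) .nil)) .nil)) (.cons 229 (.leaf 230 1809 (.cons 249 (.leaf 228 1801 (.cons 248 (.leaf 247 1976 (.leaf 276 1984 .nil)) .nil)) .nil)) (.cons 226 (.leaf 202 1620 (.leaf 225 1803 .nil)) .nil))) .nil)) (.cons 273 (.leaf 272 1985 (.cons 276 (.cons 249 (.leaf 248 1987 (.cons 250 (.leaf 277 1992 (.cons 226 (.leaf 202 1620 (.cons 297 (.leaf 296 2178 (.leaf 321 1805 .nil)) .nil)) .nil)) .nil)) (.cons 297 (.leaf 296 2178 (.cons 277 (.leaf 298 2186 (.cons 278 (.leaf 250 2003 (.leaf 279 2011 .nil)) .nil)) .nil)) (.cons 249 (.leaf 248 1987 (.cons 250 (.leaf 277 1992 (.cons 202 (.leaf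 226 1620 (.cons 225 (.leaf 224 1795 (.cons 201 (.leaf 177 1420 (.leaf 298 1612 .nil)) .nil)) .nil)) .nil)) .nil)) (.cons 249 (.leaf 248 1987 (.cons 297 (.leaf 296 2178 (.cons 250 (.cons 226 (.leaf 202 1620 (.leaf 321 1805 .nil)) (.cons 225 (.leaf 224 1795 (.cons 298 (.leaf 201 1612 (.leaf 322 1804 .nil)) .nil)) .nil)) .nil)) .nil)) (.cons 297 (.leaf 296 2178 (.cons 248 (.leaf 249 1987 (.cons 277 (.leaf 298 2186 (.cons 278 (.leaf 279 2011 (.cons 302 (.leaf 301 2192 (.leaf 303 2200 .nil)) .nil)) .nil)) .nil)) .nil)) .nil))))) .nil)) (.cons 273 (.leaf 272 1985 (.cons 253 (.leaf 254 2002 (.leaf 250 1994 .nil)) .nil)) .nil)))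
noncomputable def t41 : T := .cons 253 (.leaf 252 1993 (.cons 277 (.leaf 254 2001 (.cons 278 (.leaf 250 2003 (.cons 302 (.leaf 301 2192 (.leaf 303 2200 .nil)) .nil)) .nil)) .nil)) (.cons 249 (.leaf 248 1987 (.cons 250 (.leaf 277 1995 (.cons 297 (.leaf 296 2178 (.cons 321 (.leaf 345 1997 (.leaf 226 1805 .nil)) .nil)) .nil)) .nil)) (.cons 249 (.leaf 248 1987 (.cons 297 (.leaf 296 2178 (.cons 277 (.cons 252 (.leaf 253 1993 (.cons 278 (.leaf 279 2011 (.cons 302 (.leaf 301 2192 (.leaf 303 2200 .nil)) .nil)) .nil)) (.cons 302 (.leaf 301 2192 (.cons 278 (.leaf 303 2200 (.cons 255 (.leaf 254 2009 (.cons 279 (.leaf 252 2011 (.leaf 256 2017 .nil)) .nil)) .nil)) .nil)) (.cons 254 (.leaf 253 2001 (.cons 278 (.leaf 255 2009 (.cons 302 (.leaf 301 2192 (.leaf 303 2200 .nil)) .nil)) .nil)) (.cons 253 (.leaf 252 1993 (.leaf 254 2001 .nil)) .nil)))) .nil)) .nil)) (.cons 252 (.leaf 253 1993 (.cons 249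 (.leaf 248 1987 (.cons 297 (.leaf 296 2178 (.cons 226 (.cons 202 (.leaf 227 1623 (.leaf 250 1620 .nil)) (.cons 250 (.leaf 321 1805 (.cons 225 (.leaf 224 1795 (.cons 201 (.leaf 177 1420 (.cons 200 (.leaf 176 1415 (.cons 228 (.leaf 229 1801 (.leaf 227 1603 .nil)) .nil)) .nil)) .nil)) .nil)) (.cons 202 (.leaf 227 1623 (.leaf 225 1613 .nil)) (.cons 202 (.leaf 250 1620 (.leaf 225 1613 .nil)) .nil)))) .nil)) .nil)) .nil)) .nil)))
noncomputable def t42 : T := .cons 298 (.cons 227 (.leaf 203 1622 (.leaf 322 1814 .nil)) (.cons 227 (.leaf 203 1622 (.cons 226 (.leaf 202 1623 (.cons 297 (.cons 250 (.leaf 321 1806 (.cons 201 (.leaf 225 1615 (.cons 276 (.leaf 277 2186 (.leaf 296 2177 .nil)) .nil)) .nil)) (.cons 276 (.leaf 277 2186 (.cons 250 (.leaf 321 1806 (.cons 225 (.leaf 201 1615 (.cons 224 (.leaf 223 1784 (.leaf 252 1792 .nil)) .nil)) .nil)) .nil)) (.cons 250 (.leaf 321 1806 (.cons 201 (.leaf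 225 1615 (.cons 296 (.leaf 295 2169 (.cons 272 (.leaf 271 2171 (.cons 273 (.leaf 252 1985 (.cons 320 (.leaf 319 2362 (.cons 344 (.leaf 368 2181 (.leaf 249 1989 .nil)) .nil)) .nil)) .nil)) .nil)) .nil)) .nil)) (.cons 296 (.leaf 295 2169 (.leaf 276 2177 .nil)) .nil)))) .nil)) .nil)) (.cons 322 (.leaf 346 2005 (.cons 250 (.cons 226 (.leaf 202 1620 (.cons 321 (.leaf 297 1806 (.leaf 345 1998 .nil)) .nil)) (.cons 249 (.leaf 225 1807 (.cons 248 (.leaf 247 1976 (.leaf 276 1984 .nil)) .nil)) .nil)) .nil)) .nil))) (.cons 273 (.cons 272 (.leaf 252 1985 (.cons 248 (.leaf 247 1979 (.cons 249 (.leaf 276 1987 (.cons 296 (.leaf 295 2170 (.cons 225 (.leaf 201 1606 (.leaf 320 1797 .nil)) .nil)) .nil)) .nil)) .nil)) (.cons 276 t41 (.cons 272 (.cons 248 (.leaf 247 1979 (.cons 249 (.leaf 276 1987 (.cons 296 (.leaf 295 2170 (.cons 225 (.leaf 201 1606 (.leaf 320 1797 .nil)) .nil)) .nil)) .nil)) (.cons 250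 (.leaf 271 1977 (.cons 296 (.leaf 295 2170 (.cons 276 (.leaf 297 2178 (.cons 277 (.leaf 249 1995 (.leaf 278 2003 .nil)) .nil)) .nil)) .nil)) (.cons 247 (.leaf 248 1979 (.cons 271 (.leaf 250 1977 (.leaf 246 1971 .nil)) .nil)) .nil))) (.cons 272 (.leaf 252 1985 (.cons 247 (.leaf 248 1979 (.cons 271 (.leaf 250 1977 (.leaf 246 1971 .nil)) .nil)) .nil)) (.cons 252 (.leaf 272 1985 (.cons 253 (.leaf 254 2002 (.leaf 276 1993 .nil)) .nil)) .nil))))) (.cons 227 (.cons 298 (.leaf 203 1622 (.leaf 322 1814 .nil)) (.cons 252 (.cons 253 (.leaf 254 2002 (.cons 273 (.leaf 272 1985 (.leaf 276 1993 .nil)) .nil)) (.cons 202 (.leaf 226 1623 (.cons 203 (.leaf 178 1431 (.cons 179 (.leaf 276 1436 (.cons 155 (.leaf 228 1244 (.cons 156 (.leaf 180 1245 (.leaf 132 1053 .nil)) .nil)) .nil)) .nil)) .nil)) (.cons 226 (.leaf 202 1623 (.cons 253 (.leaf 254 2002 (.cons 225 (.leaf 224 1792 (.leaf 228 1800 .nil)) .nil))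 .nil)) .nil))) (.cons 298 (.leaf 322 1814 (.cons 226 (.leaf 202 1623 (.cons 252 (.cons 253 (.leaf 254 2002 (.cons 273 (.leaf 272 1985 (.leaf 276 1993 .nil)) .nil)) (.cons 225 (.leaf 224 1792 (.cons 273 (.leaf 272 1985 (.cons 249 (.leaf 201 1612 (.cons 276 (.leaf 248 1987 (.cons 297 (.leaf 296 2177 (.leaf 277 2186 .nil)) .nil)) .nil)) .nil)) .nil)) (.cons 253 (.leaf 254 2002 (.cons 225 (.leaf 224 1792 (.leaf 228 1800 .nil)) .nil)) .nil))) .nil)) .nil)) .nil))) (.cons 252 t40 (.cons 298 (.cons 227 (.leaf 203 1622 (.leaf 322 1814 .nil)) (.cons 227 (.leaf 203 1622 (.cons 226 (.leaf 202 1623 (.cons 297 (.cons 296 (.leaf 295 2169 (.leaf 276 2177 .nil)) (.cons 250 (.leaf 321 1806 (.cons 225 (.leaf 201 1615 (.cons 224 (.leaf 223 1784 (.leaf 252 1792 .nil)) .nil)) .nil)) .nil)) .nil)) .nil)) (.cons 322 (.leaf 346 2005 (.cons 250 (.cons 226 (.leaf 202 1620 (.cons 321 (.leaf 297 1806 (.leaf 345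 1998 .nil)) .nil)) (.cons 249 (.leaf 225 1807 (.cons 248 (.leaf 247 1976 (.leaf 276 1984 .nil)) .nil)) .nil)) .nil)) .nil))) (.cons 298 t39 (.cons 298 t38 t37))))))
noncomputable def t43 : T := .cons 250 (.leaf 226 1815 (.cons 252 (.leaf 228 1821 (.cons 322 (.leaf 346 2006 (.cons 324 (.leaf 348 2012 (.cons 253 (.cons 230 (.leaf 229 1809 (.cons 254 (.leaf 274 2002 (.leaf 231 1817 .nil)) .nil)) (.cons 230 (.leaf 229 1809 (.cons 254 (.leaf 231 1817 (.cons 278 (.leaf 277 2000 (.leaf 279 2008 .nil)) .nil)) .nil)) (.cons 229 (.leaf 230 1809 (.cons 273 (.leaf 274 1994 (.cons 249 (.leaf 272 1986 (.cons 276 (.leaf 248 1984 (.leaf 347 2013 .nil)) .nil)) .nil)) .nil)) (.cons 274 (.leaf 347 2007 (.leaf 254 2002 .nil)) .nil)))) .nil)) .nil)) .nil)) .nil)) (.cons 322 (.leaf 346 2006 (.cons 298 (.leaf 227 1814 (.cons 324 (.leaf 348 2012 (.cons 297 (.leaf 296 2368 (.leaf 325 2379 .nil)) .nil)) .nil))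 .nil)) (.cons 250 (.leaf 226 1815 (.cons 252 (.leaf 228 1821 (.cons 324 (.leaf 348 2012 (.cons 249 (.cons 224 (.leaf 225 1795 (.cons 248 (.leaf 276 1984 (.leaf 223 1787 .nil)) .nil)) (.cons 224 (.leaf 225 1795 (.cons 248 (.leaf 223 1787 (.cons 272 (.leaf 271 1978 (.leaf 273 1986 .nil)) .nil)) .nil)) (.cons 224 (.leaf 225 1795 (.cons 272 (.leaf 273 1986 (.cons 276 (.leaf 347 2013 (.leaf 277 1992 .nil)) .nil)) .nil)) (.cons 276 (.leaf 248 1984 (.leaf 347 2013 .nil)) .nil)))) .nil)) .nil)) .nil)) (.cons 226 (.leaf 250 1815 (.cons 227 (.leaf 202 1623 (.cons 322 (.leaf 298 1814 (.leaf 346 2006 .nil)) .nil)) .nil)) .nil)))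
noncomputable def t44 : T := .cons 323 t43 (.cons 274 t42 (.cons 323 (.cons 252 (.leaf 228 1821 (.cons 346 (.leaf 322 2006 (.cons 347 (.leaf 276 2013 (.leaf 370 2198 .nil)) .nil)) .nil)) (.cons 252 (.leaf 228 1821 (.cons 347 (.leaf 276 2013 (.cons 348 (.leaf 324 2012 (.leaf 372 2204 .nil)) .nil)) .nil)) (.cons 322 (.leaf 346 2006 (.cons 298 (.leaf 227 1814 (.cons 324 (.leaf 348 2012 (.cons 297 (.leaf 296 2368 (.leaf 325 2379 .nil)) .nil)) .nil)) .nil)) .nil))) (.cons 323 t36 (.cons 323 (.cons 252 (.leaf 228 1821 (.cons 347 (.leaf 276 2013 (.cons 348 (.leaf 324 2012 (.leaf 372 2204 .nil)) .nil)) .nil)) (.cons 250 (.leaf 226 1815 (.cons 347 (.leaf 274 2007 (.cons 348 (.leaf 324 2012 (.leaf 372 2204 .nil)) .nil)) .nil)) (.cons 250 (.leaf 226 1815 (.cons 252 (.leaf 228 1821 (.cons 347 (.leaf 274 2007 (.leaf 276 2013 .nil)) .nil)) .nil)) (.cons 250 (.leaf 226 1815 (.cons 252 (.leaf 228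 1821 (.cons 324 (.leaf 348 2012 (.cons 249 (.cons 224 (.leaf 225 1795 (.cons 248 (.leaf 276 1984 (.leaf 223 1787 .nil)) .nil)) (.cons 224 (.leaf 225 1795 (.cons 248 (.leaf 223 1787 (.cons 272 (.leaf 271 1978 (.leaf 273 1986 .nil)) .nil)) .nil)) (.cons 224 (.leaf 225 1795 (.cons 272 (.leaf 273 1986 (.cons 277 (.leaf 276 1992 (.cons 253 (.leaf 278 2000 (.cons 230 (.leaf 229 1809 (.cons 254 (.leaf 274 2002 (.leaf 231 1817 .nil)) .nil)) .nil)) .nil)) .nil)) .nil)) (.cons 276 (.leaf 248 1984 (.leaf 277 1992 .nil)) .nil)))) .nil)) .nil)) .nil)) .nil)))) (.cons 323 (.cons 322 (.leaf 346 2006 (.cons 298 (.leaf 227 1814 (.cons 324 (.leaf 348 2012 (.cons 297 (.leaf 296 2368 (.leaf 325 2379 .nil)) .nil)) .nil)) .nil)) (.cons 250 (.leaf 226 1815 (.cons 347 (.leaf 274 2007 (.cons 348 (.leaf 324 2012 (.leaf 372 2204 .nil)) .nil)) .nil)) (.cons 226 (.leaf 250 1815 (.cons 227 (.leaf 202 1623 (.cons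 322 (.leaf 298 1814 (.leaf 346 2006 .nil)) .nil)) .nil)) .nil))) .nil)))))
noncomputable def t45 : T := .cons 204 (.leaf 180 1437 (.cons 298 (.leaf 274 1622 (.cons 299 (.leaf 228 1629 (.leaf 322 1814 .nil)) .nil)) .nil)) (.cons 274 (.leaf 298 1622 (.cons 179 (.leaf 250 1430 (.cons 154 (.leaf 178 1239 (.cons 155 (.leaf 130 1047 (.cons 156 (.leaf 180 1245 (.leaf 132 1053 .nil)) .nil)) .nil)) .nil)) .nil)) (.cons 204 (.leaf 180 1437 (.cons 228 (.leaf 299 1629 (.cons 226 (.cons 205 (.leaf 206 1618 (.leaf 225 1609 .nil)) (.cons 225 (.leaf 224 1601 (.cons 200 (.leaf 201 1603 (.cons 249 (.leaf 248 1794 (.cons 229 (.leaf 250 1802 (.cons 230 (.leaf 231 1627 (.cons 254 (.leaf 253 1808 (.leaf 255 1816 .nil)) .nil)) .nil)) .nil)) .nil)) .nil)) (.cons 205 (.leaf 206 1618 (.cons 229 (.cons 230 (.leaf 250 1810 (.leaf 231 1627 .nil)) (.cons 250 (.leaf 249 1802 (.cons 179 (.leaf 155 1238 (.cons 253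 (.leaf 254 1808 (.cons 178 (.leaf 154 1239 (.cons 277 (.leaf 301 1639 (.cons 278 (.leaf 276 2003 (.leaf 302 1644 .nil)) .nil)) .nil)) .nil)) .nil)) .nil)) (.cons 230 (.leaf 231 1627 (.cons 254 (.leaf 253 1808 (.leaf 255 1816 .nil)) .nil)) .nil))) .nil)) .nil))) .nil)) .nil)) (.cons 274 (.leaf 298 1622 (.cons 250 (.leaf 179 1430 (.cons 273 (.cons 272 (.leaf 271 1977 (.cons 248 (.leaf 247 1979 (.cons 296 (.leaf 295 2170 (.cons 297 (.leaf 276 2178 (.cons 321 (.leaf 345 1997 (.leaf 224 1796 .nil)) .nil)) .nil)) .nil)) .nil)) (.cons 249 (.cons 276 (.leaf 248 1984 (.leaf 277 1995 .nil)) (.cons 276 (.leaf 277 1995 (.cons 297 (.leaf 296 2178 (.cons 321 (.leaf 345 1997 (.leaf 226 1805 .nil)) .nil)) .nil)) (.cons 248 (.leaf 247 1976 (.leaf 228 1793 .nil)) .nil))) (.cons 272 (.leaf 271 1977 (.cons 296 (.leaf 295 2170 (.cons 276 (.leaf 297 2178 (.cons 277 (.leaf 249 1995 (.leaf 278 2003 .nil))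 .nil)) .nil)) .nil)) (.cons 272 (.leaf 271 1977 (.cons 248 (.leaf 247 1979 (.cons 228 (.leaf 249 1793 (.cons 229 (.leaf 230 1810 (.cons 299 (.leaf 204 1629 (.cons 323 (.leaf 226 1815 (.leaf 347 2007 .nil)) .nil)) .nil)) .nil)) .nil)) .nil)) .nil)))) .nil)) .nil)) .nil)))
noncomputable def t46 : T := .leaf 204 1629 (.cons 252 (.leaf 323 1821 (.cons 229 (.cons 230 (.leaf 231 1818 (.cons 206 (.leaf 207 1625 (.cons 205 (.leaf 226 1617 (.cons 181 (.leaf 157 1254 (.cons 254 (.leaf 255 1816 (.leaf 278 1455 .nil)) .nil)) .nil)) .nil)) .nil)) (.cons 253 (.cons 254 (.leaf 274 2002 (.leaf 226 1808 .nil)) (.cons 226 (.leaf 225 1800 (.cons 205 (.leaf 206 1617 (.cons 181 (.leaf 157 1254 (.leaf 276 1446 .nil)) .nil)) .nil)) (.cons 254 (.leaf 274 2002 (.leaf 255 1819 .nil)) .nil))) (.cons 230 (.leaf 231 1818 (.cons 206 (.leaf 207 1625 (.cons 205 (.leaf 226 1617 (.cons 181 (.leaf 157 1254 (.cons 253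 (.leaf 276 1446 (.cons 182 (.leaf 158 1261 (.leaf 277 1453 .nil)) .nil)) .nil)) .nil)) .nil)) .nil)) (.cons 230 (.leaf 231 1818 (.cons 206 (.leaf 207 1625 (.cons 254 (.leaf 255 1816 (.cons 253 (.leaf 274 2002 (.cons 277 (.leaf 301 1645 (.leaf 182 1454 .nil)) .nil)) .nil)) .nil)) .nil)) (.cons 230 (.leaf 231 1818 (.cons 254 (.leaf 255 1816 (.cons 253 (.leaf 274 2002 (.leaf 226 1808 .nil)) .nil)) .nil)) .nil))))) .nil)) .nil)
noncomputable def t47 : T := .cons 298 (.leaf 322 1814 (.cons 274 (.leaf 203 1622 (.cons 276 (.cons 297 (.leaf 277 2186 (.leaf 296 2177 .nil)) (.cons 277 (.leaf 278 2194 (.cons 253 (.leaf 254 2001 (.cons 252 (.leaf 273 1993 (.cons 301 (.leaf 302 2192 (.cons 323 (.leaf 228 1821 (.leaf 347 2013 .nil)) .nil)) .nil)) .nil)) .nil)) (.cons 297 (.leaf 296 2177 (.cons 273 (.cons 272 (.leaf 252 1985 (.leaf 271 2168 .nil)) (.cons 272 (.leaf 271 2168 (.cons 248 (.leaf 247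 1979 (.leaf 249 1987 .nil)) .nil)) (.cons 249 (.leaf 248 1987 (.cons 225 (.leaf 201 1612 (.cons 224 (.leaf 200 1607 (.cons 252 (.leaf 253 1993 (.leaf 226 1792 .nil)) .nil)) .nil)) .nil)) .nil))) .nil)) .nil))) .nil)) .nil)) (.cons 228 (.leaf 204 1629 (.cons 323 (.leaf 252 1821 (.cons 346 (.leaf 322 2006 (.cons 347 (.leaf 370 2198 (.cons 348 (.leaf 324 2012 (.leaf 372 2204 .nil)) .nil)) .nil)) .nil)) .nil)) (.cons 298 (.leaf 322 1814 (.cons 274 (.leaf 203 1622 (.cons 276 (.cons 297 (.leaf 277 2186 (.leaf 296 2177 .nil)) (.cons 277 (.leaf 278 2194 (.cons 253 (.leaf 254 2001 (.cons 252 (.leaf 273 1993 (.cons 301 (.leaf 302 2192 (.cons 323 (.leaf 347 2013 (.cons 324 (.leaf 348 2012 (.cons 325 (.leaf 326 2387 (.leaf 349 2023 .nil)) .nil)) .nil)) .nil)) .nil)) .nil)) .nil)) (.cons 297 (.leaf 296 2177 (.cons 273 (.cons 272 (.leaf 252 1985 (.leaf 271 2168 .nil)) (.cons 249 (.leaf 248 1987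 (.cons 225 (.leaf 201 1612 (.cons 224 (.leaf 200 1607 (.cons 252 (.leaf 253 1993 (.leaf 226 1792 .nil)) .nil)) .nil)) .nil)) (.cons 272 (.leaf 271 2168 (.cons 248 (.leaf 247 1979 (.leaf 249 1987 .nil)) .nil)) .nil))) .nil)) .nil))) .nil)) .nil)) (.cons 228 t46 (.cons 298 (.leaf 322 1814 (.cons 203 (.leaf 274 1622 (.cons 204 (.leaf 180 1437 (.leaf 228 1629 .nil)) .nil)) .nil)) .nil))))
noncomputable def t48 : T := .cons 204 (.leaf 180 1437 (.cons 228 (.leaf 299 1629 (.cons 226 (.cons 205 (.leaf 206 1618 (.leaf 225 1609 .nil)) (.cons 205 (.leaf 206 1618 (.cons 229 (.cons 230 (.leaf 250 1810 (.leaf 231 1627 .nil)) (.cons 230 (.leaf 231 1627 (.cons 254 (.leaf 253 1808 (.leaf 255 1816 .nil)) .nil)) (.cons 250 (.leaf 249 1802 (.cons 253 (.leaf 254 1808 (.cons 277 (.leaf 301 1639 (.cons 278 (.leaf 276 2003 (.leaf 252 2000 .nil)) .nil)) .nil)) .nil)) .nil))) .nil)) (.cons 225 (.leaf 224 1601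 (.cons 200 (.leaf 201 1603 (.cons 248 (.leaf 249 1794 (.cons 253 (.leaf 252 1800 (.cons 229 (.leaf 254 1808 (.cons 230 (.leaf 250 1810 (.leaf 231 1627 .nil)) .nil)) .nil)) .nil)) .nil)) .nil)) .nil))) .nil)) .nil)) (.cons 179 (.cons 250 (.leaf 274 1430 (.cons 155 (.leaf 226 1238 (.cons 252 (.leaf 276 1436 (.leaf 228 1244 .nil)) .nil)) .nil)) (.cons 252 (.leaf 276 1436 (.cons 154 (.leaf 178 1239 (.cons 155 (.leaf 130 1047 (.leaf 228 1244 .nil)) .nil)) .nil)) (.cons 250 (.leaf 274 1430 (.cons 154 (.leaf 178 1239 (.cons 155 (.leaf 130 1047 (.leaf 226 1238 .nil)) .nil)) .nil)) (.cons 252 (.leaf 276 1436 (.cons 250 (.leaf 274 1430 (.cons 178 (.leaf 154 1239 (.cons 249 (.cons 225 (.leaf 224 1795 (.cons 253 (.leaf 226 1803 (.cons 230 (.leaf 229 1809 (.cons 254 (.leaf 231 1817 (.cons 278 (.leaf 277 2000 (.leaf 279 2008 .nil)) .nil)) .nil)) .nil)) .nil)) (.cons 228 (.leaf 248 1793 (.leaf 229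 1801 .nil)) (.cons 224 (.leaf 225 1795 (.cons 248 (.leaf 223 1787 (.leaf 228 1793 .nil)) .nil)) .nil))) .nil)) .nil)) .nil)) .nil)))) (.cons 180 (.leaf 204 1437 (.cons 179 (.leaf 156 1245 (.cons 154 (.leaf 178 1239 (.cons 155 (.leaf 130 1047 (.cons 250 (.leaf 274 1430 (.leaf 226 1238 .nil)) .nil)) .nil)) .nil)) .nil)) (.cons 180 (.leaf 204 1437 (.cons 179 (.leaf 156 1245 (.cons 154 (.leaf 178 1239 (.cons 155 (.leaf 130 1047 (.cons 252 (.leaf 276 1436 (.leaf 228 1244 .nil)) .nil)) .nil)) .nil)) .nil)) .nil)))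
noncomputable def t49 : T := .cons 250 (.leaf 226 1815 (.cons 228 (.leaf 252 1821 (.cons 229 (.leaf 230 1810 (.cons 322 (.leaf 346 2006 (.cons 347 (.leaf 274 2007 (.cons 348 (.leaf 324 2012 (.leaf 372 2204 .nil)) .nil)) .nil)) .nil)) .nil)) .nil)) (.cons 252 (.leaf 228 1821 (.cons 322 (.leaf 346 2006 (.cons 347 (.leaf 276 2013 (.cons 348 (.leaf 324 2012 (.leaf 372 2204 .nil)) .nil)) .nil)) .nil)) (.cons 250 (.leaf 226 1815 (.cons 322 (.leaf 346 2006 (.cons 347 (.leaf 274 2007 (.cons 348 (.leaf 324 2012 (.leaf 372 2204 .nil)) .nil)) .nil)) .nil)) (.cons 250 (.leaf 226 1815 (.cons 252 (.leaf 228 1821 (.cons 347 (.leaf 274 2007 (.leaf 276 2013 .nil)) .nil)) .nil)) (.cons 250 (.leaf 226 1815 (.cons 252 (.leaf 228 1821 (.cons 324 (.leaf 348 2012 (.cons 322 (.leaf 346 2006 (.cons 249 (.cons 273 (.leaf 272 1986 (.cons 253 (.leaf 274 1994 (.cons 224 (.leaf 225 1795 (.cons 277 (.leaf 276 1992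 (.leaf 278 2000 .nil)) .nil)) .nil)) .nil)) (.cons 224 (.leaf 225 1795 (.cons 248 (.leaf 223 1787 (.cons 272 (.leaf 271 1978 (.leaf 273 1986 .nil)) .nil)) .nil)) (.cons 276 (.leaf 248 1984 (.leaf 277 1992 .nil)) .nil))) .nil)) .nil)) .nil)) .nil)) .nil))))
noncomputable def t50 : T := .cons 298 (.leaf 322 1814 (.cons 274 (.leaf 203 1622 (.cons 276 (.cons 297 (.leaf 277 2186 (.leaf 296 2177 .nil)) (.cons 297 (.leaf 296 2177 (.cons 273 (.cons 249 (.leaf 248 1987 (.cons 225 (.leaf 201 1612 (.cons 224 (.leaf 200 1607 (.cons 252 (.leaf 272 1985 (.leaf 253 1993 .nil)) .nil)) .nil)) .nil)) (.cons 272 (.leaf 271 2168 (.cons 248 (.leaf 247 1979 (.leaf 249 1987 .nil)) .nil)) (.cons 249 (.leaf 248 1987 (.cons 225 (.leaf 201 1612 (.cons 224 (.leaf 200 1607 (.cons 252 (.leaf 253 1993 (.leaf 226 1792 .nil)) .nil)) .nil)) .nil)) (.cons 252 (.leaf 272 1985 (.leaf 253 1993 .nil)) .nil)))) .nil)) (.cons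 277 (.leaf 278 2194 (.cons 253 (.leaf 254 2001 (.cons 250 (.leaf 249 1995 (.cons 252 (.leaf 273 1993 (.cons 225 (.leaf 226 1803 (.cons 229 (.leaf 230 1809 (.cons 205 (.leaf 181 1446 (.cons 301 (.leaf 302 2192 (.cons 325 (.leaf 349 2023 (.leaf 228 1831 .nil)) .nil)) .nil)) .nil)) .nil)) .nil)) .nil)) .nil)) .nil)) .nil))) .nil)) .nil)) (.cons 323 t49 (.cons 323 (.cons 252 (.leaf 228 1821 (.cons 276 (.leaf 347 2013 (.cons 203 (.leaf 179 1436 (.cons 274 (.leaf 298 1622 (.cons 253 (.leaf 254 2002 (.leaf 273 1993 .nil)) .nil)) .nil)) .nil)) .nil)) (.cons 250 (.leaf 226 1815 (.cons 274 (.leaf 347 2007 (.cons 203 (.leaf 298 1622 (.leaf 179 1430 .nil)) .nil)) .nil)) (.cons 250 (.leaf 226 1815 (.cons 252 (.leaf 228 1821 (.cons 324 (.leaf 348 2012 (.cons 274 (.cons 253 (.leaf 254 2002 (.leaf 273 1994 .nil)) (.cons 253 (.leaf 254 2002 (.cons 229 (.leaf 230 1809 (.cons 203 (.leaf 298 1622 (.leaf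 179 1430 .nil)) .nil)) .nil)) (.cons 203 (.leaf 298 1622 (.leaf 179 1430 .nil)) .nil))) .nil)) .nil)) .nil)) (.cons 250 (.leaf 226 1815 (.cons 252 (.leaf 228 1821 (.cons 347 (.leaf 276 2013 (.cons 348 (.leaf 324 2012 (.leaf 372 2204 .nil)) .nil)) .nil)) .nil)) .nil)))) (.cons 322 (.leaf 298 1814 (.cons 323 (.leaf 346 2006 (.cons 252 (.leaf 228 1821 (.cons 347 (.leaf 276 2013 (.cons 348 (.leaf 324 2012 (.leaf 372 2204 .nil)) .nil)) .nil)) .nil)) .nil)) (.cons 322 (.leaf 298 1814 (.cons 323 (.leaf 346 2006 (.cons 250 (.leaf 226 1815 (.cons 347 (.leaf 274 2007 (.cons 348 (.leaf 324 2012 (.leaf 372 2204 .nil)) .nil)) .nil)) .nil)) .nil)) .nil))))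
noncomputable def t51 : T := .cons 225 (.leaf 224 1792 (.cons 228 (.leaf 253 1800 (.cons 204 (.leaf 299 1629 (.leaf 205 1609 .nil)) .nil)) .nil)) (.cons 253 (.leaf 254 1811 (.cons 250 (.cons 277 (.leaf 278 2000 (.cons 249 (.leaf 276 1992 (.cons 248 (.leaf 228 1793 (.leaf 247 1785 .nil)) .nil)) .nil)) (.cons 299 (.leaf 323 1815 (.cons 228 (.leaf 204 1629 (.cons 229 (.leaf 230 1809 (.cons 205 (.leaf 206 1617 (.cons 181 (.leaf 157 1254 (.leaf 276 1446 .nil)) .nil)) .nil)) .nil)) .nil)) (.cons 277 (.leaf 278 2000 (.cons 249 (.leaf 276 1992 (.cons 248 (.leaf 247 1785 (.cons 272 (.leaf 271 1978 (.leaf 273 1986 .nil)) .nil)) .nil)) .nil)) (.cons 229 (.leaf 230 1809 (.cons 249 (.leaf 228 1801 (.cons 248 (.leaf 247 1785 (.cons 272 (.leaf 271 1978 (.leaf 273 1986 .nil)) .nil)) .nil)) .nil)) .nil)))) .nil)) (.cons 225 (.leaf 224 1792 (.cons 228 (.cons 204 (.leaf 299 1629 (.leaf 205 1609 .nil))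 (.cons 249 (.leaf 248 1794 (.cons 229 (.leaf 250 1801 (.cons 200 (.leaf 201 1603 (.cons 206 (.leaf 205 1617 (.cons 230 (.leaf 231 1818 (.leaf 207 1625 .nil)) .nil)) .nil)) .nil)) .nil)) (.cons 299 (.leaf 204 1629 (.leaf 323 1821 .nil)) .nil))) .nil)) (.cons 225 (.leaf 224 1792 (.cons 253 (.leaf 250 1803 (.leaf 254 1811 .nil)) .nil)) .nil)))
noncomputable def t52 : T := .cons 225 (.leaf 226 1803 (.cons 249 (.leaf 224 1795 (.cons 228 (.leaf 248 1793 (.leaf 229 1801 .nil)) .nil)) .nil)) (.cons 229 (.leaf 230 1809 (.cons 277 (.leaf 278 2000 (.cons 249 (.cons 224 (.leaf 225 1795 (.cons 248 (.leaf 223 1787 (.cons 272 (.leaf 271 1978 (.leaf 273 1986 .nil)) .nil)) .nil)) (.cons 272 (.leaf 273 1986 (.cons 248 (.leaf 271 1978 (.cons 223 (.leaf 224 1787 (.cons 247 (.leaf 226 1785 (.leaf 222 1779 .nil)) .nil)) .nil)) .nil)) (.cons 226 (.leaf 225 1803 (.cons 248 (.leaf 247 1785 (.cons 272 (.leaf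 271 1978 (.leaf 273 1986 .nil)) .nil)) .nil)) (.cons 225 (.leaf 224 1795 (.leaf 226 1803 .nil)) .nil)))) .nil)) .nil)) (.cons 229 (.leaf 230 1809 (.cons 228 (.leaf 249 1801 (.cons 204 (.leaf 180 1438 (.leaf 299 1629 .nil)) .nil)) .nil)) (.cons 225 (.leaf 226 1803 (.cons 249 (.leaf 224 1795 (.cons 228 (.leaf 248 1793 (.cons 204 (.leaf 180 1438 (.leaf 299 1629 .nil)) .nil)) .nil)) .nil)) (.cons 226 (.leaf 225 1803 (.cons 229 (.leaf 230 1809 (.cons 277 (.leaf 278 2000 (.cons 299 (.leaf 323 1815 (.cons 204 (.leaf 228 1629 (.cons 180 (.leaf 203 1437 (.leaf 205 1447 .nil)) .nil)) .nil)) .nil)) .nil)) .nil)) .nil))))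
noncomputable def t53 : T := .cons 226 (.leaf 225 1803 (.cons 277 (.leaf 278 2000 (.cons 249 (.leaf 276 1992 (.cons 248 (.leaf 228 1793 (.leaf 247 1785 .nil)) .nil)) .nil)) .nil)) (.cons 277 (.leaf 278 2000 (.cons 229 (.leaf 230 1809 (.cons 249 (.leaf 228 1801 (.leaf 276 1992 .nil)) .nil)) .nil)) (.cons 226 (.leaf 225 1803 (.cons 299 (.leaf 323 1815 (.cons 229 (.leaf 230 1809 (.cons 277 (.leaf 278 2000 (.cons 205 (.cons 181 (.leaf 276 1446 (.cons 156 (.leaf 180 1255 (.cons 157 (.leaf 228 1254 (.leaf 132 1063 .nil)) .nil)) .nil)) (.cons 206 (.leaf 228 1617 (.leaf 182 1453 .nil)) (.cons 181 (.leaf 276 1446 (.cons 182 (.leaf 158 1261 (.leaf 206 1453 .nil)) .nil)) .nil))) .nil)) .nil)) .nil)) .nil)) (.cons 226 (.leaf 225 1803 (.cons 229 (.leaf 230 1809 (.cons 249 (.leaf 228 1801 (.cons 248 (.leaf 276 1984 (.leaf 247 1785 .nil)) .nil)) .nil)) .nil)) (.cons 277 (.leaf 278 2000 (.cons 229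 (.leaf 230 1809 (.cons 249 (.leaf 276 1992 (.cons 224 (.leaf 225 1795 (.cons 248 (.leaf 223 1787 (.cons 272 (.leaf 271 1978 (.leaf 273 1986 .nil)) .nil)) .nil)) .nil)) .nil)) .nil)) (.cons 226 (.leaf 225 1803 (.cons 229 (.leaf 230 1809 (.cons 249 (.leaf 228 1801 (.cons 248 (.leaf 247 1785 (.cons 272 (.leaf 271 1978 (.leaf 273 1986 .nil)) .nil)) .nil)) .nil)) .nil)) .nil)))))
noncomputable def t54 : T := .cons 204 (.leaf 180 1438 (.cons 250 (.cons 229 (.leaf 230 1810 (.leaf 249 1801 .nil)) (.cons 229 (.leaf 230 1810 (.cons 205 (.cons 181 (.leaf 157 1254 (.leaf 276 1445 .nil)) (.cons 206 (.leaf 207 1626 (.leaf 226 1617 .nil)) .nil)) .nil)) (.cons 249 (.leaf 248 1793 (.cons 225 (.leaf 224 1795 (.cons 226 (.leaf 253 1800 (.leaf 205 1609 .nil)) .nil)) .nil)) .nil))) .nil)) (.cons 250 (.cons 229 (.leaf 230 1810 (.leaf 249 1801 .nil)) (.cons 229 (.leaf 230 1810 (.cons 253 (.cons 226 (.leaf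 225 1800 (.leaf 254 1808 .nil)) (.cons 254 (.leaf 255 1819 (.cons 278 (.leaf 277 2000 (.leaf 279 2008 .nil)) .nil)) (.cons 226 (.leaf 225 1800 (.cons 205 (.leaf 206 1617 (.cons 181 (.leaf 157 1254 (.leaf 276 1446 .nil)) .nil)) .nil)) .nil))) .nil)) (.cons 249 (.leaf 248 1793 (.cons 224 (.leaf 225 1795 (.cons 272 (.leaf 273 1986 (.cons 277 (.leaf 276 1992 (.cons 253 (.leaf 278 2000 (.cons 254 (.leaf 226 1811 (.leaf 255 1819 .nil)) .nil)) .nil)) .nil)) .nil)) .nil)) .nil))) (.cons 204 (.leaf 180 1438 (.cons 205 (.cons 206 (.leaf 207 1626 (.cons 226 (.leaf 203 1618 (.leaf 225 1609 .nil)) .nil)) (.cons 181 (.leaf 276 1445 (.cons 157 (.leaf 229 1254 (.leaf 133 1062 .nil)) .nil)) .nil)) .nil)) (.cons 204 (.leaf 180 1438 (.cons 276 (.cons 203 (.leaf 179 1436 (.cons 205 (.leaf 181 1445 (.cons 226 (.leaf 206 1618 (.leaf 225 1609 .nil)) .nil)) .nil)) (.cons 181 (.leaf 205 1445 (.cons 277 (.leaf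 301 1636 (.cons 278 (.leaf 250 2003 (.leaf 279 2011 .nil)) .nil)) .nil)) (.cons 179 (.leaf 203 1436 (.cons 277 (.leaf 301 1636 (.cons 250 (.leaf 278 2003 (.leaf 249 1992 .nil)) .nil)) .nil)) .nil))) .nil)) (.cons 204 (.leaf 180 1438 (.cons 276 (.cons 179 (.leaf 203 1436 (.cons 205 (.leaf 181 1445 (.cons 206 (.leaf 207 1626 (.cons 277 (.leaf 301 1636 (.cons 278 (.leaf 250 2003 (.leaf 279 2011 .nil)) .nil)) .nil)) .nil)) .nil)) (.cons 277 (.leaf 301 1636 (.cons 250 (.leaf 278 2003 (.leaf 249 1992 .nil)) .nil)) (.cons 203 (.leaf 179 1436 (.cons 205 (.leaf 181 1445 (.cons 206 (.leaf 207 1626 (.cons 230 (.leaf 231 1624 (.cons 229 (.leaf 250 1810 (.cons 182 (.leaf 183 1433 (.cons 158 (.leaf 134 1070 (.leaf 253 1262 .nil)) .nil)) .nil)) .nil)) .nil)) .nil)) .nil)) (.cons 179 (.leaf 203 1436 (.cons 205 (.leaf 181 1445 (.cons 206 (.leaf 207 1626 (.cons 277 (.leaf 301 1636 (.cons 278 (.leaf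 279 2011 (.cons 302 (.leaf 303 2200 (.cons 229 (.leaf 253 1644 (.cons 230 (.leaf 231 1818 (.leaf 254 1647 .nil)) .nil)) .nil)) .nil)) .nil)) .nil)) .nil)) .nil)) .nil)))) .nil)) (.cons 204 (.leaf 180 1438 (.cons 226 (.cons 225 (.leaf 224 1792 (.leaf 205 1609 .nil)) (.cons 253 (.leaf 254 1811 (.cons 229 (.cons 250 (.leaf 230 1809 (.leaf 249 1801 .nil)) (.cons 206 (.leaf 205 1617 (.cons 230 (.leaf 231 1818 (.leaf 207 1625 .nil)) .nil)) (.cons 250 (.leaf 249 1801 (.cons 277 (.leaf 278 2000 (.leaf 301 1639 .nil)) .nil)) .nil))) .nil)) (.cons 225 (.leaf 224 1792 (.leaf 253 1800 .nil)) .nil))) .nil)) (.cons 204 (.leaf 180 1438 (.cons 250 (.cons 229 (.leaf 230 1810 (.leaf 249 1801 .nil)) (.cons 229 (.leaf 230 1810 (.cons 253 (.cons 277 (.leaf 278 2000 (.leaf 301 1639 .nil)) (.cons 226 (.leaf 225 1800 (.leaf 254 1808 .nil)) .nil)) .nil)) (.cons 249 (.leaf 248 1793 (.cons 224 (.leaf 225 1795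 (.cons 272 (.leaf 273 1986 (.cons 277 (.leaf 276 1992 (.cons 253 (.leaf 278 2000 (.cons 254 (.leaf 226 1811 (.leaf 255 1819 .nil)) .nil)) .nil)) .nil)) .nil)) .nil)) .nil))) .nil)) .nil))))))
noncomputable def t55 : T := .cons 226 (.leaf 225 1803 (.cons 299 (.leaf 323 1815 (.cons 229 (.leaf 230 1809 (.cons 277 (.leaf 278 2000 (.cons 249 (.leaf 276 1992 (.cons 248 (.leaf 247 1785 (.cons 272 (.leaf 271 1978 (.leaf 273 1986 .nil)) .nil)) .nil)) .nil)) .nil)) .nil)) .nil)) (.cons 225 (.leaf 226 1803 (.cons 229 (.leaf 230 1809 (.cons 249 (.leaf 224 1795 (.cons 248 (.leaf 276 1984 (.cons 272 (.leaf 271 1978 (.leaf 273 1986 .nil)) .nil)) .nil)) .nil)) .nil)) (.cons 277 (.leaf 278 2000 (.cons 229 (.leaf 230 1809 (.cons 249 (.leaf 276 1992 (.cons 224 (.leaf 225 1795 (.cons 248 (.leaf 223 1787 (.cons 272 (.leaf 271 1978 (.leaf 273 1986 .nil)) .nil)) .nil)) .nil)) .nil)) .nil)) (.cons 277 (.leaf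 278 2000 (.cons 229 (.leaf 230 1809 (.cons 249 (.leaf 276 1992 (.cons 272 (.leaf 273 1986 (.cons 248 (.leaf 271 1978 (.cons 223 (.leaf 224 1787 (.cons 247 (.leaf 226 1785 (.leaf 222 1779 .nil)) .nil)) .nil)) .nil)) .nil)) .nil)) .nil)) (.cons 226 (.leaf 225 1803 (.cons 299 (.leaf 323 1815 (.cons 277 (.leaf 278 2000 (.cons 229 (.leaf 230 1809 (.cons 298 (.leaf 322 1814 (.cons 205 (.cons 180 (.leaf 204 1447 (.cons 181 (.leaf 276 1446 (.leaf 156 1255 .nil)) .nil)) (.cons 204 (.leaf 180 1447 (.cons 206 (.leaf 203 1618 (.leaf 182 1453 .nil)) .nil)) (.cons 276 (.leaf 181 1446 (.cons 203 (.leaf 179 1436 (.cons 206 (.leaf 204 1618 (.leaf 182 1453 .nil)) .nil)) .nil)) (.cons 181 (.leaf 276 1446 (.cons 182 (.leaf 158 1261 (.leaf 206 1453 .nil)) .nil)) .nil)))) .nil)) .nil)) .nil)) .nil)) .nil)) (.cons 226 (.leaf 225 1803 (.cons 277 (.leaf 278 2000 (.cons 249 (.leaf 276 1992 (.cons 248 (.leaf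 247 1785 (.cons 272 (.leaf 271 1978 (.leaf 273 1986 .nil)) .nil)) .nil)) .nil)) .nil)) (.cons 229 (.leaf 230 1809 (.cons 277 (.leaf 278 2000 (.cons 249 (.cons 226 (.leaf 225 1803 (.cons 248 (.leaf 247 1785 (.cons 272 (.leaf 271 1978 (.leaf 273 1986 .nil)) .nil)) .nil)) (.cons 272 (.leaf 273 1986 (.cons 248 (.leaf 271 1978 (.cons 223 (.leaf 224 1787 (.cons 247 (.leaf 226 1785 (.leaf 222 1779 .nil)) .nil)) .nil)) .nil)) (.cons 224 (.leaf 225 1795 (.cons 248 (.leaf 223 1787 (.cons 272 (.leaf 271 1978 (.leaf 273 1986 .nil)) .nil)) .nil)) (.cons 225 (.leaf 224 1795 (.leaf 226 1803 .nil)) .nil)))) .nil)) .nil)) .nil))))))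
noncomputable def t56 : T := .cons 253 (.cons 254 (.leaf 226 1811 (.cons 230 (.leaf 231 1817 (.cons 250 (.leaf 229 1809 (.cons 278 (.leaf 277 2000 (.leaf 279 2008 .nil)) .nil)) .nil)) .nil)) (.cons 250 t55 (.cons 254 (.cons 230 (.leaf 231 1817 (.cons 250 (.leaf 229 1809 (.cons 278 (.leaf 277 2000 (.leaf 279 2008 .nil)) .nil)) .nil)) (.cons 230 (.leaf 231 1817 (.cons 250 (.leaf 229 1809 (.cons 276 (.leaf 255 2010 (.cons 249 (.leaf 248 1984 (.leaf 277 1992 .nil)) .nil)) .nil)) .nil)) (.cons 255 (.leaf 276 2010 (.cons 279 (.leaf 278 2008 (.leaf 280 2016 .nil)) .nil)) .nil))) (.cons 254 (.leaf 226 1811 (.cons 255 (.leaf 276 2010 (.cons 279 (.leaf 278 2008 (.leaf 280 2016 .nil)) .nil)) .nil)) (.cons 254 (.leaf 226 1811 (.cons 230 (.leaf 231 1817 (.cons 250 (.leaf 229 1809 (.cons 276 (.leaf 255 2010 (.cons 249 (.leaf 248 1984 (.leaf 277 1992 .nil)) .nil)) .nil)) .nil)) .nil)) .nil))))) (.cons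 228 t54 (.cons 253 (.cons 254 (.leaf 226 1811 (.cons 230 (.leaf 231 1817 (.cons 250 (.leaf 229 1809 (.cons 255 (.leaf 276 2010 (.leaf 228 1819 .nil)) .nil)) .nil)) .nil)) (.cons 250 t53 (.cons 254 (.cons 230 (.leaf 231 1817 (.cons 250 (.leaf 229 1809 (.cons 255 (.leaf 276 2010 (.leaf 228 1819 .nil)) .nil)) .nil)) (.cons 230 (.leaf 231 1817 (.cons 278 (.leaf 279 2008 (.cons 250 (.leaf 229 1809 (.leaf 277 2000 .nil)) .nil)) .nil)) (.cons 255 (.leaf 276 2010 (.leaf 228 1819 .nil)) .nil))) (.cons 254 (.leaf 226 1811 (.cons 255 (.leaf 276 2010 (.leaf 228 1819 .nil)) .nil)) (.cons 254 (.leaf 226 1811 (.cons 230 (.leaf 231 1817 (.cons 250 (.leaf 229 1809 (.cons 278 (.leaf 277 2000 (.leaf 279 2008 .nil)) .nil)) .nil)) .nil)) .nil))))) (.cons 203 (.cons 204 (.leaf 180 1437 (.cons 179 (.leaf 276 1436 (.cons 155 (.leaf 228 1244 (.cons 154 (.leaf 178 1239 (.leaf 130 1047 .nil)) .nil)) .nil)) .nil))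 (.cons 204 (.leaf 180 1437 (.cons 299 (.leaf 228 1629 (.cons 322 (.leaf 298 1814 (.cons 323 (.leaf 346 2006 (.cons 226 (.leaf 250 1815 (.cons 224 (.leaf 225 1792 (.cons 205 (.leaf 206 1618 (.cons 347 (.leaf 276 2013 (.cons 348 (.leaf 324 2012 (.leaf 372 2204 .nil)) .nil)) .nil)) .nil)) .nil)) .nil)) .nil)) .nil)) .nil)) (.cons 179 (.leaf 276 1436 (.cons 155 (.leaf 228 1244 (.cons 154 (.leaf 178 1239 (.leaf 130 1047 .nil)) .nil)) .nil)) (.cons 179 (.leaf 276 1436 (.cons 180 (.leaf 204 1437 (.leaf 156 1245 .nil)) .nil)) (.cons 180 (.leaf 204 1437 (.cons 179 (.leaf 156 1245 (.cons 154 (.leaf 178 1239 (.cons 155 (.leaf 130 1047 (.leaf 228 1244 .nil)) .nil)) .nil)) .nil)) .nil))))) (.cons 203 (.cons 204 (.leaf 180 1437 (.cons 179 (.leaf 276 1436 (.cons 155 (.leaf 228 1244 (.cons 154 (.leaf 178 1239 (.leaf 130 1047 .nil)) .nil)) .nil)) .nil)) (.cons 204 (.leaf 180 1437 (.cons 299 (.leaf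 228 1629 (.cons 322 (.leaf 298 1814 (.cons 323 (.leaf 346 2006 (.cons 347 (.leaf 276 2013 (.cons 348 (.leaf 324 2012 (.leaf 372 2204 .nil)) .nil)) .nil)) .nil)) .nil)) .nil)) (.cons 179 (.leaf 276 1436 (.cons 155 (.leaf 228 1244 (.cons 154 (.leaf 178 1239 (.leaf 130 1047 .nil)) .nil)) .nil)) (.cons 179 (.leaf 276 1436 (.cons 180 (.leaf 204 1437 (.leaf 156 1245 .nil)) .nil)) (.cons 180 (.leaf 204 1437 (.cons 179 (.leaf 156 1245 (.cons 154 (.leaf 178 1239 (.cons 155 (.leaf 130 1047 (.leaf 228 1244 .nil)) .nil)) .nil)) .nil)) .nil))))) (.cons 253 (.cons 254 (.leaf 226 1811 (.cons 230 (.leaf 231 1817 (.cons 278 (.leaf 279 2008 (.cons 250 (.leaf 229 1809 (.leaf 277 2000 .nil)) .nil)) .nil)) .nil)) (.cons 250 t52 (.cons 228 (.cons 254 (.leaf 255 1819 (.cons 230 (.leaf 231 1817 (.cons 229 (.leaf 250 1809 (.cons 206 (.leaf 207 1625 (.cons 180 (.leaf 204 1438 (.cons 182 (.leaf 158 1262 (.leaf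 277 1454 .nil)) .nil)) .nil)) .nil)) .nil)) .nil)) (.cons 254 (.leaf 255 1819 (.cons 230 (.leaf 231 1817 (.cons 229 (.leaf 250 1809 (.cons 206 (.leaf 207 1625 (.cons 182 (.leaf 158 1262 (.leaf 277 1454 .nil)) .nil)) .nil)) .nil)) .nil)) (.cons 204 (.leaf 180 1438 (.leaf 299 1629 .nil)) .nil))) (.cons 254 (.leaf 226 1811 (.cons 228 (.leaf 255 1819 (.cons 204 (.leaf 180 1438 (.leaf 299 1629 .nil)) .nil)) .nil)) .nil)))) (.cons 226 t51 .nil))))))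
noncomputable def t57 : T := .cons 228 (.cons 254 (.leaf 226 1811 (.leaf 255 1819 .nil)) (.cons 204 (.leaf 180 1438 (.leaf 299 1629 .nil)) .nil)) (.cons 250 (.cons 225 (.leaf 226 1803 (.cons 249 (.leaf 224 1795 (.cons 248 (.leaf 276 1984 (.leaf 228 1793 .nil)) .nil)) .nil)) (.cons 225 (.leaf 226 1803 (.cons 229 (.leaf 230 1809 (.cons 249 (.leaf 224 1795 (.cons 277 (.leaf 276 1992 (.leaf 278 2000 .nil)) .nil)) .nil)) .nil)) (.cons 277 (.leaf 278 2000 (.cons 229 (.leaf 230 1809 (.cons 249 (.leaf 228 1801 (.leaf 276 1992 .nil)) .nil)) .nil)) (.cons 226 (.leaf 225 1803 (.cons 299 (.leaf 323 1815 (.cons 229 (.leaf 230 1809 (.cons 277 (.leaf 278 2000 (.cons 205 (.cons 180 (.leaf 204 1447 (.cons 181 (.leaf 276 1446 (.leaf 156 1255 .nil)) .nil)) (.cons 206 (.leaf 228 1617 (.leaf 182 1453 .nil)) .nil)) .nil)) .nil)) .nil)) .nil)) (.cons 226 (.leaf 225 1803 (.cons 229 (.leaf 230 1809 (.cons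 249 (.leaf 228 1801 (.cons 248 (.leaf 247 1785 (.cons 272 (.leaf 271 1978 (.leaf 273 1986 .nil)) .nil)) .nil)) .nil)) .nil)) .nil))))) (.cons 254 (.leaf 226 1811 (.cons 230 (.leaf 231 1817 (.cons 229 (.leaf 250 1809 (.cons 255 (.leaf 276 2010 (.cons 279 (.leaf 278 2008 (.leaf 280 2016 .nil)) .nil)) .nil)) .nil)) .nil)) (.cons 228 (.cons 254 (.leaf 255 1819 (.cons 230 (.leaf 231 1817 (.cons 229 (.leaf 250 1809 (.cons 206 (.leaf 207 1625 (.cons 180 (.leaf 204 1438 (.cons 182 (.leaf 158 1262 (.leaf 277 1454 .nil)) .nil)) .nil)) .nil)) .nil)) .nil)) (.cons 254 (.leaf 255 1819 (.cons 230 (.leaf 231 1817 (.cons 229 (.leaf 250 1809 (.cons 206 (.leaf 207 1625 (.cons 182 (.leaf 158 1262 (.leaf 277 1454 .nil)) .nil)) .nil)) .nil)) .nil)) (.cons 204 (.leaf 180 1438 (.leaf 299 1629 .nil)) .nil))) .nil)))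
noncomputable def t58 : T := .cons 276 (.leaf 277 1992 (.cons 179 (.leaf 203 1436 (.cons 273 (.leaf 272 1986 (.cons 253 (.leaf 274 1993 (.cons 224 (.leaf 225 1795 (.cons 230 (.leaf 229 1809 (.cons 254 (.leaf 255 2010 (.leaf 231 1817 .nil)) .nil)) .nil)) .nil)) .nil)) .nil)) .nil)) (.cons 225 (.leaf 224 1795 (.cons 273 (.leaf 272 1986 (.cons 253 (.cons 230 (.leaf 229 1809 (.cons 254 (.leaf 231 1817 (.cons 255 (.leaf 276 2010 (.cons 279 (.leaf 278 2008 (.leaf 280 2016 .nil)) .nil)) .nil)) .nil)) (.cons 230 (.leaf 229 1809 (.cons 254 (.leaf 231 1817 (.cons 278 (.leaf 277 2000 (.leaf 279 2008 .nil)) .nil)) .nil)) (.cons 230 (.leaf 229 1809 (.cons 254 (.leaf 231 1817 (.cons 276 (.leaf 255 2010 (.leaf 277 1992 .nil)) .nil)) .nil)) (.cons 277 (.leaf 276 1992 (.leaf 278 2000 .nil)) .nil)))) .nil)) .nil)) (.cons 273 (.leaf 272 1986 (.cons 224 (.leaf 225 1795 (.cons 253 (.leaf 274 1994 (.cons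 230 (.leaf 229 1809 (.cons 254 (.leaf 231 1817 (.cons 278 (.leaf 277 2000 (.leaf 279 2008 .nil)) .nil)) .nil)) .nil)) .nil)) .nil)) (.cons 273 (.leaf 272 1986 (.cons 224 (.leaf 225 1795 (.cons 274 (.leaf 253 1994 (.cons 203 (.leaf 298 1622 (.leaf 179 1430 .nil)) .nil)) .nil)) .nil)) (.cons 277 (.leaf 276 1992 (.cons 224 (.leaf 225 1795 (.cons 253 (.leaf 278 2000 (.cons 274 (.leaf 254 2002 (.cons 203 (.leaf 298 1622 (.leaf 179 1430 .nil)) .nil)) .nil)) .nil)) .nil)) (.cons 276 (.leaf 277 1992 (.cons 203 (.leaf 179 1436 (.cons 180 (.leaf 204 1437 (.cons 225 (.leaf 224 1795 (.cons 273 (.leaf 272 1986 (.cons 298 (.leaf 274 1622 (.cons 322 (.leaf 299 1814 (.leaf 297 1804 .nil)) .nil)) .nil)) .nil)) .nil)) .nil)) .nil)) (.cons 276 (.leaf 277 1992 (.cons 179 (.leaf 203 1436 (.cons 273 (.leaf 272 1986 (.cons 253 (.leaf 274 1993 (.cons 230 (.leaf 229 1809 (.cons 254 (.leaf 255 2010 (.leaf 231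 1817 .nil)) .nil)) .nil)) .nil)) .nil)) .nil)) .nil))))))
noncomputable def t59 : T := .cons 274 (.cons 179 (.leaf 203 1430 (.cons 248 (.leaf 247 1976 (.leaf 276 1984 .nil)) .nil)) (.cons 179 (.leaf 203 1430 (.cons 248 (.leaf 247 1976 (.cons 223 (.leaf 224 1787 (.cons 272 (.leaf 271 1978 (.cons 273 (.leaf 252 1985 (.cons 296 (.leaf 295 2170 (.cons 225 (.leaf 201 1606 (.leaf 320 1797 .nil)) .nil)) .nil)) .nil)) .nil)) .nil)) .nil)) (.cons 298 (.leaf 203 1622 (.leaf 322 1813 .nil)) (.cons 248 (.leaf 247 1976 (.leaf 276 1984 .nil)) .nil)))) (.cons 252 t58 (.cons 274 (.cons 179 (.leaf 203 1430 (.cons 248 (.leaf 247 1976 (.cons 223 (.leaf 224 1787 (.cons 272 (.leaf 271 1978 (.cons 273 (.leaf 252 1985 (.cons 296 (.leaf 295 2170 (.cons 225 (.leaf 201 1606 (.leaf 320 1797 .nil)) .nil)) .nil)) .nil)) .nil)) .nil)) .nil)) (.cons 248 (.leaf 247 1976 (.cons 224 (.leaf 223 1787 (.cons 272 (.leaf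 271 1978 (.cons 252 (.leaf 273 1985 (.leaf 225 1795 .nil)) .nil)) .nil)) .nil)) (.cons 298 (.leaf 203 1622 (.leaf 322 1813 .nil)) .nil))) (.cons 248 (.leaf 276 1984 (.cons 224 (.leaf 223 1787 (.cons 225 (.leaf 252 1795 (.cons 272 (.leaf 271 1978 (.cons 201 (.leaf 177 1414 (.leaf 296 1605 .nil)) .nil)) .nil)) .nil)) .nil)) (.cons 248 (.leaf 276 1984 (.cons 223 (.leaf 224 1787 (.cons 247 (.leaf 274 1976 (.leaf 222 1779 .nil)) .nil)) .nil)) (.cons 276 (.leaf 248 1984 (.cons 277 (.leaf 274 1995 (.leaf 278 2003 .nil)) .nil)) .nil)))))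
noncomputable def t60 : T := .cons 273 (.leaf 272 1986 (.cons 224 (.leaf 225 1795 (.cons 253 (.leaf 274 1994 (.cons 229 (.leaf 230 1809 (.cons 254 (.leaf 226 1811 (.cons 278 (.leaf 277 2000 (.leaf 279 2008 .nil)) .nil)) .nil)) .nil)) .nil)) .nil)) (.cons 273 (.leaf 272 1986 (.cons 224 (.leaf 225 1795 (.cons 253 (.leaf 274 1994 (.cons 229 (.leaf 230 1809 (.cons 254 (.leaf 226 1811 (.cons 255 (.leaf 276 2010 (.cons 279 (.leaf 278 2008 (.leaf 280 2016 .nil)) .nil)) .nil)) .nil)) .nil)) .nil)) .nil)) (.cons 225 (.leaf 224 1795 (.cons 253 (.leaf 226 1803 (.cons 230 (.leaf 229 1809 (.cons 254 (.leaf 274 2002 (.leaf 231 1817 .nil)) .nil)) .nil)) .nil)) (.cons 276 (.leaf 277 1992 (.cons 203 (.leaf 179 1436 (.cons 225 (.leaf 224 1795 (.cons 273 (.leaf 272 1986 (.cons 297 (.cons 180 (.leaf 204 1437 (.cons 274 (.leaf 296 2178 (.cons 321 (.leaf 226 1805 (.leaf 345 1997 .nil)) .nil)) .nil)) (.cons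 321 (.leaf 226 1805 (.cons 180 (.leaf 204 1437 (.cons 345 (.leaf 274 1997 (.cons 344 (.leaf 320 1990 (.leaf 368 2182 .nil)) .nil)) .nil)) .nil)) (.cons 296 (.leaf 274 2178 (.leaf 320 1798 .nil)) (.cons 180 (.leaf 204 1437 (.cons 320 (.leaf 296 1798 (.cons 321 (.leaf 226 1805 (.leaf 344 1990 .nil)) .nil)) .nil)) .nil)))) .nil)) .nil)) .nil)) .nil)) (.cons 276 (.leaf 277 1992 (.cons 179 (.leaf 203 1436 (.cons 273 (.leaf 272 1986 (.cons 253 (.leaf 274 1993 (.cons 254 (.leaf 255 2010 (.leaf 226 1811 .nil)) .nil)) .nil)) .nil)) .nil)) (.cons 276 (.leaf 277 1992 (.cons 179 (.leaf 203 1436 (.cons 225 (.leaf 224 1795 (.cons 253 (.leaf 226 1803 (.cons 230 (.leaf 229 1809 (.cons 254 (.leaf 255 2010 (.leaf 231 1817 .nil)) .nil)) .nil)) .nil)) .nil)) .nil)) (.cons 276 (.leaf 277 1992 (.cons 179 (.leaf 203 1436 (.cons 273 (.leaf 272 1986 (.cons 253 (.leaf 274 1993 (.cons 224 (.leaf 225 1795 (.cons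 230 (.leaf 229 1809 (.cons 254 (.leaf 255 2010 (.leaf 231 1817 .nil)) .nil)) .nil)) .nil)) .nil)) .nil)) .nil)) .nil))))))
noncomputable def t61 : T := .cons 252 (.cons 253 (.leaf 254 2002 (.leaf 273 1994 .nil)) (.cons 273 (.leaf 272 1985 (.cons 249 (.cons 276 (.leaf 248 1984 (.leaf 277 1992 .nil)) (.cons 224 (.leaf 225 1795 (.cons 248 (.leaf 247 1976 (.leaf 223 1787 .nil)) .nil)) (.cons 276 (.leaf 277 1992 (.cons 224 (.leaf 225 1795 (.cons 297 (.leaf 296 2178 (.cons 321 (.leaf 226 1805 (.leaf 345 1997 .nil)) .nil)) .nil)) .nil)) .nil))) .nil)) (.cons 253 (.leaf 254 2002 (.cons 225 (.leaf 226 1803 (.cons 229 (.leaf 230 1809 (.cons 249 (.leaf 224 1795 (.cons 248 (.leaf 247 1976 (.leaf 276 1984 .nil)) .nil)) .nil)) .nil)) .nil)) .nil))) (.cons 298 (.leaf 322 1813 (.cons 226 (.cons 201 (.leaf 225 1615 (.cons 297 (.leaf 321 1806 (.cons 276 (.leaf 277 2186 (.cons 296 (.leaf 273 2178 (.leaf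 295 2169 .nil)) .nil)) .nil)) .nil)) (.cons 299 (.leaf 323 1812 (.cons 297 (.leaf 321 1806 (.cons 276 (.leaf 277 2186 (.leaf 296 2177 .nil)) .nil)) .nil)) (.cons 299 (.leaf 323 1812 (.cons 225 (.leaf 201 1615 (.cons 224 (.leaf 223 1784 (.leaf 252 1792 .nil)) .nil)) .nil)) .nil))) .nil)) (.cons 298 (.leaf 322 1813 (.cons 226 (.cons 299 (.leaf 323 1812 (.cons 225 (.leaf 201 1615 (.cons 224 (.leaf 223 1784 (.cons 248 (.leaf 247 1786 (.cons 249 (.leaf 276 1984 (.cons 200 (.leaf 199 1595 (.cons 176 (.leaf 152 1220 (.leaf 273 1412 .nil)) .nil)) .nil)) .nil)) .nil)) .nil)) .nil)) (.cons 297 (.leaf 321 1806 (.cons 201 (.leaf 225 1615 (.cons 276 (.leaf 277 2186 (.cons 296 (.leaf 273 2178 (.leaf 295 2169 .nil)) .nil)) .nil)) .nil)) (.cons 299 (.leaf 323 1812 (.cons 297 (.leaf 321 1806 (.cons 276 (.leaf 277 2186 (.leaf 296 2177 .nil)) .nil)) .nil)) (.cons 299 (.leaf 323 1812 (.cons 225 (.leaf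 201 1615 (.cons 223 (.leaf 224 1784 (.cons 297 (.leaf 321 1806 (.cons 296 (.leaf 295 2169 (.cons 320 (.leaf 319 2362 (.cons 249 (.leaf 273 1798 (.cons 248 (.leaf 247 1976 (.leaf 272 1797 .nil)) .nil)) .nil)) .nil)) .nil)) .nil)) .nil)) .nil)) .nil)))) .nil)) (.cons 298 (.leaf 322 1813 (.cons 226 (.cons 299 (.leaf 323 1812 (.cons 297 (.leaf 321 1806 (.cons 276 (.leaf 277 2186 (.leaf 296 2177 .nil)) .nil)) .nil)) (.cons 225 (.leaf 201 1615 (.cons 224 (.leaf 223 1784 (.leaf 252 1792 .nil)) .nil)) .nil)) .nil)) (.cons 298 (.leaf 322 1813 (.cons 226 (.cons 299 (.leaf 323 1812 (.cons 297 (.leaf 321 1806 (.cons 201 (.leaf 225 1615 (.cons 296 (.leaf 295 2169 (.cons 272 (.leaf 271 2171 (.cons 273 (.leaf 252 1985 (.cons 320 (.leaf 319 2362 (.cons 344 (.leaf 368 2181 (.leaf 249 1989 .nil)) .nil)) .nil)) .nil)) .nil)) .nil)) .nil)) .nil)) (.cons 225 (.leaf 201 1615 (.cons 224 (.leaf 223 1784 (.leaf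 252 1792 .nil)) .nil)) (.cons 299 (.leaf 323 1812 (.cons 297 (.leaf 321 1806 (.cons 296 (.leaf 295 2169 (.cons 272 (.leaf 271 2171 (.cons 273 (.leaf 252 1985 (.cons 248 (.leaf 247 1979 (.cons 224 (.leaf 200 1604 (.cons 223 (.leaf 249 1787 (.leaf 199 1599 .nil)) .nil)) .nil)) .nil)) .nil)) .nil)) .nil)) .nil)) (.cons 299 (.leaf 323 1812 (.cons 225 (.leaf 201 1615 (.cons 223 (.leaf 224 1784 (.cons 297 (.leaf 321 1806 (.cons 296 (.leaf 295 2169 (.cons 320 (.leaf 319 2362 (.cons 249 (.leaf 273 1798 (.cons 248 (.leaf 247 1976 (.leaf 272 1797 .nil)) .nil)) .nil)) .nil)) .nil)) .nil)) .nil)) .nil)) .nil)))) .nil)) (.cons 298 (.leaf 322 1813 (.cons 276 (.cons 277 (.leaf 249 1995 (.leaf 278 2003 .nil)) (.cons 249 (.leaf 248 1984 (.cons 273 (.cons 252 (.leaf 272 1985 (.leaf 253 1993 .nil)) (.cons 272 (.leaf 271 1977 (.cons 296 (.leaf 295 2170 (.leaf 297 2178 .nil)) .nil)) (.cons 252 (.leaf 253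 1993 (.cons 225 (.leaf 224 1795 (.leaf 201 1612 .nil)) .nil)) .nil))) .nil)) (.cons 277 (.leaf 278 2003 (.leaf 297 2186 .nil)) .nil))) .nil)) (.cons 298 (.leaf 322 1813 (.cons 297 (.cons 226 (.leaf 321 1806 (.cons 299 (.leaf 323 1812 (.cons 276 (.leaf 277 2186 (.leaf 296 2177 .nil)) .nil)) .nil)) (.cons 321 (.leaf 226 1806 (.cons 345 (.leaf 273 1997 (.leaf 369 2189 .nil)) .nil)) (.cons 276 (.leaf 277 2186 (.cons 296 (.leaf 273 2178 (.leaf 295 2169 .nil)) .nil)) .nil))) .nil)) (.cons 298 (.leaf 322 1813 (.cons 249 (.cons 276 (.leaf 248 1984 (.leaf 277 1995 .nil)) (.cons 276 (.leaf 277 1995 (.cons 252 (.cons 273 (.leaf 272 1985 (.leaf 253 1993 .nil)) (.cons 253 (.leaf 254 2002 (.cons 225 (.leaf 224 1795 (.leaf 226 1803 .nil)) .nil)) (.cons 273 (.leaf 272 1985 (.cons 225 (.leaf 224 1795 (.leaf 201 1612 .nil)) .nil)) .nil))) .nil)) (.cons 248 (.leaf 247 1976 (.cons 272 (.leaf 271 1978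 (.cons 224 (.leaf 223 1787 (.cons 225 (.leaf 252 1795 (.cons 201 (.leaf 177 1420 (.leaf 226 1615 .nil)) .nil)) .nil)) .nil)) .nil)) .nil))) .nil)) .nil)))))))
noncomputable def t62 : T := .cons 276 (.leaf 277 1992 (.cons 203 (.leaf 179 1436 (.cons 225 (.leaf 224 1795 (.cons 273 (.leaf 272 1986 (.cons 204 (.leaf 180 1437 (.cons 226 (.leaf 253 1803 (.cons 205 (.leaf 206 1618 (.cons 297 (.leaf 321 1805 (.cons 296 (.leaf 320 1798 (.cons 298 (.leaf 299 2177 (.leaf 322 1804 .nil)) .nil)) .nil)) .nil)) .nil)) .nil)) .nil)) .nil)) .nil)) .nil)) (.cons 277 (.leaf 276 1992 (.cons 253 (.leaf 278 2000 (.cons 230 (.leaf 229 1809 (.cons 254 (.leaf 226 1811 (.leaf 231 1817 .nil)) .nil)) .nil)) .nil)) (.cons 225 (.leaf 224 1795 (.cons 253 (.leaf 226 1803 (.cons 230 (.leaf 229 1809 (.cons 254 (.leaf 231 1817 (.cons 278 (.leaf 277 2000 (.leaf 279 2008 .nil)) .nil)) .nil)) .nil)) .nil)) (.cons 225 (.leaf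 224 1795 (.cons 226 (.leaf 253 1803 (.cons 273 (.leaf 272 1986 (.cons 297 (.leaf 321 1805 (.cons 296 (.leaf 320 1798 (.cons 298 (.leaf 322 1804 (.cons 299 (.leaf 323 1815 (.leaf 276 2177 .nil)) .nil)) .nil)) .nil)) .nil)) .nil)) .nil)) (.cons 276 (.leaf 277 1992 (.cons 203 (.leaf 179 1436 (.cons 225 (.leaf 224 1795 (.cons 273 (.leaf 272 1986 (.cons 204 (.leaf 180 1437 (.cons 297 (.cons 320 (.leaf 296 1798 (.cons 321 (.leaf 226 1805 (.leaf 344 1990 .nil)) .nil)) (.cons 296 (.leaf 320 1798 (.cons 298 (.leaf 299 2177 (.leaf 322 1804 .nil)) .nil)) (.cons 321 (.leaf 226 1805 (.cons 322 (.leaf 298 1804 (.leaf 346 1996 .nil)) .nil)) .nil))) .nil)) .nil)) .nil)) .nil)) .nil)) (.cons 225 (.leaf 224 1795 (.cons 273 (.leaf 272 1986 (.cons 253 (.cons 230 (.leaf 229 1809 (.cons 254 (.leaf 231 1817 (.cons 255 (.leaf 276 2010 (.cons 279 (.leaf 278 2008 (.leaf 280 2016 .nil)) .nil)) .nil)) .nil))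 (.cons 230 (.leaf 229 1809 (.cons 254 (.leaf 231 1817 (.cons 278 (.leaf 277 2000 (.leaf 279 2008 .nil)) .nil)) .nil)) (.cons 230 (.leaf 229 1809 (.cons 254 (.leaf 231 1817 (.cons 276 (.leaf 255 2010 (.leaf 277 1992 .nil)) .nil)) .nil)) (.cons 277 (.leaf 276 1992 (.leaf 278 2000 .nil)) .nil)))) .nil)) .nil)) .nil)))))
noncomputable def t63 : T := .cons 249 (.cons 248 (.leaf 276 1984 (.cons 223 (.leaf 224 1787 (.cons 247 (.leaf 226 1785 (.leaf 222 1779 .nil)) .nil)) .nil)) (.cons 252 t62 (.cons 248 (.cons 224 (.leaf 223 1787 (.cons 225 (.leaf 252 1795 (.cons 272 (.leaf 271 1978 (.cons 201 (.leaf 177 1414 (.leaf 296 1605 .nil)) .nil)) .nil)) .nil)) (.cons 226 (.leaf 247 1785 (.cons 272 (.leaf 271 1978 (.cons 252 (.leaf 273 1986 (.cons 253 (.leaf 225 1803 (.leaf 254 1811 .nil)) .nil)) .nil)) .nil)) (.cons 223 (.leaf 224 1787 (.cons 247 (.leaf 226 1785 (.leaf 222 1779 .nil)) .nil)) .nil)))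 (.cons 248 (.leaf 276 1984 (.cons 224 (.leaf 223 1787 (.cons 225 (.leaf 252 1795 (.cons 272 (.leaf 271 1978 (.cons 201 (.leaf 177 1414 (.leaf 296 1605 .nil)) .nil)) .nil)) .nil)) .nil)) (.cons 248 (.leaf 276 1984 (.cons 226 (.leaf 247 1785 (.cons 272 (.leaf 271 1978 (.cons 252 (.leaf 273 1986 (.cons 253 (.leaf 225 1803 (.leaf 254 1811 .nil)) .nil)) .nil)) .nil)) .nil)) .nil))))) (.cons 274 (.cons 298 (.leaf 322 1813 (.cons 276 (.cons 277 (.leaf 249 1995 (.leaf 278 2003 .nil)) (.cons 249 (.leaf 248 1984 (.cons 273 (.cons 252 (.leaf 272 1985 (.leaf 253 1993 .nil)) (.cons 201 (.leaf 225 1612 (.cons 272 (.leaf 271 1977 (.cons 296 (.leaf 295 2170 (.leaf 297 2178 .nil)) .nil)) .nil)) (.cons 201 (.leaf 225 1612 (.cons 297 (.leaf 296 2178 (.cons 321 (.leaf 226 1805 (.leaf 345 1997 .nil)) .nil)) .nil)) .nil))) .nil)) (.cons 277 (.leaf 278 2003 (.leaf 297 2186 .nil)) .nil))) .nil)) t61) (.cons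 249 (.cons 248 (.leaf 276 1984 (.cons 224 (.leaf 223 1787 (.cons 225 (.leaf 252 1795 (.cons 272 (.leaf 271 1978 (.cons 201 (.leaf 177 1414 (.leaf 296 1605 .nil)) .nil)) .nil)) .nil)) .nil)) (.cons 252 t60 (.cons 248 (.cons 224 (.leaf 223 1787 (.cons 225 (.leaf 252 1795 (.cons 272 (.leaf 271 1978 (.cons 201 (.leaf 177 1414 (.leaf 296 1605 .nil)) .nil)) .nil)) .nil)) (.cons 226 (.leaf 247 1785 (.cons 272 (.leaf 271 1978 (.cons 252 (.leaf 273 1986 (.cons 253 (.leaf 225 1803 (.leaf 254 1811 .nil)) .nil)) .nil)) .nil)) (.cons 223 (.leaf 224 1787 (.cons 247 (.leaf 274 1976 (.leaf 226 1785 .nil)) .nil)) .nil))) (.cons 248 (.leaf 276 1984 (.cons 223 (.leaf 224 1787 (.cons 247 (.leaf 274 1976 (.leaf 226 1785 .nil)) .nil)) .nil)) (.cons 248 (.leaf 276 1984 (.cons 226 (.leaf 247 1785 (.cons 272 (.leaf 271 1978 (.cons 252 (.leaf 273 1986 (.cons 253 (.leaf 225 1803 (.leaf 254 1811 .nil)) .nil))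 .nil)) .nil)) .nil)) .nil))))) (.cons 299 (.cons 298 (.leaf 322 1814 (.cons 323 (.leaf 226 1815 (.cons 347 (.leaf 274 2007 (.cons 348 (.leaf 324 2012 (.leaf 372 2204 .nil)) .nil)) .nil)) .nil)) (.cons 298 (.leaf 322 1814 (.cons 203 (.leaf 274 1622 (.cons 180 (.leaf 204 1437 (.cons 179 (.leaf 156 1245 (.cons 276 (.leaf 252 1436 (.cons 277 (.leaf 278 2194 (.cons 154 (.leaf 178 1239 (.cons 155 (.leaf 130 1047 (.leaf 226 1238 .nil)) .nil)) .nil)) .nil)) .nil)) .nil)) .nil)) .nil)) (.cons 323 (.leaf 226 1815 (.cons 346 (.leaf 322 2006 (.cons 347 (.leaf 274 2007 (.leaf 370 2198 .nil)) .nil)) .nil)) (.cons 323 (.leaf 226 1815 (.cons 274 (.leaf 347 2007 (.cons 203 (.leaf 298 1622 (.leaf 179 1430 .nil)) .nil)) .nil)) (.cons 323 (.leaf 226 1815 (.cons 322 (.leaf 298 1814 (.leaf 346 2006 .nil)) .nil)) (.cons 322 (.leaf 298 1814 (.cons 323 (.leaf 346 2006 (.cons 347 (.leaf 274 2007 (.cons 348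 (.leaf 324 2012 (.leaf 372 2204 .nil)) .nil)) .nil)) .nil)) .nil)))))) (.cons 299 (.cons 323 (.leaf 226 1815 (.cons 322 (.leaf 298 1814 (.leaf 346 2006 .nil)) .nil)) (.cons 298 (.leaf 322 1814 (.cons 203 (.leaf 274 1622 (.cons 180 (.leaf 204 1437 (.cons 179 (.leaf 156 1245 (.cons 155 (.leaf 226 1238 (.cons 154 (.leaf 178 1239 (.leaf 130 1047 .nil)) .nil)) .nil)) .nil)) .nil)) .nil)) (.cons 323 (.leaf 226 1815 (.cons 346 (.leaf 322 2006 (.cons 347 (.leaf 274 2007 (.leaf 370 2198 .nil)) .nil)) .nil)) (.cons 323 (.leaf 226 1815 (.cons 274 (.leaf 347 2007 (.cons 203 (.leaf 298 1622 (.leaf 179 1430 .nil)) .nil)) .nil)) (.cons 322 (.leaf 298 1814 (.cons 323 (.leaf 346 2006 (.cons 347 (.leaf 274 2007 (.cons 348 (.leaf 324 2012 (.leaf 372 2204 .nil)) .nil)) .nil)) .nil)) .nil))))) (.cons 249 t59 .nil)))))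
noncomputable def t64 : T := .cons 277 (.leaf 278 2003 (.cons 249 (.leaf 248 1984 (.leaf 274 1995 .nil)) .nil)) (.cons 249 (.leaf 248 1984 (.cons 252 (.cons 203 (.leaf 179 1436 (.cons 225 (.leaf 224 1795 (.cons 273 (.leaf 272 1986 (.cons 204 (.leaf 180 1437 (.cons 274 (.leaf 298 1622 (.leaf 253 1993 .nil)) .nil)) .nil)) .nil)) .nil)) (.cons 225 (.leaf 224 1795 (.cons 179 (.leaf 203 1436 (.cons 253 (.leaf 226 1803 (.cons 230 (.leaf 229 1809 (.cons 254 (.leaf 255 2010 (.leaf 231 1817 .nil)) .nil)) .nil)) .nil)) .nil)) (.cons 273 (.leaf 272 1986 (.cons 225 (.leaf 224 1795 (.cons 226 (.leaf 253 1803 (.cons 297 (.leaf 321 1805 (.cons 296 (.leaf 274 2178 (.leaf 320 1798 .nil)) .nil)) .nil)) .nil)) .nil)) (.cons 203 (.leaf 179 1436 (.cons 225 (.leaf 224 1795 (.cons 273 (.leaf 272 1986 (.cons 204 (.leaf 180 1437 (.cons 274 (.leaf 298 1622 (.cons 201 (.leaf 177 1420 (.cons 297 (.leaf 296 2178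 (.cons 321 (.leaf 226 1805 (.leaf 345 1997 .nil)) .nil)) .nil)) .nil)) .nil)) .nil)) .nil)) .nil)) (.cons 273 (.leaf 272 1986 (.cons 253 (.leaf 274 1993 (.cons 254 (.leaf 255 2010 (.leaf 226 1811 .nil)) .nil)) .nil)) .nil))))) .nil)) (.cons 277 (.leaf 278 2003 (.cons 274 (.cons 179 (.leaf 203 1430 (.cons 253 (.leaf 254 2001 (.cons 273 (.leaf 252 1993 (.cons 272 (.leaf 271 1977 (.cons 298 (.leaf 297 2186 (.leaf 322 1813 .nil)) .nil)) .nil)) .nil)) .nil)) (.cons 179 (.leaf 203 1430 (.cons 253 (.leaf 254 2001 (.cons 273 (.leaf 252 1993 (.cons 272 (.leaf 271 1977 (.cons 296 (.leaf 295 2170 (.leaf 297 2178 .nil)) .nil)) .nil)) .nil)) .nil)) (.cons 253 (.leaf 254 2001 (.cons 273 (.leaf 252 1993 (.cons 297 (.leaf 296 2178 (.leaf 298 2186 .nil)) .nil)) .nil)) (.cons 203 (.leaf 298 1622 (.leaf 179 1430 .nil)) .nil)))) .nil)) (.cons 249 (.leaf 248 1984 (.cons 277 (.leaf 278 2003 (.leaf 252 1992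 .nil)) .nil)) .nil)))
noncomputable def t65 : T := .cons 205 (.leaf 206 1618 (.cons 252 (.leaf 272 1985 (.cons 253 (.leaf 254 2002 (.leaf 276 1993 .nil)) .nil)) .nil)) (.cons 205 (.leaf 206 1618 (.cons 272 (.cons 247 (.leaf 248 1979 (.cons 271 (.leaf 250 1977 (.leaf 246 1971 .nil)) .nil)) (.cons 271 (.leaf 250 1977 (.cons 295 (.leaf 296 2170 (.leaf 294 2162 .nil)) .nil)) (.cons 248 (.leaf 247 1979 (.cons 249 (.leaf 276 1987 (.cons 296 (.leaf 295 2170 (.leaf 201 1606 .nil)) .nil)) .nil)) .nil))) .nil)) (.cons 276 (.cons 249 (.leaf 248 1987 (.cons 297 (.leaf 296 2178 (.cons 321 (.leaf 250 1805 (.cons 344 (.leaf 320 1990 (.cons 345 (.leaf 368 2182 (.cons 346 (.leaf 322 1996 (.leaf 370 2188 .nil)) .nil)) .nil)) .nil)) .nil)) .nil)) (.cons 205 (.leaf 206 1618 (.cons 253 (.leaf 252 1993 (.cons 277 (.leaf 254 2001 (.cons 278 (.leaf 250 2003 (.cons 302 (.leaf 301 2192 (.leaf 303 2200 .nil))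 .nil)) .nil)) .nil)) .nil)) (.cons 253 (.leaf 252 1993 (.cons 205 (.leaf 206 1618 (.cons 248 (.leaf 249 1987 (.cons 277 (.leaf 254 2001 (.cons 302 (.leaf 301 2192 (.cons 278 (.leaf 303 2200 (.leaf 229 1644 .nil)) .nil)) .nil)) .nil)) .nil)) .nil)) .nil))) (.cons 252 (.leaf 272 1985 (.cons 253 (.leaf 254 2002 (.leaf 276 1993 .nil)) .nil)) (.cons 252 (.leaf 272 1985 (.cons 253 (.leaf 254 2002 (.leaf 250 1994 .nil)) .nil)) .nil))))
noncomputable def t66 : T := .cons 250 (.cons 228 (.leaf 248 1793 (.leaf 229 1802 .nil)) (.cons 228 (.leaf 229 1802 (.cons 252 (.leaf 253 1800 (.cons 273 (.leaf 272 1985 (.cons 201 (.leaf 200 1603 (.leaf 177 1420 .nil)) .nil)) .nil)) .nil)) (.cons 248 (.leaf 247 1976 (.leaf 276 1984 .nil)) .nil))) (.cons 250 (.cons 228 (.leaf 229 1802 (.cons 252 (.leaf 253 1800 (.cons 273 (.leaf 272 1985 (.cons 201 (.leaf 200 1603 (.leaf 177 1420 .nil)) .nil)) .nil)) .nil))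 (.cons 201 (.leaf 177 1420 (.cons 228 (.leaf 200 1603 (.leaf 229 1802 .nil)) .nil)) (.cons 252 (.leaf 253 1803 (.cons 273 (.leaf 272 1985 (.cons 276 (.leaf 277 1992 (.cons 297 (.leaf 296 2178 (.leaf 321 1805 .nil)) .nil)) .nil)) .nil)) .nil))) (.cons 248 (.leaf 228 1794 (.cons 247 (.leaf 246 1777 (.cons 273 (.leaf 272 1979 (.leaf 276 1987 .nil)) .nil)) .nil)) (.cons 250 (.cons 252 (.leaf 253 1803 (.cons 273 (.leaf 272 1985 (.cons 276 (.leaf 248 1984 (.leaf 277 1992 .nil)) .nil)) .nil)) (.cons 252 (.leaf 253 1803 (.cons 273 (.leaf 272 1985 (.cons 276 (.leaf 277 1992 (.cons 297 (.leaf 296 2178 (.leaf 321 1805 .nil)) .nil)) .nil)) .nil)) (.cons 248 (.leaf 247 1976 (.cons 177 (.leaf 201 1420 (.cons 252 (.leaf 253 1803 (.cons 272 (.leaf 273 1985 (.leaf 271 1978 .nil)) .nil)) .nil)) .nil)) (.cons 248 (.leaf 247 1976 (.leaf 276 1984 .nil)) .nil)))) (.cons 248 (.leaf 228 1794 (.cons 247 (.leaf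 250 1976 (.leaf 246 1777 .nil)) .nil)) .nil))))
noncomputable def t67 : T := .cons 276 (.cons 252 (.leaf 272 1985 (.leaf 253 1993 .nil)) (.cons 249 (.leaf 248 1987 (.cons 250 (.leaf 277 1995 (.cons 297 (.leaf 296 2178 (.leaf 321 1805 .nil)) .nil)) .nil)) .nil)) (.cons 272 (.cons 247 (.leaf 248 1979 (.cons 271 (.leaf 250 1977 (.leaf 246 1971 .nil)) .nil)) (.cons 271 (.leaf 250 1977 (.cons 295 (.leaf 296 2170 (.leaf 294 2162 .nil)) .nil)) (.cons 248 (.leaf 247 1979 (.cons 249 (.leaf 276 1987 (.cons 250 (.leaf 228 1793 (.cons 224 (.leaf 223 1787 (.cons 297 (.leaf 321 1805 (.leaf 200 1604 .nil)) .nil)) .nil)) .nil)) .nil)) (.cons 247 (.leaf 248 1979 (.cons 271 (.leaf 246 1971 (.cons 295 (.leaf 296 2170 (.leaf 294 2162 .nil)) .nil)) .nil)) .nil)))) (.cons 276 (.cons 248 (.leaf 249 1987 (.cons 252 (.leaf 253 1993 (.cons 228 (.leaf 181 1445 (.cons 277 (.leaf 301 1636 (.cons 278 (.leaf 250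 2003 (.leaf 279 2011 .nil)) .nil)) .nil)) .nil)) .nil)) (.cons 249 (.leaf 248 1987 (.cons 250 (.leaf 277 1995 (.cons 297 (.leaf 296 2178 (.leaf 321 1805 .nil)) .nil)) .nil)) (.cons 252 (.leaf 253 1993 (.cons 228 (.leaf 181 1445 (.cons 277 (.leaf 301 1636 (.cons 278 (.leaf 250 2003 (.leaf 279 2011 .nil)) .nil)) .nil)) .nil)) (.cons 253 (.leaf 252 1993 (.cons 248 (.leaf 249 1987 (.cons 254 (.leaf 277 2001 (.cons 229 (.leaf 228 1808 (.cons 278 (.leaf 181 1452 (.cons 302 (.leaf 230 1647 (.leaf 326 1839 .nil)) .nil)) .nil)) .nil)) .nil)) .nil)) (.cons 252 (.leaf 253 1993 (.cons 228 (.leaf 181 1445 (.cons 249 (.leaf 248 1987 (.cons 250 (.leaf 229 1801 (.cons 297 (.leaf 296 2178 (.leaf 321 1805 .nil)) .nil)) .nil)) .nil)) .nil)) .nil))))) (.cons 252 (.leaf 272 1985 (.cons 253 (.leaf 254 2002 (.leaf 276 1993 .nil)) .nil)) (.cons 272 (.leaf 252 1985 (.cons 247 (.leaf 248 1979 (.cons 271 (.leaf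 250 1977 (.leaf 246 1971 .nil)) .nil)) .nil)) .nil))))
noncomputable def t68 : T := .cons 205 (.leaf 206 1618 (.cons 228 (.leaf 225 1609 (.cons 229 (.cons 230 (.leaf 250 1810 (.leaf 231 1627 .nil)) (.cons 253 (.leaf 254 1808 (.cons 277 (.leaf 301 1639 (.cons 250 (.leaf 249 1802 (.cons 278 (.leaf 276 2003 (.leaf 252 2000 .nil)) .nil)) .nil)) .nil)) (.cons 230 (.leaf 231 1627 (.cons 254 (.leaf 253 1808 (.leaf 255 1816 .nil)) .nil)) .nil))) .nil)) .nil)) (.cons 205 (.leaf 206 1618 (.cons 273 t67 .nil)) (.cons 225 (.leaf 224 1601 (.cons 249 t66 .nil)) (.cons 205 (.leaf 206 1618 (.cons 228 (.leaf 225 1609 (.cons 229 (.cons 230 (.leaf 250 1810 (.leaf 231 1627 .nil)) (.cons 253 (.leaf 254 1808 (.cons 277 (.leaf 301 1639 (.cons 250 (.leaf 249 1802 (.cons 278 (.leaf 276 2003 (.leaf 302 1644 .nil)) .nil)) .nil)) .nil)) (.cons 230 (.leaf 231 1627 (.cons 254 (.leaf 253 1808 (.leaf 255 1816 .nil))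 .nil)) .nil))) .nil)) .nil)) (.cons 205 (.leaf 206 1618 (.cons 225 (.leaf 224 1601 (.leaf 228 1609 .nil)) .nil)) (.cons 225 (.leaf 224 1601 (.cons 273 t65 .nil)) .nil)))))
noncomputable def t69 : T := .cons 226 (.cons 250 (.leaf 230 1810 (.leaf 249 1802 .nil)) (.cons 253 (.leaf 254 1808 (.cons 206 (.leaf 205 1617 (.cons 230 (.leaf 207 1625 (.leaf 301 1645 .nil)) .nil)) .nil)) (.cons 249 (.leaf 250 1802 (.cons 205 (.leaf 206 1617 (.cons 225 (.leaf 248 1794 (.cons 200 (.leaf 201 1603 (.cons 224 (.leaf 252 1792 (.leaf 199 1595 .nil)) .nil)) .nil)) .nil)) .nil)) .nil))) (.cons 297 (.leaf 296 2177 (.cons 230 (.cons 206 (.leaf 207 1625 (.cons 205 (.leaf 226 1617 (.cons 253 (.leaf 182 1453 (.leaf 301 1645 .nil)) .nil)) .nil)) (.cons 231 (.leaf 252 1818 (.cons 255 (.leaf 254 1816 (.leaf 256 1824 .nil)) .nil)) .nil)) .nil)) (.cons 226 (.cons 205 (.leaf 206 1617 (.cons 253 (.leaf 254 1808 (.cons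 252 (.leaf 225 1800 (.leaf 181 1446 .nil)) .nil)) .nil)) (.cons 205 (.leaf 206 1617 (.cons 249 (.leaf 250 1802 (.cons 225 (.leaf 248 1794 (.cons 200 (.leaf 201 1603 (.cons 224 (.leaf 252 1792 (.leaf 199 1595 .nil)) .nil)) .nil)) .nil)) .nil)) (.cons 205 (.leaf 206 1617 (.cons 249 (.leaf 250 1802 (.cons 225 (.leaf 248 1794 (.cons 200 (.leaf 201 1603 (.cons 224 (.leaf 199 1595 (.cons 297 (.leaf 296 2177 (.leaf 273 1607 .nil)) .nil)) .nil)) .nil)) .nil)) .nil)) (.cons 205 (.leaf 206 1617 (.cons 253 (.leaf 254 1808 (.cons 181 (.leaf 252 1446 (.cons 156 (.leaf 180 1255 (.cons 157 (.leaf 132 1063 (.cons 158 (.leaf 134 1069 (.leaf 182 1261 .nil)) .nil)) .nil)) .nil)) .nil)) .nil)) (.cons 249 (.leaf 250 1802 (.cons 225 (.leaf 248 1794 (.cons 252 (.leaf 224 1792 (.leaf 253 1800 .nil)) .nil)) .nil)) .nil))))) (.cons 250 (.leaf 230 1810 (.cons 249 (.leaf 248 1984 (.leaf 226 1802 .nil)) .nil))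 (.cons 250 (.leaf 230 1810 (.cons 249 (.leaf 248 1984 (.leaf 252 1992 .nil)) .nil)) .nil))))
noncomputable def t70 : T := .cons 252 (.cons 254 (.leaf 274 2001 (.leaf 255 2010 .nil)) (.cons 226 (.leaf 225 1800 (.cons 250 (.leaf 249 1992 (.cons 229 (.leaf 230 1809 (.cons 205 (.leaf 206 1617 (.leaf 181 1446 .nil)) .nil)) .nil)) .nil)) .nil)) (.cons 252 (.cons 226 (.leaf 225 1800 (.cons 250 (.leaf 249 1992 (.cons 229 (.leaf 230 1809 (.cons 205 (.leaf 206 1617 (.leaf 181 1446 .nil)) .nil)) .nil)) .nil)) (.cons 301 (.leaf 325 1831 (.cons 274 (.leaf 273 1993 (.leaf 302 2192 .nil)) .nil)) .nil)) (.cons 254 (.leaf 274 2001 (.cons 229 (.leaf 226 1808 (.cons 255 (.leaf 230 1816 (.leaf 256 2018 .nil)) .nil)) .nil)) (.cons 252 (.cons 254 (.leaf 255 2010 (.leaf 226 1811 .nil)) (.cons 250 (.leaf 249 1992 (.cons 226 (.leaf 225 1800 (.cons 229 (.leaf 230 1809 (.cons 205 (.leaf 206 1617 (.leaf 181 1446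 .nil)) .nil)) .nil)) .nil)) (.cons 254 (.leaf 255 2010 (.cons 230 (.leaf 231 1817 (.cons 301 (.leaf 325 1837 (.cons 229 (.leaf 250 1809 (.leaf 206 1645 .nil)) .nil)) .nil)) .nil)) .nil))) (.cons 254 (.leaf 274 2001 (.cons 252 (.leaf 255 2010 (.leaf 226 1811 .nil)) .nil)) (.cons 254 (.leaf 274 2001 (.cons 255 (.leaf 252 2010 (.leaf 256 2018 .nil)) .nil)) .nil)))))
noncomputable def t71 : T := .cons 230 (.leaf 250 1810 (.cons 206 (.leaf 207 1625 (.cons 231 (.leaf 252 1818 (.cons 255 (.leaf 254 1816 (.leaf 256 1824 .nil)) .nil)) .nil)) .nil)) (.cons 230 (.cons 206 (.leaf 207 1625 (.cons 231 (.leaf 252 1818 (.cons 255 (.leaf 254 1816 (.leaf 256 1824 .nil)) .nil)) .nil)) (.cons 206 (.leaf 207 1625 (.cons 231 (.leaf 252 1818 (.cons 205 (.leaf 226 1617 (.cons 232 (.leaf 233 1643 (.cons 256 (.leaf 255 1824 (.leaf 257 1832 .nil)) .nil)) .nil)) .nil)) .nil)) (.cons 254 (.leaf 255 1816 (.cons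 206 (.leaf 207 1625 (.cons 226 (.leaf 205 1617 (.leaf 253 1808 .nil)) .nil)) .nil)) (.cons 231 (.leaf 252 1818 (.cons 255 (.leaf 254 1816 (.leaf 256 1824 .nil)) .nil)) (.cons 206 (.leaf 207 1625 (.cons 226 (.leaf 205 1617 (.cons 252 (.leaf 231 1818 (.cons 253 (.leaf 254 1808 (.leaf 225 1800 .nil)) .nil)) .nil)) .nil)) .nil))))) (.cons 226 (.cons 205 (.leaf 206 1617 (.cons 253 (.leaf 254 1808 (.cons 252 (.leaf 225 1800 (.leaf 181 1446 .nil)) .nil)) .nil)) (.cons 205 (.leaf 206 1617 (.cons 249 (.leaf 250 1802 (.cons 225 (.leaf 248 1794 (.cons 200 (.leaf 201 1603 (.cons 224 (.leaf 252 1792 (.leaf 199 1595 .nil)) .nil)) .nil)) .nil)) .nil)) (.cons 205 (.leaf 206 1617 (.cons 249 (.leaf 250 1802 (.cons 225 (.leaf 248 1794 (.cons 200 (.leaf 201 1603 (.cons 224 (.leaf 199 1595 (.leaf 273 1607 .nil)) .nil)) .nil)) .nil)) .nil)) (.cons 205 (.leaf 206 1617 (.cons 250 (.leaf 249 1802 (.cons 253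 (.leaf 254 1808 (.cons 252 (.leaf 181 1446 (.cons 274 (.leaf 273 1993 (.leaf 321 1806 .nil)) .nil)) .nil)) .nil)) .nil)) (.cons 250 (.leaf 249 1802 (.cons 253 (.leaf 254 1808 (.cons 225 (.leaf 252 1800 (.cons 200 (.leaf 201 1603 (.cons 224 (.leaf 223 1784 (.leaf 199 1595 .nil)) .nil)) .nil)) .nil)) .nil)) .nil))))) (.cons 250 (.leaf 230 1810 (.cons 249 (.leaf 248 1984 (.leaf 226 1802 .nil)) .nil)) .nil)))
noncomputable def t72 : T := .cons 274 (.leaf 298 1622 (.cons 250 (.leaf 179 1430 (.cons 204 (.leaf 180 1437 (.cons 228 (.leaf 299 1629 (.cons 229 (.leaf 230 1810 (.cons 249 (.leaf 248 1793 (.leaf 252 1801 .nil)) .nil)) .nil)) .nil)) .nil)) .nil)) (.cons 180 (.leaf 204 1437 (.cons 179 (.leaf 156 1245 (.cons 154 (.leaf 178 1239 (.cons 155 (.leaf 130 1047 (.cons 252 (.leaf 276 1436 (.leaf 228 1244 .nil)) .nil)) .nil)) .nil)) .nil)) (.cons 274 (.leaf 298 1622 (.cons 179 (.leaf 250 1430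 (.cons 156 (.leaf 180 1245 (.cons 155 (.leaf 132 1053 (.cons 252 (.leaf 276 1436 (.leaf 228 1244 .nil)) .nil)) .nil)) .nil)) .nil)) (.cons 274 (.leaf 298 1622 (.cons 250 (.leaf 179 1430 (.cons 273 (.cons 272 (.leaf 252 1985 (.leaf 271 1977 .nil)) (.cons 272 (.leaf 271 1977 (.cons 296 (.leaf 295 2170 (.cons 276 (.leaf 297 2178 (.cons 277 (.leaf 249 1995 (.leaf 278 2003 .nil)) .nil)) .nil)) .nil)) (.cons 249 (.cons 248 (.leaf 247 1976 (.leaf 276 1984 .nil)) (.cons 276 (.leaf 277 1995 (.cons 297 (.leaf 296 2178 (.cons 321 (.leaf 345 1997 (.leaf 226 1805 .nil)) .nil)) .nil)) (.cons 248 (.leaf 247 1976 (.leaf 228 1793 .nil)) .nil))) .nil))) .nil)) .nil)) (.cons 204 (.leaf 180 1437 (.cons 298 (.leaf 274 1622 (.cons 299 (.leaf 228 1629 (.leaf 322 1814 .nil)) .nil)) .nil)) (.cons 274 (.leaf 298 1622 (.cons 179 (.leaf 250 1430 (.cons 154 (.leaf 178 1239 (.cons 155 (.leaf 130 1047 (.cons 180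 (.leaf 204 1437 (.leaf 156 1245 .nil)) .nil)) .nil)) .nil)) .nil)) .nil)))))
noncomputable def t73 : T := .cons 203 t72 (.cons 299 (.cons 228 (.leaf 204 1629 (.cons 322 (.leaf 298 1814 (.cons 323 (.leaf 252 1821 (.leaf 346 2006 .nil)) .nil)) .nil)) (.cons 322 (.leaf 298 1814 (.cons 323 (.leaf 346 2006 (.cons 250 (.leaf 226 1815 (.cons 347 (.leaf 274 2007 (.cons 348 (.leaf 324 2012 (.leaf 372 2204 .nil)) .nil)) .nil)) .nil)) .nil)) (.cons 228 (.leaf 204 1629 (.cons 323 (.leaf 252 1821 (.cons 250 (.leaf 226 1815 (.cons 229 (.leaf 230 1810 (.cons 347 (.leaf 274 2007 (.cons 348 (.leaf 324 2012 (.leaf 372 2204 .nil)) .nil)) .nil)) .nil)) .nil)) .nil)) (.cons 228 (.leaf 204 1629 (.cons 298 (.leaf 322 1814 (.cons 276 (.cons 297 (.leaf 296 2177 (.cons 277 (.leaf 274 2186 (.leaf 278 2194 .nil)) .nil)) (.cons 297 (.leaf 296 2177 (.cons 229 t71 .nil)) (.cons 277 (.leaf 278 2194 (.cons 253 t70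 .nil)) (.cons 277 (.leaf 278 2194 (.cons 229 t69 .nil)) .nil)))) .nil)) .nil)) .nil)))) (.cons 203 (.cons 274 (.leaf 298 1622 (.cons 179 (.leaf 250 1430 (.cons 156 (.leaf 180 1245 (.cons 155 (.leaf 132 1053 (.cons 252 (.leaf 276 1436 (.leaf 228 1244 .nil)) .nil)) .nil)) .nil)) .nil)) (.cons 180 (.leaf 204 1437 (.cons 179 (.leaf 156 1245 (.cons 154 (.leaf 178 1239 (.cons 155 (.leaf 130 1047 (.cons 252 (.leaf 276 1436 (.leaf 228 1244 .nil)) .nil)) .nil)) .nil)) .nil)) (.cons 274 (.leaf 298 1622 (.cons 179 (.leaf 250 1430 (.cons 154 (.leaf 178 1239 (.cons 155 (.leaf 130 1047 (.cons 252 (.leaf 276 1436 (.leaf 228 1244 .nil)) .nil)) .nil)) .nil)) .nil)) (.cons 274 (.leaf 298 1622 (.cons 204 (.leaf 180 1437 (.cons 226 t68 .nil)) .nil)) (.cons 274 (.leaf 298 1622 (.cons 179 (.leaf 250 1430 (.cons 154 (.leaf 178 1239 (.cons 155 (.leaf 130 1047 (.cons 180 (.leaf 204 1437 (.leaf 156 1245 .nil))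 .nil)) .nil)) .nil)) .nil)) .nil))))) (.cons 250 (.cons 276 t64 t63) (.cons 252 (.cons 253 t57 t56) (.cons 299 t50 (.cons 203 t48 (.cons 299 t47 (.cons 203 t45 (.cons 203 (.cons 204 (.leaf 180 1437 (.cons 298 (.leaf 274 1622 (.cons 299 (.leaf 228 1629 (.leaf 322 1814 .nil)) .nil)) .nil)) (.cons 180 (.leaf 204 1437 (.cons 179 (.leaf 156 1245 (.cons 154 (.leaf 178 1239 (.cons 155 (.leaf 130 1047 (.cons 252 (.leaf 276 1436 (.leaf 228 1244 .nil)) .nil)) .nil)) .nil)) .nil)) (.cons 274 (.leaf 298 1622 (.cons 179 (.leaf 250 1430 (.cons 156 (.leaf 180 1245 (.cons 155 (.leaf 132 1053 (.cons 252 (.leaf 276 1436 (.leaf 228 1244 .nil)) .nil)) .nil)) .nil)) .nil)) (.cons 274 (.leaf 298 1622 (.cons 179 (.leaf 250 1430 (.cons 154 (.leaf 178 1239 (.cons 155 (.leaf 130 1047 (.cons 252 (.leaf 276 1436 (.leaf 228 1244 .nil)) .nil)) .nil)) .nil)) .nil)) (.cons 274 (.leaf 298 1622 (.cons 179 (.leaf 250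 1430 (.cons 154 (.leaf 178 1239 (.cons 155 (.leaf 130 1047 (.cons 180 (.leaf 204 1437 (.leaf 156 1245 .nil)) .nil)) .nil)) .nil)) .nil)) .nil))))) (.cons 299 (.cons 204 (.leaf 228 1629 (.cons 203 (.leaf 180 1437 (.cons 274 (.leaf 298 1622 (.cons 250 (.leaf 179 1430 (.cons 323 (.leaf 226 1815 (.leaf 347 2007 .nil)) .nil)) .nil)) .nil)) .nil)) (.cons 322 (.leaf 298 1814 (.cons 323 (.leaf 346 2006 (.cons 250 (.leaf 226 1815 (.cons 347 (.leaf 274 2007 (.cons 348 (.leaf 324 2012 (.leaf 372 2204 .nil)) .nil)) .nil)) .nil)) .nil)) (.cons 228 (.leaf 204 1629 (.cons 323 (.leaf 252 1821 (.cons 346 (.leaf 322 2006 (.cons 347 (.leaf 370 2198 (.cons 348 (.leaf 324 2012 (.leaf 372 2204 .nil)) .nil)) .nil)) .nil)) .nil)) (.cons 298 (.leaf 322 1814 (.cons 203 (.leaf 274 1622 (.cons 204 (.leaf 180 1437 (.leaf 228 1629 .nil)) .nil)) .nil)) .nil)))) .nil))))))))))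
noncomputable def t74 : T := .cons 178 (.leaf 202 1431 (.cons 179 (.leaf 154 1239 (.cons 156 (.leaf 180 1245 (.cons 155 (.leaf 132 1053 (.cons 250 (.leaf 274 1430 (.leaf 226 1238 .nil)) .nil)) .nil)) .nil)) .nil)) (.cons 180 (.leaf 204 1437 (.cons 179 (.leaf 156 1245 (.cons 154 (.leaf 178 1239 (.cons 155 (.leaf 130 1047 (.cons 250 (.leaf 274 1430 (.leaf 226 1238 .nil)) .nil)) .nil)) .nil)) .nil)) (.cons 204 (.leaf 180 1437 (.cons 299 (.leaf 228 1629 (.cons 226 (.leaf 202 1623 (.cons 205 (.leaf 206 1618 (.cons 224 (.leaf 225 1601 (.cons 323 (.leaf 250 1815 (.cons 346 (.leaf 322 2006 (.cons 347 (.leaf 370 2198 (.cons 348 (.leaf 324 2012 (.leaf 372 2204 .nil)) .nil)) .nil)) .nil)) .nil)) .nil)) .nil)) .nil)) .nil)) (.cons 178 (.leaf 202 1431 (.cons 179 (.leaf 154 1239 (.cons 250 (.leaf 274 1430 (.cons 226 (.leaf 155 1238 (.cons 299 (.leaf 323 1815 (.cons 228 (.leaf 204 1629 (.cons 229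 (.leaf 230 1810 (.leaf 249 1802 .nil)) .nil)) .nil)) .nil)) .nil)) .nil)) .nil)) (.cons 204 (.leaf 180 1437 (.cons 202 (.leaf 178 1431 (.cons 228 (.leaf 299 1629 (.cons 201 (.leaf 200 1600 (.leaf 229 1608 .nil)) .nil)) .nil)) .nil)) .nil))))
noncomputable def t75 : T := .cons 178 (.leaf 202 1431 (.cons 179 (.leaf 154 1239 (.cons 252 (.leaf 276 1436 (.cons 228 (.leaf 155 1244 (.cons 204 (.leaf 180 1437 (.leaf 299 1629 .nil)) .nil)) .nil)) .nil)) .nil)) (.cons 178 (.leaf 202 1431 (.cons 179 (.leaf 154 1239 (.cons 156 (.leaf 180 1245 (.cons 155 (.leaf 132 1053 (.cons 252 (.leaf 276 1436 (.leaf 228 1244 .nil)) .nil)) .nil)) .nil)) .nil)) (.cons 180 (.leaf 204 1437 (.cons 179 (.leaf 156 1245 (.cons 154 (.leaf 178 1239 (.cons 155 (.leaf 130 1047 (.cons 252 (.leaf 276 1436 (.leaf 228 1244 .nil)) .nil)) .nil)) .nil)) .nil)) (.cons 202 (.leaf 178 1431 (.cons 299 (.leaf 226 1623 (.cons 228 (.leaf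 204 1629 (.cons 200 (.leaf 201 1600 (.cons 229 (.leaf 230 1619 (.cons 323 (.leaf 252 1821 (.cons 346 (.leaf 322 2006 (.cons 347 (.leaf 370 2198 (.cons 348 (.leaf 324 2012 (.leaf 372 2204 .nil)) .nil)) .nil)) .nil)) .nil)) .nil)) .nil)) .nil)) .nil)) (.cons 180 (.leaf 204 1437 (.cons 179 (.leaf 156 1245 (.cons 252 (.leaf 276 1436 (.cons 228 (.leaf 155 1244 (.cons 299 (.leaf 323 1821 (.cons 226 (.leaf 202 1623 (.cons 225 (.leaf 224 1792 (.leaf 253 1800 .nil)) .nil)) .nil)) .nil)) .nil)) .nil)) .nil)) (.cons 202 (.leaf 178 1431 (.cons 204 (.leaf 180 1437 (.cons 226 (.leaf 299 1623 (.cons 205 (.leaf 206 1618 (.leaf 225 1610 .nil)) .nil)) .nil)) .nil)) .nil)))))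
noncomputable def t76 : T := .cons 202 (.leaf 178 1431 (.cons 204 (.leaf 180 1437 (.cons 201 (.cons 176 (.leaf 177 1411 (.cons 224 (.leaf 225 1602 (.cons 229 (.leaf 228 1608 (.cons 205 (.leaf 230 1616 (.cons 182 (.leaf 181 1425 (.cons 206 (.leaf 226 1618 (.leaf 183 1433 .nil)) .nil)) .nil)) .nil)) .nil)) .nil)) (.cons 176 (.leaf 177 1411 (.cons 200 (.leaf 175 1403 (.cons 224 (.leaf 223 1594 (.leaf 225 1602 .nil)) .nil)) .nil)) (.cons 228 (.leaf 200 1600 (.leaf 229 1608 .nil)) .nil))) .nil)) .nil)) (.cons 180 (.leaf 204 1437 (.cons 179 (.leaf 156 1245 (.cons 154 (.leaf 178 1239 (.cons 155 (.leaf 130 1047 (.cons 250 (.leaf 274 1430 (.leaf 226 1238 .nil)) .nil)) .nil)) .nil)) .nil)) (.cons 178 (.leaf 202 1431 (.cons 179 (.leaf 154 1239 (.cons 250 (.leaf 274 1430 (.cons 252 (.leaf 276 1436 (.cons 180 (.leaf 156 1245 (.cons 249 (.cons 228 (.leaf 248 1793 (.leaf 229 1801 .nil)) (.cons 224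 (.leaf 225 1795 (.cons 248 (.leaf 223 1787 (.cons 272 (.leaf 271 1978 (.leaf 273 1986 .nil)) .nil)) .nil)) (.cons 224 (.leaf 225 1795 (.cons 229 (.leaf 228 1801 (.cons 253 (.leaf 230 1809 (.cons 254 (.leaf 226 1811 (.cons 278 (.leaf 277 2000 (.leaf 279 2008 .nil)) .nil)) .nil)) .nil)) .nil)) .nil))) .nil)) .nil)) .nil)) .nil)) .nil)) (.cons 180 (.leaf 204 1437 (.cons 179 (.leaf 156 1245 (.cons 250 (.leaf 274 1430 (.cons 155 (.leaf 226 1238 (.cons 252 (.leaf 276 1436 (.leaf 228 1244 .nil)) .nil)) .nil)) .nil)) .nil)) (.cons 178 (.leaf 202 1431 (.cons 179 (.leaf 154 1239 (.cons 250 (.leaf 274 1430 (.cons 252 (.leaf 276 1436 (.cons 228 (.leaf 155 1244 (.cons 229 (.leaf 230 1810 (.leaf 249 1801 .nil)) .nil)) .nil)) .nil)) .nil)) .nil)) .nil))))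
noncomputable def t77 : T := .cons 178 (.leaf 202 1431 (.cons 179 (.leaf 154 1239 (.cons 156 (.leaf 180 1245 (.cons 155 (.leaf 132 1053 (.cons 252 (.leaf 276 1436 (.leaf 228 1244 .nil)) .nil)) .nil)) .nil)) .nil)) (.cons 179 (.cons 250 (.leaf 274 1430 (.cons 252 (.leaf 276 1436 (.cons 178 (.leaf 154 1239 (.cons 180 (.leaf 156 1245 (.cons 249 (.cons 228 (.leaf 248 1793 (.leaf 229 1801 .nil)) (.cons 224 (.leaf 225 1795 (.cons 248 (.leaf 223 1787 (.cons 272 (.leaf 271 1978 (.leaf 273 1986 .nil)) .nil)) .nil)) (.cons 224 (.leaf 225 1795 (.cons 229 (.leaf 228 1801 (.cons 253 (.leaf 230 1809 (.cons 254 (.leaf 226 1811 (.cons 278 (.leaf 277 2000 (.leaf 279 2008 .nil)) .nil)) .nil)) .nil)) .nil)) .nil))) .nil)) .nil)) .nil)) .nil)) (.cons 252 (.leaf 276 1436 (.cons 155 (.leaf 228 1244 (.cons 154 (.leaf 178 1239 (.leaf 130 1047 .nil)) .nil)) .nil)) (.cons 250 (.leaf 274 1430 (.cons 154 (.leaf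 178 1239 (.cons 155 (.leaf 130 1047 (.leaf 226 1238 .nil)) .nil)) .nil)) (.cons 250 (.leaf 274 1430 (.cons 155 (.leaf 226 1238 (.cons 252 (.leaf 276 1436 (.leaf 228 1244 .nil)) .nil)) .nil)) .nil)))) (.cons 179 (.cons 250 (.leaf 274 1430 (.cons 155 (.leaf 226 1238 (.cons 252 (.leaf 276 1436 (.leaf 228 1244 .nil)) .nil)) .nil)) (.cons 252 (.leaf 276 1436 (.cons 155 (.leaf 228 1244 (.cons 130 (.leaf 154 1047 (.cons 156 (.leaf 180 1245 (.leaf 132 1053 .nil)) .nil)) .nil)) .nil)) (.cons 156 (.leaf 180 1245 (.cons 155 (.leaf 132 1053 (.cons 250 (.leaf 274 1430 (.leaf 226 1238 .nil)) .nil)) .nil)) (.cons 250 (.leaf 274 1430 (.cons 252 (.leaf 276 1436 (.cons 180 (.leaf 156 1245 (.cons 226 (.cons 225 (.leaf 224 1792 (.leaf 253 1803 .nil)) (.cons 299 (.leaf 202 1623 (.leaf 323 1815 .nil)) .nil)) .nil)) .nil)) .nil)) .nil)))) (.cons 202 (.leaf 178 1431 (.cons 226 (.leaf 299 1623 (.cons 228 (.cons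 201 (.leaf 200 1600 (.leaf 229 1611 .nil)) (.cons 201 (.leaf 200 1600 (.cons 225 (.cons 224 (.leaf 252 1792 (.leaf 223 1593 .nil)) (.cons 249 (.leaf 248 1794 (.cons 252 (.leaf 253 1800 (.cons 273 (.leaf 297 1613 (.cons 272 (.leaf 274 1985 (.leaf 250 1986 .nil)) .nil)) .nil)) .nil)) (.cons 224 (.leaf 223 1593 (.cons 248 (.leaf 247 1786 (.leaf 249 1794 .nil)) .nil)) .nil))) .nil)) (.cons 229 (.leaf 230 1619 (.cons 205 (.leaf 206 1617 (.cons 249 (.leaf 250 1802 (.cons 225 (.leaf 248 1794 (.cons 224 (.leaf 252 1792 (.leaf 223 1593 .nil)) .nil)) .nil)) .nil)) .nil)) .nil))) .nil)) .nil)) (.cons 178 (.leaf 202 1431 (.cons 179 (.leaf 154 1239 (.cons 156 (.leaf 180 1245 (.cons 155 (.leaf 132 1053 (.cons 250 (.leaf 274 1430 (.leaf 226 1238 .nil)) .nil)) .nil)) .nil)) .nil)) .nil))))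
noncomputable def t78 : T := .cons 179 (.cons 250 (.leaf 274 1430 (.cons 252 (.leaf 276 1436 (.cons 178 (.leaf 154 1239 (.cons 180 (.leaf 204 1437 (.leaf 156 1245 .nil)) .nil)) .nil)) .nil)) (.cons 250 (.leaf 274 1430 (.cons 155 (.leaf 226 1238 (.cons 252 (.leaf 276 1436 (.leaf 228 1244 .nil)) .nil)) .nil)) (.cons 180 (.leaf 204 1437 (.leaf 156 1245 .nil)) .nil))) (.cons 179 (.cons 250 (.leaf 274 1430 (.cons 154 (.leaf 178 1239 (.cons 155 (.leaf 130 1047 (.leaf 226 1238 .nil)) .nil)) .nil)) (.cons 252 (.leaf 276 1436 (.cons 155 (.leaf 228 1244 (.cons 154 (.leaf 178 1239 (.leaf 130 1047 .nil)) .nil)) .nil)) (.cons 250 (.leaf 274 1430 (.cons 252 (.leaf 276 1436 (.cons 155 (.leaf 226 1238 (.leaf 228 1244 .nil)) .nil)) .nil)) (.cons 250 (.leaf 274 1430 (.cons 252 (.leaf 276 1436 (.cons 178 (.leaf 154 1239 (.cons 180 (.leaf 156 1245 (.cons 249 (.cons 228 (.leaf 248 1793 (.leaf 229 1801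 .nil)) (.cons 224 (.leaf 225 1795 (.cons 248 (.leaf 223 1787 (.cons 272 (.leaf 271 1978 (.leaf 273 1986 .nil)) .nil)) .nil)) (.cons 224 (.leaf 225 1795 (.cons 229 (.leaf 228 1801 (.cons 253 (.leaf 230 1809 (.cons 254 (.leaf 226 1811 (.cons 278 (.leaf 277 2000 (.leaf 279 2008 .nil)) .nil)) .nil)) .nil)) .nil)) .nil))) .nil)) .nil)) .nil)) .nil)) .nil)))) (.cons 179 (.cons 250 (.leaf 274 1430 (.cons 252 (.leaf 276 1436 (.cons 155 (.leaf 226 1238 (.leaf 228 1244 .nil)) .nil)) .nil)) (.cons 154 (.leaf 178 1239 (.cons 155 (.leaf 130 1047 (.cons 250 (.leaf 274 1430 (.leaf 226 1238 .nil)) .nil)) .nil)) (.cons 252 (.leaf 276 1436 (.cons 155 (.leaf 228 1244 (.cons 154 (.leaf 178 1239 (.leaf 130 1047 .nil)) .nil)) .nil)) (.cons 252 (.leaf 276 1436 (.cons 250 (.leaf 274 1430 (.cons 178 (.leaf 154 1239 (.cons 228 (.cons 229 (.leaf 230 1810 (.leaf 249 1801 .nil)) (.cons 299 (.leaf 204 1629 (.leaf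 323 1821 .nil)) .nil)) .nil)) .nil)) .nil)) .nil)))) (.cons 204 (.leaf 180 1437 (.cons 228 (.leaf 299 1629 (.cons 226 (.cons 205 (.leaf 206 1618 (.leaf 225 1609 .nil)) (.cons 205 (.leaf 206 1618 (.cons 229 (.cons 230 (.leaf 250 1810 (.leaf 231 1627 .nil)) (.cons 250 (.leaf 249 1802 (.cons 253 (.leaf 254 1808 (.cons 277 (.leaf 301 1639 (.cons 278 (.leaf 276 2003 (.leaf 252 2000 .nil)) .nil)) .nil)) .nil)) (.cons 230 (.leaf 231 1627 (.cons 254 (.leaf 253 1808 (.leaf 255 1816 .nil)) .nil)) .nil))) .nil)) (.cons 225 (.leaf 224 1601 (.cons 200 (.leaf 201 1603 (.cons 248 (.leaf 249 1794 (.cons 253 (.leaf 252 1800 (.cons 229 (.leaf 254 1808 (.cons 230 (.leaf 250 1810 (.leaf 231 1627 .nil)) .nil)) .nil)) .nil)) .nil)) .nil)) .nil))) .nil)) .nil)) (.cons 180 (.leaf 204 1437 (.cons 179 (.leaf 156 1245 (.cons 154 (.leaf 178 1239 (.cons 155 (.leaf 130 1047 (.cons 250 (.leaf 274 1430 (.leaf 226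 1238 .nil)) .nil)) .nil)) .nil)) .nil)) (.cons 180 (.leaf 204 1437 (.cons 179 (.leaf 156 1245 (.cons 154 (.leaf 178 1239 (.cons 155 (.leaf 130 1047 (.cons 252 (.leaf 276 1436 (.leaf 228 1244 .nil)) .nil)) .nil)) .nil)) .nil)) .nil)))))
noncomputable def t79 : T := .cons 228 (.leaf 204 1629 (.cons 226 (.leaf 202 1623 (.cons 250 (.leaf 323 1815 (.cons 229 (.leaf 230 1810 (.leaf 249 1802 .nil)) .nil)) .nil)) .nil)) (.cons 228 (.leaf 204 1629 (.cons 323 (.leaf 252 1821 (.cons 346 (.leaf 322 2006 (.cons 347 (.leaf 370 2198 (.cons 348 (.leaf 324 2012 (.leaf 372 2204 .nil)) .nil)) .nil)) .nil)) .nil)) (.cons 226 (.leaf 202 1623 (.cons 323 (.leaf 250 1815 (.cons 346 (.leaf 322 2006 (.cons 347 (.leaf 370 2198 (.cons 348 (.leaf 324 2012 (.leaf 372 2204 .nil)) .nil)) .nil)) .nil)) .nil)) (.cons 226 (.leaf 202 1623 (.cons 228 (.leaf 204 1629 (.cons 225 (.cons 200 (.leaf 201 1603 (.cons 199 (.leaf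 224 1595 (.cons 249 (.leaf 248 1794 (.cons 229 (.leaf 250 1802 (.cons 206 (.leaf 205 1617 (.cons 230 (.leaf 207 1625 (.cons 254 (.leaf 253 1808 (.leaf 255 1816 .nil)) .nil)) .nil)) .nil)) .nil)) .nil)) .nil)) (.cons 200 (.leaf 201 1603 (.cons 248 (.leaf 249 1794 (.cons 253 (.leaf 252 1800 (.cons 229 (.leaf 254 1808 (.cons 206 (.leaf 205 1617 (.cons 230 (.leaf 250 1810 (.leaf 207 1625 .nil)) .nil)) .nil)) .nil)) .nil)) .nil)) (.cons 200 (.leaf 201 1603 (.cons 224 (.leaf 252 1792 (.leaf 199 1595 .nil)) .nil)) (.cons 252 (.leaf 224 1792 (.leaf 253 1800 .nil)) .nil)))) .nil)) .nil)) .nil)))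
noncomputable def t80 : T := .cons 180 (.leaf 204 1437 (.cons 179 (.leaf 156 1245 (.cons 250 (.leaf 274 1430 (.cons 155 (.leaf 226 1238 (.cons 252 (.leaf 276 1436 (.leaf 228 1244 .nil)) .nil)) .nil)) .nil)) .nil)) (.cons 178 (.leaf 202 1431 (.cons 179 (.leaf 154 1239 (.cons 156 (.leaf 180 1245 (.cons 155 (.leaf 132 1053 (.cons 252 (.leaf 276 1436 (.leaf 228 1244 .nil)) .nil)) .nil)) .nil)) .nil)) (.cons 178 (.leaf 202 1431 (.cons 179 (.leaf 154 1239 (.cons 250 (.leaf 274 1430 (.cons 226 (.leaf 155 1238 (.cons 252 (.leaf 276 1436 (.cons 225 (.leaf 224 1792 (.leaf 253 1803 .nil)) .nil)) .nil)) .nil)) .nil)) .nil)) (.cons 202 (.leaf 178 1431 (.cons 204 (.leaf 180 1437 (.cons 201 (.cons 176 (.leaf 177 1411 (.cons 224 (.leaf 225 1602 (.cons 229 (.leaf 228 1608 (.cons 205 (.leaf 230 1616 (.cons 182 (.leaf 181 1425 (.cons 206 (.leaf 226 1618 (.leaf 183 1433 .nil)) .nil)) .nil)) .nil)) .nil))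 .nil)) (.cons 176 (.leaf 177 1411 (.cons 226 (.leaf 299 1623 (.cons 225 (.leaf 224 1601 (.leaf 205 1610 .nil)) .nil)) .nil)) (.cons 176 (.leaf 177 1411 (.cons 228 (.leaf 299 1629 (.leaf 200 1600 .nil)) .nil)) (.cons 228 (.leaf 299 1629 (.leaf 200 1600 .nil)) .nil)))) .nil)) .nil)) .nil)))
noncomputable def t81 : T := .cons 203 t80 (.cons 299 t79 (.cons 203 (.cons 180 (.leaf 204 1437 (.cons 179 (.leaf 156 1245 (.cons 250 (.leaf 274 1430 (.cons 252 (.leaf 276 1436 (.cons 228 (.leaf 155 1244 (.cons 229 (.leaf 230 1810 (.leaf 249 1801 .nil)) .nil)) .nil)) .nil)) .nil)) .nil)) (.cons 178 (.leaf 202 1431 (.cons 179 (.leaf 154 1239 (.cons 156 (.leaf 180 1245 (.cons 155 (.leaf 132 1053 (.cons 252 (.leaf 276 1436 (.leaf 228 1244 .nil)) .nil)) .nil)) .nil)) .nil)) (.cons 178 (.leaf 202 1431 (.cons 179 (.leaf 154 1239 (.cons 250 (.leaf 274 1430 (.cons 252 (.leaf 276 1436 (.cons 228 (.leaf 155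 1244 (.cons 229 (.leaf 230 1810 (.leaf 249 1801 .nil)) .nil)) .nil)) .nil)) .nil)) .nil)) (.cons 202 (.leaf 178 1431 (.cons 204 (.leaf 180 1437 (.cons 228 (.leaf 299 1629 (.cons 201 (.leaf 200 1600 (.leaf 229 1608 .nil)) .nil)) .nil)) .nil)) (.cons 178 (.leaf 202 1431 (.cons 179 (.leaf 154 1239 (.cons 180 (.leaf 204 1437 (.leaf 156 1245 .nil)) .nil)) .nil)) .nil))))) (.cons 203 (.cons 178 (.leaf 202 1431 (.cons 179 (.leaf 154 1239 (.cons 250 (.leaf 274 1430 (.cons 226 (.leaf 155 1238 (.cons 252 (.leaf 276 1436 (.cons 225 (.leaf 224 1792 (.leaf 253 1803 .nil)) .nil)) .nil)) .nil)) .nil)) .nil)) (.cons 180 (.leaf 204 1437 (.cons 179 (.leaf 156 1245 (.cons 154 (.leaf 178 1239 (.cons 155 (.leaf 130 1047 (.cons 250 (.leaf 274 1430 (.leaf 226 1238 .nil)) .nil)) .nil)) .nil)) .nil)) (.cons 180 (.leaf 204 1437 (.cons 179 (.leaf 156 1245 (.cons 250 (.leaf 274 1430 (.cons 226 (.leaf 155 1238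 (.cons 299 (.leaf 202 1623 (.leaf 323 1815 .nil)) .nil)) .nil)) .nil)) .nil)) (.cons 202 (.leaf 178 1431 (.cons 204 (.leaf 180 1437 (.cons 226 (.leaf 299 1623 (.cons 205 (.leaf 206 1618 (.leaf 225 1610 .nil)) .nil)) .nil)) .nil)) (.cons 178 (.leaf 202 1431 (.cons 179 (.leaf 154 1239 (.cons 180 (.leaf 204 1437 (.leaf 156 1245 .nil)) .nil)) .nil)) .nil))))) (.cons 203 t78 (.cons 203 t77 (.cons 203 t76 (.cons 203 t75 (.cons 203 t74 .nil))))))))
noncomputable def t82 : T := .cons 277 (.leaf 278 2003 (.cons 274 (.leaf 249 1995 (.cons 297 (.leaf 298 2186 (.cons 273 (.leaf 296 2178 (.cons 272 (.leaf 252 1985 (.leaf 271 1977 .nil)) .nil)) .nil)) .nil)) .nil)) (.cons 249 (.leaf 248 1984 (.cons 252 (.cons 273 (.leaf 272 1986 (.cons 274 (.leaf 253 1993 (.cons 297 (.leaf 296 2178 (.cons 226 (.leaf 202 1614 (.leaf 321 1805 .nil)) .nil)) .nil)) .nil)) (.cons 228 (.leaf 229 1801 (.cons 204 (.leaf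 180 1438 (.leaf 299 1630 .nil)) .nil)) .nil)) .nil)) (.cons 277 (.leaf 278 2003 (.cons 274 (.cons 297 (.leaf 298 2186 (.cons 273 (.leaf 296 2178 (.cons 272 (.leaf 252 1985 (.leaf 271 1977 .nil)) .nil)) .nil)) (.cons 253 (.leaf 254 2001 (.cons 252 (.leaf 273 1993 (.cons 229 (.leaf 230 1809 (.cons 181 (.leaf 205 1446 (.cons 301 (.leaf 302 2192 (.cons 228 (.leaf 204 1636 (.leaf 325 1831 .nil)) .nil)) .nil)) .nil)) .nil)) .nil)) (.cons 253 (.leaf 254 2001 (.cons 298 (.leaf 297 2186 (.cons 322 (.leaf 346 2005 (.leaf 227 1813 .nil)) .nil)) .nil)) .nil))) .nil)) (.cons 277 (.leaf 278 2003 (.cons 249 (.leaf 248 1984 (.leaf 252 1992 .nil)) .nil)) (.cons 277 (.leaf 278 2003 (.cons 249 (.leaf 248 1984 (.leaf 274 1995 .nil)) .nil)) .nil))))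
noncomputable def t83 : T := .cons 248 (.leaf 276 1984 (.cons 223 (.leaf 224 1787 (.cons 247 (.leaf 274 1976 (.leaf 222 1779 .nil)) .nil)) .nil)) (.cons 252 (.cons 224 (.leaf 225 1795 (.cons 277 (.leaf 276 1992 (.cons 253 (.leaf 278 2000 (.cons 230 (.leaf 229 1809 (.cons 254 (.leaf 274 2002 (.leaf 231 1817 .nil)) .nil)) .nil)) .nil)) .nil)) (.cons 224 (.leaf 225 1795 (.cons 228 (.leaf 229 1801 (.cons 204 (.leaf 180 1438 (.cons 299 (.leaf 227 1629 (.leaf 276 1630 .nil)) .nil)) .nil)) .nil)) (.cons 224 (.leaf 225 1795 (.cons 228 (.leaf 229 1801 (.cons 204 (.leaf 180 1438 (.cons 299 (.leaf 227 1629 (.leaf 323 1821 .nil)) .nil)) .nil)) .nil)) (.cons 277 (.leaf 276 1992 (.cons 228 (.leaf 229 1801 (.cons 180 (.leaf 204 1438 (.cons 253 (.leaf 278 2000 (.cons 254 (.leaf 274 2002 (.cons 227 (.leaf 226 1811 (.leaf 255 1819 .nil)) .nil)) .nil)) .nil)) .nil)) .nil)) (.cons 277 (.leaf 276 1992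 (.cons 224 (.leaf 225 1795 (.cons 253 (.leaf 278 2000 (.cons 254 (.leaf 274 2002 (.cons 227 (.leaf 226 1811 (.cons 228 (.leaf 255 1819 (.cons 204 (.leaf 180 1444 (.leaf 299 1629 .nil)) .nil)) .nil)) .nil)) .nil)) .nil)) .nil)) .nil))))) (.cons 248 (.cons 223 (.leaf 224 1787 (.cons 247 (.leaf 274 1976 (.leaf 222 1779 .nil)) .nil)) (.cons 224 (.leaf 223 1787 (.cons 225 (.leaf 252 1795 (.cons 272 (.leaf 271 1978 (.cons 201 (.leaf 177 1414 (.leaf 296 1605 .nil)) .nil)) .nil)) .nil)) (.cons 227 (.leaf 228 1793 (.cons 247 (.leaf 274 1976 (.leaf 226 1785 .nil)) .nil)) .nil))) (.cons 248 (.leaf 276 1984 (.cons 224 (.leaf 223 1787 (.cons 225 (.leaf 252 1795 (.cons 272 (.leaf 271 1978 (.cons 201 (.leaf 177 1414 (.leaf 296 1605 .nil)) .nil)) .nil)) .nil)) .nil)) (.cons 248 (.leaf 276 1984 (.cons 227 (.leaf 228 1793 (.cons 247 (.leaf 274 1976 (.leaf 226 1785 .nil)) .nil)) .nil)) .nil))))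
noncomputable def t84 : T := .cons 249 (.leaf 248 1984 (.cons 252 (.leaf 277 1992 (.cons 273 (.leaf 272 1986 (.cons 225 (.leaf 224 1795 (.cons 201 (.cons 274 (.leaf 253 1993 (.leaf 177 1420 .nil)) (.cons 178 (.leaf 202 1421 (.cons 176 (.leaf 200 1415 (.cons 177 (.leaf 152 1223 (.leaf 154 1229 .nil)) .nil)) .nil)) (.cons 274 (.leaf 253 1993 (.leaf 298 1612 .nil)) .nil))) .nil)) .nil)) .nil)) .nil)) (.cons 249 (.leaf 248 1984 (.cons 252 (.cons 273 (.leaf 272 1986 (.cons 225 (.leaf 224 1795 (.cons 201 (.cons 274 (.leaf 253 1993 (.leaf 177 1420 .nil)) (.cons 178 (.leaf 202 1421 (.cons 176 (.leaf 200 1415 (.cons 177 (.leaf 152 1223 (.leaf 154 1229 .nil)) .nil)) .nil)) (.cons 274 (.leaf 253 1993 (.leaf 298 1612 .nil)) .nil))) .nil)) .nil)) (.cons 228 (.leaf 229 1801 (.cons 204 (.leaf 180 1438 (.leaf 299 1630 .nil)) .nil)) .nil)) .nil)) (.cons 277 (.leaf 278 2003 (.cons 274 (.cons 297 (.leaf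 298 2186 (.cons 273 (.leaf 296 2178 (.cons 272 (.leaf 252 1985 (.leaf 271 1977 .nil)) .nil)) .nil)) (.cons 253 (.leaf 254 2001 (.cons 252 (.leaf 273 1993 (.cons 225 (.leaf 226 1803 (.cons 229 (.leaf 230 1809 (.cons 181 (.leaf 205 1446 (.cons 301 (.leaf 302 2192 (.cons 228 (.leaf 204 1636 (.leaf 325 1831 .nil)) .nil)) .nil)) .nil)) .nil)) .nil)) .nil)) (.cons 298 (.leaf 297 2186 (.cons 253 (.leaf 254 2001 (.cons 301 (.leaf 302 2192 (.cons 322 (.leaf 346 2005 (.cons 321 (.leaf 345 1998 (.cons 323 (.leaf 347 2004 (.cons 226 (.leaf 299 1812 (.cons 201 (.leaf 225 1615 (.cons 202 (.leaf 178 1428 (.leaf 177 1423 .nil)) .nil)) .nil)) .nil)) .nil)) .nil)) .nil)) .nil)) .nil)) .nil))) .nil)) (.cons 277 (.leaf 278 2003 (.cons 249 (.leaf 248 1984 (.leaf 274 1995 .nil)) .nil)) (.cons 249 (.leaf 248 1984 (.cons 277 (.leaf 278 2003 (.leaf 252 1992 .nil)) .nil)) .nil))))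
noncomputable def t85 : T := .cons 249 (.leaf 248 1984 (.cons 252 (.leaf 277 1992 (.cons 273 (.leaf 272 1986 (.cons 253 (.leaf 274 1993 (.leaf 225 1803 .nil)) .nil)) .nil)) .nil)) (.cons 249 (.leaf 248 1984 (.cons 252 (.cons 273 (.leaf 272 1986 (.cons 253 (.leaf 274 1993 (.leaf 225 1803 .nil)) .nil)) (.cons 273 (.leaf 272 1986 (.cons 253 (.leaf 274 1993 (.cons 254 (.leaf 255 2010 (.leaf 227 1811 .nil)) .nil)) .nil)) (.cons 273 (.leaf 272 1986 (.cons 297 (.leaf 321 1805 (.cons 296 (.leaf 274 2178 (.leaf 298 2177 .nil)) .nil)) .nil)) (.cons 225 (.leaf 224 1795 (.leaf 253 1803 .nil)) .nil)))) .nil)) (.cons 277 (.leaf 278 2003 (.cons 274 (.cons 253 (.leaf 254 2001 (.cons 252 (.leaf 273 1993 (.leaf 225 1803 .nil)) .nil)) (.cons 297 (.leaf 298 2186 (.cons 273 (.leaf 296 2178 (.cons 272 (.leaf 252 1985 (.leaf 271 1977 .nil)) .nil)) .nil)) (.cons 253 (.leaf 254 2001 (.cons 298 (.leaf 297 2186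 (.cons 322 (.leaf 227 1813 (.leaf 346 2005 .nil)) .nil)) .nil)) .nil))) .nil)) (.cons 277 (.leaf 278 2003 (.cons 249 (.leaf 248 1984 (.leaf 252 1992 .nil)) .nil)) (.cons 277 (.leaf 278 2003 (.cons 249 (.leaf 248 1984 (.leaf 274 1995 .nil)) .nil)) .nil))))
noncomputable def t86 : T := .leaf 323 1815 (.cons 227 (.cons 298 (.leaf 322 1814 (.cons 225 (.cons 201 (.leaf 274 1615 (.cons 228 (.leaf 204 1629 (.leaf 200 1603 .nil)) .nil)) (.cons 201 (.leaf 274 1615 (.cons 177 (.leaf 153 1228 (.cons 224 (.leaf 223 1784 (.leaf 252 1792 .nil)) .nil)) .nil)) (.cons 224 (.leaf 223 1784 (.leaf 252 1792 .nil)) .nil))) .nil)) (.cons 298 (.leaf 322 1814 (.cons 225 (.cons 201 (.leaf 274 1615 (.cons 177 (.leaf 153 1228 (.cons 224 (.leaf 223 1784 (.leaf 252 1792 .nil)) .nil)) .nil)) (.cons 274 (.leaf 201 1615 (.cons 252 (.leaf 253 1803 (.cons 272 (.leaf 273 1985 (.cons 297 (.leaf 321 1806 (.cons 296 (.leaf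 295 2169 (.leaf 271 2171 .nil)) .nil)) .nil)) .nil)) .nil)) (.cons 201 (.leaf 274 1615 (.cons 177 (.leaf 153 1228 (.cons 224 (.leaf 223 1784 (.cons 200 (.leaf 199 1595 (.cons 248 (.leaf 247 1786 (.leaf 272 1413 .nil)) .nil)) .nil)) .nil)) .nil)) (.cons 224 (.leaf 223 1784 (.leaf 252 1792 .nil)) .nil)))) .nil)) (.cons 228 (.leaf 204 1629 (.cons 229 (.leaf 230 1810 (.leaf 249 1802 .nil)) .nil)) .nil))) .nil)
noncomputable def t87 : T := .cons 228 (.leaf 229 1801 (.cons 180 (.leaf 204 1438 (.cons 272 (.leaf 273 1986 (.cons 277 (.leaf 276 1992 (.cons 253 (.leaf 278 2000 (.cons 254 (.leaf 274 2002 (.cons 227 (.leaf 226 1811 (.leaf 255 1819 .nil)) .nil)) .nil)) .nil)) .nil)) .nil)) .nil)) (.cons 277 (.leaf 276 1992 (.cons 225 (.leaf 224 1795 (.cons 253 (.leaf 226 1803 (.leaf 278 2000 .nil)) .nil)) .nil)) (.cons 273 (.leaf 272 1986 (.cons 224 (.leaf 225 1795 (.cons 253 (.leaf 274 1994 (.cons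 230 (.leaf 229 1809 (.cons 254 (.leaf 231 1817 (.cons 255 (.leaf 276 2010 (.cons 279 (.leaf 278 2008 (.leaf 280 2016 .nil)) .nil)) .nil)) .nil)) .nil)) .nil)) .nil)) (.cons 273 (.leaf 272 1986 (.cons 224 (.leaf 225 1795 (.cons 253 (.leaf 274 1994 (.cons 230 (.leaf 229 1809 (.cons 254 (.leaf 231 1817 (.cons 278 (.leaf 277 2000 (.leaf 279 2008 .nil)) .nil)) .nil)) .nil)) .nil)) .nil)) (.cons 276 (.leaf 277 1992 (.cons 225 (.leaf 224 1795 (.cons 228 (.leaf 229 1801 (.cons 204 (.leaf 180 1438 (.cons 205 (.leaf 181 1445 (.cons 226 (.leaf 227 1609 (.cons 273 (.leaf 272 1986 (.cons 202 (.leaf 178 1428 (.leaf 297 1613 .nil)) .nil)) .nil)) .nil)) .nil)) .nil)) .nil)) .nil)) .nil))))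
noncomputable def t88 : T := .cons 248 (.leaf 276 1984 (.cons 223 (.leaf 224 1787 (.cons 228 (.leaf 227 1793 (.cons 252 (.leaf 229 1801 (.cons 272 (.leaf 271 1978 (.leaf 273 1986 .nil)) .nil)) .nil)) .nil)) .nil)) (.cons 252 t87 (.cons 248 (.cons 227 (.leaf 228 1793 (.cons 247 (.leaf 274 1976 (.leaf 226 1785 .nil)) .nil)) (.cons 272 (.leaf 271 1978 (.cons 224 (.leaf 223 1787 (.cons 273 (.leaf 252 1986 (.cons 200 (.leaf 176 1412 (.leaf 297 1604 .nil)) .nil)) .nil)) .nil)) .nil)) (.cons 248 (.leaf 276 1984 (.cons 227 (.leaf 228 1793 (.cons 247 (.leaf 274 1976 (.leaf 226 1785 .nil)) .nil)) .nil)) (.cons 248 (.leaf 276 1984 (.cons 272 (.leaf 271 1978 (.cons 252 (.leaf 273 1986 (.cons 225 (.leaf 224 1795 (.cons 177 (.leaf 201 1414 (.cons 226 (.leaf 253 1803 (.cons 247 (.leaf 274 1976 (.leaf 227 1785 .nil)) .nil)) .nil)) .nil)) .nil)) .nil)) .nil)) (.cons 248 (.leaf 276 1984 (.cons 272 (.leaf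 271 1978 (.cons 224 (.leaf 223 1787 (.cons 273 (.leaf 252 1986 (.cons 200 (.leaf 176 1412 (.leaf 297 1604 .nil)) .nil)) .nil)) .nil)) .nil)) .nil)))))
noncomputable def t89 : T := .cons 248 (.leaf 276 1984 (.cons 223 (.leaf 224 1787 (.cons 247 (.leaf 222 1779 (.cons 271 (.leaf 272 1978 (.leaf 270 1970 .nil)) .nil)) .nil)) .nil)) (.cons 252 (.cons 224 (.leaf 225 1795 (.cons 228 (.leaf 229 1801 (.cons 204 (.leaf 180 1438 (.cons 299 (.leaf 227 1629 (.leaf 276 1630 .nil)) .nil)) .nil)) .nil)) (.cons 277 (.leaf 276 1992 (.cons 225 (.leaf 224 1795 (.cons 253 (.leaf 226 1803 (.leaf 278 2000 .nil)) .nil)) .nil)) (.cons 228 (.leaf 229 1801 (.cons 204 (.leaf 180 1438 (.cons 299 (.leaf 227 1629 (.leaf 276 1630 .nil)) .nil)) .nil)) (.cons 224 (.leaf 225 1795 (.cons 228 (.leaf 229 1801 (.cons 204 (.leaf 180 1438 (.cons 299 (.leaf 227 1629 (.leaf 323 1821 .nil)) .nil)) .nil)) .nil)) .nil)))) (.cons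 252 (.cons 224 (.leaf 225 1795 (.cons 248 (.leaf 223 1787 (.cons 272 (.leaf 271 1978 (.leaf 273 1986 .nil)) .nil)) .nil)) (.cons 228 (.leaf 229 1801 (.cons 180 (.leaf 204 1438 (.cons 248 (.leaf 227 1793 (.cons 272 (.leaf 271 1978 (.leaf 273 1986 .nil)) .nil)) .nil)) .nil)) (.cons 228 (.leaf 229 1801 (.cons 180 (.leaf 204 1438 (.cons 224 (.leaf 225 1795 (.cons 248 (.leaf 223 1787 (.leaf 227 1793 .nil)) .nil)) .nil)) .nil)) (.cons 228 (.leaf 229 1801 (.cons 180 (.leaf 204 1438 (.cons 225 (.leaf 224 1795 (.cons 226 (.leaf 253 1803 (.cons 299 (.leaf 323 1821 (.cons 202 (.leaf 178 1428 (.leaf 227 1623 .nil)) .nil)) .nil)) .nil)) .nil)) .nil)) .nil)))) (.cons 248 (.leaf 276 1984 (.cons 227 (.leaf 228 1793 (.cons 226 (.leaf 247 1785 (.cons 202 (.leaf 178 1428 (.leaf 299 1623 .nil)) .nil)) .nil)) .nil)) .nil)))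
noncomputable def t90 : T := .cons 297 (.cons 296 (.leaf 276 2177 (.cons 271 (.leaf 272 2171 (.cons 295 (.leaf 274 2169 (.leaf 270 2163 .nil)) .nil)) .nil)) (.cons 296 (.leaf 276 2177 (.cons 271 (.leaf 272 2171 (.cons 295 (.leaf 270 2163 (.cons 319 (.leaf 320 2362 (.leaf 318 2354 .nil)) .nil)) .nil)) .nil)) (.cons 274 (.leaf 321 1806 (.cons 225 (.leaf 201 1615 (.cons 223 (.leaf 224 1784 (.cons 296 (.leaf 295 2169 (.cons 272 (.leaf 271 2171 (.cons 320 (.leaf 319 2362 (.cons 248 (.leaf 249 1797 (.leaf 247 1791 .nil)) .nil)) .nil)) .nil)) .nil)) .nil)) .nil)) (.cons 321 (.leaf 274 1806 (.cons 249 (.leaf 273 1805 (.cons 248 (.leaf 276 1984 (.cons 227 (.leaf 322 1814 (.leaf 228 1793 .nil)) .nil)) .nil)) .nil)) .nil)))) (.cons 297 (.cons 296 (.leaf 276 2177 (.cons 271 (.leaf 272 2171 (.cons 295 (.leaf 274 2169 (.leaf 270 2163 .nil)) .nil)) .nil)) (.cons 296 (.leaf 276 2177 (.cons 271 (.leaf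 272 2171 (.cons 295 (.leaf 270 2163 (.cons 319 (.leaf 320 2362 (.leaf 318 2354 .nil)) .nil)) .nil)) .nil)) (.cons 274 (.leaf 321 1806 (.cons 225 (.leaf 201 1615 (.cons 223 (.leaf 224 1784 (.cons 296 (.leaf 295 2169 (.cons 272 (.leaf 271 2171 (.cons 320 (.leaf 319 2362 (.cons 248 (.leaf 249 1797 (.leaf 247 1791 .nil)) .nil)) .nil)) .nil)) .nil)) .nil)) .nil)) (.cons 321 (.leaf 274 1806 (.cons 249 (.leaf 273 1805 (.cons 248 (.leaf 276 1984 (.cons 227 (.leaf 228 1793 (.leaf 247 1785 .nil)) .nil)) .nil)) .nil)) .nil)))) (.cons 274 (.cons 297 (.leaf 321 1806 (.cons 225 (.leaf 201 1615 (.cons 223 (.leaf 224 1784 (.cons 276 (.leaf 277 2186 (.leaf 296 2177 .nil)) .nil)) .nil)) .nil)) (.cons 225 (.leaf 201 1615 (.cons 322 (.leaf 346 2005 (.leaf 249 1807 .nil)) .nil)) (.cons 297 (.leaf 321 1806 (.cons 276 (.leaf 277 2186 (.leaf 296 2177 .nil)) .nil)) .nil))) (.cons 227 (.leaf 322 1814 (.cons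 228 (.leaf 204 1629 (.cons 229 (.leaf 230 1810 (.leaf 249 1802 .nil)) .nil)) .nil)) (.cons 322 (.leaf 227 1814 (.cons 346 (.leaf 274 2005 (.leaf 370 2197 .nil)) .nil)) .nil))))
noncomputable def t91 : T := .cons 202 (.leaf 178 1428 (.cons 274 (.leaf 299 1620 (.cons 297 (.leaf 273 1614 (.cons 298 (.leaf 321 1806 (.cons 322 (.leaf 346 2005 (.leaf 227 1813 .nil)) .nil)) .nil)) .nil)) .nil)) (.cons 299 (.leaf 323 1815 (.cons 298 t90 .nil)) (.cons 202 (.leaf 178 1428 (.cons 274 (.cons 297 (.leaf 273 1614 (.cons 298 (.leaf 321 1806 (.cons 322 (.leaf 346 2005 (.leaf 227 1813 .nil)) .nil)) .nil)) (.cons 201 (.leaf 177 1423 (.cons 298 (.leaf 225 1615 (.cons 322 (.leaf 346 2005 (.leaf 227 1813 .nil)) .nil)) .nil)) (.cons 177 (.leaf 201 1423 (.cons 273 (.leaf 297 1614 (.cons 272 (.leaf 271 1977 (.cons 248 (.leaf 247 1979 (.cons 249 (.leaf 276 1984 (.cons 223 (.leaf 224 1787 (.cons 227 (.leaf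 228 1793 (.cons 296 (.leaf 295 2170 (.cons 320 (.leaf 344 1989 (.leaf 225 1797 .nil)) .nil)) .nil)) .nil)) .nil)) .nil)) .nil)) .nil)) .nil)) (.cons 177 (.leaf 201 1423 (.cons 273 (.leaf 297 1614 (.cons 272 (.leaf 271 1977 (.cons 248 (.leaf 247 1979 (.cons 249 (.leaf 276 1984 (.cons 224 (.leaf 223 1787 (.cons 200 (.leaf 176 1412 (.cons 296 (.leaf 295 2170 (.cons 320 (.leaf 344 1989 (.leaf 225 1797 .nil)) .nil)) .nil)) .nil)) .nil)) .nil)) .nil)) .nil)) .nil)) .nil)))) .nil)) (.cons 202 (.leaf 178 1428 (.cons 299 (.leaf 227 1623 (.leaf 323 1815 .nil)) .nil)) (.cons 202 (.leaf 178 1428 (.cons 299 (.leaf 274 1620 (.leaf 323 1815 .nil)) .nil)) .nil))))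
noncomputable def t92 : T := .cons 248 (.leaf 276 1984 (.cons 227 (.leaf 228 1793 (.cons 247 (.leaf 274 1976 (.cons 271 (.leaf 272 1978 (.leaf 270 1970 .nil)) .nil)) .nil)) .nil)) (.cons 252 (.cons 224 (.leaf 225 1795 (.cons 273 (.leaf 272 1986 (.cons 253 (.leaf 274 1994 (.cons 277 (.leaf 276 1992 (.leaf 278 2000 .nil)) .nil)) .nil)) .nil)) (.cons 228 (.leaf 229 1801 (.cons 180 (.leaf 204 1438 (.cons 225 (.leaf 224 1795 (.cons 273 (.leaf 272 1986 (.cons 274 (.leaf 253 1994 (.cons 201 (.leaf 177 1420 (.leaf 298 1612 .nil)) .nil)) .nil)) .nil)) .nil)) .nil)) (.cons 277 (.leaf 276 1992 (.cons 224 (.leaf 225 1795 (.cons 253 (.leaf 278 2000 (.cons 230 (.leaf 229 1809 (.cons 254 (.leaf 274 2002 (.leaf 231 1817 .nil)) .nil)) .nil)) .nil)) .nil)) (.cons 228 (.leaf 229 1801 (.cons 204 (.leaf 180 1438 (.cons 299 (.leaf 227 1629 (.leaf 276 1630 .nil)) .nil)) .nil)) .nil)))) (.cons 248 (.cons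 227 (.leaf 228 1793 (.cons 247 (.leaf 274 1976 (.cons 271 (.leaf 272 1978 (.leaf 270 1970 .nil)) .nil)) .nil)) (.cons 223 (.leaf 224 1787 (.cons 247 (.leaf 274 1976 (.leaf 222 1779 .nil)) .nil)) (.cons 224 (.leaf 223 1787 (.cons 225 (.leaf 252 1795 (.cons 272 (.leaf 271 1978 (.cons 201 (.leaf 177 1414 (.leaf 296 1605 .nil)) .nil)) .nil)) .nil)) .nil))) (.cons 248 (.leaf 276 1984 (.cons 224 (.leaf 223 1787 (.cons 225 (.leaf 252 1795 (.cons 272 (.leaf 271 1978 (.cons 201 (.leaf 177 1414 (.leaf 296 1605 .nil)) .nil)) .nil)) .nil)) .nil)) (.cons 248 (.leaf 276 1984 (.cons 223 (.leaf 224 1787 (.cons 247 (.leaf 274 1976 (.leaf 222 1779 .nil)) .nil)) .nil)) .nil))))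
noncomputable def t93 : T := .cons 274 (.cons 322 (.leaf 346 2005 (.leaf 227 1813 .nil)) (.cons 201 (.leaf 225 1615 (.cons 297 (.leaf 321 1806 (.cons 276 (.leaf 277 2186 (.cons 296 (.leaf 273 2178 (.leaf 295 2169 .nil)) .nil)) .nil)) .nil)) .nil)) (.cons 299 (.leaf 323 1815 (.cons 227 (.leaf 322 1814 (.cons 228 (.leaf 204 1629 (.cons 229 (.leaf 230 1810 (.cons 205 (.leaf 206 1617 (.cons 253 (.leaf 254 1808 (.cons 225 (.leaf 252 1800 (.cons 200 (.leaf 201 1603 (.cons 224 (.leaf 223 1784 (.leaf 199 1595 .nil)) .nil)) .nil)) .nil)) .nil)) .nil)) .nil)) .nil)) .nil)) (.cons 299 (.leaf 323 1815 (.cons 225 (.cons 223 (.leaf 224 1784 (.cons 252 (.leaf 253 1803 (.cons 274 (.leaf 201 1615 (.cons 272 (.leaf 273 1985 (.cons 297 (.leaf 321 1806 (.cons 296 (.leaf 295 2169 (.leaf 276 2177 .nil)) .nil)) .nil)) .nil)) .nil)) .nil)) (.cons 223 (.leaf 224 1784 (.cons 274 (.leaf 201 1615 (.cons 297 (.leaf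 321 1806 (.cons 276 (.leaf 277 2186 (.leaf 296 2177 .nil)) .nil)) .nil)) .nil)) (.cons 224 (.leaf 223 1784 (.cons 252 (.leaf 227 1792 (.leaf 253 1803 .nil)) .nil)) (.cons 252 (.leaf 253 1803 (.cons 274 (.leaf 201 1615 (.cons 272 (.leaf 273 1985 (.cons 297 (.leaf 321 1806 (.cons 296 (.leaf 295 2169 (.leaf 276 2177 .nil)) .nil)) .nil)) .nil)) .nil)) .nil)))) .nil)) (.cons 299 (.leaf 323 1815 (.cons 322 (.leaf 227 1814 (.cons 346 (.leaf 274 2005 (.leaf 370 2197 .nil)) .nil)) .nil)) (.cons 323 (.leaf 299 1815 (.cons 274 (.cons 322 (.leaf 346 2005 (.leaf 347 2004 .nil)) (.cons 201 (.leaf 225 1615 (.cons 297 (.leaf 321 1806 (.cons 276 (.leaf 277 2186 (.cons 296 (.leaf 273 2178 (.leaf 295 2169 .nil)) .nil)) .nil)) .nil)) .nil)) .nil)) .nil))))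
noncomputable def t94 : T := .cons 277 (.leaf 278 2003 (.cons 249 (.leaf 248 1984 (.leaf 274 1995 .nil)) .nil)) (.cons 277 (.leaf 278 2003 (.cons 274 (.cons 253 (.leaf 254 2001 (.cons 298 (.leaf 297 2186 (.cons 322 (.leaf 346 2005 (.leaf 227 1813 .nil)) .nil)) .nil)) (.cons 298 (.leaf 297 2186 (.cons 322 (.leaf 346 2005 (.leaf 227 1813 .nil)) .nil)) (.cons 253 (.leaf 254 2001 (.cons 252 (.leaf 273 1993 (.cons 225 (.leaf 226 1803 (.cons 229 (.leaf 230 1809 (.cons 181 (.leaf 205 1446 (.cons 301 (.leaf 302 2192 (.cons 228 (.leaf 204 1636 (.leaf 325 1831 .nil)) .nil)) .nil)) .nil)) .nil)) .nil)) .nil)) .nil))) .nil)) (.cons 249 (.leaf 248 1984 (.cons 252 (.cons 273 (.leaf 272 1986 (.cons 225 (.leaf 224 1795 (.cons 201 (.cons 274 (.leaf 253 1993 (.leaf 177 1420 .nil)) (.cons 178 (.leaf 202 1421 (.cons 176 (.leaf 200 1415 (.cons 177 (.leaf 152 1223 (.leaf 154 1229 .nil)) .nil)) .nil)) (.cons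 274 (.leaf 253 1993 (.leaf 298 1612 .nil)) .nil))) .nil)) .nil)) (.cons 225 (.leaf 224 1795 (.cons 253 (.leaf 226 1803 (.cons 230 (.leaf 229 1809 (.cons 254 (.leaf 274 2002 (.leaf 255 2010 .nil)) .nil)) .nil)) .nil)) (.cons 228 (.leaf 229 1801 (.cons 204 (.leaf 180 1438 (.leaf 299 1630 .nil)) .nil)) .nil))) .nil)) (.cons 249 (.leaf 248 1984 (.cons 277 (.leaf 278 2003 (.leaf 252 1992 .nil)) .nil)) .nil)))
noncomputable def t95 : T := .cons 276 t94 (.cons 226 (.cons 299 (.leaf 323 1815 (.cons 202 (.leaf 178 1428 (.leaf 227 1623 .nil)) .nil)) (.cons 202 (.leaf 178 1428 (.cons 274 (.cons 297 (.leaf 273 1614 (.cons 298 (.leaf 321 1806 (.cons 322 (.leaf 346 2005 (.leaf 227 1813 .nil)) .nil)) .nil)) (.cons 201 (.leaf 177 1423 (.cons 298 (.leaf 225 1615 (.cons 322 (.leaf 346 2005 (.leaf 227 1813 .nil)) .nil)) .nil)) (.cons 273 (.leaf 297 1614 (.cons 252 (.leaf 272 1985 (.leaf 253 1994 .nil))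 .nil)) .nil))) .nil)) (.cons 298 t93 (.cons 299 (.leaf 323 1815 (.cons 202 (.leaf 178 1428 (.leaf 274 1620 .nil)) .nil)) .nil)))) (.cons 249 t92 (.cons 226 t91 (.cons 249 t89 (.cons 249 t88 (.cons 226 (.cons 202 (.leaf 178 1428 (.cons 299 (.leaf 227 1623 (.leaf 274 1620 .nil)) .nil)) (.cons 299 t86 (.cons 202 (.leaf 178 1428 (.cons 274 (.cons 177 (.leaf 201 1423 (.cons 273 (.leaf 297 1614 (.cons 252 (.leaf 272 1985 (.leaf 253 1994 .nil)) .nil)) .nil)) (.cons 201 (.leaf 177 1423 (.cons 298 (.leaf 225 1615 (.cons 322 (.leaf 346 2005 (.leaf 227 1813 .nil)) .nil)) .nil)) (.cons 273 (.leaf 297 1614 (.cons 252 (.leaf 272 1985 (.leaf 253 1994 .nil)) .nil)) .nil))) .nil)) (.cons 299 (.leaf 323 1815 (.cons 202 (.leaf 178 1428 (.leaf 227 1623 .nil)) .nil)) (.cons 202 (.leaf 178 1428 (.cons 299 (.leaf 274 1620 (.leaf 323 1815 .nil)) .nil)) .nil))))) (.cons 226 (.cons 299 (.leaf 323 1815 (.cons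 202 (.leaf 178 1428 (.leaf 227 1623 .nil)) .nil)) (.cons 299 (.leaf 323 1815 (.cons 276 t85 .nil)) (.cons 202 (.leaf 178 1428 (.cons 274 (.cons 177 (.leaf 201 1423 (.cons 273 (.leaf 297 1614 (.cons 252 (.leaf 272 1985 (.leaf 253 1994 .nil)) .nil)) .nil)) (.cons 201 (.leaf 177 1423 (.cons 298 (.leaf 225 1615 (.cons 322 (.leaf 346 2005 (.leaf 227 1813 .nil)) .nil)) .nil)) (.cons 273 (.leaf 297 1614 (.cons 252 (.leaf 272 1985 (.leaf 253 1994 .nil)) .nil)) .nil))) .nil)) (.cons 202 (.leaf 178 1428 (.cons 299 (.leaf 274 1620 (.leaf 323 1815 .nil)) .nil)) .nil)))) (.cons 276 t84 (.cons 249 t83 (.cons 276 (.cons 277 (.leaf 278 2003 (.cons 249 (.leaf 248 1984 (.leaf 274 1995 .nil)) .nil)) (.cons 249 (.leaf 248 1984 (.cons 252 (.cons 228 (.leaf 229 1801 (.cons 204 (.leaf 180 1438 (.leaf 299 1630 .nil)) .nil)) (.cons 225 (.leaf 224 1795 (.cons 253 (.leaf 226 1803 (.cons 230 (.leaf 229 1809 (.cons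 254 (.leaf 274 2002 (.leaf 255 2010 .nil)) .nil)) .nil)) .nil)) (.cons 225 (.leaf 224 1795 (.cons 226 (.leaf 253 1803 (.cons 202 (.leaf 178 1428 (.cons 299 (.leaf 227 1623 (.leaf 274 1620 .nil)) .nil)) .nil)) .nil)) .nil))) .nil)) (.cons 277 (.leaf 278 2003 (.cons 274 (.cons 298 (.leaf 297 2186 (.cons 322 (.leaf 346 2005 (.leaf 227 1813 .nil)) .nil)) (.cons 253 (.leaf 254 2001 (.cons 252 (.leaf 273 1993 (.cons 225 (.leaf 226 1803 (.cons 229 (.leaf 230 1809 (.cons 181 (.leaf 205 1446 (.cons 301 (.leaf 302 2192 (.cons 228 (.leaf 204 1636 (.leaf 325 1831 .nil)) .nil)) .nil)) .nil)) .nil)) .nil)) .nil)) .nil)) .nil)) (.cons 277 (.leaf 278 2003 (.cons 249 (.leaf 248 1984 (.leaf 252 1992 .nil)) .nil)) .nil)))) (.cons 276 t82 .nil)))))))))))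
noncomputable def t96 : T := .cons 252 (.leaf 253 1803 (.cons 249 (.leaf 224 1795 (.cons 276 (.leaf 248 1984 (.leaf 277 1992 .nil)) .nil)) .nil)) (.cons 252 (.leaf 253 1803 (.cons 249 (.cons 276 (.leaf 248 1984 (.leaf 277 1992 .nil)) (.cons 272 (.leaf 273 1986 (.cons 248 (.leaf 271 1978 (.cons 247 (.leaf 274 1976 (.leaf 227 1785 .nil)) .nil)) .nil)) (.cons 273 (.leaf 272 1986 (.cons 276 (.leaf 277 1992 (.cons 297 (.leaf 321 1805 (.cons 298 (.leaf 322 1804 (.cons 201 (.leaf 274 1612 (.cons 176 (.leaf 200 1415 (.cons 177 (.leaf 153 1228 (.leaf 152 1223 .nil)) .nil)) .nil)) .nil)) .nil)) .nil)) .nil)) .nil))) .nil)) (.cons 224 (.leaf 223 1784 (.cons 227 (.cons 203 (.leaf 204 1601 (.cons 274 (.leaf 298 1621 (.leaf 179 1430 .nil)) .nil)) (.cons 199 (.leaf 200 1595 (.cons 248 (.leaf 247 1786 (.cons 249 (.leaf 276 1984 (.cons 272 (.leaf 271 1978 (.cons 201 (.leaf 177 1414 (.cons 298 (.leaf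 322 1814 (.leaf 274 1615 .nil)) .nil)) .nil)) .nil)) .nil)) .nil)) (.cons 200 (.leaf 199 1595 (.cons 203 (.leaf 204 1601 (.cons 179 (.leaf 274 1430 (.leaf 155 1238 .nil)) .nil)) .nil)) (.cons 200 (.leaf 199 1595 (.cons 203 (.leaf 204 1601 (.cons 179 (.leaf 155 1238 (.cons 178 (.leaf 154 1239 (.cons 180 (.leaf 156 1245 (.cons 248 (.leaf 247 1786 (.cons 177 (.leaf 201 1410 (.cons 153 (.leaf 176 1221 (.leaf 152 1219 .nil)) .nil)) .nil)) .nil)) .nil)) .nil)) .nil)) .nil)) .nil)))) .nil)) (.cons 252 (.leaf 253 1803 (.cons 224 (.leaf 223 1784 (.leaf 227 1792 .nil)) .nil)) .nil)))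
noncomputable def t97 : T := .cons 299 (.leaf 323 1815 (.cons 225 (.cons 252 (.leaf 253 1803 (.cons 249 (.leaf 224 1795 (.cons 276 (.leaf 248 1984 (.leaf 277 1992 .nil)) .nil)) .nil)) (.cons 252 (.leaf 253 1803 (.cons 249 (.cons 276 (.leaf 248 1984 (.leaf 277 1992 .nil)) (.cons 272 (.leaf 273 1986 (.cons 248 (.leaf 271 1978 (.cons 247 (.leaf 274 1976 (.leaf 227 1785 .nil)) .nil)) .nil)) (.cons 202 (.leaf 178 1428 (.leaf 227 1623 .nil)) .nil))) .nil)) (.cons 224 (.leaf 223 1784 (.cons 227 (.leaf 202 1623 (.cons 203 (.leaf 204 1601 (.cons 274 (.leaf 298 1621 (.leaf 179 1430 .nil)) .nil)) .nil)) .nil)) .nil))) .nil)) (.cons 299 (.leaf 323 1815 (.cons 225 t96 .nil)) (.cons 202 (.leaf 178 1428 (.cons 274 (.cons 203 (.leaf 179 1429 (.cons 227 (.leaf 298 1621 (.cons 201 (.leaf 177 1423 (.cons 204 (.leaf 180 1437 (.cons 200 (.leaf 199 1592 (.cons 224 (.leaf 225 1601 (.leaf 223 1594 .nil))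 .nil)) .nil)) .nil)) .nil)) .nil)) (.cons 273 (.leaf 297 1614 (.cons 252 (.leaf 272 1985 (.leaf 253 1994 .nil)) .nil)) .nil)) .nil)) (.cons 202 (.leaf 178 1428 (.cons 299 (.leaf 227 1623 (.leaf 323 1815 .nil)) .nil)) (.cons 299 (.leaf 323 1815 (.cons 202 (.leaf 227 1623 (.leaf 274 1620 .nil)) .nil)) (.cons 202 (.leaf 178 1428 (.cons 299 (.leaf 274 1620 (.leaf 323 1815 .nil)) .nil)) .nil)))))
noncomputable def t98 : T := .cons 276 (.leaf 277 1992 (.cons 273 (.leaf 272 1986 (.cons 225 (.leaf 224 1795 (.cons 201 (.cons 274 (.leaf 253 1993 (.leaf 177 1420 .nil)) (.cons 176 (.leaf 200 1415 (.cons 177 (.leaf 152 1223 (.cons 178 (.leaf 154 1229 (.leaf 202 1421 .nil)) .nil)) .nil)) (.cons 274 (.leaf 253 1993 (.leaf 298 1612 .nil)) .nil))) .nil)) .nil)) .nil)) (.cons 273 (.leaf 272 1986 (.cons 224 (.leaf 225 1795 (.cons 253 (.leaf 274 1994 (.cons 230 (.leaf 229 1809 (.cons 254 (.leaf 231 1817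 (.cons 255 (.leaf 276 2010 (.cons 279 (.leaf 278 2008 (.leaf 280 2016 .nil)) .nil)) .nil)) .nil)) .nil)) .nil)) .nil)) (.cons 273 (.leaf 272 1986 (.cons 224 (.leaf 225 1795 (.cons 253 (.leaf 274 1994 (.cons 230 (.leaf 229 1809 (.cons 254 (.leaf 231 1817 (.cons 278 (.leaf 277 2000 (.leaf 279 2008 .nil)) .nil)) .nil)) .nil)) .nil)) .nil)) (.cons 277 (.leaf 276 1992 (.cons 225 (.leaf 224 1795 (.cons 253 (.leaf 226 1803 (.leaf 278 2000 .nil)) .nil)) .nil)) (.cons 277 (.leaf 276 1992 (.cons 253 (.leaf 278 2000 (.cons 273 (.leaf 272 1986 (.leaf 274 1994 .nil)) .nil)) .nil)) (.cons 276 (.leaf 277 1992 (.cons 273 (.leaf 272 1986 (.cons 225 (.leaf 224 1795 (.cons 201 (.cons 274 (.leaf 177 1420 (.leaf 298 1612 .nil)) (.cons 178 (.leaf 202 1421 (.cons 176 (.leaf 200 1415 (.cons 177 (.leaf 152 1223 (.leaf 154 1229 .nil)) .nil)) .nil)) (.cons 274 (.leaf 298 1612 (.cons 202 (.leaf 178 1421 (.cons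 226 (.leaf 299 1620 (.cons 200 (.leaf 176 1415 (.cons 199 (.leaf 198 1584 (.leaf 227 1592 .nil)) .nil)) .nil)) .nil)) .nil)) .nil))) .nil)) .nil)) .nil)) .nil)))))
noncomputable def t99 : T := .leaf 323 1815 (.cons 276 (.cons 277 (.leaf 278 2003 (.cons 249 (.leaf 248 1984 (.leaf 274 1995 .nil)) .nil)) (.cons 249 (.leaf 248 1984 (.cons 298 (.cons 297 (.leaf 296 2177 (.cons 321 (.leaf 273 1805 (.leaf 274 1806 .nil)) .nil)) (.cons 227 (.leaf 322 1814 (.cons 297 (.leaf 296 2177 (.cons 273 (.leaf 321 1805 (.cons 252 (.leaf 272 1986 (.cons 253 (.leaf 225 1803 (.leaf 254 1811 .nil)) .nil)) .nil)) .nil)) .nil)) (.cons 227 (.leaf 322 1814 (.cons 203 (.leaf 274 1621 (.cons 179 (.leaf 252 1436 (.leaf 155 1238 .nil)) .nil)) .nil)) .nil))) .nil)) (.cons 277 (.leaf 278 2003 (.cons 274 (.cons 253 (.leaf 254 2001 (.cons 252 (.leaf 273 1993 (.leaf 225 1803 .nil)) .nil)) (.cons 297 (.leaf 298 2186 (.cons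 273 (.leaf 296 2178 (.cons 272 (.leaf 252 1985 (.leaf 271 1977 .nil)) .nil)) .nil)) (.cons 253 (.leaf 254 2001 (.cons 298 (.leaf 297 2186 (.cons 227 (.leaf 203 1621 (.leaf 322 1813 .nil)) .nil)) .nil)) .nil))) .nil)) (.cons 277 (.leaf 278 2003 (.cons 249 (.leaf 248 1984 (.leaf 252 1992 .nil)) .nil)) .nil)))) .nil)
noncomputable def t100 : T := .cons 252 (.cons 273 (.leaf 272 1986 (.cons 253 (.leaf 274 1994 (.cons 229 (.leaf 230 1809 (.cons 276 (.leaf 248 1984 (.leaf 277 1992 .nil)) .nil)) .nil)) .nil)) (.cons 273 (.leaf 272 1986 (.cons 253 (.leaf 274 1994 (.cons 254 (.leaf 227 1811 (.cons 230 (.leaf 229 1809 (.leaf 231 1817 .nil)) .nil)) .nil)) .nil)) (.cons 276 (.leaf 248 1984 (.leaf 277 1992 .nil)) .nil))) (.cons 252 (.cons 272 (.leaf 273 1986 (.cons 277 (.leaf 276 1992 (.cons 253 (.leaf 278 2000 (.cons 254 (.leaf 274 2002 (.leaf 227 1811 .nil)) .nil)) .nil)) .nil)) (.cons 277 (.leaf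 276 1992 (.cons 253 (.leaf 278 2000 (.cons 254 (.leaf 274 2002 (.leaf 227 1811 .nil)) .nil)) .nil)) (.cons 273 (.leaf 272 1986 (.cons 253 (.leaf 274 1994 (.cons 229 (.leaf 230 1809 (.cons 254 (.leaf 227 1811 (.cons 255 (.leaf 276 2010 (.cons 279 (.leaf 278 2008 (.leaf 280 2016 .nil)) .nil)) .nil)) .nil)) .nil)) .nil)) (.cons 273 (.leaf 272 1986 (.cons 253 (.leaf 274 1994 (.cons 254 (.leaf 227 1811 (.cons 230 (.leaf 229 1809 (.leaf 231 1817 .nil)) .nil)) .nil)) .nil)) (.cons 277 (.leaf 276 1992 (.cons 253 (.leaf 278 2000 (.cons 230 (.leaf 229 1809 (.cons 254 (.leaf 227 1811 (.leaf 231 1817 .nil)) .nil)) .nil)) .nil)) (.cons 276 (.leaf 277 1992 (.cons 273 (.leaf 272 1986 (.cons 297 (.leaf 321 1805 (.cons 296 (.leaf 274 2178 (.leaf 298 2177 .nil)) .nil)) .nil)) .nil)) .nil)))))) (.cons 248 (.cons 247 (.leaf 274 1976 (.leaf 227 1785 .nil)) (.cons 224 (.leaf 223 1787 (.cons 272 (.leaf 271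 1978 (.cons 273 (.leaf 252 1986 (.cons 297 (.leaf 321 1805 (.leaf 200 1604 .nil)) .nil)) .nil)) .nil)) .nil)) (.cons 248 (.leaf 276 1984 (.cons 224 (.leaf 223 1787 (.cons 272 (.leaf 271 1978 (.cons 273 (.leaf 252 1986 (.cons 297 (.leaf 321 1805 (.leaf 200 1604 .nil)) .nil)) .nil)) .nil)) .nil)) (.cons 248 (.leaf 276 1984 (.cons 247 (.leaf 274 1976 (.leaf 227 1785 .nil)) .nil)) .nil))))
noncomputable def t101 : T := .cons 202 (.leaf 178 1428 (.cons 299 (.leaf 227 1623 (.leaf 274 1620 .nil)) .nil)) (.cons 299 (.leaf 323 1815 (.cons 249 t100 .nil)) (.cons 202 (.leaf 178 1428 (.cons 274 (.cons 203 (.leaf 179 1429 (.cons 227 (.leaf 298 1621 (.cons 201 (.leaf 177 1423 (.cons 204 (.leaf 180 1437 (.cons 200 (.leaf 199 1592 (.cons 224 (.leaf 223 1594 (.cons 176 (.leaf 175 1403 (.cons 248 (.cons 247 (.leaf 249 1976 (.leaf 271 1406 .nil)) (.cons 271 (.leaf 247 1406 (.cons 272 (.leaf 273 1977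 (.leaf 295 1598 .nil)) .nil)) (.cons 249 (.leaf 276 1984 (.leaf 273 1412 .nil)) .nil))) .nil)) .nil)) .nil)) .nil)) .nil)) .nil)) .nil)) (.cons 177 (.leaf 201 1423 (.cons 203 (.leaf 179 1429 (.cons 298 (.leaf 227 1621 (.cons 321 (.leaf 297 1806 (.cons 322 (.leaf 346 2005 (.leaf 345 1998 .nil)) .nil)) .nil)) .nil)) .nil)) (.cons 273 (.leaf 297 1614 (.cons 252 (.leaf 272 1985 (.leaf 253 1994 .nil)) .nil)) .nil))) .nil)) (.cons 202 (.leaf 178 1428 (.cons 299 (.leaf 227 1623 (.leaf 323 1815 .nil)) .nil)) (.cons 202 (.leaf 178 1428 (.cons 299 (.leaf 274 1620 (.leaf 323 1815 .nil)) .nil)) .nil))))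
noncomputable def t102 : T := .cons 323 (.leaf 226 1815 (.cons 252 (.leaf 347 2013 (.cons 322 (.leaf 346 2006 (.cons 298 (.leaf 227 1814 (.cons 297 (.leaf 274 2186 (.leaf 296 2177 .nil)) .nil)) .nil)) .nil)) .nil)) (.cons 298 (.cons 227 (.leaf 322 1814 (.cons 203 (.leaf 274 1622 (.cons 179 (.leaf 252 1436 (.cons 154 (.leaf 178 1239 (.cons 155 (.leaf 226 1238 (.leaf 130 1047 .nil)) .nil)) .nil)) .nil)) .nil)) (.cons 227 (.leaf 322 1814 (.cons 202 (.leaf 226 1623 (.cons 203 (.leaf 178 1431 (.cons 179 (.leaf 252 1436 (.cons 180 (.leaf 204 1437 (.leaf 156 1245 .nil)) .nil)) .nil)) .nil)) .nil)) (.cons 297 (.leaf 274 2186 (.leaf 296 2177 .nil)) .nil))) (.cons 323 (.cons 252 (.leaf 347 2013 (.cons 322 (.leaf 346 2006 (.cons 298 (.leaf 227 1814 (.cons 297 (.leaf 274 2186 (.leaf 296 2177 .nil)) .nil)) .nil)) .nil)) (.cons 322 (.leaf 346 2006 (.cons 298 (.leaf 227 1814 (.cons 297 (.leaf 274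 2186 (.leaf 296 2177 .nil)) .nil)) .nil)) (.cons 252 (.leaf 347 2013 (.cons 322 (.leaf 346 2006 (.cons 298 (.leaf 227 1814 (.cons 297 (.leaf 296 2177 (.cons 324 (.leaf 348 2012 (.leaf 325 2379 .nil)) .nil)) .nil)) .nil)) .nil)) (.cons 347 (.leaf 274 2007 (.leaf 252 2013 .nil)) .nil)))) (.cons 226 (.leaf 323 1815 (.cons 202 (.leaf 178 1428 (.leaf 227 1623 .nil)) .nil)) (.cons 323 (.leaf 226 1815 (.cons 347 (.leaf 274 2007 (.leaf 252 2013 .nil)) .nil)) .nil))))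
noncomputable def t103 : T := .cons 226 (.leaf 202 1623 (.cons 298 (.leaf 322 1814 (.cons 203 (.leaf 274 1621 (.cons 179 (.leaf 252 1436 (.leaf 155 1238 .nil)) .nil)) .nil)) .nil)) (.cons 298 (.leaf 322 1814 (.cons 203 (.leaf 274 1622 (.cons 178 (.leaf 202 1431 (.cons 179 (.leaf 154 1239 (.leaf 252 1436 .nil)) .nil)) .nil)) .nil)) (.cons 202 (.leaf 226 1623 (.cons 203 (.leaf 178 1431 (.cons 179 (.leaf 274 1430 (.leaf 252 1436 .nil)) .nil)) .nil)) (.cons 298 (.leaf 322 1814 (.cons 203 (.leaf 274 1622 (.cons 179 (.leaf 252 1436 (.cons 180 (.leaf 204 1437 (.leaf 156 1245 .nil)) .nil)) .nil)) .nil)) (.cons 226 (.leaf 202 1623 (.cons 298 (.leaf 322 1814 (.cons 297 (.leaf 296 2177 (.cons 274 (.leaf 321 1806 (.cons 225 (.leaf 201 1615 (.cons 224 (.leaf 223 1784 (.leaf 252 1792 .nil)) .nil)) .nil)) .nil)) .nil)) .nil)) (.cons 202 (.leaf 226 1623 (.cons 203 (.leaf 178 1431 (.cons 179 (.leaf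 252 1436 (.cons 180 (.leaf 204 1437 (.leaf 156 1245 .nil)) .nil)) .nil)) .nil)) (.cons 298 (.leaf 322 1814 (.cons 202 (.leaf 226 1623 (.cons 203 (.leaf 178 1431 (.leaf 274 1622 .nil)) .nil)) .nil)) .nil))))))
noncomputable def t104 : T := .cons 249 (.leaf 248 1984 (.cons 299 (.cons 323 (.leaf 226 1815 (.cons 347 (.leaf 274 2007 (.leaf 252 2013 .nil)) .nil)) (.cons 277 (.leaf 274 1995 (.leaf 278 2003 .nil)) (.cons 323 (.leaf 226 1815 (.cons 322 (.leaf 346 2006 (.cons 298 (.leaf 227 1814 (.cons 297 (.leaf 296 2177 (.cons 277 (.leaf 278 2194 (.leaf 252 1992 .nil)) .nil)) .nil)) .nil)) .nil)) .nil))) .nil)) (.cons 249 (.leaf 248 1984 (.cons 299 (.cons 323 (.leaf 226 1815 (.cons 347 (.leaf 274 2007 (.leaf 252 2013 .nil)) .nil)) (.cons 227 t103 (.cons 323 (.cons 347 (.leaf 274 2007 (.leaf 252 2013 .nil)) (.cons 322 (.leaf 346 2006 (.cons 298 (.leaf 227 1814 (.cons 297 (.leaf 296 2177 (.cons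 324 (.leaf 348 2012 (.leaf 325 2379 .nil)) .nil)) .nil)) .nil)) .nil)) (.cons 323 (.leaf 226 1815 (.cons 322 (.leaf 346 2006 (.cons 298 (.leaf 227 1814 (.cons 297 (.leaf 296 2177 (.cons 324 (.leaf 348 2012 (.leaf 325 2379 .nil)) .nil)) .nil)) .nil)) .nil)) .nil)))) .nil)) (.cons 277 (.leaf 278 2003 (.cons 299 t102 .nil)) (.cons 277 (.leaf 278 2003 (.cons 249 (.leaf 248 1984 (.leaf 252 1992 .nil)) .nil)) (.cons 277 (.leaf 278 2003 (.cons 249 (.leaf 248 1984 (.leaf 274 1995 .nil)) .nil)) .nil))))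
noncomputable def t105 : T := .cons 253 (.leaf 225 1803 (.cons 254 (.leaf 274 2002 (.leaf 227 1811 .nil)) .nil)) (.cons 249 (.cons 225 (.leaf 224 1795 (.cons 273 (.leaf 272 1986 (.cons 276 (.leaf 248 1984 (.leaf 277 1992 .nil)) .nil)) .nil)) (.cons 224 (.leaf 225 1795 (.cons 248 (.leaf 223 1787 (.cons 247 (.leaf 274 1976 (.leaf 227 1785 .nil)) .nil)) .nil)) (.cons 225 (.leaf 224 1795 (.cons 273 (.leaf 272 1986 (.cons 276 (.leaf 277 1992 (.cons 297 (.leaf 321 1805 (.cons 296 (.leaf 274 2178 (.leaf 320 1798 .nil)) .nil)) .nil)) .nil)) .nil)) (.cons 276 (.leaf 248 1984 (.leaf 277 1992 .nil)) .nil)))) (.cons 253 (.cons 254 (.leaf 274 2002 (.leaf 227 1811 .nil)) (.cons 229 (.leaf 230 1809 (.cons 273 (.leaf 274 1994 (.cons 249 (.leaf 272 1986 (.cons 276 (.leaf 248 1984 (.leaf 277 1992 .nil)) .nil)) .nil)) .nil)) (.cons 229 (.leaf 230 1809 (.cons 254 (.leaf 227 1811 (.cons 278 (.leaf 277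 2000 (.leaf 279 2008 .nil)) .nil)) .nil)) .nil))) (.cons 253 (.leaf 225 1803 (.cons 229 (.leaf 230 1809 (.cons 254 (.leaf 227 1811 (.cons 278 (.leaf 277 2000 (.leaf 279 2008 .nil)) .nil)) .nil)) .nil)) (.cons 249 (.cons 225 (.leaf 224 1795 (.leaf 253 1803 .nil)) (.cons 276 (.leaf 248 1984 (.leaf 277 1992 .nil)) .nil)) .nil))))
noncomputable def t106 : T := .cons 202 (.leaf 178 1428 (.cons 299 (.leaf 227 1623 (.leaf 274 1620 .nil)) .nil)) (.cons 299 (.leaf 323 1815 (.cons 252 t105 .nil)) (.cons 202 (.leaf 178 1428 (.cons 225 (.cons 224 (.leaf 223 1784 (.cons 252 (.leaf 227 1792 (.leaf 249 1795 .nil)) .nil)) (.cons 252 (.leaf 253 1803 (.cons 249 (.cons 273 (.leaf 272 1986 (.leaf 297 1613 .nil)) (.cons 276 (.leaf 248 1984 (.leaf 277 1992 .nil)) .nil)) .nil)) (.cons 224 (.leaf 223 1784 (.cons 227 (.cons 248 (.leaf 247 1786 (.cons 249 (.leaf 276 1984 (.cons 203 (.leaf 204 1601 (.cons 179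 (.leaf 274 1429 (.leaf 155 1238 .nil)) .nil)) .nil)) .nil)) (.cons 248 (.leaf 247 1786 (.cons 249 (.leaf 276 1984 (.cons 273 (.leaf 297 1613 (.cons 200 (.leaf 199 1595 (.leaf 176 1412 .nil)) .nil)) .nil)) .nil)) (.cons 200 (.leaf 199 1595 (.cons 203 (.leaf 204 1601 (.cons 179 (.leaf 274 1429 (.leaf 155 1238 .nil)) .nil)) .nil)) .nil))) .nil)) (.cons 224 (.leaf 223 1784 (.cons 252 (.leaf 227 1792 (.leaf 253 1803 .nil)) .nil)) .nil)))) .nil)) (.cons 202 (.leaf 178 1428 (.cons 225 (.cons 224 (.leaf 223 1784 (.cons 252 (.leaf 227 1792 (.leaf 249 1795 .nil)) .nil)) (.cons 252 (.leaf 253 1803 (.cons 249 (.cons 273 (.leaf 272 1986 (.leaf 297 1613 .nil)) (.cons 276 (.leaf 248 1984 (.leaf 277 1992 .nil)) .nil)) .nil)) (.cons 224 (.leaf 223 1784 (.cons 227 (.leaf 299 1623 (.cons 248 (.leaf 247 1786 (.cons 249 (.leaf 276 1984 (.cons 273 (.leaf 297 1613 (.cons 200 (.leaf 199 1595 (.leaf 176 1412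 .nil)) .nil)) .nil)) .nil)) .nil)) .nil)) (.cons 224 (.leaf 223 1784 (.cons 252 (.leaf 227 1792 (.leaf 253 1803 .nil)) .nil)) .nil)))) .nil)) (.cons 202 (.leaf 178 1428 (.cons 299 (.leaf 274 1620 (.leaf 323 1815 .nil)) .nil)) .nil))))
noncomputable def t107 : T := .cons 298 (.leaf 322 1814 (.cons 203 (.leaf 274 1622 (.cons 180 (.leaf 204 1437 (.cons 179 (.leaf 156 1245 (.cons 226 (.leaf 202 1623 (.leaf 155 1238 .nil)) .nil)) .nil)) .nil)) .nil)) (.cons 298 (.leaf 322 1814 (.cons 203 (.leaf 274 1622 (.cons 178 (.leaf 202 1431 (.cons 179 (.leaf 154 1239 (.cons 180 (.leaf 204 1437 (.leaf 156 1245 .nil)) .nil)) .nil)) .nil)) .nil)) (.cons 298 (.leaf 322 1814 (.cons 203 (.leaf 274 1622 (.cons 180 (.leaf 204 1437 (.cons 179 (.leaf 156 1245 (.cons 276 (.leaf 252 1436 (.cons 277 (.leaf 278 2194 (.cons 154 (.leaf 178 1239 (.cons 155 (.leaf 226 1238 (.leaf 130 1047 .nil)) .nil)) .nil)) .nil))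 .nil)) .nil)) .nil)) .nil)) (.cons 202 (.leaf 226 1623 (.cons 203 (.leaf 178 1431 (.cons 179 (.leaf 274 1430 (.cons 180 (.leaf 204 1437 (.leaf 156 1245 .nil)) .nil)) .nil)) .nil)) (.cons 298 (.leaf 322 1814 (.cons 203 (.cons 180 (.leaf 204 1437 (.cons 179 (.leaf 156 1245 (.cons 226 (.leaf 202 1623 (.leaf 155 1238 .nil)) .nil)) .nil)) (.cons 180 (.leaf 204 1437 (.cons 179 (.leaf 156 1245 (.cons 276 (.leaf 252 1436 (.cons 277 (.leaf 278 2194 (.cons 154 (.leaf 178 1239 (.cons 155 (.leaf 226 1238 (.leaf 130 1047 .nil)) .nil)) .nil)) .nil)) .nil)) .nil)) (.cons 178 (.leaf 202 1431 (.cons 179 (.leaf 154 1239 (.cons 180 (.leaf 204 1437 (.leaf 156 1245 .nil)) .nil)) .nil)) (.cons 202 (.leaf 178 1431 (.leaf 226 1623 .nil)) .nil)))) .nil)) (.cons 226 (.leaf 202 1623 (.cons 298 (.leaf 322 1814 (.cons 225 (.cons 252 (.leaf 224 1792 (.leaf 253 1803 .nil)) (.cons 223 (.leaf 224 1784 (.cons 274 (.leaf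 201 1615 (.cons 297 (.leaf 321 1806 (.cons 276 (.leaf 277 2186 (.leaf 296 2177 .nil)) .nil)) .nil)) .nil)) (.cons 252 (.leaf 253 1803 (.cons 274 (.leaf 201 1615 (.cons 297 (.leaf 321 1806 (.cons 276 (.leaf 277 2186 (.leaf 296 2177 .nil)) .nil)) .nil)) .nil)) .nil))) .nil)) .nil)) .nil)))))
noncomputable def t108 : T := .cons 323 (.leaf 226 1815 (.cons 347 (.leaf 274 2007 (.cons 348 (.leaf 324 2012 (.leaf 372 2204 .nil)) .nil)) .nil)) (.cons 323 (.cons 347 (.leaf 274 2007 (.cons 348 (.leaf 324 2012 (.leaf 372 2204 .nil)) .nil)) (.cons 322 (.leaf 346 2006 (.cons 298 (.leaf 227 1814 (.cons 324 (.leaf 348 2012 (.cons 297 (.leaf 296 2368 (.leaf 325 2379 .nil)) .nil)) .nil)) .nil)) (.cons 274 (.leaf 347 2007 (.cons 322 (.leaf 346 2006 (.cons 298 (.leaf 227 1813 (.cons 225 (.leaf 249 1807 (.cons 321 (.leaf 345 1998 (.cons 320 (.leaf 319 2361 (.cons 296 (.leaf 295 2363 (.cons 297 (.leaf 276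 2177 (.leaf 324 2368 .nil)) .nil)) .nil)) .nil)) .nil)) .nil)) .nil)) .nil)) (.cons 274 (.leaf 347 2007 (.cons 322 (.leaf 346 2006 (.cons 298 (.leaf 227 1813 (.cons 225 (.leaf 249 1807 (.cons 321 (.leaf 345 1998 (.cons 320 (.leaf 319 2361 (.cons 296 (.leaf 295 2363 (.cons 297 (.leaf 276 2177 (.cons 272 (.leaf 271 2171 (.cons 273 (.leaf 252 1985 (.cons 344 (.leaf 343 2554 (.leaf 368 2181 .nil)) .nil)) .nil)) .nil)) .nil)) .nil)) .nil)) .nil)) .nil)) .nil)) .nil)) .nil)))) (.cons 227 t107 (.cons 323 (.leaf 226 1815 (.cons 322 (.leaf 346 2006 (.cons 298 (.leaf 227 1814 (.cons 324 (.leaf 348 2012 (.cons 297 (.leaf 296 2368 (.leaf 325 2379 .nil)) .nil)) .nil)) .nil)) .nil)) .nil)))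
noncomputable def t109 : T := .cons 226 (.leaf 202 1623 (.cons 298 (.leaf 322 1814 (.cons 203 (.leaf 274 1621 (.cons 179 (.leaf 155 1238 (.cons 180 (.leaf 204 1437 (.leaf 156 1245 .nil)) .nil)) .nil)) .nil)) .nil)) (.cons 298 (.leaf 322 1814 (.cons 203 (.leaf 274 1622 (.cons 178 (.leaf 202 1431 (.cons 179 (.leaf 154 1239 (.cons 180 (.leaf 204 1437 (.leaf 156 1245 .nil)) .nil)) .nil)) .nil)) .nil)) (.cons 298 (.leaf 322 1814 (.cons 203 (.leaf 274 1622 (.cons 180 (.leaf 204 1437 (.cons 179 (.leaf 156 1245 (.cons 155 (.leaf 226 1238 (.cons 154 (.leaf 178 1239 (.leaf 130 1047 .nil)) .nil)) .nil)) .nil)) .nil)) .nil)) (.cons 202 (.leaf 226 1623 (.cons 203 (.leaf 178 1431 (.cons 179 (.leaf 274 1430 (.cons 180 (.leaf 204 1437 (.leaf 156 1245 .nil)) .nil)) .nil)) .nil)) (.cons 298 (.leaf 322 1814 (.cons 203 (.cons 180 (.leaf 204 1437 (.cons 179 (.leaf 156 1245 (.cons 226 (.leaf 202 1623 (.leaf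 155 1238 .nil)) .nil)) .nil)) (.cons 180 (.leaf 204 1437 (.cons 179 (.leaf 156 1245 (.cons 155 (.leaf 226 1238 (.cons 154 (.leaf 178 1239 (.leaf 130 1047 .nil)) .nil)) .nil)) .nil)) (.cons 178 (.leaf 202 1431 (.cons 179 (.leaf 154 1239 (.cons 180 (.leaf 204 1437 (.leaf 156 1245 .nil)) .nil)) .nil)) (.cons 202 (.leaf 178 1431 (.leaf 226 1623 .nil)) .nil)))) .nil)) (.cons 226 (.leaf 202 1623 (.cons 298 (.leaf 322 1814 (.cons 274 (.cons 297 (.leaf 321 1806 (.cons 276 (.leaf 277 2186 (.leaf 296 2177 .nil)) .nil)) (.cons 225 (.leaf 201 1615 (.cons 224 (.leaf 223 1784 (.cons 248 (.leaf 247 1786 (.cons 249 (.leaf 276 1984 (.cons 200 (.leaf 199 1595 (.cons 176 (.leaf 152 1220 (.leaf 273 1412 .nil)) .nil)) .nil)) .nil)) .nil)) .nil)) (.cons 225 (.leaf 201 1615 (.cons 223 (.leaf 224 1784 (.cons 297 (.leaf 321 1806 (.cons 296 (.leaf 295 2169 (.cons 320 (.leaf 319 2362 (.cons 249 (.leaf 273 1798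 (.cons 248 (.leaf 247 1976 (.leaf 272 1797 .nil)) .nil)) .nil)) .nil)) .nil)) .nil)) .nil)) .nil))) .nil)) .nil)) .nil)))))
noncomputable def t110 : T := .cons 227 (.cons 226 (.leaf 202 1623 (.leaf 323 1815 .nil)) (.cons 298 (.leaf 322 1814 (.cons 203 (.leaf 274 1622 (.cons 178 (.leaf 202 1431 (.cons 179 (.leaf 154 1239 (.cons 180 (.leaf 204 1437 (.leaf 156 1245 .nil)) .nil)) .nil)) .nil)) .nil)) (.cons 323 (.leaf 226 1815 (.cons 347 (.leaf 274 2007 (.cons 348 (.leaf 324 2012 (.leaf 372 2204 .nil)) .nil)) .nil)) .nil))) (.cons 323 (.cons 274 (.leaf 347 2007 (.cons 322 (.leaf 346 2006 (.cons 298 (.leaf 227 1813 (.cons 225 (.leaf 249 1807 (.cons 321 (.leaf 345 1998 (.cons 320 (.leaf 319 2361 (.cons 296 (.leaf 295 2363 (.cons 297 (.leaf 276 2177 (.leaf 324 2368 .nil)) .nil)) .nil)) .nil)) .nil)) .nil)) .nil)) .nil)) (.cons 322 (.leaf 346 2006 (.cons 298 (.leaf 227 1814 (.cons 324 (.leaf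 348 2012 (.cons 297 (.leaf 296 2368 (.leaf 325 2379 .nil)) .nil)) .nil)) .nil)) (.cons 347 (.leaf 274 2007 (.cons 348 (.leaf 324 2012 (.leaf 372 2204 .nil)) .nil)) (.cons 274 (.leaf 347 2007 (.cons 322 (.leaf 346 2006 (.cons 298 (.leaf 227 1813 (.cons 225 (.leaf 249 1807 (.cons 321 (.leaf 345 1998 (.cons 320 (.leaf 319 2361 (.cons 296 (.leaf 295 2363 (.cons 297 (.leaf 276 2177 (.cons 272 (.leaf 271 2171 (.cons 248 (.leaf 224 1796 (.cons 247 (.leaf 273 1979 (.leaf 223 1791 .nil)) .nil)) .nil)) .nil)) .nil)) .nil)) .nil)) .nil)) .nil)) .nil)) .nil)) .nil)))) (.cons 227 t109 (.cons 323 (.leaf 226 1815 (.cons 322 (.leaf 346 2006 (.cons 298 (.leaf 227 1814 (.cons 324 (.leaf 348 2012 (.cons 297 (.leaf 296 2368 (.leaf 325 2379 .nil)) .nil)) .nil)) .nil)) .nil)) (.cons 323 (.leaf 226 1815 (.cons 347 (.leaf 274 2007 (.cons 348 (.leaf 324 2012 (.leaf 372 2204 .nil)) .nil)) .nil)) .nil))))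
noncomputable def t111 : T := .cons 226 (.leaf 202 1623 (.cons 298 (.leaf 322 1814 (.cons 225 (.cons 201 (.leaf 274 1615 (.cons 177 (.leaf 153 1228 (.cons 224 (.leaf 223 1784 (.leaf 252 1792 .nil)) .nil)) .nil)) (.cons 224 (.leaf 223 1784 (.leaf 252 1792 .nil)) (.cons 252 (.leaf 253 1803 (.cons 274 (.leaf 203 1621 (.leaf 201 1615 .nil)) .nil)) (.cons 201 (.leaf 274 1615 (.cons 177 (.leaf 153 1228 (.cons 224 (.leaf 223 1784 (.cons 200 (.leaf 199 1595 (.cons 248 (.leaf 247 1786 (.leaf 272 1413 .nil)) .nil)) .nil)) .nil)) .nil)) .nil)))) .nil)) .nil)) (.cons 298 (.leaf 322 1814 (.cons 203 (.leaf 274 1622 (.cons 178 (.leaf 202 1431 (.cons 179 (.leaf 154 1239 (.cons 180 (.leaf 204 1437 (.leaf 156 1245 .nil)) .nil)) .nil)) .nil)) .nil)) (.cons 298 (.leaf 322 1814 (.cons 203 (.leaf 274 1622 (.cons 180 (.leaf 204 1437 (.cons 179 (.leaf 156 1245 (.cons 155 (.leaf 226 1238 (.cons 154 (.leaf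 178 1239 (.leaf 130 1047 .nil)) .nil)) .nil)) .nil)) .nil)) .nil)) (.cons 202 (.leaf 226 1623 (.cons 203 (.leaf 178 1431 (.cons 179 (.leaf 274 1430 (.cons 180 (.leaf 204 1437 (.leaf 156 1245 .nil)) .nil)) .nil)) .nil)) (.cons 298 (.leaf 322 1814 (.cons 203 (.cons 180 (.leaf 204 1437 (.cons 179 (.leaf 156 1245 (.cons 226 (.leaf 202 1623 (.leaf 155 1238 .nil)) .nil)) .nil)) (.cons 180 (.leaf 204 1437 (.cons 179 (.leaf 156 1245 (.cons 155 (.leaf 226 1238 (.cons 154 (.leaf 178 1239 (.leaf 130 1047 .nil)) .nil)) .nil)) .nil)) (.cons 178 (.leaf 202 1431 (.cons 179 (.leaf 154 1239 (.cons 180 (.leaf 204 1437 (.leaf 156 1245 .nil)) .nil)) .nil)) (.cons 202 (.leaf 178 1431 (.leaf 226 1623 .nil)) .nil)))) .nil)) (.cons 226 (.leaf 202 1623 (.cons 298 (.leaf 322 1814 (.cons 225 (.cons 201 (.leaf 274 1615 (.cons 177 (.leaf 153 1228 (.cons 224 (.leaf 223 1784 (.leaf 252 1792 .nil)) .nil)) .nil))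 (.cons 252 (.leaf 253 1803 (.cons 274 (.leaf 201 1615 (.cons 272 (.leaf 273 1985 (.cons 297 (.leaf 321 1806 (.cons 296 (.leaf 295 2169 (.leaf 271 2171 .nil)) .nil)) .nil)) .nil)) .nil)) (.cons 201 (.leaf 274 1615 (.cons 177 (.leaf 153 1228 (.cons 224 (.leaf 223 1784 (.cons 200 (.leaf 199 1595 (.cons 248 (.leaf 247 1786 (.leaf 272 1413 .nil)) .nil)) .nil)) .nil)) .nil)) (.cons 224 (.leaf 223 1784 (.leaf 252 1792 .nil)) .nil)))) .nil)) .nil)) .nil)))))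
noncomputable def t112 : T := .cons 226 (.leaf 323 1815 (.cons 202 (.leaf 178 1428 (.leaf 227 1623 .nil)) .nil)) (.cons 323 (.cons 274 (.leaf 347 2007 (.cons 322 (.leaf 346 2006 (.cons 298 (.leaf 227 1813 (.cons 225 (.leaf 249 1807 (.cons 321 (.leaf 345 1998 (.cons 320 (.leaf 319 2361 (.cons 296 (.leaf 295 2363 (.cons 297 (.leaf 324 2368 (.cons 272 (.leaf 271 2171 (.cons 248 (.leaf 224 1796 (.cons 247 (.leaf 273 1979 (.leaf 223 1791 .nil)) .nil)) .nil)) .nil)) .nil)) .nil)) .nil)) .nil)) .nil)) .nil)) .nil)) (.cons 322 (.leaf 346 2006 (.cons 298 (.leaf 227 1814 (.cons 324 (.leaf 348 2012 (.cons 297 (.leaf 296 2368 (.leaf 325 2379 .nil)) .nil)) .nil)) .nil)) (.cons 347 (.leaf 274 2007 (.cons 348 (.leaf 324 2012 (.leaf 372 2204 .nil)) .nil)) (.cons 274 (.leaf 347 2007 (.cons 322 (.leaf 346 2006 (.cons 298 (.leaf 227 1813 (.cons 249 (.leaf 225 1807 (.cons 247 (.leaf 248 1976 (.cons 321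 (.leaf 345 1998 (.cons 320 (.leaf 319 2361 (.cons 344 (.leaf 343 2554 (.cons 273 (.leaf 297 1990 (.cons 272 (.leaf 252 1985 (.leaf 271 2168 .nil)) .nil)) .nil)) .nil)) .nil)) .nil)) .nil)) .nil)) .nil)) .nil)) .nil)))) (.cons 227 t111 (.cons 323 (.leaf 226 1815 (.cons 347 (.leaf 274 2007 (.cons 348 (.leaf 324 2012 (.leaf 372 2204 .nil)) .nil)) .nil)) .nil)))
noncomputable def t113 : T := .cons 298 (.leaf 322 1814 (.cons 203 (.leaf 274 1622 (.cons 178 (.leaf 202 1431 (.cons 179 (.leaf 154 1239 (.cons 180 (.leaf 204 1437 (.leaf 156 1245 .nil)) .nil)) .nil)) .nil)) .nil)) (.cons 298 (.leaf 322 1814 (.cons 203 (.leaf 274 1622 (.cons 180 (.leaf 204 1437 (.cons 179 (.leaf 156 1245 (.cons 276 (.leaf 252 1436 (.cons 277 (.leaf 278 2194 (.cons 154 (.leaf 178 1239 (.cons 155 (.leaf 226 1238 (.leaf 130 1047 .nil)) .nil)) .nil)) .nil)) .nil)) .nil)) .nil)) .nil)) (.cons 202 (.leaf 226 1623 (.cons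 203 (.leaf 178 1431 (.cons 179 (.leaf 274 1430 (.cons 180 (.leaf 204 1437 (.leaf 156 1245 .nil)) .nil)) .nil)) .nil)) (.cons 298 (.leaf 322 1814 (.cons 203 (.cons 178 (.leaf 202 1431 (.cons 179 (.leaf 154 1239 (.cons 180 (.leaf 204 1437 (.leaf 156 1245 .nil)) .nil)) .nil)) (.cons 180 (.leaf 204 1437 (.cons 179 (.leaf 156 1245 (.cons 276 (.leaf 252 1436 (.cons 277 (.leaf 278 2194 (.cons 154 (.leaf 178 1239 (.cons 155 (.leaf 226 1238 (.leaf 130 1047 .nil)) .nil)) .nil)) .nil)) .nil)) .nil)) (.cons 226 (.leaf 202 1623 (.cons 179 (.leaf 155 1238 (.cons 180 (.leaf 204 1437 (.leaf 156 1245 .nil)) .nil)) .nil)) (.cons 202 (.leaf 178 1431 (.leaf 226 1623 .nil)) .nil)))) .nil)) (.cons 226 (.leaf 202 1623 (.cons 298 (.leaf 322 1814 (.cons 225 (.cons 224 (.leaf 223 1784 (.leaf 252 1792 .nil)) (.cons 252 (.leaf 253 1803 (.cons 274 (.leaf 201 1615 (.cons 297 (.leaf 321 1806 (.cons 276 (.leaf 277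 2186 (.leaf 296 2177 .nil)) .nil)) .nil)) .nil)) (.cons 223 (.leaf 224 1784 (.cons 274 (.leaf 201 1615 (.cons 297 (.leaf 321 1806 (.cons 276 (.leaf 277 2186 (.leaf 296 2177 .nil)) .nil)) .nil)) .nil)) .nil))) .nil)) .nil)) .nil))))
noncomputable def t114 : T := .cons 226 (.leaf 323 1815 (.cons 202 (.leaf 178 1428 (.leaf 227 1623 .nil)) .nil)) (.cons 227 t113 (.cons 323 (.cons 347 (.leaf 274 2007 (.cons 348 (.leaf 324 2012 (.leaf 372 2204 .nil)) .nil)) (.cons 322 (.leaf 346 2006 (.cons 298 (.leaf 227 1814 (.cons 324 (.leaf 348 2012 (.cons 297 (.leaf 296 2368 (.leaf 325 2379 .nil)) .nil)) .nil)) .nil)) (.cons 274 (.leaf 347 2007 (.cons 322 (.leaf 346 2006 (.cons 298 (.leaf 227 1813 (.cons 321 (.leaf 345 1998 (.cons 320 (.leaf 319 2361 (.cons 296 (.leaf 295 2363 (.cons 297 (.leaf 276 2177 (.leaf 324 2368 .nil)) .nil)) .nil)) .nil)) .nil)) .nil)) .nil)) (.cons 274 (.leaf 347 2007 (.cons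 322 (.leaf 346 2006 (.cons 298 (.leaf 227 1813 (.cons 321 (.leaf 345 1998 (.cons 320 (.leaf 319 2361 (.cons 296 (.leaf 295 2363 (.cons 297 (.leaf 276 2177 (.cons 272 (.leaf 271 2171 (.cons 224 (.leaf 248 1796 (.cons 273 (.leaf 252 1985 (.cons 344 (.leaf 343 2554 (.leaf 368 2181 .nil)) .nil)) .nil)) .nil)) .nil)) .nil)) .nil)) .nil)) .nil)) .nil)) .nil)) .nil)))) (.cons 323 (.leaf 226 1815 (.cons 347 (.leaf 274 2007 (.cons 348 (.leaf 324 2012 (.leaf 372 2204 .nil)) .nil)) .nil)) .nil)))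
noncomputable def t115 : T := .cons 277 (.leaf 276 1992 (.cons 224 (.leaf 225 1795 (.cons 253 (.leaf 278 2000 (.cons 230 (.leaf 229 1809 (.cons 254 (.leaf 274 2002 (.leaf 231 1817 .nil)) .nil)) .nil)) .nil)) .nil)) (.cons 273 (.leaf 272 1986 (.cons 224 (.leaf 225 1795 (.cons 253 (.leaf 274 1994 (.cons 230 (.leaf 229 1809 (.cons 254 (.leaf 231 1817 (.cons 255 (.leaf 276 2010 (.cons 279 (.leaf 278 2008 (.leaf 280 2016 .nil)) .nil)) .nil)) .nil)) .nil)) .nil)) .nil)) (.cons 273 (.leaf 272 1986 (.cons 224 (.leaf 225 1795 (.cons 253 (.leaf 274 1994 (.cons 230 (.leaf 229 1809 (.cons 254 (.leaf 231 1817 (.cons 278 (.leaf 277 2000 (.leaf 279 2008 .nil)) .nil)) .nil)) .nil)) .nil)) .nil)) (.cons 225 (.leaf 224 1795 (.cons 273 (.leaf 272 1986 (.cons 253 (.cons 277 (.leaf 276 1992 (.leaf 278 2000 .nil)) (.cons 230 (.leaf 229 1809 (.cons 254 (.leaf 231 1817 (.cons 255 (.leaf 276 2010 (.cons 279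 (.leaf 278 2008 (.leaf 280 2016 .nil)) .nil)) .nil)) .nil)) (.cons 276 (.leaf 277 1992 (.cons 230 (.leaf 229 1809 (.cons 254 (.leaf 255 2010 (.leaf 231 1817 .nil)) .nil)) .nil)) (.cons 230 (.leaf 229 1809 (.cons 254 (.leaf 231 1817 (.cons 278 (.leaf 277 2000 (.leaf 279 2008 .nil)) .nil)) .nil)) .nil)))) .nil)) .nil)) (.cons 276 (.leaf 277 1992 (.cons 273 (.leaf 272 1986 (.cons 225 (.leaf 224 1795 (.cons 201 (.cons 176 (.leaf 200 1415 (.cons 177 (.leaf 274 1420 (.leaf 152 1223 .nil)) .nil)) (.cons 176 (.leaf 200 1415 (.cons 177 (.leaf 152 1223 (.cons 178 (.leaf 154 1229 (.leaf 202 1421 .nil)) .nil)) .nil)) (.cons 298 (.leaf 274 1612 (.cons 176 (.leaf 200 1415 (.cons 297 (.leaf 322 1804 (.cons 296 (.leaf 299 2177 (.leaf 320 1798 .nil)) .nil)) .nil)) .nil)) (.cons 274 (.leaf 177 1420 (.leaf 298 1612 .nil)) .nil)))) .nil)) .nil)) .nil)) (.cons 277 (.leaf 276 1992 (.cons 253 (.leaf 278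 2000 (.cons 273 (.leaf 272 1986 (.leaf 274 1994 .nil)) .nil)) .nil)) .nil)))))
noncomputable def t116 : T := .cons 224 (.leaf 223 1787 (.cons 225 (.leaf 252 1795 (.cons 272 (.leaf 271 1978 (.cons 201 (.leaf 177 1414 (.leaf 296 1605 .nil)) .nil)) .nil)) .nil)) (.cons 271 (.leaf 272 1978 (.cons 247 (.leaf 270 1970 (.cons 222 (.leaf 223 1779 (.cons 226 (.leaf 227 1785 (.cons 246 (.leaf 221 1771 (.leaf 225 1777 .nil)) .nil)) .nil)) .nil)) .nil)) (.cons 223 (.leaf 224 1787 (.cons 247 (.leaf 222 1779 (.cons 226 (.leaf 227 1785 (.cons 178 (.leaf 202 1428 (.cons 246 (.leaf 225 1777 (.cons 270 (.leaf 271 1970 (.leaf 269 1962 .nil)) .nil)) .nil)) .nil)) .nil)) .nil)) (.cons 272 (.leaf 271 1978 (.cons 252 (.leaf 273 1986 (.cons 225 (.leaf 224 1795 (.cons 177 (.leaf 201 1414 (.cons 226 (.leaf 253 1803 (.cons 247 (.leaf 227 1785 (.leaf 246 1777 .nil)) .nil)) .nil)) .nil)) .nil)) .nil)) (.cons 223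 (.leaf 224 1787 (.cons 247 (.leaf 222 1779 (.cons 226 (.leaf 227 1785 (.cons 202 (.leaf 178 1428 (.cons 225 (.leaf 246 1777 (.cons 252 (.leaf 253 1803 (.cons 273 (.leaf 272 1986 (.leaf 297 1613 .nil)) .nil)) .nil)) .nil)) .nil)) .nil)) .nil)) (.cons 272 (.leaf 271 1978 (.cons 224 (.leaf 223 1787 (.cons 273 (.leaf 252 1986 (.cons 200 (.leaf 176 1412 (.leaf 297 1604 .nil)) .nil)) .nil)) .nil)) .nil)))))
noncomputable def t117 : T := .cons 225 (.leaf 224 1795 (.cons 226 (.leaf 253 1803 (.cons 273 (.leaf 272 1986 (.cons 276 (.leaf 277 1992 (.cons 202 (.leaf 178 1428 (.leaf 297 1613 .nil)) .nil)) .nil)) .nil)) .nil)) (.cons 225 (.leaf 224 1795 (.cons 226 (.leaf 253 1803 (.cons 202 (.leaf 178 1428 (.cons 273 (.leaf 272 1986 (.leaf 297 1613 .nil)) .nil)) .nil)) .nil)) (.cons 273 (.leaf 272 1986 (.cons 253 (.cons 230 (.leaf 229 1809 (.cons 254 (.leaf 231 1817 (.cons 276 (.leaf 255 2010 (.leaf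 277 1992 .nil)) .nil)) .nil)) (.cons 230 (.leaf 229 1809 (.cons 254 (.leaf 231 1817 (.cons 226 (.leaf 227 1811 (.cons 178 (.leaf 202 1428 (.cons 255 (.leaf 276 2010 (.cons 279 (.leaf 278 2008 (.leaf 280 2016 .nil)) .nil)) .nil)) .nil)) .nil)) .nil)) (.cons 230 (.leaf 229 1809 (.cons 254 (.leaf 231 1817 (.cons 278 (.leaf 277 2000 (.leaf 279 2008 .nil)) .nil)) .nil)) (.cons 277 (.leaf 276 1992 (.leaf 278 2000 .nil)) .nil)))) .nil)) (.cons 277 (.leaf 276 1992 (.cons 225 (.leaf 224 1795 (.cons 253 (.leaf 226 1803 (.leaf 278 2000 .nil)) .nil)) .nil)) (.cons 225 (.leaf 224 1795 (.cons 273 (.leaf 272 1986 (.cons 253 (.cons 230 (.leaf 229 1809 (.cons 254 (.leaf 231 1817 (.cons 255 (.leaf 276 2010 (.cons 279 (.leaf 278 2008 (.leaf 280 2016 .nil)) .nil)) .nil)) .nil)) (.cons 276 (.leaf 277 1992 (.cons 230 (.leaf 229 1809 (.cons 254 (.leaf 255 2010 (.leaf 231 1817 .nil)) .nil)) .nil)) (.cons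 230 (.leaf 229 1809 (.cons 254 (.leaf 231 1817 (.cons 278 (.leaf 277 2000 (.leaf 279 2008 .nil)) .nil)) .nil)) (.cons 277 (.leaf 276 1992 (.leaf 278 2000 .nil)) .nil)))) .nil)) .nil)) (.cons 276 (.leaf 277 1992 (.cons 225 (.leaf 224 1795 (.cons 273 (.leaf 272 1986 (.cons 226 (.cons 202 (.leaf 178 1428 (.leaf 297 1613 .nil)) (.cons 297 (.leaf 321 1805 (.cons 296 (.leaf 320 1798 (.cons 298 (.leaf 299 2177 (.leaf 322 1804 .nil)) .nil)) .nil)) (.cons 202 (.leaf 178 1428 (.cons 299 (.leaf 227 1623 (.leaf 323 1815 .nil)) .nil)) .nil))) .nil)) .nil)) .nil)) .nil)))))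
noncomputable def t118 : T := .cons 273 (.leaf 272 1986 (.cons 224 (.leaf 225 1795 (.cons 253 (.leaf 274 1994 (.cons 230 (.leaf 229 1809 (.cons 254 (.leaf 231 1817 (.cons 278 (.leaf 277 2000 (.leaf 279 2008 .nil)) .nil)) .nil)) .nil)) .nil)) .nil)) (.cons 277 (.leaf 276 1992 (.cons 225 (.leaf 224 1795 (.cons 253 (.leaf 226 1803 (.leaf 278 2000 .nil)) .nil)) .nil)) (.cons 273 (.leaf 272 1986 (.cons 224 (.leaf 225 1795 (.cons 253 (.leaf 274 1994 (.cons 230 (.leaf 229 1809 (.cons 254 (.leaf 231 1817 (.cons 255 (.leaf 276 2010 (.cons 279 (.leaf 278 2008 (.leaf 280 2016 .nil)) .nil)) .nil)) .nil)) .nil)) .nil)) .nil)) (.cons 277 (.leaf 276 1992 (.cons 253 (.leaf 278 2000 (.cons 273 (.leaf 272 1986 (.leaf 274 1994 .nil)) .nil)) .nil)) (.cons 276 (.leaf 277 1992 (.cons 273 (.leaf 272 1986 (.cons 225 (.leaf 224 1795 (.cons 274 (.cons 297 (.leaf 296 2178 (.cons 298 (.leaf 322 1804 (.leaf 201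 1612 .nil)) .nil)) (.cons 177 (.leaf 201 1420 (.cons 297 (.leaf 296 2178 (.cons 321 (.leaf 226 1805 (.leaf 345 1997 .nil)) .nil)) .nil)) (.cons 297 (.leaf 296 2178 (.cons 298 (.leaf 322 1804 (.cons 321 (.leaf 226 1805 (.leaf 345 1997 .nil)) .nil)) .nil)) (.cons 298 (.leaf 322 1807 (.leaf 201 1612 .nil)) .nil)))) .nil)) .nil)) .nil)) .nil))))
noncomputable def t119 : T := .cons 276 (.leaf 248 1984 (.cons 252 (.leaf 277 1992 (.cons 273 (.leaf 272 1986 (.cons 225 (.leaf 224 1795 (.cons 274 (.leaf 253 1993 (.cons 297 (.leaf 296 2178 (.cons 298 (.leaf 322 1804 (.leaf 201 1612 .nil)) .nil)) .nil)) .nil)) .nil)) .nil)) .nil)) (.cons 252 t118 (.cons 248 (.cons 224 (.leaf 223 1787 (.cons 225 (.leaf 252 1795 (.cons 272 (.leaf 271 1978 (.cons 201 (.leaf 177 1414 (.leaf 296 1605 .nil)) .nil)) .nil)) .nil)) (.cons 223 (.leaf 224 1787 (.cons 247 (.leaf 274 1976 (.leaf 222 1779 .nil)) .nil)) (.cons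 247 (.leaf 274 1976 (.cons 271 (.leaf 272 1978 (.leaf 270 1970 .nil)) .nil)) .nil))) (.cons 248 (.leaf 276 1984 (.cons 224 (.leaf 223 1787 (.cons 225 (.leaf 252 1795 (.cons 272 (.leaf 271 1978 (.cons 201 (.leaf 177 1414 (.leaf 296 1605 .nil)) .nil)) .nil)) .nil)) .nil)) (.cons 248 (.leaf 276 1984 (.cons 223 (.leaf 224 1787 (.cons 247 (.leaf 274 1976 (.leaf 222 1779 .nil)) .nil)) .nil)) (.cons 276 (.leaf 248 1984 (.cons 277 (.leaf 274 1995 (.leaf 278 2003 .nil)) .nil)) .nil)))))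
noncomputable def t120 : T := .cons 249 t119 (.cons 249 (.cons 248 (.leaf 276 1984 (.cons 223 (.leaf 224 1787 (.cons 247 (.leaf 222 1779 (.cons 271 (.leaf 272 1978 (.leaf 270 1970 .nil)) .nil)) .nil)) .nil)) (.cons 252 t117 (.cons 248 t116 (.cons 276 (.leaf 248 1984 (.cons 277 (.leaf 278 2003 (.leaf 252 1992 .nil)) .nil)) .nil)))) (.cons 249 (.cons 248 (.leaf 276 1984 (.cons 223 (.leaf 224 1787 (.cons 247 (.leaf 274 1976 (.leaf 222 1779 .nil)) .nil)) .nil)) (.cons 252 t115 (.cons 248 (.cons 223 (.leaf 224 1787 (.cons 247 (.leaf 274 1976 (.leaf 222 1779 .nil)) .nil)) (.cons 272 (.leaf 271 1978 (.cons 224 (.leaf 223 1787 (.cons 273 (.leaf 252 1986 (.cons 200 (.leaf 176 1412 (.leaf 297 1604 .nil)) .nil)) .nil)) .nil)) (.cons 247 (.leaf 274 1976 (.cons 271 (.leaf 272 1978 (.leaf 270 1970 .nil)) .nil)) .nil))) (.cons 248 (.leaf 276 1984 (.cons 272 (.leaf 271 1978 (.cons 224 (.leaf 223 1787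 (.cons 273 (.leaf 252 1986 (.cons 200 (.leaf 176 1412 (.leaf 297 1604 .nil)) .nil)) .nil)) .nil)) .nil)) (.cons 276 (.leaf 248 1984 (.cons 277 (.leaf 274 1995 (.leaf 278 2003 .nil)) .nil)) .nil))))) (.cons 299 t114 (.cons 299 t112 (.cons 299 t110 (.cons 299 t108 (.cons 226 t106 (.cons 276 t104 (.cons 226 t101 (.cons 226 (.cons 202 (.leaf 178 1428 (.cons 299 (.leaf 227 1623 (.leaf 274 1620 .nil)) .nil)) (.cons 299 t99 (.cons 202 (.leaf 178 1428 (.cons 274 (.cons 273 (.leaf 297 1614 (.cons 252 (.leaf 272 1985 (.leaf 253 1994 .nil)) .nil)) (.cons 177 (.leaf 201 1423 (.cons 203 (.leaf 179 1429 (.cons 227 (.leaf 298 1621 (.cons 204 (.leaf 180 1437 (.cons 205 (.leaf 225 1610 (.leaf 206 1618 .nil)) .nil)) .nil)) .nil)) .nil)) .nil)) .nil)) (.cons 202 (.leaf 178 1428 (.cons 299 (.leaf 227 1623 (.leaf 323 1815 .nil)) .nil)) (.cons 202 (.leaf 178 1428 (.cons 299 (.leaf 274 1620 (.leaf 323 1815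 .nil)) .nil)) .nil))))) (.cons 249 (.cons 276 (.leaf 248 1984 (.cons 277 (.leaf 274 1995 (.leaf 278 2003 .nil)) .nil)) (.cons 252 t98 (.cons 248 (.cons 223 (.leaf 224 1787 (.cons 247 (.leaf 274 1976 (.leaf 222 1779 .nil)) .nil)) (.cons 224 (.leaf 223 1787 (.cons 225 (.leaf 252 1795 (.cons 272 (.leaf 271 1978 (.cons 201 (.leaf 177 1414 (.leaf 296 1605 .nil)) .nil)) .nil)) .nil)) (.cons 247 (.leaf 274 1976 (.cons 271 (.leaf 272 1978 (.leaf 270 1970 .nil)) .nil)) .nil))) (.cons 248 (.leaf 276 1984 (.cons 224 (.leaf 223 1787 (.cons 225 (.leaf 252 1795 (.cons 272 (.leaf 271 1978 (.cons 201 (.leaf 177 1414 (.leaf 296 1605 .nil)) .nil)) .nil)) .nil)) .nil)) .nil)))) (.cons 226 t97 .nil))))))))))))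
noncomputable def t121 : T := .cons 250 (.leaf 226 1815 (.cons 347 (.leaf 274 2007 (.cons 348 (.leaf 324 2012 (.leaf 372 2204 .nil)) .nil)) .nil)) (.cons 346 (.leaf 322 2006 (.cons 228 (.leaf 252 1821 (.cons 347 (.leaf 370 2198 (.cons 348 (.leaf 324 2012 (.leaf 372 2204 .nil)) .nil)) .nil)) .nil)) (.cons 250 (.leaf 226 1815 (.cons 228 (.leaf 252 1821 (.cons 346 (.leaf 322 2006 (.cons 347 (.leaf 274 2007 (.leaf 370 2198 .nil)) .nil)) .nil)) .nil)) (.cons 250 (.leaf 226 1815 (.cons 252 (.leaf 228 1821 (.cons 322 (.leaf 346 2006 (.cons 324 (.leaf 348 2012 (.cons 253 (.cons 274 (.leaf 254 2002 (.leaf 273 1994 .nil)) (.cons 229 (.leaf 230 1809 (.cons 278 (.leaf 277 2000 (.cons 254 (.leaf 279 2008 (.cons 326 (.leaf 302 1839 (.cons 325 (.leaf 298 2387 (.cons 350 (.leaf 349 2576 (.leaf 351 2584 .nil)) .nil)) .nil)) .nil)) .nil)) .nil)) (.cons 229 (.leaf 230 1809 (.cons 273 (.leaf 274 1994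 (.cons 249 (.leaf 272 1986 (.cons 224 (.leaf 225 1795 (.cons 248 (.leaf 223 1787 (.cons 297 (.leaf 321 1799 (.cons 298 (.leaf 296 2368 (.leaf 325 2379 .nil)) .nil)) .nil)) .nil)) .nil)) .nil)) .nil)) .nil))) .nil)) .nil)) .nil)) .nil)) .nil)))
noncomputable def t122 : T := .cons 226 (.leaf 202 1623 (.cons 228 (.leaf 204 1629 (.cons 298 (.leaf 322 1814 (.cons 225 (.cons 252 (.leaf 224 1792 (.leaf 253 1800 .nil)) (.cons 248 (.leaf 249 1794 (.cons 224 (.leaf 247 1786 (.cons 200 (.leaf 199 1595 (.leaf 201 1603 .nil)) .nil)) .nil)) (.cons 253 (.leaf 252 1800 (.cons 200 (.leaf 201 1603 (.cons 203 (.leaf 274 1622 (.cons 229 (.leaf 254 1808 (.cons 249 (.leaf 248 1794 (.leaf 250 1802 .nil)) .nil)) .nil)) .nil)) .nil)) .nil))) .nil)) .nil)) .nil)) (.cons 298 (.leaf 322 1814 (.cons 203 (.leaf 274 1622 (.cons 204 (.leaf 180 1437 (.leaf 228 1629 .nil)) .nil)) .nil)) (.cons 226 (.leaf 202 1623 (.cons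 228 (.leaf 204 1629 (.cons 225 (.cons 200 (.leaf 201 1603 (.cons 199 (.leaf 224 1595 (.cons 249 (.leaf 248 1794 (.cons 229 (.leaf 250 1802 (.cons 206 (.leaf 205 1617 (.cons 230 (.leaf 207 1625 (.cons 254 (.leaf 253 1808 (.leaf 255 1816 .nil)) .nil)) .nil)) .nil)) .nil)) .nil)) .nil)) (.cons 200 (.leaf 201 1603 (.cons 248 (.leaf 249 1794 (.cons 253 (.leaf 252 1800 (.cons 229 (.leaf 254 1808 (.cons 206 (.leaf 205 1617 (.cons 230 (.leaf 250 1810 (.leaf 207 1625 .nil)) .nil)) .nil)) .nil)) .nil)) .nil)) (.cons 200 (.leaf 201 1603 (.cons 224 (.leaf 252 1792 (.leaf 199 1595 .nil)) .nil)) (.cons 252 (.leaf 224 1792 (.leaf 253 1800 .nil)) .nil)))) .nil)) .nil)) (.cons 298 (.leaf 322 1814 (.cons 202 (.leaf 226 1623 (.cons 203 (.leaf 178 1431 (.leaf 274 1622 .nil)) .nil)) .nil)) .nil)))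
noncomputable def t123 : T := .cons 323 (.cons 228 (.leaf 252 1821 (.cons 250 (.leaf 226 1815 (.cons 347 (.leaf 274 2007 (.cons 346 (.leaf 322 2006 (.leaf 370 2198 .nil)) .nil)) .nil)) .nil)) (.cons 228 (.leaf 252 1821 (.cons 204 (.leaf 227 1629 (.cons 346 (.leaf 322 2006 (.cons 347 (.leaf 370 2198 (.cons 348 (.leaf 324 2012 (.leaf 372 2204 .nil)) .nil)) .nil)) .nil)) .nil)) (.cons 226 (.leaf 250 1815 (.cons 227 (.leaf 202 1623 (.cons 228 (.leaf 204 1629 (.leaf 252 1821 .nil)) .nil)) .nil)) (.cons 226 (.leaf 250 1815 (.cons 346 (.leaf 322 2006 (.cons 347 (.leaf 370 2198 (.cons 348 (.leaf 324 2012 (.leaf 372 2204 .nil)) .nil)) .nil)) .nil)) .nil)))) (.cons 227 t122 (.cons 323 t121 (.cons 323 (.cons 228 (.leaf 252 1821 (.cons 204 (.leaf 227 1629 (.cons 346 (.leaf 322 2006 (.cons 347 (.leaf 370 2198 (.cons 348 (.leaf 324 2012 (.leaf 372 2204 .nil)) .nil)) .nil)) .nil)) .nil)) (.cons 228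 (.leaf 252 1821 (.cons 204 (.leaf 227 1629 (.cons 348 (.leaf 324 2012 (.cons 347 (.leaf 372 2204 (.cons 274 (.leaf 250 2007 (.cons 371 (.leaf 298 2199 (.cons 370 (.leaf 346 2198 (.leaf 394 2390 .nil)) .nil)) .nil)) .nil)) .nil)) .nil)) .nil)) (.cons 228 (.leaf 252 1821 (.cons 227 (.leaf 204 1629 (.cons 298 (.leaf 322 1814 (.cons 274 (.leaf 203 1622 (.cons 347 (.leaf 250 2007 (.leaf 371 2199 .nil)) .nil)) .nil)) .nil)) .nil)) (.cons 322 (.leaf 346 2006 (.cons 298 (.leaf 227 1814 (.cons 324 (.leaf 348 2012 (.cons 297 (.leaf 296 2368 (.leaf 325 2379 .nil)) .nil)) .nil)) .nil)) (.cons 346 (.leaf 322 2006 (.cons 228 (.leaf 252 1821 (.cons 347 (.leaf 370 2198 (.cons 348 (.leaf 324 2012 (.leaf 372 2204 .nil)) .nil)) .nil)) .nil)) .nil))))) (.cons 227 (.cons 204 (.leaf 228 1629 (.cons 203 (.leaf 180 1437 (.cons 178 (.leaf 202 1431 (.cons 179 (.leaf 154 1239 (.cons 274 (.leaf 298 1622 (.leaf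 250 1430 .nil)) .nil)) .nil)) .nil)) .nil)) (.cons 202 (.leaf 226 1623 (.cons 203 (.leaf 178 1431 (.cons 180 (.leaf 204 1437 (.cons 179 (.leaf 156 1245 (.cons 274 (.leaf 298 1622 (.leaf 250 1430 .nil)) .nil)) .nil)) .nil)) .nil)) (.cons 228 (.leaf 204 1629 (.cons 323 (.leaf 252 1821 (.cons 348 (.leaf 324 2012 (.cons 250 (.leaf 226 1815 (.cons 347 (.leaf 274 2007 (.leaf 372 2204 .nil)) .nil)) .nil)) .nil)) .nil)) (.cons 202 (.leaf 226 1623 (.cons 203 (.leaf 178 1431 (.cons 274 (.leaf 298 1622 (.cons 250 (.leaf 179 1430 (.cons 323 (.leaf 347 2007 (.cons 252 (.leaf 228 1821 (.cons 253 (.leaf 254 2002 (.leaf 273 1994 .nil)) .nil)) .nil)) .nil)) .nil)) .nil)) .nil)) (.cons 228 (.leaf 204 1629 (.cons 226 (.leaf 202 1623 (.cons 252 (.leaf 323 1821 (.cons 225 (.leaf 224 1792 (.leaf 253 1800 .nil)) .nil)) .nil)) .nil)) .nil))))) (.cons 227 (.cons 228 (.leaf 204 1629 (.cons 202 (.leaf 226 1623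 (.cons 203 (.leaf 178 1431 (.cons 298 (.leaf 274 1622 (.leaf 322 1814 .nil)) .nil)) .nil)) .nil)) (.cons 202 (.leaf 226 1623 (.cons 203 (.leaf 178 1431 (.cons 298 (.leaf 274 1622 (.leaf 322 1814 .nil)) .nil)) .nil)) (.cons 228 (.leaf 204 1629 (.cons 226 (.leaf 202 1623 (.cons 252 (.leaf 323 1821 (.cons 225 (.leaf 224 1792 (.leaf 253 1800 .nil)) .nil)) .nil)) .nil)) (.cons 204 (.leaf 228 1629 (.cons 203 (.leaf 180 1437 (.cons 298 (.leaf 274 1622 (.leaf 322 1814 .nil)) .nil)) .nil)) .nil)))) (.cons 323 (.cons 250 (.leaf 226 1815 (.cons 347 (.leaf 274 2007 (.cons 348 (.leaf 324 2012 (.leaf 372 2204 .nil)) .nil)) .nil)) (.cons 322 (.leaf 346 2006 (.cons 298 (.leaf 227 1814 (.cons 324 (.leaf 348 2012 (.cons 297 (.leaf 296 2368 (.leaf 325 2379 .nil)) .nil)) .nil)) .nil)) (.cons 226 (.leaf 250 1815 (.cons 227 (.leaf 202 1623 (.cons 322 (.leaf 298 1814 (.leaf 346 2006 .nil)) .nil)) .nil))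 .nil))) (.cons 323 (.cons 226 (.leaf 250 1815 (.cons 346 (.leaf 322 2006 (.cons 347 (.leaf 370 2198 (.cons 348 (.leaf 324 2012 (.leaf 372 2204 .nil)) .nil)) .nil)) .nil)) (.cons 226 (.leaf 250 1815 (.cons 227 (.leaf 202 1623 (.cons 228 (.leaf 204 1629 (.leaf 252 1821 .nil)) .nil)) .nil)) (.cons 322 (.leaf 346 2006 (.cons 298 (.leaf 227 1814 (.cons 324 (.leaf 348 2012 (.cons 297 (.leaf 296 2368 (.leaf 325 2379 .nil)) .nil)) .nil)) .nil)) .nil))) .nil)))))))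
noncomputable def t124 : T := .cons 254 (.leaf 274 2002 (.cons 230 (.leaf 231 1817 (.cons 278 (.leaf 279 2008 (.cons 277 (.leaf 250 2000 (.cons 301 (.leaf 276 1636 (.leaf 325 1837 .nil)) .nil)) .nil)) .nil)) .nil)) (.cons 277 (.cons 301 (.leaf 276 1636 (.leaf 325 1831 .nil)) (.cons 250 (.leaf 278 2000 (.cons 273 (.leaf 274 1994 (.cons 249 (.leaf 272 1986 (.cons 224 (.leaf 225 1795 (.cons 248 (.leaf 223 1787 (.leaf 227 1793 .nil)) .nil)) .nil)) .nil)) .nil)) .nil)) (.cons 254 (.cons 230 (.leaf 231 1817 (.cons 278 (.leaf 279 2008 (.cons 277 (.leaf 250 2000 (.cons 301 (.leaf 276 1636 (.leaf 325 1837 .nil)) .nil)) .nil)) .nil)) (.cons 230 (.leaf 231 1817 (.cons 278 (.leaf 279 2008 (.cons 277 (.leaf 250 2000 (.cons 301 (.leaf 325 1837 (.leaf 206 1646 .nil)) .nil)) .nil)) .nil)) (.cons 255 (.leaf 276 2010 (.leaf 227 1819 .nil)) .nil))) (.cons 254 (.leaf 274 2002 (.cons 230 (.leaf 231 1817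 (.cons 278 (.leaf 279 2008 (.cons 277 (.leaf 250 2000 (.cons 301 (.leaf 325 1837 (.leaf 206 1646 .nil)) .nil)) .nil)) .nil)) .nil)) (.cons 254 (.leaf 274 2002 (.cons 255 (.leaf 276 2010 (.leaf 227 1819 .nil)) .nil)) .nil))))
noncomputable def t125 : T := .cons 254 (.leaf 274 2002 (.cons 255 (.leaf 276 2010 (.leaf 227 1819 .nil)) .nil)) (.cons 250 (.cons 274 (.leaf 273 1994 (.cons 277 (.leaf 278 2000 (.cons 249 (.leaf 276 1992 (.cons 248 (.leaf 247 1976 (.leaf 227 1793 .nil)) .nil)) .nil)) .nil)) (.cons 277 (.leaf 278 2000 (.cons 249 (.leaf 276 1992 (.cons 224 (.leaf 225 1795 (.cons 248 (.leaf 223 1787 (.leaf 227 1793 .nil)) .nil)) .nil)) .nil)) (.cons 273 (.leaf 274 1994 (.cons 249 (.leaf 272 1986 (.cons 224 (.leaf 225 1795 (.cons 248 (.leaf 276 1984 (.leaf 223 1787 .nil)) .nil)) .nil)) .nil)) (.cons 274 (.leaf 273 1994 (.cons 277 (.leaf 278 2000 (.cons 301 (.leaf 325 1831 (.cons 276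 (.leaf 302 2192 (.cons 298 (.leaf 297 2186 (.cons 227 (.leaf 203 1622 (.leaf 322 1813 .nil)) .nil)) .nil)) .nil)) .nil)) .nil)) (.cons 273 (.leaf 274 1994 (.cons 249 (.leaf 272 1986 (.cons 224 (.leaf 225 1795 (.cons 248 (.leaf 223 1787 (.leaf 227 1793 .nil)) .nil)) .nil)) .nil)) .nil))))) (.cons 254 (.cons 255 (.leaf 276 2010 (.leaf 227 1819 .nil)) (.cons 230 (.leaf 231 1817 (.cons 278 (.leaf 279 2008 (.cons 277 (.leaf 250 2000 (.cons 301 (.leaf 325 1837 (.leaf 206 1646 .nil)) .nil)) .nil)) .nil)) .nil)) (.cons 254 (.leaf 274 2002 (.cons 230 (.leaf 231 1817 (.cons 278 (.leaf 279 2008 (.cons 277 (.leaf 250 2000 (.cons 301 (.leaf 325 1837 (.leaf 206 1646 .nil)) .nil)) .nil)) .nil)) .nil)) .nil)))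
noncomputable def t126 : T := .cons 297 (.leaf 296 2178 (.cons 277 (.leaf 298 2186 (.cons 278 (.leaf 250 2003 (.leaf 279 2011 .nil)) .nil)) .nil)) (.cons 249 (.leaf 248 1987 (.cons 297 (.leaf 296 2178 (.cons 322 (.cons 321 (.leaf 346 1996 (.cons 298 (.leaf 225 1804 (.cons 345 (.leaf 250 1997 (.leaf 369 2189 .nil)) .nil)) .nil)) (.cons 321 (.leaf 346 1996 (.cons 250 (.leaf 345 1997 (.cons 224 (.leaf 225 1795 (.cons 228 (.leaf 229 1801 (.cons 204 (.leaf 180 1438 (.leaf 299 1630 .nil)) .nil)) .nil)) .nil)) .nil)) (.cons 225 (.leaf 298 1804 (.cons 224 (.leaf 250 1795 (.leaf 200 1607 .nil)) .nil)) (.cons 321 (.leaf 346 1996 (.cons 345 (.leaf 250 1997 (.cons 344 (.leaf 320 1990 (.leaf 368 2182 .nil)) .nil)) .nil)) (.cons 321 (.leaf 346 1996 (.cons 298 (.leaf 225 1804 (.cons 320 (.leaf 344 1990 (.cons 319 (.leaf 318 2353 (.leaf 299 2361 .nil)) .nil)) .nil)) .nil)) .nil))))) .nil)) .nil))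 (.cons 249 (.leaf 248 1987 (.cons 250 (.leaf 277 1992 (.cons 225 (.leaf 224 1795 (.cons 201 (.leaf 177 1420 (.leaf 298 1612 .nil)) .nil)) .nil)) .nil)) (.cons 297 (.leaf 296 2178 (.cons 248 (.leaf 249 1987 (.cons 277 (.leaf 298 2186 (.cons 278 (.leaf 279 2011 (.cons 302 (.leaf 301 2192 (.leaf 303 2200 .nil)) .nil)) .nil)) .nil)) .nil)) (.cons 249 (.leaf 248 1987 (.cons 250 (.leaf 277 1992 (.cons 225 (.leaf 224 1795 (.cons 201 (.leaf 177 1420 (.cons 200 (.leaf 176 1415 (.cons 297 (.leaf 296 2178 (.cons 202 (.leaf 178 1421 (.cons 228 (.leaf 229 1801 (.cons 180 (.leaf 204 1438 (.cons 203 (.leaf 179 1409 (.leaf 227 1600 .nil)) .nil)) .nil)) .nil)) .nil)) .nil)) .nil)) .nil)) .nil)) .nil)) .nil))))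
noncomputable def t127 : T := .cons 253 (.leaf 254 2002 (.cons 228 (.cons 204 (.leaf 180 1438 (.cons 299 (.leaf 227 1629 (.leaf 276 1630 .nil)) .nil)) (.cons 299 (.leaf 323 1821 (.cons 273 (.leaf 272 1985 (.leaf 276 1993 .nil)) .nil)) (.cons 204 (.leaf 180 1438 (.cons 299 (.leaf 227 1629 (.leaf 323 1821 .nil)) .nil)) (.cons 204 (.leaf 180 1438 (.cons 273 (.leaf 272 1985 (.leaf 276 1993 .nil)) .nil)) .nil)))) .nil)) (.cons 253 (.leaf 254 2002 (.cons 228 (.cons 204 (.leaf 180 1438 (.cons 299 (.leaf 227 1629 (.leaf 276 1630 .nil)) .nil)) (.cons 299 (.leaf 323 1821 (.cons 250 (.cons 249 (.leaf 229 1801 (.cons 248 (.leaf 247 1976 (.leaf 276 1984 .nil)) .nil)) (.cons 277 (.leaf 278 2000 (.cons 301 (.leaf 325 1831 (.cons 276 (.leaf 302 2192 (.cons 298 (.leaf 297 2186 (.cons 227 (.leaf 203 1622 (.leaf 322 1813 .nil)) .nil)) .nil)) .nil)) .nil)) (.cons 249 (.leaf 229 1801 (.cons 248 (.leaf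 247 1976 (.leaf 227 1793 .nil)) .nil)) .nil))) .nil)) (.cons 204 (.leaf 180 1438 (.cons 277 (.cons 250 (.leaf 278 2000 (.cons 249 (.leaf 276 1992 (.leaf 229 1801 .nil)) .nil)) (.cons 301 (.leaf 325 1831 (.leaf 229 1639 .nil)) (.cons 276 (.leaf 301 1636 (.cons 250 (.leaf 249 1992 (.leaf 278 2000 .nil)) .nil)) .nil))) .nil)) (.cons 204 (.leaf 180 1438 (.cons 299 (.leaf 227 1629 (.leaf 323 1821 .nil)) .nil)) .nil)))) .nil)) (.cons 273 (.leaf 272 1985 (.cons 276 t126 .nil)) (.cons 273 (.leaf 272 1985 (.cons 253 (.leaf 254 2002 (.leaf 250 1994 .nil)) .nil)) .nil)))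
noncomputable def t128 : T := .cons 253 (.leaf 254 2002 (.cons 273 (.leaf 272 1985 (.leaf 276 1993 .nil)) .nil)) (.cons 253 (.leaf 254 2002 (.cons 206 (.cons 178 (.leaf 179 1427 (.cons 182 (.leaf 183 1433 (.cons 202 (.leaf 177 1419 (.leaf 181 1425 .nil)) .nil)) .nil)) (.cons 179 (.leaf 178 1427 (.cons 207 (.leaf 180 1435 (.cons 184 (.leaf 183 1441 (.cons 208 (.leaf 185 1449 (.cons 232 (.leaf 231 1632 (.leaf 233 1640 .nil)) .nil)) .nil)) .nil)) .nil)) (.cons 182 (.leaf 183 1433 (.cons 181 (.leaf 202 1425 (.cons 229 (.leaf 276 1446 (.leaf 158 1261 .nil)) .nil)) .nil)) (.cons 178 (.leaf 179 1427 (.cons 202 (.leaf 177 1419 (.cons 181 (.leaf 182 1425 (.cons 180 (.leaf 201 1417 (.cons 229 (.leaf 276 1446 (.leaf 277 1447 .nil)) .nil)) .nil)) .nil)) .nil)) .nil)))) .nil)) (.cons 273 (.leaf 272 1985 (.cons 202 (.cons 181 (.leaf 182 1425 (.cons 201 (.leaf 180 1417 (.cons 225 (.leaf 224 1602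 (.cons 249 (.leaf 298 1612 (.leaf 178 1421 .nil)) .nil)) .nil)) .nil)) (.cons 181 (.leaf 182 1425 (.cons 201 (.leaf 180 1417 (.cons 176 (.leaf 177 1411 (.cons 200 (.leaf 175 1403 (.cons 225 (.leaf 224 1602 (.leaf 249 1415 .nil)) .nil)) .nil)) .nil)) .nil)) (.cons 177 (.leaf 178 1419 (.cons 201 (.leaf 176 1411 (.cons 225 (.leaf 224 1602 (.cons 249 (.leaf 250 1420 (.leaf 298 1612 .nil)) .nil)) .nil)) .nil)) (.cons 178 (.leaf 177 1419 (.cons 182 (.leaf 181 1425 (.cons 206 (.leaf 179 1427 (.leaf 183 1433 .nil)) .nil)) .nil)) .nil)))) .nil)) .nil))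
noncomputable def t129 : T := .cons 230 (.leaf 231 1624 (.cons 229 (.leaf 202 1616 (.cons 253 (.leaf 250 1809 (.cons 277 (.leaf 180 1447 (.leaf 301 1645 .nil)) .nil)) .nil)) .nil)) (.cons 179 (.leaf 178 1427 (.cons 207 (.leaf 180 1435 (.cons 184 (.leaf 183 1441 (.cons 208 (.leaf 185 1449 (.cons 232 (.leaf 231 1632 (.leaf 233 1640 .nil)) .nil)) .nil)) .nil)) .nil)) (.cons 179 (.leaf 178 1427 (.cons 180 (.leaf 207 1435 (.cons 229 (.cons 156 (.leaf 132 1060 (.cons 253 (.leaf 277 1447 (.leaf 181 1255 .nil)) .nil)) (.cons 132 (.leaf 156 1060 (.cons 202 (.leaf 230 1616 (.cons 201 (.leaf 181 1417 (.leaf 200 1409 .nil)) .nil)) .nil)) (.cons 202 (.leaf 230 1616 (.cons 201 (.leaf 181 1417 (.leaf 200 1409 .nil)) .nil)) (.cons 253 (.leaf 277 1447 (.cons 132 (.leaf 156 1060 (.cons 202 (.leaf 230 1616 (.cons 201 (.leaf 200 1409 (.cons 274 (.leaf 254 2002 (.cons 273 (.leaf 272 1985 (.leaf 276 1993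 .nil)) .nil)) .nil)) .nil)) .nil)) .nil)) .nil)))) .nil)) .nil)) (.cons 230 (.leaf 231 1624 (.cons 178 (.leaf 179 1427 (.cons 202 (.leaf 177 1419 (.leaf 229 1616 .nil)) .nil)) .nil)) .nil)))
noncomputable def t130 : T := .cons 177 (.leaf 178 1419 (.cons 181 (.leaf 182 1425 (.cons 201 (.leaf 176 1411 (.leaf 180 1417 .nil)) .nil)) .nil)) (.cons 177 (.leaf 178 1419 (.cons 201 (.leaf 176 1411 (.cons 224 (.leaf 225 1602 (.cons 200 (.leaf 223 1594 (.cons 180 (.leaf 179 1409 (.cons 229 (.leaf 230 1616 (.cons 253 (.leaf 277 1447 (.cons 272 (.leaf 248 1413 (.cons 274 (.leaf 254 2002 (.leaf 273 1985 .nil)) .nil)) .nil)) .nil)) .nil)) .nil)) .nil)) .nil)) .nil)) (.cons 181 (.leaf 182 1425 (.cons 180 (.leaf 201 1417 (.cons 229 (.leaf 230 1616 (.cons 253 (.leaf 276 1446 (.leaf 277 1447 .nil)) .nil)) .nil)) .nil)) (.cons 229 (.leaf 230 1616 (.cons 177 (.leaf 178 1419 (.cons 181 (.leaf 182 1425 (.cons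 253 (.leaf 276 1446 (.cons 180 (.leaf 277 1447 (.leaf 156 1255 .nil)) .nil)) .nil)) .nil)) .nil)) (.cons 177 (.leaf 178 1419 (.cons 181 (.leaf 182 1425 (.cons 201 (.leaf 176 1411 (.cons 224 (.leaf 225 1602 (.cons 200 (.leaf 223 1594 (.cons 229 (.leaf 230 1616 (.cons 272 (.leaf 248 1413 (.cons 253 (.leaf 276 1446 (.cons 274 (.leaf 254 2002 (.leaf 273 1985 .nil)) .nil)) .nil)) .nil)) .nil)) .nil)) .nil)) .nil)) .nil)) .nil))))
noncomputable def t131 : T := .cons 230 (.cons 206 (.leaf 231 1624 (.cons 182 (.leaf 183 1433 (.cons 181 (.leaf 202 1425 (.cons 157 (.leaf 133 1068 (.leaf 254 1263 .nil)) .nil)) .nil)) .nil)) (.cons 229 (.leaf 202 1616 (.cons 231 (.leaf 232 1635 (.cons 253 (.leaf 250 1809 (.leaf 254 1817 .nil)) .nil)) .nil)) (.cons 229 (.leaf 202 1616 (.cons 253 (.leaf 250 1809 (.cons 181 (.leaf 276 1446 (.cons 156 (.leaf 180 1255 (.cons 157 (.leaf 132 1063 (.leaf 254 1260 .nil))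 .nil)) .nil)) .nil)) .nil)) (.cons 231 (.leaf 206 1624 (.cons 229 (.leaf 232 1635 (.cons 253 (.leaf 250 1809 (.leaf 254 1817 .nil)) .nil)) .nil)) (.cons 229 (.leaf 202 1616 (.cons 231 (.leaf 206 1624 (.leaf 232 1635 .nil)) .nil)) .nil))))) (.cons 202 t130 (.cons 206 (.cons 182 (.leaf 183 1433 (.cons 230 (.leaf 231 1624 (.cons 253 (.cons 229 (.leaf 250 1809 (.leaf 277 1453 .nil)) (.cons 254 (.leaf 274 2002 (.leaf 277 1454 .nil)) (.cons 229 (.leaf 250 1809 (.leaf 158 1262 .nil)) .nil))) .nil)) .nil)) (.cons 179 (.leaf 178 1427 (.cons 207 (.leaf 180 1435 (.cons 231 (.leaf 230 1624 (.leaf 232 1632 .nil)) .nil)) .nil)) (.cons 179 (.leaf 178 1427 (.cons 183 (.leaf 182 1433 (.cons 207 (.leaf 180 1435 (.leaf 184 1441 .nil)) .nil)) .nil)) .nil))) (.cons 206 t129 (.cons 274 t128 (.cons 206 (.cons 178 (.leaf 179 1427 (.cons 182 (.leaf 183 1433 (.cons 202 (.leaf 177 1419 (.leaf 181 1425 .nil))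 .nil)) .nil)) (.cons 179 (.leaf 178 1427 (.cons 207 (.leaf 180 1435 (.cons 231 (.leaf 230 1624 (.leaf 232 1632 .nil)) .nil)) .nil)) (.cons 182 (.leaf 183 1433 (.cons 181 (.leaf 202 1425 (.cons 230 (.leaf 231 1624 (.cons 157 (.leaf 133 1068 (.leaf 254 1263 .nil)) .nil)) .nil)) .nil)) .nil))) (.cons 206 (.cons 178 (.leaf 179 1427 (.cons 182 (.leaf 183 1433 (.cons 202 (.leaf 177 1419 (.leaf 181 1425 .nil)) .nil)) .nil)) (.cons 178 (.leaf 179 1427 (.cons 202 (.leaf 177 1419 (.cons 230 (.leaf 229 1616 (.leaf 231 1624 .nil)) .nil)) .nil)) (.cons 230 (.leaf 231 1624 (.cons 182 (.leaf 183 1433 (.cons 253 (.cons 229 (.leaf 250 1809 (.leaf 202 1616 .nil)) (.cons 254 (.leaf 274 2002 (.leaf 277 1454 .nil)) .nil)) .nil)) .nil)) (.cons 178 (.leaf 179 1427 (.cons 183 (.leaf 182 1433 (.cons 207 (.leaf 184 1441 (.cons 231 (.leaf 230 1624 (.leaf 232 1632 .nil)) .nil)) .nil)) .nil)) .nil)))) (.cons 206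 (.cons 178 (.leaf 179 1427 (.cons 182 (.leaf 183 1433 (.cons 202 (.leaf 177 1419 (.leaf 181 1425 .nil)) .nil)) .nil)) (.cons 230 (.leaf 231 1624 (.cons 229 (.leaf 202 1616 (.cons 253 (.leaf 250 1809 (.cons 277 (.leaf 180 1447 (.leaf 301 1645 .nil)) .nil)) .nil)) .nil)) (.cons 178 (.leaf 179 1427 (.cons 183 (.leaf 182 1433 (.cons 207 (.leaf 184 1441 (.cons 231 (.leaf 230 1624 (.leaf 232 1632 .nil)) .nil)) .nil)) .nil)) .nil))) .nil)))))))
noncomputable def t132 : T := .cons 228 (.leaf 180 1438 (.cons 299 (.leaf 227 1629 (.leaf 276 1630 .nil)) .nil)) (.cons 203 (.cons 227 (.leaf 180 1437 (.cons 178 (.leaf 202 1431 (.cons 179 (.leaf 154 1239 (.leaf 276 1436 .nil)) .nil)) .nil)) (.cons 205 t131 (.cons 274 (.cons 227 (.leaf 298 1622 (.cons 178 (.leaf 202 1431 (.cons 179 (.leaf 154 1239 (.leaf 250 1430 .nil)) .nil)) .nil)) (.cons 253 (.leaf 254 2002 (.cons 273 (.leaf 272 1985 (.leaf 276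 1993 .nil)) .nil)) .nil)) (.cons 227 (.leaf 180 1437 (.cons 274 (.leaf 298 1622 (.cons 253 (.leaf 254 2002 (.cons 273 (.leaf 272 1985 (.leaf 276 1993 .nil)) .nil)) .nil)) .nil)) (.cons 227 (.leaf 180 1437 (.cons 178 (.leaf 202 1431 (.cons 154 (.leaf 179 1239 (.cons 274 (.leaf 298 1622 (.cons 253 (.leaf 254 2002 (.cons 273 (.leaf 272 1985 (.leaf 250 1994 .nil)) .nil)) .nil)) .nil)) .nil)) .nil)) .nil))))) (.cons 299 (.cons 323 (.leaf 228 1821 (.cons 322 (.leaf 346 2006 (.cons 298 (.leaf 227 1814 (.cons 347 (.leaf 276 2013 (.cons 274 (.leaf 250 2004 (.leaf 371 2199 .nil)) .nil)) .nil)) .nil)) .nil)) (.cons 323 (.cons 322 (.leaf 346 2006 (.cons 298 (.leaf 227 1814 (.cons 347 (.leaf 276 2013 (.cons 274 (.leaf 250 2004 (.leaf 371 2199 .nil)) .nil)) .nil)) .nil)) (.cons 322 (.leaf 346 2006 (.cons 298 (.leaf 227 1814 (.cons 324 (.leaf 348 2012 (.cons 297 (.leaf 296 2368 (.leaf 325 2379 .nil))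 .nil)) .nil)) .nil)) (.cons 347 (.leaf 276 2013 (.cons 348 (.leaf 324 2012 (.leaf 372 2204 .nil)) .nil)) .nil))) (.cons 228 (.leaf 227 1629 (.leaf 276 1630 .nil)) (.cons 228 (.leaf 227 1629 (.leaf 323 1821 .nil)) (.cons 228 (.leaf 276 1630 (.leaf 323 1821 .nil)) .nil))))) (.cons 228 (.leaf 180 1438 (.cons 299 (.leaf 276 1630 (.leaf 323 1821 .nil)) .nil)) (.cons 228 (.leaf 180 1438 (.cons 299 (.leaf 227 1629 (.leaf 323 1821 .nil)) .nil)) .nil))))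
noncomputable def t133 : T := .cons 254 (.leaf 274 2002 (.cons 230 (.leaf 231 1817 (.cons 255 (.leaf 276 2010 (.leaf 227 1819 .nil)) .nil)) .nil)) (.cons 229 (.cons 230 (.leaf 231 1818 (.leaf 250 1809 .nil)) (.cons 277 (.cons 301 (.leaf 325 1831 (.cons 302 (.leaf 326 1836 (.cons 205 (.leaf 278 1644 (.cons 181 (.leaf 157 1254 (.leaf 276 1446 .nil)) .nil)) .nil)) .nil)) (.cons 301 (.leaf 325 1831 (.cons 302 (.leaf 326 1836 (.cons 274 (.leaf 276 2192 (.cons 273 (.leaf 272 1985 (.leaf 250 1994 .nil)) .nil)) .nil)) .nil)) (.cons 301 (.leaf 325 1831 (.cons 302 (.leaf 326 1836 (.cons 205 (.leaf 278 1644 (.cons 181 (.leaf 157 1254 (.cons 182 (.leaf 158 1261 (.leaf 206 1453 .nil)) .nil)) .nil)) .nil)) .nil)) (.cons 278 (.leaf 250 2000 (.cons 276 (.leaf 298 2194 (.leaf 279 2011 .nil)) .nil)) .nil)))) (.cons 230 (.leaf 231 1818 (.cons 227 (.cons 206 (.leaf 207 1625 (.cons 182 (.leaf 158 1262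 (.cons 277 (.leaf 205 1453 (.leaf 301 1645 .nil)) .nil)) .nil)) (.cons 203 (.leaf 202 1619 (.cons 179 (.leaf 276 1436 (.leaf 155 1244 .nil)) .nil)) .nil)) .nil)) .nil))) (.cons 254 (.cons 230 (.leaf 231 1817 (.cons 255 (.leaf 276 2010 (.leaf 227 1819 .nil)) .nil)) (.cons 230 (.leaf 231 1817 (.cons 278 (.leaf 279 2008 (.cons 250 (.leaf 229 1809 (.leaf 277 2000 .nil)) .nil)) .nil)) (.cons 255 (.leaf 276 2010 (.leaf 227 1819 .nil)) .nil))) (.cons 254 (.leaf 274 2002 (.cons 255 (.leaf 276 2010 (.leaf 227 1819 .nil)) .nil)) (.cons 254 (.leaf 274 2002 (.cons 230 (.leaf 231 1817 (.cons 278 (.leaf 279 2008 (.cons 250 (.leaf 229 1809 (.leaf 277 2000 .nil)) .nil)) .nil)) .nil)) .nil))))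
noncomputable def t134 : T := .cons 299 (.leaf 323 1821 (.cons 204 (.leaf 180 1438 (.leaf 227 1629 .nil)) .nil)) (.cons 299 (.leaf 323 1821 (.cons 253 t133 .nil)) (.cons 204 (.leaf 180 1438 (.cons 276 (.cons 277 (.leaf 301 1636 (.cons 278 (.leaf 250 2003 (.leaf 279 2011 .nil)) .nil)) (.cons 203 (.leaf 179 1439 (.cons 205 (.leaf 181 1445 (.cons 229 (.cons 230 (.leaf 231 1818 (.leaf 202 1616 .nil)) (.cons 202 (.leaf 201 1608 (.cons 178 (.leaf 227 1431 (.leaf 177 1419 .nil)) .nil)) (.cons 230 (.leaf 231 1818 (.cons 250 (.leaf 227 1810 (.leaf 253 1809 .nil)) .nil)) .nil))) .nil)) .nil)) (.cons 179 (.leaf 203 1439 (.cons 181 (.leaf 205 1445 (.cons 277 (.leaf 301 1636 (.cons 278 (.leaf 279 2011 (.cons 254 (.leaf 255 2009 (.cons 253 (.leaf 274 2001 (.cons 230 (.leaf 231 1817 (.cons 206 (.leaf 182 1454 (.cons 302 (.leaf 303 2200 (.cons 326 (.leaf 350 2031 (.leaf 229 1839 .nil)) .nil)) .nil))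 .nil)) .nil)) .nil)) .nil)) .nil)) .nil)) .nil)) .nil))) .nil)) (.cons 204 (.leaf 180 1438 (.cons 299 (.leaf 276 1630 (.leaf 323 1821 .nil)) .nil)) .nil)))
noncomputable def t135 : T := .cons 206 (.cons 178 (.leaf 179 1427 (.cons 202 (.leaf 177 1419 (.cons 229 (.leaf 230 1616 (.cons 253 (.cons 181 (.leaf 276 1446 (.cons 254 (.leaf 274 2002 (.leaf 278 1452 .nil)) .nil)) (.cons 254 (.leaf 274 2002 (.cons 255 (.leaf 276 2010 (.cons 279 (.leaf 278 2008 (.leaf 280 2016 .nil)) .nil)) .nil)) (.cons 181 (.leaf 276 1446 (.cons 180 (.leaf 201 1417 (.leaf 156 1255 .nil)) .nil)) (.cons 254 (.leaf 274 2002 (.cons 278 (.leaf 279 2008 (.leaf 181 1452 .nil)) .nil)) .nil)))) .nil)) .nil)) .nil)) (.cons 179 (.leaf 178 1427 (.cons 207 (.leaf 180 1435 (.cons 184 (.leaf 183 1441 (.cons 208 (.leaf 185 1449 (.cons 232 (.leaf 231 1632 (.leaf 233 1640 .nil)) .nil)) .nil)) .nil)) .nil)) (.cons 230 (.leaf 231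 1624 (.cons 229 (.leaf 202 1616 (.cons 253 (.leaf 250 1809 (.cons 181 (.leaf 276 1446 (.cons 254 (.leaf 274 2002 (.leaf 157 1260 .nil)) .nil)) .nil)) .nil)) .nil)) .nil))) (.cons 206 (.cons 179 (.leaf 178 1427 (.cons 207 (.leaf 180 1435 (.cons 231 (.leaf 230 1624 (.leaf 232 1632 .nil)) .nil)) .nil)) (.cons 179 (.leaf 178 1427 (.cons 207 (.leaf 180 1435 (.cons 184 (.leaf 183 1441 (.cons 208 (.leaf 185 1449 (.cons 232 (.leaf 231 1632 (.leaf 233 1640 .nil)) .nil)) .nil)) .nil)) .nil)) (.cons 179 (.leaf 178 1427 (.cons 183 (.leaf 182 1433 (.cons 207 (.leaf 180 1435 (.leaf 184 1441 .nil)) .nil)) .nil)) (.cons 230 (.leaf 231 1624 (.cons 183 (.leaf 182 1433 (.cons 207 (.leaf 184 1441 (.cons 254 (.leaf 278 1461 (.cons 253 (.leaf 274 2002 (.cons 229 (.leaf 250 1809 (.leaf 202 1616 .nil)) .nil)) .nil)) .nil)) .nil)) .nil)) (.cons 230 (.leaf 231 1624 (.cons 178 (.leaf 179 1427 (.cons 202 (.leaf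 177 1419 (.leaf 229 1616 .nil)) .nil)) .nil)) .nil))))) (.cons 206 (.cons 230 (.leaf 231 1624 (.cons 178 (.leaf 179 1427 (.cons 202 (.leaf 177 1419 (.leaf 229 1616 .nil)) .nil)) .nil)) (.cons 182 (.leaf 183 1433 (.cons 178 (.leaf 179 1427 (.cons 202 (.leaf 177 1419 (.leaf 181 1425 .nil)) .nil)) .nil)) (.cons 182 (.leaf 183 1433 (.cons 181 (.leaf 202 1425 (.cons 230 (.leaf 231 1624 (.cons 157 (.leaf 133 1068 (.leaf 254 1263 .nil)) .nil)) .nil)) .nil)) (.cons 179 (.leaf 178 1427 (.cons 207 (.leaf 180 1435 (.cons 231 (.leaf 230 1624 (.leaf 232 1632 .nil)) .nil)) .nil)) .nil)))) (.cons 230 (.cons 206 (.leaf 231 1624 (.cons 229 (.leaf 202 1616 (.cons 253 (.leaf 250 1809 (.cons 181 (.leaf 276 1446 (.cons 254 (.leaf 274 2002 (.leaf 157 1260 .nil)) .nil)) .nil)) .nil)) .nil)) (.cons 206 (.leaf 231 1624 (.cons 182 (.leaf 183 1433 (.cons 181 (.leaf 202 1425 (.cons 157 (.leaf 133 1068 (.leaf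 254 1263 .nil)) .nil)) .nil)) .nil)) (.cons 229 (.leaf 202 1616 (.cons 253 (.leaf 250 1809 (.cons 181 (.leaf 276 1446 (.cons 156 (.leaf 180 1255 (.cons 157 (.leaf 132 1063 (.leaf 254 1260 .nil)) .nil)) .nil)) .nil)) .nil)) (.cons 231 (.leaf 206 1624 (.cons 229 (.leaf 232 1635 (.cons 253 (.leaf 250 1809 (.leaf 254 1817 .nil)) .nil)) .nil)) (.cons 229 (.leaf 202 1616 (.cons 231 (.leaf 206 1624 (.leaf 232 1635 .nil)) .nil)) .nil))))) (.cons 206 (.cons 178 (.leaf 179 1427 (.cons 202 (.leaf 177 1419 (.cons 181 (.leaf 182 1425 (.cons 201 (.leaf 180 1417 (.cons 225 (.leaf 224 1602 (.cons 273 (.leaf 249 1421 (.cons 274 (.leaf 272 1985 (.cons 253 (.leaf 254 2002 (.leaf 276 1993 .nil)) .nil)) .nil)) .nil)) .nil)) .nil)) .nil)) .nil)) (.cons 179 (.leaf 178 1427 (.cons 207 (.leaf 180 1435 (.cons 231 (.leaf 230 1624 (.leaf 232 1632 .nil)) .nil)) .nil)) (.cons 182 (.leaf 183 1433 (.cons 181 (.leaf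 202 1425 (.cons 230 (.leaf 231 1624 (.cons 157 (.leaf 133 1068 (.leaf 254 1263 .nil)) .nil)) .nil)) .nil)) .nil))) (.cons 206 (.cons 178 (.leaf 179 1427 (.cons 183 (.leaf 182 1433 (.cons 207 (.leaf 184 1441 (.cons 231 (.leaf 230 1624 (.leaf 232 1632 .nil)) .nil)) .nil)) .nil)) (.cons 178 (.leaf 179 1427 (.cons 182 (.leaf 183 1433 (.cons 202 (.leaf 177 1419 (.leaf 181 1425 .nil)) .nil)) .nil)) (.cons 178 (.leaf 179 1427 (.cons 230 (.leaf 231 1624 (.cons 202 (.leaf 177 1419 (.leaf 229 1616 .nil)) .nil)) .nil)) (.cons 230 (.leaf 231 1624 (.cons 182 (.leaf 183 1433 (.cons 229 (.leaf 202 1616 (.cons 158 (.leaf 134 1070 (.leaf 253 1262 .nil)) .nil)) .nil)) .nil)) .nil)))) .nil)))))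
noncomputable def t136 : T := .cons 253 (.leaf 254 2002 (.cons 273 (.leaf 272 1985 (.leaf 276 1993 .nil)) .nil)) (.cons 253 (.leaf 254 2002 (.cons 206 (.cons 179 (.leaf 178 1427 (.cons 207 (.leaf 180 1435 (.cons 183 (.leaf 182 1433 (.leaf 184 1441 .nil)) .nil)) .nil)) (.cons 179 (.leaf 178 1427 (.cons 207 (.leaf 180 1435 (.cons 184 (.leaf 183 1441 (.cons 208 (.leaf 185 1449 (.cons 232 (.leaf 231 1632 (.leaf 233 1640 .nil)) .nil)) .nil)) .nil)) .nil)) (.cons 182 (.leaf 183 1433 (.cons 181 (.leaf 202 1425 (.cons 229 (.leaf 276 1446 (.leaf 158 1261 .nil)) .nil)) .nil)) (.cons 178 (.leaf 179 1427 (.cons 202 (.leaf 177 1419 (.cons 181 (.leaf 182 1425 (.cons 180 (.leaf 201 1417 (.cons 229 (.leaf 276 1446 (.leaf 156 1255 .nil)) .nil)) .nil)) .nil)) .nil)) .nil)))) .nil)) (.cons 273 (.leaf 272 1985 (.cons 202 (.cons 181 (.leaf 182 1425 (.cons 201 (.leaf 180 1417 (.cons 225 (.leaf 224 1602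 (.cons 249 (.leaf 298 1612 (.leaf 178 1421 .nil)) .nil)) .nil)) .nil)) (.cons 181 (.leaf 182 1425 (.cons 201 (.leaf 180 1417 (.cons 176 (.leaf 177 1411 (.cons 200 (.leaf 175 1403 (.cons 225 (.leaf 224 1602 (.leaf 249 1415 .nil)) .nil)) .nil)) .nil)) .nil)) (.cons 177 (.leaf 178 1419 (.cons 201 (.leaf 176 1411 (.cons 225 (.leaf 224 1602 (.cons 249 (.leaf 250 1420 (.leaf 298 1612 .nil)) .nil)) .nil)) .nil)) (.cons 178 (.leaf 177 1419 (.cons 182 (.leaf 181 1425 (.cons 206 (.leaf 179 1427 (.leaf 183 1433 .nil)) .nil)) .nil)) .nil)))) .nil)) .nil))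
noncomputable def t137 : T := .cons 230 (.cons 206 (.leaf 231 1624 (.cons 229 (.leaf 202 1616 (.cons 253 (.leaf 250 1809 (.cons 181 (.leaf 276 1446 (.cons 254 (.leaf 274 2002 (.leaf 157 1260 .nil)) .nil)) .nil)) .nil)) .nil)) (.cons 229 (.leaf 202 1616 (.cons 231 (.leaf 232 1635 (.cons 253 (.leaf 250 1809 (.leaf 254 1817 .nil)) .nil)) .nil)) (.cons 206 (.leaf 231 1624 (.cons 182 (.leaf 183 1433 (.cons 181 (.leaf 202 1425 (.cons 157 (.leaf 133 1068 (.leaf 254 1263 .nil)) .nil)) .nil)) .nil)) (.cons 202 (.leaf 229 1616 (.cons 181 (.leaf 182 1425 (.cons 201 (.leaf 180 1417 (.cons 177 (.leaf 176 1411 (.leaf 178 1419 .nil)) .nil)) .nil)) .nil)) (.cons 206 (.leaf 231 1624 (.cons 183 (.leaf 182 1433 (.cons 207 (.leaf 184 1441 (.cons 254 (.leaf 278 1461 (.cons 179 (.leaf 178 1427 (.leaf 180 1435 .nil)) .nil)) .nil)) .nil)) .nil)) .nil))))) (.cons 202 (.cons 181 (.leaf 182 1425 (.cons 229 (.leaf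 230 1616 (.cons 253 (.leaf 276 1446 (.cons 254 (.leaf 274 2002 (.leaf 278 1452 .nil)) .nil)) .nil)) .nil)) (.cons 177 (.leaf 178 1419 (.cons 201 (.leaf 176 1411 (.cons 225 (.leaf 224 1602 (.cons 249 (.cons 272 (.leaf 248 1414 (.cons 273 (.leaf 274 1985 (.leaf 250 1986 .nil)) .nil)) (.cons 272 (.leaf 248 1414 (.cons 273 (.leaf 250 1986 (.leaf 296 1606 .nil)) .nil)) (.cons 274 (.leaf 250 1420 (.cons 229 (.leaf 230 1616 (.cons 253 (.leaf 254 2002 (.cons 273 (.leaf 276 1993 (.leaf 298 1612 .nil)) .nil)) .nil)) .nil)) (.cons 272 (.leaf 248 1414 (.cons 273 (.leaf 274 1985 (.leaf 296 1606 .nil)) .nil)) (.cons 250 (.leaf 274 1420 (.cons 248 (.leaf 276 1984 (.leaf 272 1414 .nil)) .nil)) .nil))))) .nil)) .nil)) .nil)) (.cons 181 (.leaf 182 1425 (.cons 177 (.leaf 178 1419 (.cons 201 (.leaf 176 1411 (.leaf 180 1417 .nil)) .nil)) .nil)) .nil))) (.cons 206 (.cons 179 (.leaf 178 1427 (.cons 207 (.leaf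 180 1435 (.cons 231 (.leaf 230 1624 (.leaf 232 1632 .nil)) .nil)) .nil)) (.cons 179 (.leaf 178 1427 (.cons 183 (.leaf 182 1433 (.cons 207 (.leaf 180 1435 (.leaf 184 1441 .nil)) .nil)) .nil)) (.cons 183 (.leaf 182 1433 (.cons 207 (.leaf 184 1441 (.cons 231 (.leaf 230 1624 (.leaf 232 1632 .nil)) .nil)) .nil)) (.cons 230 (.leaf 231 1624 (.cons 182 (.leaf 183 1433 (.cons 179 (.leaf 178 1427 (.cons 158 (.cons 229 (.leaf 134 1070 (.leaf 253 1262 .nil)) (.cons 133 (.leaf 157 1071 (.cons 134 (.leaf 109 879 (.cons 135 (.leaf 111 885 (.leaf 159 1077 .nil)) .nil)) .nil)) (.cons 133 (.leaf 157 1071 (.cons 159 (.leaf 135 1077 (.cons 181 (.leaf 180 1241 (.cons 253 (.leaf 229 1261 (.cons 254 (.leaf 274 2002 (.leaf 278 1455 .nil)) .nil)) .nil)) .nil)) .nil)) .nil))) .nil)) .nil)) .nil)) .nil)))) (.cons 274 t136 (.cons 206 (.cons 182 (.leaf 183 1433 (.cons 230 (.leaf 231 1624 (.cons 229 (.leaf 202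 1616 (.cons 158 (.leaf 134 1070 (.leaf 253 1262 .nil)) .nil)) .nil)) .nil)) (.cons 179 (.leaf 178 1427 (.cons 207 (.leaf 180 1435 (.cons 184 (.leaf 183 1441 (.cons 208 (.leaf 185 1449 (.cons 232 (.leaf 231 1632 (.leaf 233 1640 .nil)) .nil)) .nil)) .nil)) .nil)) (.cons 182 (.leaf 183 1433 (.cons 178 (.leaf 179 1427 (.cons 202 (.leaf 177 1419 (.leaf 181 1425 .nil)) .nil)) .nil)) (.cons 178 (.leaf 179 1427 (.cons 202 (.leaf 177 1419 (.cons 230 (.leaf 229 1616 (.leaf 231 1624 .nil)) .nil)) .nil)) .nil)))) t135))))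
noncomputable def t138 : T := .cons 203 (.cons 227 (.leaf 180 1437 (.cons 178 (.leaf 202 1431 (.cons 179 (.leaf 154 1239 (.leaf 276 1436 .nil)) .nil)) .nil)) (.cons 274 (.cons 227 (.leaf 298 1622 (.cons 178 (.leaf 202 1431 (.cons 179 (.leaf 154 1239 (.leaf 250 1430 .nil)) .nil)) .nil)) (.cons 273 (.leaf 272 1985 (.cons 253 (.leaf 254 2002 (.leaf 276 1993 .nil)) .nil)) .nil)) (.cons 228 (.leaf 180 1438 (.cons 276 (.leaf 299 1630 (.leaf 179 1439 .nil)) .nil)) (.cons 227 (.leaf 180 1437 (.cons 274 (.leaf 298 1622 (.cons 253 (.leaf 254 2002 (.cons 273 (.leaf 272 1985 (.leaf 276 1993 .nil)) .nil)) .nil)) .nil)) (.cons 227 (.leaf 180 1437 (.cons 178 (.leaf 202 1431 (.cons 154 (.leaf 179 1239 (.cons 274 (.leaf 298 1622 (.cons 253 (.leaf 254 2002 (.cons 273 (.leaf 272 1985 (.leaf 250 1994 .nil)) .nil)) .nil)) .nil)) .nil)) .nil)) .nil))))) (.cons 203 (.cons 227 (.leaf 180 1437 (.cons 178 (.leaf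 202 1431 (.cons 179 (.leaf 154 1239 (.leaf 276 1436 .nil)) .nil)) .nil)) (.cons 205 t137 (.cons 274 (.cons 227 (.leaf 298 1622 (.cons 178 (.leaf 202 1431 (.cons 179 (.leaf 154 1239 (.leaf 250 1430 .nil)) .nil)) .nil)) (.cons 273 (.leaf 272 1985 (.cons 253 (.leaf 254 2002 (.leaf 276 1993 .nil)) .nil)) .nil)) (.cons 227 (.leaf 180 1437 (.cons 274 (.leaf 298 1622 (.cons 253 (.leaf 254 2002 (.cons 273 (.leaf 272 1985 (.leaf 276 1993 .nil)) .nil)) .nil)) .nil)) (.cons 227 (.leaf 180 1437 (.cons 178 (.leaf 202 1431 (.cons 154 (.leaf 179 1239 (.cons 274 (.leaf 298 1622 (.cons 253 (.leaf 254 2002 (.cons 273 (.leaf 272 1985 (.leaf 250 1994 .nil)) .nil)) .nil)) .nil)) .nil)) .nil)) .nil))))) (.cons 299 (.cons 228 (.leaf 227 1629 (.leaf 276 1630 .nil)) (.cons 323 (.cons 347 (.leaf 276 2013 (.cons 348 (.leaf 324 2012 (.leaf 372 2204 .nil)) .nil)) (.cons 322 (.leaf 346 2006 (.cons 298 (.leaf 227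 1814 (.cons 324 (.leaf 348 2012 (.cons 297 (.leaf 296 2368 (.leaf 325 2379 .nil)) .nil)) .nil)) .nil)) (.cons 322 (.leaf 346 2006 (.cons 298 (.leaf 227 1814 (.cons 347 (.leaf 276 2013 (.cons 274 (.leaf 250 2004 (.leaf 371 2199 .nil)) .nil)) .nil)) .nil)) .nil))) (.cons 228 (.leaf 227 1629 (.leaf 323 1821 .nil)) (.cons 228 (.leaf 276 1630 (.leaf 323 1821 .nil)) .nil)))) (.cons 228 (.leaf 180 1438 (.cons 299 (.leaf 276 1630 (.leaf 323 1821 .nil)) .nil)) (.cons 228 (.leaf 180 1438 (.cons 299 (.leaf 227 1629 (.leaf 323 1821 .nil)) .nil)) .nil))))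
noncomputable def t139 : T := .cons 230 (.leaf 231 1818 (.cons 227 (.leaf 250 1810 (.cons 206 (.leaf 207 1625 (.cons 254 (.leaf 255 1816 (.cons 253 (.leaf 274 2002 (.cons 277 (.leaf 301 1645 (.leaf 182 1454 .nil)) .nil)) .nil)) .nil)) .nil)) .nil)) (.cons 250 (.leaf 249 1801 (.cons 253 (.cons 274 (.leaf 254 2002 (.leaf 273 1994 .nil)) (.cons 278 (.leaf 277 2000 (.cons 254 (.leaf 279 2008 (.cons 255 (.leaf 276 2010 (.leaf 227 1819 .nil)) .nil)) .nil)) (.cons 277 (.leaf 278 2000 (.cons 274 (.leaf 273 1994 (.cons 301 (.leaf 325 1831 (.cons 302 (.leaf 276 2192 (.leaf 326 1836 .nil)) .nil)) .nil)) .nil)) .nil))) .nil)) (.cons 230 (.leaf 231 1818 (.cons 227 (.cons 206 (.leaf 207 1625 (.cons 254 (.leaf 255 1816 (.cons 253 (.leaf 274 2002 (.cons 277 (.leaf 301 1645 (.leaf 182 1454 .nil)) .nil)) .nil)) .nil)) (.cons 206 (.leaf 207 1625 (.cons 298 (.leaf 322 1814 (.cons 277 (.cons 253 (.leaf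 301 1645 (.cons 203 (.leaf 274 1622 (.leaf 202 1619 .nil)) .nil)) (.cons 253 (.leaf 301 1645 (.cons 182 (.leaf 158 1262 (.leaf 205 1453 .nil)) .nil)) (.cons 276 (.leaf 278 2194 (.cons 203 (.leaf 274 1622 (.leaf 179 1436 .nil)) .nil)) .nil))) .nil)) .nil)) (.cons 203 (.leaf 202 1619 (.cons 179 (.leaf 276 1436 (.leaf 155 1244 .nil)) .nil)) .nil))) .nil)) (.cons 230 (.leaf 231 1818 (.cons 250 (.leaf 227 1810 (.leaf 249 1801 .nil)) .nil)) (.cons 250 (.leaf 249 1801 (.cons 230 (.leaf 231 1818 (.leaf 253 1809 .nil)) .nil)) .nil))))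
noncomputable def t140 : T := .cons 299 (.leaf 323 1821 (.cons 204 (.leaf 180 1438 (.leaf 227 1629 .nil)) .nil)) (.cons 299 (.leaf 323 1821 (.cons 229 t139 .nil)) (.cons 204 (.leaf 180 1438 (.cons 276 (.cons 203 (.leaf 179 1439 (.cons 205 (.leaf 181 1445 (.cons 277 (.leaf 301 1636 (.cons 250 (.leaf 278 2003 (.leaf 249 1992 .nil)) .nil)) .nil)) .nil)) (.cons 203 (.leaf 179 1439 (.cons 205 (.leaf 181 1445 (.cons 229 (.cons 230 (.leaf 231 1818 (.leaf 202 1616 .nil)) (.cons 202 (.leaf 201 1608 (.cons 178 (.leaf 227 1431 (.leaf 177 1419 .nil)) .nil)) (.cons 230 (.leaf 231 1818 (.cons 250 (.leaf 227 1810 (.leaf 249 1801 .nil)) .nil)) .nil))) .nil)) .nil)) (.cons 277 (.leaf 301 1636 (.cons 250 (.leaf 278 2003 (.leaf 249 1992 .nil)) .nil)) (.cons 179 (.leaf 203 1439 (.cons 181 (.leaf 205 1445 (.cons 277 (.leaf 301 1636 (.cons 278 (.leaf 279 2011 (.cons 254 (.leaf 255 2009 (.cons 253 (.leaf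 274 2001 (.cons 230 (.leaf 231 1817 (.cons 206 (.leaf 182 1454 (.cons 302 (.leaf 303 2200 (.cons 326 (.leaf 350 2031 (.leaf 229 1839 .nil)) .nil)) .nil)) .nil)) .nil)) .nil)) .nil)) .nil)) .nil)) .nil)) .nil)))) .nil)) (.cons 204 (.leaf 180 1438 (.cons 299 (.leaf 276 1630 (.leaf 323 1821 .nil)) .nil)) .nil)))
noncomputable def t141 : T := .cons 297 (.leaf 296 2178 (.cons 277 (.leaf 298 2186 (.cons 278 (.leaf 250 2003 (.leaf 279 2011 .nil)) .nil)) .nil)) (.cons 249 (.leaf 248 1987 (.cons 297 (.leaf 296 2178 (.cons 322 (.cons 321 (.leaf 346 1996 (.cons 298 (.leaf 225 1804 (.cons 345 (.leaf 250 1997 (.leaf 369 2189 .nil)) .nil)) .nil)) (.cons 321 (.leaf 346 1996 (.cons 250 (.leaf 345 1997 (.cons 224 (.leaf 225 1795 (.cons 228 (.leaf 229 1801 (.cons 204 (.leaf 180 1438 (.leaf 299 1630 .nil)) .nil)) .nil)) .nil)) .nil)) (.cons 225 (.leaf 298 1804 (.cons 224 (.leaf 250 1795 (.leaf 200 1607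 .nil)) .nil)) (.cons 321 (.leaf 346 1996 (.cons 345 (.leaf 250 1997 (.cons 344 (.leaf 320 1990 (.leaf 368 2182 .nil)) .nil)) .nil)) (.cons 321 (.leaf 346 1996 (.cons 298 (.leaf 225 1804 (.cons 320 (.leaf 344 1990 (.cons 319 (.leaf 318 2353 (.leaf 299 2361 .nil)) .nil)) .nil)) .nil)) .nil))))) .nil)) .nil)) (.cons 249 (.leaf 248 1987 (.cons 250 (.leaf 277 1992 (.cons 225 (.leaf 224 1795 (.cons 201 (.leaf 177 1420 (.leaf 298 1612 .nil)) .nil)) .nil)) .nil)) (.cons 297 (.leaf 296 2178 (.cons 248 (.leaf 249 1987 (.cons 277 (.leaf 298 2186 (.cons 278 (.leaf 279 2011 (.cons 302 (.leaf 301 2192 (.leaf 303 2200 .nil)) .nil)) .nil)) .nil)) .nil)) (.cons 249 (.leaf 248 1987 (.cons 250 (.leaf 277 1992 (.cons 224 (.leaf 225 1795 (.cons 228 (.leaf 229 1801 (.cons 204 (.leaf 180 1438 (.leaf 299 1630 .nil)) .nil)) .nil)) .nil)) .nil)) .nil))))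
noncomputable def t142 : T := .cons 273 (.leaf 272 1985 (.cons 253 (.leaf 254 2002 (.leaf 276 1993 .nil)) .nil)) (.cons 253 (.leaf 254 2002 (.cons 250 (.cons 277 (.leaf 278 2000 (.cons 229 (.leaf 230 1809 (.cons 301 (.cons 228 (.leaf 249 1801 (.leaf 325 1831 .nil)) (.cons 302 (.leaf 276 2192 (.leaf 326 1836 .nil)) .nil)) .nil)) .nil)) (.cons 229 (.leaf 230 1809 (.cons 249 (.leaf 228 1801 (.cons 248 (.leaf 247 1976 (.leaf 276 1984 .nil)) .nil)) .nil)) (.cons 277 (.leaf 278 2000 (.cons 229 (.leaf 230 1809 (.cons 301 (.cons 228 (.leaf 325 1831 (.leaf 204 1639 .nil)) (.cons 302 (.leaf 276 2192 (.leaf 326 1836 .nil)) .nil)) .nil)) .nil)) (.cons 277 (.leaf 278 2000 (.cons 249 (.leaf 276 1992 (.cons 224 (.leaf 225 1795 (.cons 248 (.leaf 247 1976 (.leaf 223 1787 .nil)) .nil)) .nil)) .nil)) (.cons 229 (.leaf 230 1809 (.cons 228 (.leaf 249 1801 (.cons 204 (.leaf 180 1438 (.cons 277 (.leaf 278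 2000 (.leaf 301 1639 .nil)) .nil)) .nil)) .nil)) .nil))))) .nil)) (.cons 273 (.leaf 272 1985 (.cons 276 t141 .nil)) (.cons 273 (.leaf 272 1985 (.cons 253 (.leaf 254 2002 (.leaf 250 1994 .nil)) .nil)) .nil)))
noncomputable def t143 : T := .cons 277 (.leaf 278 2000 (.cons 229 (.leaf 230 1809 (.cons 204 (.cons 205 (.leaf 180 1447 (.cons 249 (.leaf 228 1801 (.leaf 276 1992 .nil)) .nil)) (.cons 205 (.leaf 180 1447 (.cons 249 (.leaf 276 1992 (.cons 182 (.leaf 206 1453 (.cons 181 (.leaf 158 1261 (.cons 224 (.leaf 225 1795 (.cons 248 (.leaf 223 1787 (.cons 247 (.leaf 274 1976 (.cons 271 (.leaf 272 1978 (.leaf 270 1970 .nil)) .nil)) .nil)) .nil)) .nil)) .nil)) .nil)) .nil)) (.cons 228 (.leaf 249 1801 (.leaf 301 1639 .nil)) (.cons 205 (.leaf 180 1447 (.cons 181 (.leaf 276 1446 (.cons 182 (.leaf 158 1261 (.leaf 206 1453 .nil)) .nil)) .nil)) .nil)))) .nil)) .nil)) (.cons 229 (.leaf 230 1809 (.cons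 228 (.leaf 249 1801 (.cons 204 (.leaf 180 1438 (.cons 299 (.leaf 227 1629 (.leaf 276 1630 .nil)) .nil)) .nil)) .nil)) (.cons 277 (.leaf 278 2000 (.cons 249 (.leaf 276 1992 (.cons 224 (.leaf 225 1795 (.cons 248 (.leaf 223 1787 (.cons 228 (.leaf 227 1793 (.cons 180 (.leaf 204 1444 (.cons 247 (.leaf 274 1976 (.cons 271 (.leaf 272 1978 (.leaf 270 1970 .nil)) .nil)) .nil)) .nil)) .nil)) .nil)) .nil)) .nil)) (.cons 277 (.leaf 278 2000 (.cons 229 (.leaf 230 1809 (.cons 204 (.cons 205 (.leaf 180 1447 (.cons 181 (.leaf 276 1446 (.cons 182 (.leaf 158 1261 (.leaf 206 1453 .nil)) .nil)) .nil)) (.cons 228 (.leaf 301 1639 (.cons 299 (.leaf 227 1629 (.leaf 276 1630 .nil)) .nil)) (.cons 180 (.leaf 228 1444 (.leaf 205 1447 .nil)) .nil))) .nil)) .nil)) (.cons 277 (.leaf 278 2000 (.cons 229 (.leaf 230 1809 (.cons 249 (.leaf 276 1992 (.cons 224 (.leaf 225 1795 (.cons 248 (.leaf 223 1787 (.cons 247 (.leaf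 274 1976 (.cons 271 (.leaf 272 1978 (.leaf 270 1970 .nil)) .nil)) .nil)) .nil)) .nil)) .nil)) .nil)) (.cons 229 (.leaf 230 1809 (.cons 228 (.leaf 249 1801 (.cons 204 (.leaf 180 1438 (.cons 277 (.leaf 278 2000 (.leaf 301 1639 .nil)) .nil)) .nil)) .nil)) .nil)))))
noncomputable def t144 : T := .cons 254 (.leaf 274 2002 (.cons 255 (.leaf 276 2010 (.cons 279 (.leaf 278 2008 (.leaf 280 2016 .nil)) .nil)) .nil)) (.cons 250 t143 (.cons 254 (.cons 255 (.leaf 276 2010 (.cons 279 (.leaf 278 2008 (.leaf 280 2016 .nil)) .nil)) (.cons 278 (.leaf 279 2008 (.cons 230 (.leaf 231 1817 (.cons 302 (.cons 229 (.leaf 250 1809 (.leaf 326 1839 .nil)) (.cons 301 (.leaf 325 1838 (.cons 206 (.leaf 277 1646 (.cons 181 (.leaf 205 1455 (.cons 182 (.leaf 157 1263 (.cons 183 (.leaf 159 1269 (.leaf 207 1461 .nil)) .nil)) .nil)) .nil)) .nil)) .nil)) .nil)) .nil)) (.cons 230 (.leaf 231 1817 (.cons 229 (.leaf 250 1809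 (.cons 255 (.leaf 276 2010 (.cons 228 (.leaf 227 1816 (.leaf 256 1827 .nil)) .nil)) .nil)) .nil)) .nil))) (.cons 254 (.leaf 274 2002 (.cons 278 (.leaf 279 2008 (.cons 230 (.leaf 231 1817 (.cons 277 (.leaf 250 2000 (.cons 206 (.leaf 182 1454 (.leaf 301 1646 .nil)) .nil)) .nil)) .nil)) .nil)) (.cons 254 (.leaf 274 2002 (.cons 230 (.leaf 231 1817 (.cons 229 (.leaf 250 1809 (.cons 255 (.leaf 276 2010 (.cons 228 (.leaf 227 1816 (.leaf 256 1827 .nil)) .nil)) .nil)) .nil)) .nil)) .nil))))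
noncomputable def t145 : T := .cons 298 (.cons 203 (.leaf 227 1622 (.cons 276 (.leaf 297 2186 (.cons 301 (.leaf 302 2192 (.cons 228 (.leaf 204 1636 (.cons 322 (.leaf 346 2005 (.cons 323 (.leaf 299 1821 (.leaf 347 2004 .nil)) .nil)) .nil)) .nil)) .nil)) .nil)) (.cons 203 (.leaf 227 1622 (.cons 276 (.leaf 297 2186 (.cons 301 (.leaf 302 2192 (.cons 228 (.leaf 204 1636 (.cons 325 (.leaf 253 1831 (.leaf 349 2023 .nil)) .nil)) .nil)) .nil)) .nil)) (.cons 276 (.leaf 297 2186 (.cons 301 (.leaf 302 2192 (.cons 228 (.leaf 204 1636 (.cons 325 (.leaf 253 1831 (.leaf 349 2023 .nil)) .nil)) .nil)) .nil)) (.cons 227 (.leaf 203 1622 (.leaf 322 1813 .nil)) .nil)))) (.cons 272 (.leaf 273 1985 (.cons 298 (.cons 297 (.leaf 276 2186 (.cons 322 (.leaf 346 2005 (.leaf 227 1813 .nil)) .nil)) (.cons 203 (.leaf 227 1622 (.cons 297 (.leaf 276 2186 (.cons 296 (.leaf 295 2169 (.cons 299 (.leaf 271 2171 (.cons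 323 (.leaf 228 1821 (.leaf 347 2007 .nil)) .nil)) .nil)) .nil)) .nil)) (.cons 297 (.leaf 276 2186 (.cons 322 (.leaf 346 2005 (.cons 295 (.leaf 296 2169 (.cons 323 (.leaf 347 2004 (.cons 324 (.leaf 325 2379 (.cons 299 (.leaf 228 1821 (.leaf 348 2012 .nil)) .nil)) .nil)) .nil)) .nil)) .nil)) (.cons 227 (.leaf 203 1622 (.leaf 322 1813 .nil)) .nil)))) .nil)) (.cons 273 (.leaf 272 1985 (.leaf 253 1994 .nil)) .nil))
noncomputable def t146 : T := .cons 274 (.cons 298 (.cons 203 (.leaf 227 1622 (.cons 276 (.leaf 278 2003 (.leaf 297 2186 .nil)) .nil)) (.cons 227 (.leaf 203 1622 (.leaf 322 1813 .nil)) (.cons 276 (.leaf 278 2003 (.leaf 297 2186 .nil)) .nil))) (.cons 273 (.leaf 272 1985 (.leaf 253 1994 .nil)) .nil)) (.cons 274 t145 (.cons 253 (.leaf 278 2000 (.cons 274 (.leaf 273 1994 (.cons 229 (.leaf 230 1809 (.cons 204 (.cons 180 (.leaf 228 1444 (.leaf 205 1447 .nil)) (.cons 205 (.leaf 180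 1447 (.cons 182 (.leaf 206 1453 (.cons 181 (.leaf 158 1261 (.cons 203 (.leaf 202 1425 (.cons 227 (.leaf 298 1622 (.leaf 179 1430 .nil)) .nil)) .nil)) .nil)) .nil)) (.cons 228 (.leaf 301 1639 (.cons 299 (.leaf 227 1629 (.leaf 323 1821 .nil)) .nil)) .nil))) .nil)) .nil)) .nil)) (.cons 276 (.leaf 278 2003 (.cons 299 (.cons 228 (.leaf 204 1630 (.leaf 323 1821 .nil)) (.cons 323 (.leaf 347 2013 (.cons 322 (.leaf 346 2006 (.cons 298 (.leaf 227 1814 (.cons 297 (.leaf 274 2186 (.leaf 296 2177 .nil)) .nil)) .nil)) .nil)) (.cons 204 (.leaf 228 1630 (.cons 298 (.cons 227 (.leaf 322 1814 (.cons 297 (.leaf 274 2186 (.leaf 296 2177 .nil)) .nil)) (.cons 227 (.leaf 322 1814 (.cons 203 (.leaf 180 1437 (.leaf 179 1436 .nil)) .nil)) (.cons 297 (.leaf 274 2186 (.leaf 296 2177 .nil)) .nil))) .nil)) .nil))) .nil)) (.cons 278 (.leaf 276 2003 (.leaf 253 2000 .nil)) .nil))))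
noncomputable def t147 : T := .cons 249 (.cons 276 (.leaf 248 1984 (.leaf 277 1992 .nil)) (.cons 224 (.leaf 225 1795 (.cons 223 (.leaf 248 1787 (.cons 228 (.leaf 229 1801 (.cons 273 (.leaf 272 1986 (.cons 204 (.leaf 180 1438 (.cons 299 (.leaf 227 1629 (.leaf 323 1821 .nil)) .nil)) .nil)) .nil)) .nil)) .nil)) (.cons 277 (.leaf 276 1992 (.cons 224 (.leaf 225 1795 (.cons 228 (.leaf 229 1801 (.cons 204 (.leaf 180 1438 (.cons 299 (.leaf 227 1629 (.leaf 323 1821 .nil)) .nil)) .nil)) .nil)) .nil)) .nil))) (.cons 277 t146 (.cons 228 (.cons 249 (.leaf 229 1801 (.cons 248 (.leaf 227 1793 (.cons 272 (.leaf 271 1978 (.leaf 273 1986 .nil)) .nil)) .nil)) (.cons 204 (.leaf 180 1438 (.cons 299 (.leaf 227 1629 (.leaf 323 1821 .nil)) .nil)) (.cons 180 (.leaf 204 1438 (.cons 229 (.leaf 249 1801 (.cons 230 (.leaf 231 1818 (.leaf 253 1809 .nil)) .nil)) .nil)) .nil))) (.cons 249 (.cons 276 (.leaf 248 1984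 (.leaf 277 1992 .nil)) (.cons 273 (.leaf 272 1986 (.cons 224 (.leaf 225 1795 (.cons 248 (.leaf 223 1787 (.cons 274 (.leaf 247 1976 (.leaf 253 1994 .nil)) .nil)) .nil)) .nil)) (.cons 277 (.leaf 276 1992 (.cons 224 (.leaf 225 1795 (.cons 253 (.leaf 278 2000 (.cons 273 (.leaf 272 1986 (.leaf 274 1994 .nil)) .nil)) .nil)) .nil)) .nil))) (.cons 249 (.cons 277 (.leaf 276 1992 (.cons 224 (.leaf 225 1795 (.cons 228 (.leaf 229 1801 (.cons 204 (.leaf 180 1438 (.cons 299 (.leaf 227 1629 (.leaf 323 1821 .nil)) .nil)) .nil)) .nil)) .nil)) (.cons 228 (.leaf 229 1801 (.cons 180 (.leaf 204 1438 (.cons 224 (.leaf 225 1795 (.cons 248 (.leaf 223 1787 (.leaf 227 1793 .nil)) .nil)) .nil)) .nil)) (.cons 276 (.leaf 248 1984 (.leaf 277 1992 .nil)) .nil))) .nil))))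
noncomputable def t148 : T := .cons 201 (.leaf 181 1417 (.cons 176 (.leaf 177 1411 (.cons 200 (.leaf 179 1409 (.leaf 175 1403 .nil)) .nil)) .nil)) (.cons 201 (.cons 176 (.leaf 177 1411 (.cons 200 (.leaf 179 1409 (.leaf 175 1403 .nil)) .nil)) (.cons 177 (.leaf 176 1411 (.cons 205 (.leaf 178 1419 (.cons 230 (.leaf 229 1616 (.cons 206 (.leaf 231 1624 (.cons 183 (.leaf 182 1433 (.cons 207 (.leaf 179 1435 (.leaf 184 1441 .nil)) .nil)) .nil)) .nil)) .nil)) .nil)) (.cons 200 (.leaf 179 1409 (.cons 224 (.leaf 225 1602 (.leaf 223 1594 .nil)) .nil)) (.cons 177 (.leaf 176 1411 (.cons 205 (.leaf 178 1419 (.cons 224 (.leaf 225 1602 (.cons 200 (.leaf 223 1594 (.cons 229 (.leaf 230 1616 (.cons 253 (.leaf 277 1447 (.cons 272 (.leaf 248 1413 (.cons 274 (.leaf 254 2002 (.leaf 273 1985 .nil)) .nil)) .nil)) .nil)) .nil)) .nil)) .nil)) .nil)) .nil)))) (.cons 205 (.cons 177 (.leaf 178 1419 (.cons 230 (.leaf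 229 1616 (.cons 206 (.leaf 231 1624 (.cons 207 (.leaf 179 1435 (.cons 184 (.leaf 183 1441 (.cons 208 (.leaf 181 1443 (.leaf 185 1449 .nil)) .nil)) .nil)) .nil)) .nil)) .nil)) (.cons 178 (.leaf 177 1419 (.cons 206 (.leaf 179 1427 (.cons 230 (.leaf 229 1616 (.leaf 231 1624 .nil)) .nil)) .nil)) (.cons 182 (.leaf 181 1425 (.cons 206 (.leaf 183 1433 (.cons 230 (.leaf 229 1616 (.leaf 231 1624 .nil)) .nil)) .nil)) (.cons 178 (.leaf 177 1419 (.cons 182 (.leaf 181 1425 (.cons 206 (.leaf 179 1427 (.leaf 183 1433 .nil)) .nil)) .nil)) (.cons 181 (.leaf 182 1425 (.cons 177 (.leaf 178 1419 (.cons 229 (.leaf 230 1616 (.cons 156 (.leaf 132 1060 (.leaf 253 1255 .nil)) .nil)) .nil)) .nil)) .nil))))) (.cons 201 (.leaf 181 1417 (.cons 177 (.leaf 176 1411 (.cons 205 (.leaf 178 1419 (.cons 224 (.leaf 225 1602 (.cons 200 (.leaf 223 1594 (.cons 229 (.leaf 230 1616 (.cons 253 (.leaf 277 1447 (.cons 272 (.leaf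 248 1413 (.cons 274 (.leaf 254 2002 (.leaf 273 1985 .nil)) .nil)) .nil)) .nil)) .nil)) .nil)) .nil)) .nil)) .nil)) (.cons 181 (.leaf 201 1417 (.cons 182 (.leaf 183 1434 (.leaf 205 1425 .nil)) .nil)) .nil))))
noncomputable def t149 : T := .cons 201 (.leaf 181 1417 (.cons 176 (.leaf 177 1411 (.cons 200 (.leaf 179 1409 (.leaf 175 1403 .nil)) .nil)) .nil)) (.cons 201 (.cons 176 (.leaf 177 1411 (.cons 200 (.leaf 179 1409 (.leaf 175 1403 .nil)) .nil)) (.cons 177 (.leaf 176 1411 (.cons 205 (.leaf 178 1419 (.cons 230 (.leaf 229 1616 (.cons 206 (.leaf 231 1624 (.cons 183 (.leaf 182 1433 (.cons 207 (.leaf 179 1435 (.leaf 184 1441 .nil)) .nil)) .nil)) .nil)) .nil)) .nil)) (.cons 200 (.leaf 179 1409 (.cons 224 (.leaf 225 1602 (.leaf 223 1594 .nil)) .nil)) (.cons 177 (.leaf 176 1411 (.cons 205 (.leaf 178 1419 (.cons 224 (.leaf 225 1602 (.cons 200 (.leaf 223 1594 (.cons 229 (.leaf 230 1616 (.cons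 253 (.leaf 277 1447 (.cons 272 (.leaf 248 1413 (.cons 274 (.leaf 254 2002 (.leaf 273 1985 .nil)) .nil)) .nil)) .nil)) .nil)) .nil)) .nil)) .nil)) .nil)))) (.cons 205 (.cons 177 (.leaf 178 1419 (.cons 229 (.leaf 230 1616 (.cons 156 (.leaf 132 1060 (.cons 253 (.leaf 277 1447 (.leaf 181 1255 .nil)) .nil)) .nil)) .nil)) (.cons 177 (.leaf 178 1419 (.cons 229 (.leaf 230 1616 (.cons 253 (.leaf 277 1447 (.cons 254 (.leaf 274 2002 (.cons 132 (.leaf 156 1060 (.cons 255 (.leaf 276 2010 (.cons 279 (.leaf 278 2008 (.leaf 280 2016 .nil)) .nil)) .nil)) .nil)) .nil)) .nil)) .nil)) (.cons 182 (.leaf 181 1425 (.cons 206 (.leaf 183 1433 (.cons 230 (.leaf 229 1616 (.leaf 231 1624 .nil)) .nil)) .nil)) (.cons 182 (.leaf 181 1425 (.cons 177 (.leaf 178 1419 (.cons 206 (.leaf 183 1433 (.cons 207 (.leaf 179 1435 (.cons 231 (.leaf 230 1624 (.leaf 232 1632 .nil)) .nil)) .nil)) .nil)) .nil)) (.cons 182 (.leaf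 181 1425 (.cons 178 (.leaf 177 1419 (.cons 206 (.leaf 179 1427 (.leaf 183 1433 .nil)) .nil)) .nil)) .nil))))) (.cons 201 (.leaf 181 1417 (.cons 177 (.leaf 176 1411 (.cons 205 (.leaf 178 1419 (.cons 224 (.leaf 225 1602 (.cons 200 (.leaf 223 1594 (.cons 229 (.leaf 230 1616 (.cons 253 (.leaf 277 1447 (.cons 272 (.leaf 248 1413 (.cons 274 (.leaf 254 2002 (.leaf 273 1985 .nil)) .nil)) .nil)) .nil)) .nil)) .nil)) .nil)) .nil)) .nil)) (.cons 181 (.leaf 201 1417 (.cons 182 (.leaf 183 1434 (.leaf 205 1425 .nil)) .nil)) .nil))))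
noncomputable def t150 : T := .cons 201 (.leaf 181 1417 (.cons 176 (.leaf 177 1411 (.cons 200 (.leaf 175 1403 (.leaf 179 1409 .nil)) .nil)) .nil)) (.cons 201 (.cons 176 (.leaf 177 1411 (.cons 200 (.leaf 175 1403 (.leaf 179 1409 .nil)) .nil)) (.cons 177 (.leaf 176 1411 (.cons 205 (.leaf 178 1419 (.cons 230 (.leaf 229 1616 (.cons 206 (.leaf 231 1624 (.cons 183 (.leaf 182 1433 (.cons 207 (.leaf 179 1435 (.leaf 184 1441 .nil)) .nil)) .nil)) .nil)) .nil)) .nil)) (.cons 200 (.leaf 179 1409 (.cons 224 (.leaf 225 1602 (.leaf 223 1594 .nil)) .nil)) (.cons 177 (.leaf 176 1411 (.cons 205 (.leaf 178 1419 (.cons 224 (.leaf 225 1602 (.cons 200 (.leaf 223 1594 (.cons 229 (.leaf 230 1616 (.cons 253 (.leaf 277 1447 (.cons 272 (.leaf 248 1413 (.cons 274 (.leaf 254 2002 (.leaf 273 1985 .nil)) .nil)) .nil)) .nil)) .nil)) .nil)) .nil)) .nil)) .nil)))) (.cons 205 (.cons 177 (.leaf 178 1419 (.cons 182 (.leaf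 181 1425 (.cons 206 (.leaf 183 1433 (.cons 230 (.leaf 229 1616 (.leaf 231 1624 .nil)) .nil)) .nil)) .nil)) (.cons 177 (.leaf 178 1419 (.cons 230 (.leaf 229 1616 (.cons 206 (.leaf 231 1624 (.cons 183 (.leaf 182 1433 (.cons 207 (.leaf 179 1435 (.leaf 184 1441 .nil)) .nil)) .nil)) .nil)) .nil)) (.cons 177 (.leaf 178 1419 (.cons 229 (.leaf 230 1616 (.cons 156 (.leaf 132 1060 (.cons 253 (.leaf 277 1447 (.leaf 181 1255 .nil)) .nil)) .nil)) .nil)) (.cons 182 (.leaf 181 1425 (.cons 206 (.leaf 183 1433 (.cons 230 (.leaf 229 1616 (.leaf 231 1624 .nil)) .nil)) .nil)) (.cons 182 (.leaf 181 1425 (.cons 177 (.leaf 178 1419 (.cons 206 (.leaf 183 1433 (.cons 207 (.leaf 179 1435 (.cons 231 (.leaf 230 1624 (.leaf 232 1632 .nil)) .nil)) .nil)) .nil)) .nil)) (.cons 182 (.leaf 181 1425 (.cons 178 (.leaf 177 1419 (.cons 206 (.leaf 179 1427 (.leaf 183 1433 .nil)) .nil)) .nil)) .nil)))))) (.cons 201 (.leaf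 181 1417 (.cons 177 (.leaf 176 1411 (.cons 205 (.leaf 178 1419 (.cons 224 (.leaf 225 1602 (.cons 200 (.leaf 223 1594 (.cons 229 (.leaf 230 1616 (.cons 253 (.leaf 277 1447 (.cons 272 (.leaf 248 1413 (.cons 274 (.leaf 254 2002 (.leaf 273 1985 .nil)) .nil)) .nil)) .nil)) .nil)) .nil)) .nil)) .nil)) .nil)) (.cons 181 (.leaf 201 1417 (.cons 182 (.leaf 183 1434 (.leaf 205 1425 .nil)) .nil)) .nil))))
noncomputable def t151 : T := .cons 274 (.leaf 273 1993 (.cons 277 (.cons 278 (.leaf 279 2011 (.cons 298 (.leaf 227 1622 (.leaf 297 2186 .nil)) .nil)) (.cons 278 (.leaf 279 2011 (.cons 302 (.leaf 301 2192 (.leaf 303 2200 .nil)) .nil)) (.cons 227 (.leaf 298 1622 (.leaf 179 1436 .nil)) .nil))) .nil)) (.cons 205 (.cons 181 (.leaf 229 1446 (.cons 182 (.leaf 202 1425 (.cons 183 (.leaf 184 1442 (.leaf 206 1433 .nil)) .nil)) .nil)) (.cons 179 (.leaf 227 1436 (.cons 178 (.leaf 206 1427 (.cons 177 (.leaf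 176 1408 (.leaf 202 1419 .nil)) .nil)) .nil)) (.cons 179 (.leaf 227 1436 (.cons 181 (.leaf 229 1446 (.cons 206 (.leaf 178 1427 (.cons 183 (.leaf 182 1433 (.cons 207 (.leaf 184 1441 (.cons 231 (.leaf 230 1624 (.leaf 232 1632 .nil)) .nil)) .nil)) .nil)) .nil)) .nil)) (.cons 229 (.leaf 181 1446 (.cons 202 (.leaf 230 1616 (.cons 178 (.leaf 227 1431 (.leaf 177 1419 .nil)) .nil)) .nil)) .nil)))) (.cons 274 (.leaf 273 1993 (.cons 277 (.cons 278 (.leaf 279 2011 (.cons 298 (.leaf 297 2186 (.leaf 299 2194 .nil)) .nil)) (.cons 301 (.leaf 302 2192 (.cons 298 (.leaf 297 2186 (.cons 325 (.leaf 349 2023 (.cons 324 (.leaf 348 2022 (.cons 326 (.leaf 350 2028 (.cons 323 (.leaf 299 2387 (.cons 346 (.leaf 322 2005 (.leaf 347 2578 .nil)) .nil)) .nil)) .nil)) .nil)) .nil)) .nil)) (.cons 278 (.leaf 279 2011 (.cons 302 (.leaf 301 2192 (.leaf 303 2200 .nil)) .nil)) .nil))) .nil)) .nil))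
noncomputable def t152 : T := .cons 254 (.leaf 274 2002 (.cons 230 (.leaf 231 1817 (.cons 278 (.leaf 279 2008 (.cons 205 (.cons 181 (.leaf 229 1452 (.leaf 206 1455 .nil)) (.cons 181 (.leaf 206 1455 (.cons 202 (.leaf 182 1425 (.cons 178 (.leaf 227 1431 (.leaf 177 1419 .nil)) .nil)) .nil)) (.cons 229 (.leaf 202 1616 (.leaf 302 1647 .nil)) .nil))) .nil)) .nil)) .nil)) (.cons 276 t151 (.cons 254 (.cons 230 (.leaf 231 1817 (.cons 278 (.leaf 279 2008 (.cons 205 (.cons 181 (.leaf 229 1452 (.leaf 206 1455 .nil)) (.cons 181 (.leaf 206 1455 (.cons 202 (.leaf 182 1425 (.cons 178 (.leaf 227 1431 (.leaf 177 1419 .nil)) .nil)) .nil)) (.cons 229 (.leaf 202 1616 (.leaf 302 1647 .nil)) .nil))) .nil)) .nil)) (.cons 255 (.leaf 276 2010 (.cons 231 (.leaf 230 1817 (.leaf 232 1825 .nil)) .nil)) (.cons 255 (.leaf 276 2010 (.cons 279 (.leaf 278 2008 (.leaf 280 2016 .nil)) .nil)) .nil))) (.cons 254 (.leaf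 274 2002 (.cons 255 (.leaf 276 2010 (.cons 231 (.leaf 230 1817 (.leaf 232 1825 .nil)) .nil)) .nil)) (.cons 274 (.leaf 254 2002 (.cons 227 (.leaf 298 1622 (.cons 273 (.leaf 272 1985 (.leaf 276 1993 .nil)) .nil)) .nil)) .nil))))
noncomputable def t153 : T := .cons 182 (.leaf 183 1433 (.cons 202 (.leaf 181 1425 (.cons 230 (.leaf 229 1616 (.leaf 231 1624 .nil)) .nil)) .nil)) (.cons 231 (.leaf 230 1624 (.cons 207 (.leaf 232 1632 (.cons 180 (.leaf 179 1435 (.cons 184 (.leaf 183 1441 (.cons 208 (.leaf 181 1443 (.leaf 185 1449 .nil)) .nil)) .nil)) .nil)) .nil)) (.cons 183 (.leaf 182 1433 (.cons 207 (.leaf 184 1441 (.cons 180 (.leaf 179 1435 (.cons 208 (.leaf 181 1443 (.cons 232 (.leaf 231 1632 (.leaf 233 1640 .nil)) .nil)) .nil)) .nil)) .nil)) (.cons 182 (.leaf 183 1433 (.cons 202 (.leaf 181 1425 (.cons 229 (.leaf 230 1616 (.cons 253 (.leaf 277 1453 (.cons 254 (.leaf 274 2002 (.cons 134 (.leaf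 158 1070 (.cons 255 (.leaf 276 2010 (.cons 279 (.leaf 278 2008 (.leaf 280 2016 .nil)) .nil)) .nil)) .nil)) .nil)) .nil)) .nil)) .nil)) (.cons 230 (.leaf 231 1624 (.cons 202 (.leaf 229 1616 (.cons 181 (.leaf 182 1425 (.cons 133 (.leaf 157 1068 (.cons 180 (.leaf 201 1417 (.cons 207 (.leaf 179 1435 (.leaf 208 1443 .nil)) .nil)) .nil)) .nil)) .nil)) .nil)) (.cons 230 (.leaf 231 1624 (.cons 182 (.leaf 183 1433 (.cons 229 (.leaf 202 1616 (.cons 158 (.leaf 134 1070 (.leaf 253 1262 .nil)) .nil)) .nil)) .nil)) .nil)))))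
noncomputable def t154 : T := .cons 182 (.leaf 183 1433 (.cons 181 (.leaf 202 1425 (.cons 253 (.cons 229 (.leaf 276 1446 (.leaf 158 1261 .nil)) (.cons 254 (.leaf 274 2002 (.cons 178 (.leaf 179 1427 (.cons 255 (.leaf 276 2010 (.cons 279 (.leaf 278 2008 (.leaf 280 2016 .nil)) .nil)) .nil)) .nil)) (.cons 229 (.leaf 158 1261 (.leaf 277 1453 .nil)) .nil))) .nil)) .nil)) (.cons 179 (.leaf 178 1427 (.cons 207 (.leaf 180 1435 (.cons 184 (.leaf 183 1441 (.cons 208 (.leaf 185 1449 (.cons 232 (.leaf 231 1632 (.leaf 233 1640 .nil)) .nil)) .nil)) .nil)) .nil)) (.cons 182 (.leaf 183 1433 (.cons 181 (.leaf 202 1425 (.cons 253 (.cons 229 (.leaf 276 1446 (.leaf 158 1261 .nil)) (.cons 254 (.leaf 274 2002 (.cons 255 (.leaf 276 2010 (.cons 279 (.leaf 278 2008 (.leaf 280 2016 .nil)) .nil)) .nil)) (.cons 229 (.leaf 158 1261 (.leaf 277 1453 .nil)) .nil))) .nil)) .nil)) (.cons 178 (.leaf 179 1427 (.cons 202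 (.leaf 177 1419 (.cons 181 (.leaf 182 1425 (.cons 201 (.leaf 180 1417 (.cons 225 (.leaf 224 1602 (.cons 273 (.leaf 249 1421 (.cons 274 (.leaf 272 1985 (.cons 253 (.leaf 254 2002 (.leaf 276 1993 .nil)) .nil)) .nil)) .nil)) .nil)) .nil)) .nil)) .nil)) .nil)))
noncomputable def t155 : T := .cons 230 (.leaf 231 1624 (.cons 178 (.leaf 179 1427 (.cons 202 (.leaf 177 1419 (.leaf 229 1616 .nil)) .nil)) .nil)) (.cons 179 (.leaf 178 1427 (.cons 207 (.leaf 180 1435 (.cons 184 (.leaf 183 1441 (.cons 208 (.leaf 185 1449 (.cons 232 (.leaf 231 1632 (.leaf 233 1640 .nil)) .nil)) .nil)) .nil)) .nil)) (.cons 179 (.leaf 178 1427 (.cons 180 (.leaf 207 1435 (.cons 229 (.cons 202 (.leaf 230 1616 (.cons 201 (.leaf 181 1417 (.leaf 200 1409 .nil)) .nil)) (.cons 253 (.leaf 277 1447 (.cons 156 (.leaf 132 1060 (.leaf 181 1255 .nil)) .nil)) (.cons 253 (.leaf 277 1447 (.cons 132 (.leaf 156 1060 (.cons 202 (.leaf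 230 1616 (.cons 201 (.leaf 200 1409 (.cons 274 (.leaf 254 2002 (.cons 273 (.leaf 272 1985 (.leaf 276 1993 .nil)) .nil)) .nil)) .nil)) .nil)) .nil)) .nil))) .nil)) .nil)) (.cons 230 (.leaf 231 1624 (.cons 202 (.leaf 229 1616 (.cons 177 (.leaf 178 1419 (.cons 201 (.leaf 176 1411 (.cons 181 (.leaf 180 1417 (.cons 254 (.leaf 278 1455 (.cons 224 (.leaf 225 1602 (.cons 272 (.cons 200 (.leaf 223 1594 (.leaf 248 1413 .nil)) (.cons 274 (.leaf 253 2002 (.leaf 273 1985 .nil)) .nil)) .nil)) .nil)) .nil)) .nil)) .nil)) .nil)) .nil)) (.cons 231 (.leaf 230 1624 (.cons 207 (.leaf 232 1632 (.cons 180 (.leaf 179 1435 (.cons 184 (.leaf 183 1441 (.cons 208 (.leaf 181 1443 (.leaf 185 1449 .nil)) .nil)) .nil)) .nil)) .nil)) .nil))))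
noncomputable def t156 : T := .cons 206 (.cons 178 (.leaf 179 1427 (.cons 182 (.leaf 183 1433 (.cons 202 (.leaf 177 1419 (.leaf 181 1425 .nil)) .nil)) .nil)) (.cons 230 (.leaf 231 1624 (.cons 178 (.leaf 179 1427 (.cons 202 (.leaf 177 1419 (.leaf 229 1616 .nil)) .nil)) .nil)) (.cons 182 (.leaf 183 1433 (.cons 181 (.leaf 202 1425 (.cons 253 (.cons 229 (.leaf 276 1446 (.leaf 158 1261 .nil)) (.cons 254 (.leaf 274 2002 (.cons 230 (.leaf 231 1624 (.leaf 278 1455 .nil)) .nil)) .nil)) .nil)) .nil)) (.cons 178 (.leaf 179 1427 (.cons 183 (.leaf 182 1433 (.cons 207 (.leaf 184 1441 (.cons 231 (.leaf 230 1624 (.leaf 232 1632 .nil)) .nil)) .nil)) .nil)) .nil)))) (.cons 202 (.cons 181 (.leaf 182 1425 (.cons 229 (.leaf 230 1616 (.cons 253 (.leaf 276 1446 (.cons 254 (.leaf 274 2002 (.leaf 278 1452 .nil)) .nil)) .nil)) .nil)) (.cons 177 (.leaf 178 1419 (.cons 201 (.leaf 176 1411 (.cons 224 (.leaf 225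 1602 (.cons 200 (.leaf 223 1594 (.cons 180 (.leaf 179 1409 (.cons 229 (.leaf 230 1616 (.cons 253 (.leaf 277 1447 (.cons 272 (.leaf 248 1413 (.cons 274 (.leaf 254 2002 (.leaf 273 1985 .nil)) .nil)) .nil)) .nil)) .nil)) .nil)) .nil)) .nil)) .nil)) (.cons 177 (.leaf 178 1419 (.cons 201 (.leaf 176 1411 (.cons 181 (.leaf 180 1417 (.leaf 182 1425 .nil)) .nil)) .nil)) .nil))) (.cons 206 (.cons 183 (.leaf 182 1433 (.cons 207 (.leaf 184 1441 (.cons 231 (.leaf 230 1624 (.leaf 232 1632 .nil)) .nil)) .nil)) (.cons 179 (.leaf 178 1427 (.cons 207 (.leaf 180 1435 (.cons 231 (.leaf 230 1624 (.leaf 232 1632 .nil)) .nil)) .nil)) (.cons 179 (.leaf 178 1427 (.cons 183 (.leaf 182 1433 (.cons 207 (.leaf 180 1435 (.leaf 184 1441 .nil)) .nil)) .nil)) (.cons 230 (.leaf 231 1624 (.cons 182 (.leaf 183 1433 (.cons 254 (.cons 181 (.leaf 278 1455 (.leaf 157 1263 .nil)) (.cons 253 (.leaf 274 2002 (.leaf 277 1454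 .nil)) .nil)) .nil)) .nil)) .nil)))) (.cons 206 t155 (.cons 206 (.cons 178 (.leaf 179 1427 (.cons 182 (.leaf 183 1433 (.cons 202 (.leaf 177 1419 (.cons 229 (.leaf 230 1616 (.cons 253 (.leaf 277 1453 (.cons 254 (.leaf 274 2002 (.cons 134 (.leaf 158 1070 (.cons 255 (.leaf 276 2010 (.cons 279 (.leaf 278 2008 (.leaf 280 2016 .nil)) .nil)) .nil)) .nil)) .nil)) .nil)) .nil)) .nil)) .nil)) (.cons 179 (.leaf 178 1427 (.cons 207 (.leaf 180 1435 (.cons 184 (.leaf 183 1441 (.cons 208 (.leaf 185 1449 (.cons 232 (.leaf 231 1632 (.leaf 233 1640 .nil)) .nil)) .nil)) .nil)) .nil)) (.cons 182 (.leaf 183 1433 (.cons 230 (.leaf 231 1624 (.cons 229 (.leaf 202 1616 (.cons 158 (.leaf 134 1070 (.leaf 253 1262 .nil)) .nil)) .nil)) .nil)) (.cons 178 (.leaf 179 1427 (.cons 202 (.leaf 177 1419 (.cons 230 (.leaf 229 1616 (.leaf 231 1624 .nil)) .nil)) .nil)) .nil)))) (.cons 206 (.cons 179 (.leaf 178 1427 (.cons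 207 (.leaf 180 1435 (.cons 231 (.leaf 230 1624 (.leaf 232 1632 .nil)) .nil)) .nil)) (.cons 179 (.leaf 178 1427 (.cons 207 (.leaf 180 1435 (.cons 184 (.leaf 183 1441 (.cons 208 (.leaf 185 1449 (.cons 232 (.leaf 231 1632 (.leaf 233 1640 .nil)) .nil)) .nil)) .nil)) .nil)) (.cons 182 (.leaf 183 1433 (.cons 181 (.leaf 202 1425 (.cons 230 (.leaf 231 1624 (.cons 157 (.leaf 133 1068 (.leaf 254 1263 .nil)) .nil)) .nil)) .nil)) (.cons 178 (.leaf 179 1427 (.cons 182 (.leaf 183 1433 (.cons 202 (.leaf 177 1419 (.leaf 181 1425 .nil)) .nil)) .nil)) .nil)))) (.cons 206 t154 (.cons 206 t153 (.cons 206 (.cons 230 (.leaf 231 1624 (.cons 178 (.leaf 179 1427 (.cons 202 (.leaf 177 1419 (.leaf 229 1616 .nil)) .nil)) .nil)) (.cons 230 (.leaf 231 1624 (.cons 182 (.leaf 183 1433 (.cons 229 (.leaf 202 1616 (.cons 158 (.leaf 134 1070 (.leaf 253 1262 .nil)) .nil)) .nil)) .nil)) (.cons 182 (.leaf 183 1433 (.cons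 178 (.leaf 179 1427 (.cons 202 (.leaf 177 1419 (.leaf 181 1425 .nil)) .nil)) .nil)) (.cons 179 (.leaf 178 1427 (.cons 207 (.leaf 180 1435 (.cons 231 (.leaf 230 1624 (.leaf 232 1632 .nil)) .nil)) .nil)) .nil)))) (.cons 230 (.cons 202 (.leaf 229 1616 (.cons 182 (.leaf 181 1425 (.cons 206 (.leaf 183 1433 (.leaf 231 1624 .nil)) .nil)) .nil)) (.cons 202 (.leaf 229 1616 (.cons 181 (.leaf 182 1425 (.cons 201 (.leaf 180 1417 (.cons 177 (.leaf 176 1411 (.leaf 178 1419 .nil)) .nil)) .nil)) .nil)) (.cons 206 (.leaf 231 1624 (.cons 182 (.leaf 183 1433 (.cons 181 (.leaf 202 1425 (.cons 157 (.leaf 133 1068 (.leaf 254 1263 .nil)) .nil)) .nil)) .nil)) (.cons 231 (.leaf 206 1624 (.cons 229 (.leaf 232 1635 (.cons 253 (.leaf 254 1817 (.cons 180 (.leaf 277 1447 (.cons 156 (.leaf 132 1060 (.leaf 181 1255 .nil)) .nil)) .nil)) .nil)) .nil)) (.cons 231 (.leaf 206 1624 (.cons 229 (.leaf 202 1616 (.leaf 232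 1635 .nil)) .nil)) .nil))))) .nil)))))))))
noncomputable def t157 : T := .cons 299 (.cons 228 (.leaf 180 1438 (.leaf 227 1629 .nil)) (.cons 323 (.cons 276 (.leaf 347 2013 (.cons 322 (.leaf 346 2006 (.cons 298 (.leaf 227 1814 (.cons 277 (.leaf 278 2194 (.cons 297 (.leaf 274 2186 (.leaf 296 2177 .nil)) .nil)) .nil)) .nil)) .nil)) (.cons 322 (.leaf 346 2006 (.cons 298 (.leaf 227 1814 (.cons 324 (.leaf 348 2012 (.cons 297 (.leaf 296 2368 (.leaf 325 2379 .nil)) .nil)) .nil)) .nil)) (.cons 347 (.leaf 276 2013 (.cons 348 (.leaf 324 2012 (.leaf 372 2204 .nil)) .nil)) .nil))) (.cons 228 (.leaf 180 1438 (.leaf 276 1630 .nil)) .nil))) (.cons 203 (.cons 227 (.leaf 180 1437 (.cons 178 (.leaf 202 1431 (.cons 179 (.leaf 154 1239 (.leaf 276 1436 .nil)) .nil)) .nil)) (.cons 205 (t156) (.cons 253 t152 (.cons 227 (.leaf 180 1437 (.cons 274 (.leaf 298 1622 (.cons 253 (.leaf 254 2002 (.cons 273 (.leaf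 272 1985 (.leaf 276 1993 .nil)) .nil)) .nil)) .nil)) (.cons 180 (.leaf 227 1437 (.cons 202 t150 .nil)) .nil))))) (.cons 299 (.cons 228 (.leaf 227 1629 (.leaf 276 1630 .nil)) (.cons 323 (.cons 276 (.leaf 347 2013 (.cons 322 (.leaf 346 2006 (.cons 298 (.leaf 227 1814 (.cons 277 (.leaf 278 2194 (.cons 297 (.leaf 274 2186 (.leaf 296 2177 .nil)) .nil)) .nil)) .nil)) .nil)) (.cons 322 (.leaf 346 2006 (.cons 298 (.leaf 227 1814 (.cons 324 (.leaf 348 2012 (.cons 297 (.leaf 296 2368 (.leaf 325 2379 .nil)) .nil)) .nil)) .nil)) (.cons 347 (.leaf 276 2013 (.cons 348 (.leaf 324 2012 (.leaf 372 2204 .nil)) .nil)) .nil))) (.cons 228 (.leaf 227 1629 (.leaf 323 1821 .nil)) (.cons 228 (.leaf 276 1630 (.leaf 323 1821 .nil)) .nil)))) (.cons 180 (.leaf 228 1438 (.cons 203 (.leaf 227 1437 (.cons 202 t149 .nil)) .nil)) (.cons 180 (.leaf 228 1438 (.cons 203 (.leaf 227 1437 (.cons 202 t148 .nil)) .nil)) (.cons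 228 (.leaf 180 1438 (.cons 299 (.leaf 276 1630 (.leaf 323 1821 .nil)) .nil)) .nil)))))
noncomputable def t158 : T := .cons 297 (.leaf 296 2178 (.cons 277 (.leaf 298 2186 (.cons 278 (.leaf 250 2003 (.leaf 279 2011 .nil)) .nil)) .nil)) (.cons 249 (.leaf 248 1987 (.cons 297 (.leaf 296 2178 (.cons 298 (.cons 322 (.leaf 346 2005 (.leaf 225 1804 .nil)) (.cons 203 (.leaf 227 1622 (.cons 225 (.leaf 201 1612 (.cons 224 (.leaf 250 1795 (.leaf 200 1607 .nil)) .nil)) .nil)) (.cons 322 (.leaf 346 2005 (.cons 227 (.leaf 203 1622 (.leaf 250 1813 .nil)) .nil)) .nil))) .nil)) .nil)) (.cons 249 (.leaf 248 1987 (.cons 250 (.leaf 277 1992 (.cons 225 (.leaf 224 1795 (.cons 201 (.leaf 177 1420 (.leaf 298 1612 .nil)) .nil)) .nil)) .nil)) (.cons 297 (.leaf 296 2178 (.cons 248 (.leaf 249 1987 (.cons 277 (.leaf 298 2186 (.cons 278 (.leaf 279 2011 (.cons 302 (.leaf 301 2192 (.leaf 303 2200 .nil)) .nil)) .nil))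 .nil)) .nil)) (.cons 249 (.leaf 248 1987 (.cons 250 (.leaf 277 1992 (.cons 225 (.leaf 224 1795 (.cons 201 (.leaf 177 1420 (.cons 200 (.leaf 176 1415 (.cons 297 (.leaf 296 2178 (.cons 202 (.leaf 178 1421 (.cons 228 (.leaf 229 1801 (.cons 180 (.leaf 204 1438 (.cons 203 (.leaf 179 1409 (.leaf 227 1600 .nil)) .nil)) .nil)) .nil)) .nil)) .nil)) .nil)) .nil)) .nil)) .nil)) .nil))))
noncomputable def t159 : T := .cons 231 (.leaf 230 1817 (.cons 255 (.leaf 232 1825 (.cons 279 (.leaf 278 2008 (.leaf 280 2016 .nil)) .nil)) .nil)) (.cons 279 (.leaf 278 2008 (.cons 255 (.leaf 280 2016 (.cons 228 (.leaf 227 1819 (.cons 180 (.leaf 204 1438 (.cons 232 (.leaf 231 1825 (.cons 256 (.leaf 229 1827 (.leaf 233 1833 .nil)) .nil)) .nil)) .nil)) .nil)) .nil)) (.cons 231 (.leaf 230 1817 (.cons 255 (.leaf 232 1825 (.cons 228 (.leaf 227 1819 (.cons 180 (.leaf 204 1438 (.cons 256 (.leaf 229 1827 (.cons 280 (.leaf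 279 2016 (.leaf 281 2024 .nil)) .nil)) .nil)) .nil)) .nil)) .nil)) (.cons 278 (.leaf 279 2008 (.cons 250 (.leaf 277 2000 (.cons 229 (.leaf 230 1809 (.cons 228 (.leaf 249 1801 (.cons 255 (.leaf 227 1819 (.leaf 256 1827 .nil)) .nil)) .nil)) .nil)) .nil)) (.cons 231 (.leaf 230 1817 (.cons 255 (.leaf 232 1825 (.cons 228 (.leaf 227 1819 (.cons 204 (.leaf 180 1438 (.cons 229 (.leaf 256 1827 (.cons 250 (.leaf 249 1801 (.cons 277 (.leaf 278 2000 (.leaf 301 1639 .nil)) .nil)) .nil)) .nil)) .nil)) .nil)) .nil)) (.cons 230 (.leaf 231 1817 (.cons 229 (.leaf 250 1809 (.cons 278 (.leaf 279 2008 (.cons 205 (.leaf 181 1452 (.leaf 302 1647 .nil)) .nil)) .nil)) .nil)) .nil)))))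
noncomputable def t160 : T := .cons 274 (.leaf 273 1994 (.cons 229 (.leaf 230 1809 (.cons 277 (.leaf 278 2000 (.cons 228 (.leaf 249 1801 (.cons 204 (.leaf 180 1444 (.leaf 301 1639 .nil)) .nil)) .nil)) .nil)) .nil)) (.cons 229 (.leaf 230 1809 (.cons 228 (.leaf 249 1801 (.cons 204 (.leaf 180 1438 (.cons 277 (.leaf 278 2000 (.leaf 301 1639 .nil)) .nil)) .nil)) .nil)) (.cons 277 (.leaf 278 2000 (.cons 249 (.cons 224 (.leaf 225 1795 (.cons 248 (.leaf 223 1787 (.cons 272 (.leaf 271 1978 (.leaf 273 1986 .nil)) .nil)) .nil)) (.cons 224 (.leaf 225 1795 (.cons 248 (.leaf 223 1787 (.cons 228 (.leaf 227 1793 (.cons 180 (.leaf 204 1444 (.cons 247 (.leaf 274 1976 (.cons 271 (.leaf 272 1978 (.leaf 270 1970 .nil)) .nil)) .nil)) .nil)) .nil)) .nil)) (.cons 224 (.leaf 225 1795 (.cons 248 (.leaf 223 1787 (.cons 274 (.leaf 247 1976 (.leaf 273 1994 .nil)) .nil)) .nil)) (.cons 273 (.leaf 272 1986 (.leaf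 274 1994 .nil)) .nil)))) .nil)) (.cons 274 (.leaf 273 1994 (.cons 229 (.leaf 230 1809 (.cons 228 (.leaf 249 1801 (.cons 204 (.leaf 180 1438 (.cons 299 (.leaf 227 1629 (.leaf 323 1821 .nil)) .nil)) .nil)) .nil)) .nil)) (.cons 229 (.leaf 230 1809 (.cons 277 (.leaf 278 2000 (.cons 249 (.cons 224 (.leaf 225 1795 (.cons 248 (.leaf 223 1787 (.cons 273 (.leaf 272 1986 (.leaf 274 1994 .nil)) .nil)) .nil)) (.cons 224 (.leaf 225 1795 (.cons 248 (.leaf 223 1787 (.cons 247 (.leaf 274 1976 (.cons 271 (.leaf 272 1978 (.leaf 270 1970 .nil)) .nil)) .nil)) .nil)) (.cons 224 (.leaf 225 1795 (.cons 248 (.leaf 223 1787 (.cons 272 (.leaf 271 1978 (.leaf 273 1986 .nil)) .nil)) .nil)) (.cons 274 (.leaf 273 1994 (.cons 224 (.leaf 225 1795 (.cons 248 (.leaf 247 1976 (.leaf 223 1787 .nil)) .nil)) .nil)) (.cons 273 (.leaf 272 1986 (.leaf 274 1994 .nil)) .nil))))) .nil)) .nil)) (.cons 274 (.leaf 273 1994 (.cons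 229 (.leaf 230 1809 (.cons 277 (.leaf 278 2000 (.cons 204 (.cons 180 (.leaf 228 1444 (.leaf 205 1447 .nil)) (.cons 205 (.leaf 180 1447 (.cons 182 (.leaf 206 1453 (.cons 181 (.leaf 158 1261 (.cons 203 (.leaf 202 1425 (.cons 227 (.leaf 298 1622 (.leaf 179 1430 .nil)) .nil)) .nil)) .nil)) .nil)) (.cons 228 (.leaf 301 1639 (.cons 299 (.leaf 227 1629 (.leaf 323 1821 .nil)) .nil)) .nil))) .nil)) .nil)) .nil)) .nil)))))
noncomputable def t161 : T := .cons 249 (.leaf 248 1987 (.cons 297 (.leaf 296 2178 (.cons 322 (.cons 321 (.leaf 346 1996 (.cons 344 (.leaf 320 1990 (.cons 345 (.leaf 250 1997 (.leaf 368 2182 .nil)) .nil)) .nil)) (.cons 225 (.leaf 298 1804 (.cons 250 (.leaf 277 1992 (.leaf 224 1795 .nil)) .nil)) (.cons 321 (.leaf 346 1996 (.cons 344 (.leaf 320 1990 (.cons 345 (.leaf 368 2182 (.cons 323 (.leaf 324 2562 (.cons 299 (.leaf 228 1821 (.leaf 347 2013 .nil)) .nil)) .nil)) .nil)) .nil))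 .nil))) .nil)) .nil)) (.cons 297 (.leaf 296 2178 (.cons 277 (.leaf 298 2186 (.cons 278 (.leaf 250 2003 (.leaf 279 2011 .nil)) .nil)) .nil)) (.cons 249 (.leaf 248 1987 (.cons 297 (.leaf 296 2178 (.cons 322 (.cons 321 (.leaf 346 1996 (.cons 344 (.leaf 320 1990 (.cons 345 (.leaf 250 1997 (.leaf 368 2182 .nil)) .nil)) .nil)) (.cons 225 (.leaf 298 1804 (.cons 224 (.leaf 250 1795 (.leaf 200 1607 .nil)) .nil)) (.cons 321 (.leaf 346 1996 (.cons 344 (.leaf 320 1990 (.cons 345 (.leaf 368 2182 (.cons 323 (.leaf 324 2562 (.cons 299 (.leaf 228 1821 (.leaf 347 2013 .nil)) .nil)) .nil)) .nil)) .nil)) .nil))) .nil)) .nil)) (.cons 249 (.leaf 248 1987 (.cons 250 (.leaf 277 1992 (.cons 224 (.leaf 225 1795 (.cons 228 (.leaf 229 1801 (.cons 204 (.leaf 180 1438 (.leaf 299 1630 .nil)) .nil)) .nil)) .nil)) .nil)) (.cons 297 (.leaf 296 2178 (.cons 248 (.leaf 249 1987 (.cons 277 (.leaf 298 2186 (.cons 278 (.leaf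 279 2011 (.cons 302 (.leaf 301 2192 (.leaf 303 2200 .nil)) .nil)) .nil)) .nil)) .nil)) .nil))))
noncomputable def t162 : T := .cons 297 (.leaf 296 2178 (.cons 277 (.leaf 298 2186 (.cons 278 (.leaf 250 2003 (.leaf 279 2011 .nil)) .nil)) .nil)) (.cons 249 (.leaf 248 1987 (.cons 297 (.leaf 296 2178 (.cons 228 (.cons 204 (.leaf 180 1438 (.leaf 299 1630 .nil)) (.cons 250 (.leaf 229 1801 (.cons 225 (.leaf 224 1795 (.cons 201 (.leaf 298 1612 (.leaf 177 1420 .nil)) .nil)) .nil)) .nil)) .nil)) .nil)) (.cons 249 (.leaf 248 1987 (.cons 250 (.leaf 277 1992 (.cons 225 (.leaf 224 1795 (.cons 201 (.leaf 298 1612 (.leaf 177 1420 .nil)) .nil)) .nil)) .nil)) (.cons 297 (.leaf 296 2178 (.cons 248 (.leaf 249 1987 (.cons 277 (.leaf 298 2186 (.cons 278 (.leaf 279 2011 (.cons 302 (.leaf 301 2192 (.leaf 303 2200 .nil)) .nil)) .nil)) .nil)) .nil)) (.cons 249 (.leaf 248 1987 (.cons 250 (.leaf 277 1992 (.cons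 225 (.leaf 224 1795 (.cons 201 (.leaf 177 1420 (.cons 200 (.leaf 176 1415 (.cons 297 (.leaf 296 2178 (.cons 202 (.leaf 178 1421 (.cons 228 (.leaf 229 1801 (.cons 180 (.leaf 204 1438 (.cons 203 (.leaf 179 1409 (.leaf 227 1600 .nil)) .nil)) .nil)) .nil)) .nil)) .nil)) .nil)) .nil)) .nil)) .nil)) .nil))))
noncomputable def t163 : T := .cons 228 (.leaf 180 1438 (.cons 201 (.leaf 229 1608 (.cons 225 (.leaf 249 1612 (.leaf 224 1602 .nil)) .nil)) .nil)) (.cons 201 (.cons 177 (.leaf 176 1411 (.cons 205 (.leaf 178 1419 (.cons 182 (.leaf 181 1425 (.cons 206 (.leaf 183 1433 (.cons 230 (.leaf 229 1616 (.leaf 231 1624 .nil)) .nil)) .nil)) .nil)) .nil)) (.cons 225 (.leaf 249 1612 (.leaf 224 1602 .nil)) .nil)) (.cons 228 (.leaf 180 1438 (.cons 299 (.leaf 323 1821 (.cons 205 (.cons 178 (.leaf 177 1419 (.cons 179 (.leaf 206 1427 (.cons 181 (.leaf 182 1425 (.cons 157 (.leaf 229 1254 (.leaf 133 1062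 .nil)) .nil)) .nil)) .nil)) (.cons 178 (.leaf 177 1419 (.cons 206 (.leaf 179 1427 (.cons 182 (.leaf 181 1425 (.leaf 183 1433 .nil)) .nil)) .nil)) (.cons 178 (.leaf 177 1419 (.cons 230 (.leaf 229 1616 (.cons 206 (.leaf 179 1427 (.leaf 231 1624 .nil)) .nil)) .nil)) (.cons 181 (.leaf 182 1425 (.cons 157 (.leaf 229 1254 (.leaf 133 1062 .nil)) .nil)) .nil)))) .nil)) .nil)) (.cons 180 (.leaf 228 1438 (.cons 181 (.leaf 201 1417 (.cons 182 (.leaf 179 1426 (.leaf 183 1434 .nil)) .nil)) .nil)) .nil)))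
noncomputable def t164 : T := .cons 249 (.leaf 225 1612 (.cons 248 (.leaf 276 1987 (.cons 247 (.leaf 250 1976 (.leaf 246 1968 .nil)) .nil)) .nil)) (.cons 202 (.cons 176 (.leaf 177 1411 (.cons 200 (.leaf 175 1403 (.cons 179 (.leaf 180 1409 (.cons 199 (.leaf 178 1401 (.cons 223 (.leaf 224 1594 (.leaf 222 1586 .nil)) .nil)) .nil)) .nil)) .nil)) (.cons 180 (.leaf 181 1417 (.cons 200 (.leaf 179 1409 (.cons 175 (.leaf 176 1403 (.cons 224 (.leaf 223 1594 (.leaf 225 1602 .nil)) .nil)) .nil)) .nil)) (.cons 176 (.leaf 177 1411 (.cons 200 (.leaf 175 1403 (.cons 224 (.leaf 223 1594 (.leaf 225 1602 .nil)) .nil)) .nil)) (.cons 180 (.leaf 181 1417 (.cons 200 (.leaf 179 1409 (.cons 224 (.leaf 223 1594 (.leaf 225 1602 .nil)) .nil)) .nil)) (.cons 176 (.leaf 177 1411 (.cons 180 (.leaf 181 1417 (.cons 200 (.leaf 175 1403 (.leaf 179 1409 .nil)) .nil)) .nil)) (.cons 177 (.leaf 176 1411 (.cons 205 (.leaf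 178 1419 (.cons 182 (.leaf 181 1425 (.cons 206 (.leaf 183 1433 (.cons 230 (.leaf 229 1616 (.leaf 231 1624 .nil)) .nil)) .nil)) .nil)) .nil)) .nil)))))) (.cons 202 (.cons 177 (.leaf 176 1411 (.cons 205 (.leaf 178 1419 (.cons 182 (.leaf 181 1425 (.cons 206 (.leaf 183 1433 (.cons 230 (.leaf 229 1616 (.leaf 231 1624 .nil)) .nil)) .nil)) .nil)) .nil)) (.cons 180 (.leaf 181 1417 (.cons 200 (.leaf 179 1409 (.cons 175 (.leaf 176 1403 (.cons 199 (.leaf 174 1395 (.cons 223 (.leaf 224 1594 (.leaf 222 1586 .nil)) .nil)) .nil)) .nil)) .nil)) (.cons 181 (.leaf 180 1417 (.cons 205 (.leaf 182 1425 (.cons 178 (.leaf 177 1419 (.cons 206 (.leaf 179 1427 (.cons 230 (.leaf 229 1616 (.leaf 231 1624 .nil)) .nil)) .nil)) .nil)) .nil)) (.cons 176 (.leaf 177 1411 (.cons 200 (.leaf 175 1403 (.cons 179 (.leaf 180 1409 (.cons 199 (.leaf 178 1401 (.cons 223 (.leaf 224 1594 (.leaf 222 1586 .nil)) .nil)) .nil)) .nil))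 .nil)) .nil)))) .nil))
noncomputable def t165 : T := .cons 322 (.leaf 346 2005 (.cons 227 (.leaf 203 1622 (.leaf 299 1814 .nil)) .nil)) (.cons 203 (.leaf 227 1622 (.cons 204 (.cons 228 (.leaf 180 1438 (.cons 276 (.leaf 299 1630 (.leaf 179 1439 .nil)) .nil)) (.cons 201 t164 (.cons 276 (.cons 228 (.leaf 299 1630 (.leaf 179 1439 .nil)) (.cons 249 (.leaf 248 1987 (.cons 250 (.leaf 277 1992 (.cons 225 (.leaf 224 1795 (.leaf 201 1612 .nil)) .nil)) .nil)) .nil)) (.cons 202 t163 (.cons 228 (.leaf 180 1438 (.cons 299 (.leaf 276 1630 (.leaf 323 1821 .nil)) .nil)) .nil))))) .nil)) (.cons 322 (.leaf 346 2005 (.cons 323 (.cons 299 (.leaf 228 1821 (.cons 324 (.leaf 348 2012 (.cons 325 (.leaf 326 2387 (.cons 301 (.leaf 302 2385 (.cons 349 (.leaf 350 2576 (.cons 347 (.leaf 250 2004 (.leaf 276 2013 .nil)) .nil)) .nil)) .nil)) .nil)) .nil)) (.cons 250 (.leaf 347 2004 (.cons 249 (.leaf 225 1807 (.cons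 276 (.leaf 248 1984 (.leaf 277 1992 .nil)) .nil)) .nil)) (.cons 299 (.leaf 228 1821 (.cons 324 (.leaf 348 2012 (.cons 325 (.leaf 326 2387 (.cons 301 (.leaf 302 2385 (.cons 349 (.leaf 350 2576 (.cons 276 (.leaf 277 2023 (.cons 249 (.leaf 248 1987 (.cons 225 (.leaf 201 1612 (.leaf 250 1807 .nil)) .nil)) .nil)) .nil)) .nil)) .nil)) .nil)) .nil)) (.cons 299 (.leaf 228 1821 (.cons 347 (.leaf 276 2013 (.leaf 371 2199 .nil)) .nil)) (.cons 347 (.leaf 250 2004 (.cons 299 (.leaf 228 1821 (.leaf 371 2199 .nil)) .nil)) .nil))))) .nil)) (.cons 322 (.leaf 346 2005 (.cons 227 (.leaf 203 1622 (.leaf 250 1813 .nil)) .nil)) .nil)))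
noncomputable def t166 : T := .cons 297 (.cons 224 (.leaf 200 1607 (.cons 321 (.leaf 248 1799 (.cons 296 (.leaf 201 1606 (.leaf 320 1798 .nil)) .nil)) .nil)) (.cons 224 (.leaf 200 1607 (.cons 321 (.leaf 248 1799 (.cons 344 (.leaf 320 1990 (.cons 345 (.leaf 368 2182 (.cons 322 (.leaf 298 1804 (.leaf 346 1996 .nil)) .nil)) .nil)) .nil)) .nil)) (.cons 201 (.leaf 296 1606 (.cons 200 (.leaf 176 1415 (.leaf 224 1607 .nil)) .nil)) (.cons 296 (.leaf 201 1606 (.leaf 320 1798 .nil)) .nil)))) (.cons 201 (.cons 200 (.leaf 176 1415 (.cons 297 (.leaf 224 1607 (.cons 177 (.leaf 248 1414 (.cons 178 (.leaf 202 1421 (.leaf 154 1229 .nil)) .nil)) .nil)) .nil)) (.cons 200 (.leaf 176 1415 (.cons 297 (.leaf 224 1607 (.cons 322 (.leaf 298 1804 (.cons 321 (.leaf 346 1996 (.cons 178 (.leaf 202 1421 (.cons 344 (.leaf 320 1990 (.cons 345 (.leaf 248 1991 (.leaf 368 2182 .nil)) .nil)) .nil)) .nil)) .nil)) .nil))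 .nil)) (.cons 177 (.leaf 248 1414 (.cons 178 (.leaf 202 1421 (.leaf 154 1229 .nil)) .nil)) (.cons 176 (.leaf 200 1415 (.cons 177 (.leaf 152 1223 (.cons 178 (.leaf 202 1421 (.leaf 154 1229 .nil)) .nil)) .nil)) (.cons 200 (.leaf 176 1415 (.cons 248 (.leaf 177 1414 (.cons 297 (.leaf 224 1604 (.cons 321 (.leaf 345 1991 (.cons 322 (.leaf 298 1804 (.leaf 346 1996 .nil)) .nil)) .nil)) .nil)) .nil)) .nil))))) (.cons 297 (.cons 200 (.leaf 224 1607 (.cons 322 (.leaf 298 1804 (.cons 321 (.leaf 346 1996 (.cons 344 (.leaf 320 1990 (.cons 345 (.leaf 248 1991 (.leaf 368 2182 .nil)) .nil)) .nil)) .nil)) .nil)) (.cons 200 (.leaf 224 1607 (.cons 322 (.leaf 298 1804 (.cons 321 (.leaf 346 1996 (.cons 345 (.leaf 248 1991 (.cons 368 (.leaf 344 2182 (.cons 369 (.leaf 296 2183 (.leaf 392 2374 .nil)) .nil)) .nil)) .nil)) .nil)) .nil)) (.cons 296 (.leaf 320 1798 (.cons 298 (.leaf 322 1804 (.cons 271 (.leaf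 270 2160 (.leaf 299 2171 .nil)) .nil)) .nil)) (.cons 224 (.leaf 200 1607 (.cons 321 (.leaf 248 1799 (.cons 296 (.leaf 320 1798 (.cons 345 (.leaf 369 2183 (.cons 346 (.leaf 322 1996 (.leaf 370 2188 .nil)) .nil)) .nil)) .nil)) .nil)) (.cons 224 (.leaf 200 1607 (.cons 320 (.leaf 296 1798 (.cons 321 (.leaf 248 1799 (.leaf 344 1990 .nil)) .nil)) .nil)) .nil))))) (.cons 201 (.leaf 296 1606 (.cons 176 (.leaf 200 1415 (.cons 177 (.leaf 248 1414 (.leaf 152 1223 .nil)) .nil)) .nil)) (.cons 201 (.leaf 296 1606 (.cons 176 (.leaf 200 1415 (.cons 177 (.leaf 152 1223 (.cons 178 (.leaf 202 1421 (.leaf 154 1229 .nil)) .nil)) .nil)) .nil)) (.cons 296 (.leaf 201 1606 (.cons 320 (.leaf 297 1798 (.leaf 344 1989 .nil)) .nil)) .nil)))))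
noncomputable def t167 : T := .cons 321 (.cons 320 (.leaf 344 1990 (.cons 296 (.leaf 225 1798 (.cons 322 (.leaf 346 1996 (.leaf 295 2363 .nil)) .nil)) .nil)) (.cons 248 (.leaf 224 1799 (.cons 322 (.leaf 346 1996 (.cons 324 (.leaf 296 2371 (.cons 276 (.leaf 274 1987 (.cons 349 (.leaf 348 2568 (.cons 325 (.leaf 350 2576 (.cons 301 (.leaf 277 2023 (.leaf 302 2385 .nil)) .nil)) .nil)) .nil)) .nil)) .nil)) .nil)) (.cons 224 (.leaf 248 1799 (.cons 225 (.leaf 200 1607 (.cons 320 (.leaf 296 1798 (.leaf 344 1990 .nil)) .nil)) .nil)) (.cons 224 (.leaf 248 1799 (.cons 200 (.leaf 225 1607 (.cons 344 (.leaf 320 1990 (.cons 272 (.leaf 274 1985 (.cons 322 (.leaf 346 1996 (.cons 345 (.leaf 368 2182 (.leaf 324 2562 .nil)) .nil)) .nil)) .nil)) .nil)) .nil)) .nil)))) (.cons 321 (.cons 224 (.leaf 248 1799 (.cons 200 (.leaf 225 1607 (.cons 344 (.leaf 320 1990 (.cons 322 (.leaf 346 1996 (.cons 345 (.leaf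 368 2182 (.leaf 324 2562 .nil)) .nil)) .nil)) .nil)) .nil)) (.cons 322 (.leaf 346 1996 (.cons 248 (.leaf 224 1799 (.cons 324 (.leaf 296 2371 (.cons 345 (.leaf 272 1991 (.leaf 344 2562 .nil)) .nil)) .nil)) .nil)) (.cons 224 (.leaf 248 1799 (.cons 225 (.leaf 200 1607 (.cons 320 (.leaf 296 1798 (.leaf 344 1990 .nil)) .nil)) .nil)) (.cons 322 (.leaf 346 1996 (.cons 224 (.leaf 248 1799 (.cons 200 (.leaf 225 1607 (.cons 296 (.leaf 324 2371 (.cons 295 (.leaf 320 2363 (.leaf 294 2352 .nil)) .nil)) .nil)) .nil)) .nil)) (.cons 322 (.leaf 346 1996 (.cons 296 (.leaf 324 2371 (.cons 320 (.leaf 225 1798 (.leaf 344 1990 .nil)) .nil)) .nil)) .nil))))) (.cons 321 (.cons 322 (.leaf 346 1996 (.cons 224 (.leaf 248 1799 (.cons 225 (.leaf 200 1607 (.cons 296 (.leaf 320 1798 (.leaf 324 2371 .nil)) .nil)) .nil)) .nil)) (.cons 320 (.leaf 344 1990 (.cons 224 (.leaf 248 1799 (.cons 225 (.leaf 200 1607 (.leaf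 296 1798 .nil)) .nil)) .nil)) (.cons 322 (.leaf 346 1996 (.cons 248 (.leaf 224 1799 (.cons 324 (.leaf 296 2371 (.cons 276 (.leaf 274 1987 (.cons 349 (.leaf 348 2568 (.cons 325 (.leaf 350 2576 (.cons 301 (.leaf 277 2023 (.leaf 302 2385 .nil)) .nil)) .nil)) .nil)) .nil)) .nil)) .nil)) (.cons 322 (.leaf 346 1996 (.cons 296 (.leaf 324 2371 (.cons 320 (.leaf 225 1798 (.leaf 344 1990 .nil)) .nil)) .nil)) (.cons 344 (.leaf 320 1990 (.cons 224 (.leaf 248 1799 (.cons 200 (.leaf 225 1607 (.cons 322 (.leaf 346 1996 (.cons 345 (.leaf 368 2182 (.leaf 324 2562 .nil)) .nil)) .nil)) .nil)) .nil)) .nil))))) (.cons 274 (.leaf 272 1985 (.cons 276 (.leaf 248 1987 (.leaf 296 2178 .nil)) .nil)) (.cons 274 (.leaf 272 1985 (.cons 248 (.leaf 276 1987 (.cons 224 (.leaf 321 1799 (.cons 200 (.leaf 176 1412 (.leaf 225 1607 .nil)) .nil)) .nil)) .nil)) (.cons 274 (.leaf 272 1985 (.cons 296 (.leaf 276 2178 (.cons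 294 (.leaf 295 2161 (.cons 320 (.leaf 225 1798 (.cons 344 (.leaf 321 1990 (.leaf 368 2181 .nil)) .nil)) .nil)) .nil)) .nil)) .nil)))))
noncomputable def t168 : T := .cons 204 (.leaf 180 1438 (.cons 299 (.leaf 227 1629 (.leaf 276 1630 .nil)) .nil)) (.cons 323 (.leaf 299 1821 (.cons 249 (.cons 250 (.leaf 229 1801 (.leaf 272 1986 .nil)) (.cons 297 t167 (.cons 250 (.leaf 229 1801 (.cons 276 (.leaf 248 1984 (.leaf 277 1992 .nil)) .nil)) .nil))) .nil)) (.cons 204 (.leaf 180 1438 (.cons 274 (.leaf 272 1985 (.cons 276 (.cons 181 (.leaf 205 1445 (.cons 277 (.leaf 301 1636 (.cons 278 (.leaf 250 2003 (.leaf 279 2011 .nil)) .nil)) .nil)) (.cons 181 (.leaf 205 1445 (.cons 203 (.leaf 179 1439 (.cons 249 (.leaf 248 1987 (.cons 229 (.leaf 250 1801 (.cons 230 (.leaf 231 1818 (.cons 202 (.leaf 201 1608 (.leaf 227 1619 .nil)) .nil)) .nil)) .nil)) .nil)) .nil)) (.cons 203 (.leaf 179 1439 (.cons 205 (.leaf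 181 1445 (.cons 277 (.leaf 301 1636 (.cons 278 (.leaf 279 2011 (.cons 254 (.leaf 255 2009 (.cons 302 (.leaf 303 2200 (.cons 230 (.leaf 229 1647 (.cons 231 (.leaf 206 1624 (.leaf 207 1653 .nil)) .nil)) .nil)) .nil)) .nil)) .nil)) .nil)) .nil)) (.cons 277 (.leaf 301 1636 (.cons 278 (.leaf 250 2003 (.leaf 279 2011 .nil)) .nil)) .nil)))) .nil)) .nil)) (.cons 204 (.leaf 180 1438 (.cons 299 (.leaf 227 1629 (.leaf 323 1821 .nil)) .nil)) .nil)))
noncomputable def t169 : T := .cons 201 (.leaf 296 1606 (.cons 176 (.leaf 200 1415 (.cons 177 (.leaf 248 1414 (.leaf 152 1223 .nil)) .nil)) .nil)) (.cons 201 (.cons 176 (.leaf 200 1415 (.cons 177 (.leaf 248 1414 (.leaf 152 1223 .nil)) .nil)) (.cons 200 (.leaf 176 1415 (.cons 202 (.leaf 178 1421 (.cons 224 (.leaf 297 1607 (.cons 203 (.leaf 204 1602 (.leaf 223 1594 .nil)) .nil)) .nil)) .nil)) (.cons 177 (.leaf 248 1414 (.cons 178 (.leaf 202 1421 (.leaf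 154 1229 .nil)) .nil)) .nil))) (.cons 297 (.cons 296 (.leaf 320 1798 (.cons 298 (.leaf 322 1804 (.cons 271 (.leaf 270 2160 (.leaf 299 2171 .nil)) .nil)) .nil)) (.cons 200 (.leaf 224 1607 (.cons 322 (.leaf 298 1804 (.cons 321 (.leaf 346 1996 (.cons 344 (.leaf 320 1990 (.cons 345 (.leaf 248 1991 (.leaf 368 2182 .nil)) .nil)) .nil)) .nil)) .nil)) (.cons 200 (.leaf 224 1607 (.cons 322 (.leaf 298 1804 (.cons 321 (.leaf 346 1996 (.cons 345 (.leaf 248 1991 (.cons 368 (.leaf 344 2182 (.cons 369 (.leaf 296 2183 (.leaf 392 2374 .nil)) .nil)) .nil)) .nil)) .nil)) .nil)) (.cons 320 (.leaf 296 1798 (.cons 224 (.leaf 200 1607 (.cons 321 (.leaf 248 1799 (.leaf 344 1990 .nil)) .nil)) .nil)) .nil)))) (.cons 201 (.leaf 296 1606 (.cons 200 (.leaf 176 1415 (.cons 202 (.leaf 178 1421 (.cons 224 (.leaf 297 1607 (.cons 203 (.leaf 204 1602 (.leaf 223 1594 .nil)) .nil)) .nil)) .nil)) .nil)) (.cons 201 (.leaf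 296 1606 (.cons 177 (.leaf 248 1414 (.cons 178 (.leaf 202 1421 (.leaf 154 1229 .nil)) .nil)) .nil)) .nil))))
noncomputable def t170 : T := .cons 249 (.leaf 248 1987 (.cons 250 (.leaf 277 1992 (.cons 225 (.leaf 224 1795 (.cons 201 (.leaf 298 1612 (.leaf 177 1420 .nil)) .nil)) .nil)) .nil)) (.cons 297 (.leaf 296 2178 (.cons 277 (.leaf 298 2186 (.cons 278 (.leaf 250 2003 (.leaf 279 2011 .nil)) .nil)) .nil)) (.cons 249 (.leaf 248 1987 (.cons 297 (.leaf 296 2178 (.cons 298 (.cons 322 (.leaf 346 2005 (.leaf 225 1804 .nil)) (.cons 203 (.leaf 227 1622 (.cons 225 (.leaf 201 1612 (.cons 224 (.leaf 250 1795 (.leaf 200 1607 .nil)) .nil)) .nil)) (.cons 322 (.leaf 346 2005 (.cons 227 (.leaf 203 1622 (.leaf 250 1813 .nil)) .nil)) .nil))) .nil)) .nil)) (.cons 297 (.leaf 296 2178 (.cons 248 (.leaf 249 1987 (.cons 277 (.leaf 298 2186 (.cons 278 (.leaf 279 2011 (.cons 302 (.leaf 301 2192 (.leaf 303 2200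 .nil)) .nil)) .nil)) .nil)) .nil)) (.cons 249 (.leaf 248 1987 (.cons 250 (.leaf 277 1992 (.cons 225 (.leaf 224 1795 (.cons 201 (.leaf 177 1420 (.cons 200 (.leaf 176 1415 (.cons 297 (.leaf 296 2178 (.cons 202 (.leaf 178 1421 (.cons 228 (.leaf 229 1801 (.cons 180 (.leaf 204 1438 (.cons 203 (.leaf 179 1409 (.leaf 227 1600 .nil)) .nil)) .nil)) .nil)) .nil)) .nil)) .nil)) .nil)) .nil)) .nil)) .nil))))
noncomputable def t171 : T := .cons 276 (.leaf 296 2178 (.cons 249 (.leaf 248 1987 (.cons 322 (.leaf 346 1996 (.cons 344 (.leaf 320 1990 (.cons 345 (.leaf 368 2182 (.cons 323 (.leaf 324 2562 (.cons 299 (.leaf 228 1821 (.leaf 347 2013 .nil)) .nil)) .nil)) .nil)) .nil)) .nil)) .nil)) (.cons 346 (.cons 370 (.leaf 345 2188 (.cons 322 (.leaf 249 1996 (.leaf 394 2383 .nil)) .nil)) (.cons 345 (.leaf 370 2188 (.cons 344 (.leaf 368 2182 (.cons 320 (.leaf 249 1990 (.cons 319 (.leaf 318 2544 (.leaf 347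 2555 .nil)) .nil)) .nil)) .nil)) (.cons 322 (.leaf 249 1996 (.cons 323 (.leaf 299 2006 (.cons 296 (.leaf 324 2371 (.cons 295 (.leaf 294 2352 (.leaf 320 2363 .nil)) .nil)) .nil)) .nil)) (.cons 370 (.leaf 345 2188 (.cons 322 (.leaf 394 2383 (.cons 323 (.leaf 299 2006 (.cons 296 (.leaf 324 2371 (.cons 295 (.leaf 294 2352 (.leaf 320 2363 .nil)) .nil)) .nil)) .nil)) .nil)) .nil)))) (.cons 249 (.cons 248 (.leaf 276 1987 (.leaf 224 1799 .nil)) (.cons 344 (.leaf 320 1990 (.cons 345 (.leaf 368 2182 (.cons 346 (.leaf 322 1996 (.leaf 370 2188 .nil)) .nil)) .nil)) .nil)) (.cons 296 (.leaf 276 2178 (.cons 323 (.cons 295 (.leaf 294 2161 (.cons 322 (.leaf 324 2371 (.leaf 320 2363 .nil)) .nil)) (.cons 299 (.leaf 228 1821 (.cons 348 (.leaf 324 2012 (.cons 347 (.leaf 372 2204 (.cons 346 (.leaf 370 2198 (.cons 345 (.leaf 320 2563 (.cons 368 (.leaf 344 2182 (.leaf 369 2754 .nil)) .nil)) .nil)) .nil))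 .nil)) .nil)) (.cons 294 (.leaf 295 2161 (.cons 299 (.leaf 228 1821 (.cons 346 (.leaf 322 2006 (.cons 370 (.leaf 347 2198 (.leaf 345 2188 .nil)) .nil)) .nil)) .nil)) .nil))) .nil)) (.cons 296 (.leaf 276 2178 (.cons 295 (.leaf 294 2161 (.cons 322 (.cons 249 (.leaf 346 1996 (.cons 320 (.leaf 225 1798 (.leaf 344 1990 .nil)) .nil)) (.cons 323 (.leaf 324 2371 (.cons 299 (.leaf 228 1821 (.leaf 346 2006 .nil)) .nil)) (.cons 323 (.leaf 324 2371 (.leaf 320 2363 .nil)) .nil))) .nil)) .nil)) (.cons 296 (.leaf 276 2178 (.cons 295 (.leaf 294 2161 (.cons 322 (.cons 249 (.leaf 346 1996 (.cons 323 (.leaf 324 2371 (.leaf 320 2363 .nil)) .nil)) (.cons 249 (.leaf 346 1996 (.cons 225 (.leaf 320 1798 (.cons 224 (.leaf 200 1607 (.leaf 248 1799 .nil)) .nil)) .nil)) (.cons 323 (.leaf 324 2371 (.leaf 320 2363 .nil)) (.cons 323 (.leaf 324 2371 (.cons 299 (.leaf 228 1821 (.leaf 346 2006 .nil)) .nil)) .nil))))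 .nil)) .nil)) (.cons 249 (.cons 296 (.leaf 276 2178 (.cons 320 (.leaf 225 1798 (.leaf 344 1990 .nil)) .nil)) (.cons 224 (.leaf 248 1799 (.cons 225 (.leaf 200 1607 (.cons 320 (.leaf 296 1798 (.leaf 344 1990 .nil)) .nil)) .nil)) (.cons 248 (.leaf 276 1987 (.leaf 224 1799 .nil)) .nil))) (.cons 323 (.cons 276 (.leaf 296 2178 (.cons 299 (.leaf 228 1821 (.leaf 347 2013 .nil)) .nil)) (.cons 296 (.leaf 276 2178 (.cons 294 (.leaf 295 2161 (.cons 322 (.leaf 324 2371 (.cons 346 (.leaf 249 1996 (.cons 370 (.leaf 345 2188 (.leaf 394 2383 .nil)) .nil)) .nil)) .nil)) .nil)) (.cons 299 (.leaf 228 1821 (.cons 322 (.leaf 346 2006 (.cons 324 (.leaf 348 2012 (.leaf 296 2371 .nil)) .nil)) .nil)) (.cons 299 (.leaf 228 1821 (.cons 322 (.leaf 346 2006 (.cons 347 (.leaf 276 2013 (.cons 348 (.leaf 324 2012 (.leaf 372 2204 .nil)) .nil)) .nil)) .nil)) .nil)))) .nil)))))))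
noncomputable def t172 : T := .cons 321 (.cons 248 (.leaf 276 1987 (.leaf 224 1799 .nil)) (.cons 322 (.leaf 346 1996 (.cons 298 (.leaf 225 1804 (.cons 227 (.leaf 203 1622 (.leaf 299 1814 .nil)) .nil)) .nil)) .nil)) (.cons 248 (.leaf 276 1987 (.cons 224 (.leaf 321 1799 (.cons 200 (.leaf 176 1412 (.leaf 225 1607 .nil)) .nil)) .nil)) (.cons 298 (.cons 322 (.leaf 346 2005 (.leaf 225 1804 .nil)) (.cons 203 (.leaf 227 1622 (.cons 225 (.leaf 201 1612 (.cons 224 (.leaf 200 1607 (.cons 321 (.leaf 248 1799 (.cons 344 (.leaf 320 1990 (.cons 345 (.leaf 368 2182 (.leaf 369 2189 .nil)) .nil)) .nil)) .nil)) .nil)) .nil)) (.cons 322 (.leaf 346 2005 (.cons 227 (.leaf 203 1622 (.leaf 299 1814 .nil)) .nil)) .nil))) (.cons 321 (.cons 344 (.leaf 320 1990 (.cons 345 (.leaf 368 2182 (.cons 346 (.leaf 322 1996 (.leaf 370 2188 .nil)) .nil)) .nil)) (.cons 344 (.leaf 320 1990 (.cons 345 (.leaf 368 2182 (.cons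 369 (.leaf 298 2189 (.cons 370 (.leaf 346 2188 (.leaf 394 2380 .nil)) .nil)) .nil)) .nil)) (.cons 344 (.leaf 320 1990 (.cons 345 (.leaf 368 2182 (.cons 298 (.leaf 369 2189 (.cons 225 (.leaf 201 1612 (.leaf 322 1804 .nil)) .nil)) .nil)) .nil)) (.cons 322 (.leaf 346 1996 (.cons 298 (.leaf 225 1804 (.cons 227 (.leaf 203 1622 (.leaf 299 1814 .nil)) .nil)) .nil)) .nil)))) (.cons 276 (.leaf 248 1987 (.cons 277 (.leaf 298 2186 (.cons 278 (.leaf 279 2011 (.cons 302 (.leaf 301 2192 (.leaf 303 2200 .nil)) .nil)) .nil)) .nil)) .nil))))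
noncomputable def t173 : T := .cons 322 (.leaf 346 2005 (.cons 227 (.leaf 203 1622 (.leaf 299 1814 .nil)) .nil)) (.cons 296 (.leaf 295 2169 (.cons 227 (.leaf 203 1622 (.cons 299 (.cons 228 (.leaf 204 1629 (.leaf 323 1821 .nil)) (.cons 320 (.leaf 319 2362 (.cons 249 (.leaf 225 1798 (.cons 344 (.leaf 321 1990 (.leaf 368 2181 .nil)) .nil)) .nil)) .nil)) .nil)) .nil)) (.cons 322 (.leaf 346 2005 (.cons 296 (.leaf 295 2169 (.cons 249 (.leaf 225 1804 (.cons 323 (.cons 299 (.leaf 228 1821 (.leaf 324 2368 .nil)) (.cons 299 (.leaf 228 1821 (.cons 320 (.leaf 319 2362 (.cons 344 (.leaf 321 1990 (.leaf 368 2181 .nil)) .nil)) .nil)) (.cons 324 (.leaf 321 2371 (.leaf 325 2379 .nil)) .nil))) .nil)) .nil)) .nil)) (.cons 295 (.leaf 296 2169 (.cons 227 (.leaf 203 1622 (.cons 321 (.cons 322 (.leaf 346 2005 (.cons 249 (.leaf 225 1804 (.cons 224 (.leaf 248 1799 (.cons 320 (.leaf 344 1990 (.cons 319 (.leaf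 318 2353 (.leaf 294 2355 .nil)) .nil)) .nil)) .nil)) .nil)) (.cons 345 (.leaf 369 2189 (.cons 344 (.leaf 368 2182 (.cons 249 (.leaf 320 1990 (.cons 224 (.leaf 248 1799 (.cons 225 (.leaf 200 1607 (.leaf 201 1612 .nil)) .nil)) .nil)) .nil)) .nil)) (.cons 345 (.leaf 369 2189 (.cons 346 (.leaf 322 2005 (.leaf 370 2188 .nil)) .nil)) .nil))) .nil)) .nil)) .nil)))
noncomputable def t174 : T := .cons 296 (.leaf 276 2178 (.cons 323 (.cons 294 (.leaf 295 2161 (.cons 322 (.leaf 324 2371 (.cons 249 (.leaf 346 1996 (.cons 320 (.leaf 225 1798 (.leaf 344 1990 .nil)) .nil)) .nil)) .nil)) (.cons 295 (.leaf 298 2169 (.leaf 294 2161 .nil)) (.cons 299 (.leaf 228 1821 (.cons 348 (.leaf 324 2012 (.cons 347 (.leaf 372 2204 (.cons 322 (.leaf 346 2006 (.leaf 320 2560 .nil)) .nil)) .nil)) .nil)) .nil))) .nil)) (.cons 298 (.cons 276 (.leaf 277 2186 (.cons 248 (.leaf 249 1987 (.cons 345 (.leaf 369 2189 (.cons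 346 (.leaf 322 2005 (.leaf 370 2188 .nil)) .nil)) .nil)) .nil)) (.cons 345 (.leaf 369 2189 (.cons 203 (.leaf 227 1622 (.cons 276 (.leaf 277 2186 (.cons 249 (.leaf 248 1987 (.cons 344 (.leaf 320 1990 (.leaf 368 2182 .nil)) .nil)) .nil)) .nil)) .nil)) (.cons 322 (.leaf 346 2005 (.cons 227 (.leaf 203 1622 (.leaf 299 1814 .nil)) .nil)) .nil))) (.cons 298 (.cons 203 (.leaf 227 1622 (.cons 295 (.leaf 296 2169 (.cons 345 (.leaf 369 2189 (.cons 344 (.leaf 368 2182 (.cons 249 (.leaf 320 1990 (.cons 224 (.leaf 248 1799 (.cons 225 (.leaf 200 1607 (.leaf 201 1612 .nil)) .nil)) .nil)) .nil)) .nil)) .nil)) .nil)) (.cons 295 (.leaf 296 2169 (.cons 322 (.leaf 346 2005 (.cons 203 (.leaf 227 1622 (.cons 249 (.leaf 225 1804 (.cons 224 (.leaf 248 1799 (.cons 320 (.leaf 344 1990 (.cons 319 (.leaf 318 2353 (.leaf 294 2355 .nil)) .nil)) .nil)) .nil)) .nil)) .nil)) .nil)) (.cons 322 (.leaf 346 2005 (.cons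 227 (.leaf 203 1622 (.leaf 299 1814 .nil)) .nil)) (.cons 295 (.leaf 296 2169 (.cons 322 (.leaf 346 2005 (.cons 249 (.leaf 225 1804 (.cons 224 (.leaf 248 1799 (.cons 320 (.leaf 344 1990 (.cons 319 (.leaf 318 2353 (.leaf 294 2355 .nil)) .nil)) .nil)) .nil)) .nil)) .nil)) .nil)))) (.cons 323 (.cons 299 (.leaf 228 1821 (.cons 322 (.leaf 346 2006 (.cons 324 (.leaf 348 2012 (.leaf 296 2371 .nil)) .nil)) .nil)) (.cons 296 (.leaf 276 2178 (.cons 294 (.leaf 295 2161 (.cons 322 (.leaf 324 2371 (.cons 249 (.leaf 346 1996 (.cons 320 (.leaf 225 1798 (.leaf 344 1990 .nil)) .nil)) .nil)) .nil)) .nil)) (.cons 299 (.leaf 228 1821 (.cons 322 (.leaf 346 2006 (.cons 347 (.leaf 276 2013 (.cons 348 (.leaf 324 2012 (.leaf 372 2204 .nil)) .nil)) .nil)) .nil)) (.cons 276 (.leaf 296 2178 (.cons 299 (.leaf 228 1821 (.leaf 347 2013 .nil)) .nil)) .nil)))) (.cons 296 (.leaf 276 2178 (.cons 295 (.leaf 298 2169 (.leaf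 294 2161 .nil)) .nil)) .nil))))
noncomputable def t175 : T := .cons 345 (.leaf 325 2570 (.cons 344 (.leaf 321 2562 (.leaf 343 2553 .nil)) .nil)) (.cons 325 (.cons 301 (.leaf 302 2385 (.cons 326 (.leaf 347 2578 (.cons 350 (.leaf 349 2576 (.leaf 351 2584 .nil)) .nil)) .nil)) (.cons 349 (.leaf 350 2576 (.cons 301 (.leaf 302 2385 (.cons 348 (.leaf 321 2568 (.cons 277 (.leaf 276 2023 (.leaf 372 2214 .nil)) .nil)) .nil)) .nil)) (.cons 326 (.leaf 347 2578 (.cons 302 (.leaf 301 2385 (.leaf 303 2393 .nil)) .nil)) (.cons 349 (.leaf 350 2576 (.cons 321 (.leaf 348 2568 (.cons 296 (.leaf 297 2371 (.cons 320 (.leaf 295 2363 (.cons 347 (.leaf 326 2578 (.leaf 319 2552 .nil)) .nil)) .nil)) .nil)) .nil)) .nil)))) (.cons 321 (.cons 297 (.leaf 296 2371 (.cons 345 (.leaf 370 2188 (.leaf 344 2562 .nil)) .nil)) (.cons 348 (.leaf 349 2568 (.cons 296 (.leaf 297 2371 (.cons 320 (.leaf 295 2363 (.leaf 347 2560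 .nil)) .nil)) .nil)) (.cons 344 (.leaf 345 2562 (.cons 320 (.leaf 343 2554 (.cons 347 (.leaf 348 2560 (.leaf 319 2552 .nil)) .nil)) .nil)) .nil))) (.cons 325 (.leaf 345 2570 (.cons 326 (.leaf 347 2578 (.cons 350 (.leaf 349 2576 (.leaf 351 2584 .nil)) .nil)) .nil)) .nil)))
noncomputable def t176 : T := .cons 324 (.cons 345 (.leaf 344 2562 (.cons 325 (.leaf 346 2570 (.cons 349 (.leaf 348 2568 (.leaf 350 2576 .nil)) .nil)) .nil)) (.cons 296 (.leaf 297 2371 (.cons 320 (.leaf 295 2363 (.cons 348 (.leaf 347 2560 (.leaf 349 2568 .nil)) .nil)) .nil)) (.cons 297 (.leaf 296 2371 (.cons 345 (.leaf 250 1997 (.leaf 344 2562 .nil)) .nil)) .nil))) (.cons 297 (.cons 296 (.leaf 276 2178 (.leaf 324 2371 .nil)) (.cons 345 (.leaf 250 1997 (.cons 344 (.leaf 368 2182 (.leaf 324 2562 .nil)) .nil)) (.cons 345 (.leaf 250 1997 (.cons 276 (.leaf 296 2178 (.cons 344 (.leaf 368 2182 (.cons 343 (.leaf 346 2553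 (.leaf 342 2545 .nil)) .nil)) .nil)) .nil)) .nil))) (.cons 320 (.cons 343 (.leaf 344 2554 (.cons 319 (.leaf 342 2546 (.cons 347 (.leaf 348 2560 (.leaf 346 2552 .nil)) .nil)) .nil)) (.cons 295 (.leaf 296 2363 (.cons 319 (.leaf 294 2355 (.cons 347 (.leaf 348 2560 (.leaf 346 2552 .nil)) .nil)) .nil)) (.cons 344 (.leaf 343 2554 (.cons 295 (.leaf 296 2363 (.cons 319 (.leaf 294 2355 (.cons 247 (.leaf 271 1980 (.cons 345 (.leaf 324 2562 (.cons 318 (.leaf 346 2544 (.leaf 317 2536 .nil)) .nil)) .nil)) .nil)) .nil)) .nil)) (.cons 295 (.leaf 296 2363 (.cons 344 (.leaf 343 2554 (.cons 324 (.leaf 345 2562 (.cons 348 (.leaf 347 2560 (.leaf 349 2568 .nil)) .nil)) .nil)) .nil)) .nil)))) (.cons 320 (.cons 295 (.leaf 296 2363 (.cons 319 (.leaf 294 2355 (.cons 347 (.leaf 348 2560 (.leaf 346 2552 .nil)) .nil)) .nil)) (.cons 347 (.leaf 348 2560 (.cons 319 (.leaf 346 2552 (.cons 294 (.leaf 295 2355 (.cons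 318 (.leaf 293 2347 (.cons 342 (.leaf 343 2546 (.leaf 341 2538 .nil)) .nil)) .nil)) .nil)) .nil)) (.cons 347 (.leaf 348 2560 (.cons 319 (.leaf 346 2552 (.cons 343 (.leaf 344 2554 (.leaf 342 2546 .nil)) .nil)) .nil)) (.cons 296 (.leaf 295 2363 (.cons 297 (.leaf 276 2178 (.leaf 324 2371 .nil)) .nil)) .nil)))) (.cons 320 (.cons 347 (.leaf 348 2560 (.cons 319 (.leaf 346 2552 (.cons 294 (.leaf 295 2355 (.cons 318 (.leaf 293 2347 (.cons 342 (.leaf 343 2546 (.leaf 341 2538 .nil)) .nil)) .nil)) .nil)) .nil)) (.cons 296 (.leaf 295 2363 (.cons 297 (.leaf 276 2178 (.cons 344 (.leaf 368 2181 (.cons 345 (.leaf 250 1997 (.cons 346 (.leaf 370 2188 (.cons 347 (.leaf 348 2560 (.leaf 319 2552 .nil)) .nil)) .nil)) .nil)) .nil)) .nil)) (.cons 347 (.leaf 348 2560 (.cons 319 (.leaf 346 2552 (.cons 343 (.leaf 344 2554 (.leaf 342 2546 .nil)) .nil)) .nil)) (.cons 296 (.leaf 295 2363 (.cons 297 (.leaf 276 2178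 (.cons 344 (.leaf 368 2181 (.leaf 343 2554 .nil)) .nil)) .nil)) .nil)))) (.cons 345 (.cons 297 (.leaf 250 1997 (.cons 344 (.leaf 368 2182 (.leaf 324 2562 .nil)) .nil)) (.cons 297 (.leaf 250 1997 (.cons 348 (.cons 370 (.leaf 346 2188 (.cons 347 (.leaf 320 2560 (.cons 349 (.leaf 324 2568 (.leaf 350 2579 .nil)) .nil)) .nil)) (.cons 347 (.leaf 320 2560 (.cons 349 (.leaf 324 2568 (.leaf 350 2579 .nil)) .nil)) (.cons 324 (.leaf 349 2568 (.cons 346 (.leaf 370 2188 (.leaf 325 2570 .nil)) .nil)) (.cons 370 (.leaf 346 2188 (.cons 369 (.leaf 394 2380 (.cons 347 (.leaf 320 2560 (.cons 368 (.leaf 392 2374 (.leaf 371 2753 .nil)) .nil)) .nil)) .nil)) .nil)))) .nil)) (.cons 297 (.leaf 250 1997 (.cons 344 (.leaf 368 2182 (.cons 343 (.leaf 320 2554 (.leaf 346 2553 .nil)) .nil)) .nil)) (.cons 324 (.leaf 344 2562 (.cons 325 (.leaf 346 2570 (.cons 349 (.leaf 348 2568 (.leaf 350 2576 .nil)) .nil)) .nil))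 .nil)))) (.cons 324 (.cons 296 (.leaf 297 2371 (.cons 320 (.leaf 295 2363 (.cons 348 (.leaf 347 2560 (.leaf 349 2568 .nil)) .nil)) .nil)) (.cons 349 (.leaf 348 2568 (.cons 325 (.leaf 350 2576 (.cons 302 (.leaf 301 2385 (.cons 326 (.leaf 303 2393 (.cons 346 (.leaf 345 2570 (.leaf 347 2578 .nil)) .nil)) .nil)) .nil)) .nil)) (.cons 297 (.leaf 296 2371 (.cons 345 (.leaf 250 1997 (.cons 346 (.leaf 370 2188 (.leaf 325 2570 .nil)) .nil)) .nil)) .nil))) (.cons 297 (.cons 250 (.leaf 345 1997 (.cons 296 (.leaf 276 2178 (.leaf 324 2371 .nil)) .nil)) (.cons 345 (.leaf 250 1997 (.cons 344 (.leaf 368 2182 (.leaf 324 2562 .nil)) .nil)) (.cons 296 (.leaf 276 2178 (.leaf 324 2371 .nil)) (.cons 250 (.leaf 345 1997 (.cons 296 (.leaf 276 2178 (.cons 295 (.leaf 294 2352 (.leaf 320 2363 .nil)) .nil)) .nil)) .nil)))) .nil)))))))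
noncomputable def t177 : T := .cons 298 (.leaf 346 2005 (.cons 227 (.leaf 203 1622 (.leaf 250 1813 .nil)) .nil)) (.cons 321 (t176) (.cons 297 (.cons 296 (.leaf 276 2178 (.cons 295 (.leaf 298 2360 (.leaf 294 2161 .nil)) .nil)) (.cons 321 (.cons 345 (.leaf 250 1997 (.cons 344 (.leaf 368 2182 (.leaf 324 2562 .nil)) .nil)) (.cons 298 (.cons 227 (.leaf 203 1622 (.leaf 250 1813 .nil)) (.cons 324 (.leaf 325 2379 (.cons 348 (.leaf 349 2568 (.cons 320 (.leaf 347 2560 (.cons 319 (.leaf 318 2353 (.cons 343 (.leaf 344 2554 (.leaf 342 2546 .nil)) .nil)) .nil)) .nil)) .nil)) .nil)) (.cons 345 (.cons 344 (.leaf 368 2182 (.leaf 324 2562 .nil)) (.cons 369 (.leaf 298 2189 (.cons 392 (.leaf 368 2374 (.cons 393 (.leaf 416 2566 (.cons 394 (.leaf 370 2380 (.leaf 418 2572 .nil)) .nil)) .nil)) .nil)) (.cons 298 (.leaf 369 2189 (.cons 324 (.leaf 325 2379 (.leaf 344 2562 .nil)) .nil)) .nil))) (.cons 250 (.leaf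 345 1997 (.cons 298 (.leaf 227 1813 (.leaf 347 2004 .nil)) .nil)) .nil)))) (.cons 296 (.leaf 276 2178 (.cons 295 (.leaf 294 2161 (.cons 321 (.leaf 320 2363 (.leaf 324 2371 .nil)) .nil)) .nil)) .nil))) (.cons 346 (.leaf 298 2005 (.cons 324 t175 .nil)) .nil)))
noncomputable def t178 : T := .cons 204 (.leaf 180 1438 (.cons 299 (.leaf 227 1629 (.leaf 276 1630 .nil)) .nil)) (.cons 299 (.leaf 323 1821 (.cons 321 (.cons 320 (.leaf 344 1990 (.cons 296 (.leaf 225 1798 (.cons 298 (.leaf 276 2177 (.leaf 319 2362 .nil)) .nil)) .nil)) (.cons 248 (.leaf 224 1799 (.cons 345 (.leaf 272 1991 (.cons 368 (.leaf 344 2182 (.cons 369 (.leaf 392 2374 (.cons 370 (.leaf 346 2188 (.leaf 394 2380 .nil)) .nil)) .nil)) .nil)) .nil)) (.cons 224 (.leaf 248 1799 (.cons 225 (.leaf 200 1607 (.cons 296 (.leaf 320 1798 (.cons 272 (.leaf 201 1606 (.cons 298 (.leaf 276 2177 (.leaf 271 2171 .nil)) .nil)) .nil)) .nil)) .nil))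 .nil))) .nil)) (.cons 204 (.leaf 180 1438 (.cons 225 (.cons 296 (.leaf 320 1798 (.cons 201 (.leaf 272 1606 (.cons 176 (.leaf 200 1415 (.cons 177 (.leaf 152 1223 (.cons 178 (.leaf 202 1421 (.leaf 154 1229 .nil)) .nil)) .nil)) .nil)) .nil)) (.cons 200 (.leaf 224 1607 (.cons 201 (.leaf 176 1415 (.cons 202 (.leaf 178 1421 (.cons 203 (.leaf 227 1600 (.leaf 229 1608 .nil)) .nil)) .nil)) .nil)) (.cons 296 (.leaf 320 1798 (.cons 201 (.leaf 272 1606 (.cons 202 (.leaf 178 1421 (.cons 203 (.leaf 229 1608 (.leaf 224 1602 .nil)) .nil)) .nil)) .nil)) (.cons 224 (.leaf 200 1607 (.cons 320 (.leaf 296 1798 (.cons 321 (.leaf 248 1799 (.leaf 344 1990 .nil)) .nil)) .nil)) .nil)))) .nil)) .nil))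
noncomputable def t179 : T := .cons 200 (.leaf 224 1607 (.cons 176 (.leaf 201 1415 (.cons 296 (.leaf 320 1798 (.cons 298 (.leaf 322 1804 (.cons 299 (.leaf 276 2177 (.cons 323 (.leaf 228 1821 (.leaf 324 2368 .nil)) .nil)) .nil)) .nil)) .nil)) .nil)) (.cons 200 (.leaf 224 1607 (.cons 201 (.leaf 176 1415 (.cons 202 (.leaf 178 1421 (.cons 203 (.cons 180 (.leaf 179 1409 (.cons 204 (.leaf 227 1437 (.leaf 228 1438 .nil)) .nil)) (.cons 180 (.leaf 179 1409 (.cons 204 (.leaf 227 1437 (.leaf 181 1417 .nil)) .nil)) (.cons 228 (.leaf 227 1600 (.cons 204 (.leaf 229 1608 (.cons 276 (.leaf 299 1630 (.leaf 179 1439 .nil)) .nil)) .nil)) (.cons 180 (.leaf 179 1409 (.cons 204 (.leaf 228 1438 (.leaf 181 1417 .nil)) .nil)) (.cons 228 (.leaf 227 1600 (.cons 204 (.leaf 180 1438 (.leaf 229 1608 .nil)) .nil)) (.cons 227 (.leaf 228 1600 (.cons 179 (.leaf 276 1436 (.leaf 180 1409 .nil)) .nil)) .nil)))))) .nil))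 .nil)) .nil)) (.cons 296 (.leaf 320 1798 (.cons 201 (.leaf 272 1606 (.cons 178 (.leaf 202 1421 (.cons 298 (.leaf 322 1804 (.cons 177 (.leaf 154 1229 (.cons 152 (.leaf 176 1223 (.cons 153 (.leaf 128 1031 (.cons 299 (.leaf 276 2177 (.cons 323 (.leaf 228 1821 (.leaf 324 2368 .nil)) .nil)) .nil)) .nil)) .nil)) .nil)) .nil)) .nil)) .nil)) (.cons 296 (.leaf 320 1798 (.cons 200 (.leaf 224 1607 (.cons 298 (.leaf 322 1804 (.cons 299 (.leaf 276 2177 (.cons 323 (.leaf 228 1821 (.leaf 324 2368 .nil)) .nil)) .nil)) .nil)) .nil)) (.cons 296 (.leaf 320 1798 (.cons 200 (.leaf 224 1607 (.cons 201 (.leaf 176 1415 (.leaf 272 1606 .nil)) .nil)) .nil)) .nil))))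
noncomputable def t180 : T := .cons 322 (.cons 321 (.leaf 346 1996 (.cons 298 (.leaf 225 1804 (.cons 299 (.leaf 227 1814 (.cons 228 (.leaf 323 1821 (.cons 204 (.leaf 180 1438 (.leaf 276 1630 .nil)) .nil)) .nil)) .nil)) .nil)) (.cons 225 (.leaf 298 1804 (.cons 200 (.leaf 224 1607 (.cons 201 (.leaf 176 1415 (.cons 296 (.leaf 272 1606 (.leaf 320 1798 .nil)) .nil)) .nil)) .nil)) (.cons 321 (.leaf 346 1996 (.cons 320 (.leaf 344 1990 (.cons 296 (.leaf 225 1798 (.cons 295 (.leaf 294 2352 (.leaf 323 2363 .nil)) .nil)) .nil)) .nil)) (.cons 321 (.leaf 346 1996 (.cons 224 (.leaf 248 1799 (.cons 344 (.leaf 320 1990 (.cons 345 (.leaf 368 2182 (.cons 323 (.leaf 324 2562 (.cons 299 (.leaf 228 1821 (.cons 276 (.leaf 347 2013 (.cons 298 (.leaf 227 1814 (.leaf 296 2177 .nil)) .nil)) .nil)) .nil)) .nil)) .nil)) .nil)) .nil)) .nil)))) (.cons 225 t179 (.cons 321 (.cons 346 (.leaf 322 1996 (.cons 248 (.leaf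 224 1799 (.cons 345 (.leaf 272 1991 (.leaf 370 2188 .nil)) .nil)) .nil)) (.cons 248 (.leaf 224 1799 (.cons 344 (.leaf 320 1990 (.cons 345 (.leaf 272 1991 (.leaf 368 2182 .nil)) .nil)) .nil)) (.cons 346 (.leaf 322 1996 (.cons 344 (.leaf 320 1990 (.cons 345 (.leaf 368 2182 (.leaf 370 2188 .nil)) .nil)) .nil)) (.cons 322 (.leaf 346 1996 (.cons 320 (.leaf 344 1990 (.cons 248 (.leaf 224 1799 (.cons 319 (.cons 298 (.leaf 318 2353 (.leaf 299 2361 .nil)) (.cons 294 (.leaf 295 2355 (.cons 318 (.leaf 293 2347 (.cons 342 (.leaf 341 2538 (.leaf 343 2546 .nil)) .nil)) .nil)) (.cons 294 (.leaf 295 2355 (.cons 299 (.leaf 298 2361 (.cons 228 (.leaf 323 1821 (.cons 204 (.leaf 180 1438 (.leaf 227 1629 .nil)) .nil)) .nil)) .nil)) .nil))) .nil)) .nil)) .nil)) .nil)))) (.cons 228 t178 (.cons 321 (.cons 346 (.leaf 322 1996 (.cons 248 (.leaf 224 1799 (.cons 345 (.leaf 272 1991 (.leaf 370 2188 .nil)) .nil))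 .nil)) (.cons 248 (.leaf 224 1799 (.cons 345 (.leaf 272 1991 (.cons 368 (.leaf 344 2182 (.cons 369 (.leaf 392 2374 (.cons 370 (.leaf 346 2188 (.leaf 394 2380 .nil)) .nil)) .nil)) .nil)) .nil)) (.cons 320 (.leaf 344 1990 (.cons 224 (.leaf 248 1799 (.cons 225 (.leaf 200 1607 (.leaf 296 1798 .nil)) .nil)) .nil)) (.cons 322 (.leaf 346 1996 (.cons 225 (.leaf 298 1804 (.cons 320 (.leaf 296 1798 (.leaf 344 1990 .nil)) .nil)) .nil)) .nil)))) (.cons 321 (.cons 224 (.leaf 248 1799 (.cons 225 (.leaf 200 1607 (.cons 298 (.leaf 322 1804 (.cons 299 (.cons 228 (.leaf 323 1821 (.cons 204 (.leaf 180 1438 (.leaf 227 1629 .nil)) .nil)) (.cons 296 (.leaf 276 2177 (.cons 272 (.leaf 201 1606 (.leaf 271 2171 .nil)) .nil)) .nil)) .nil)) .nil)) .nil)) (.cons 248 (.leaf 224 1799 (.cons 345 (.leaf 272 1991 (.cons 368 (.leaf 344 2182 (.cons 369 (.leaf 392 2374 (.cons 370 (.leaf 346 2188 (.leaf 394 2380 .nil))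 .nil)) .nil)) .nil)) .nil)) (.cons 322 (.leaf 346 1996 (.cons 298 (.leaf 225 1804 (.cons 299 (.leaf 227 1814 (.cons 228 (.leaf 323 1821 (.cons 204 (.leaf 180 1438 (.leaf 276 1630 .nil)) .nil)) .nil)) .nil)) .nil)) .nil))) (.cons 322 (.cons 298 (.leaf 225 1804 (.cons 346 (.leaf 321 1996 (.leaf 370 2191 .nil)) .nil)) (.cons 321 (.leaf 346 1996 (.cons 320 (.leaf 344 1990 (.cons 296 (.leaf 225 1798 (.cons 295 (.leaf 294 2352 (.leaf 323 2363 .nil)) .nil)) .nil)) .nil)) (.cons 298 (.leaf 225 1804 (.cons 299 (.leaf 227 1814 (.cons 228 (.leaf 323 1821 (.cons 204 (.leaf 180 1438 (.leaf 276 1630 .nil)) .nil)) .nil)) .nil)) (.cons 321 (.leaf 346 1996 (.cons 344 (.leaf 320 1990 (.cons 345 (.leaf 368 2182 (.cons 323 (.leaf 324 2562 (.cons 299 (.leaf 228 1821 (.cons 248 (.leaf 272 1991 (.cons 276 (.leaf 347 2013 (.cons 298 (.leaf 227 1814 (.leaf 296 2177 .nil)) .nil)) .nil)) .nil)) .nil)) .nil))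 .nil)) .nil)) .nil)))) (.cons 321 (.cons 248 (.leaf 224 1799 (.cons 345 (.leaf 272 1991 (.cons 346 (.leaf 322 1996 (.leaf 370 2188 .nil)) .nil)) .nil)) (.cons 320 (.leaf 344 1990 (.cons 296 (.leaf 225 1798 (.cons 322 (.leaf 346 1996 (.cons 295 (.leaf 294 2352 (.leaf 323 2363 .nil)) .nil)) .nil)) .nil)) (.cons 224 (.leaf 248 1799 (.cons 225 (.leaf 200 1607 (.cons 320 (.leaf 296 1798 (.leaf 344 1990 .nil)) .nil)) .nil)) .nil))) (.cons 321 (.cons 224 (.leaf 248 1799 (.cons 225 (.leaf 200 1607 (.cons 322 (.leaf 298 1804 (.leaf 346 1996 .nil)) .nil)) .nil)) (.cons 224 (.leaf 248 1799 (.cons 225 (.leaf 200 1607 (.cons 320 (.leaf 296 1798 (.leaf 344 1990 .nil)) .nil)) .nil)) (.cons 322 (.leaf 346 1996 (.cons 344 (.leaf 320 1990 (.cons 345 (.leaf 368 2182 (.cons 323 (.leaf 324 2562 (.cons 298 (.leaf 225 1804 (.cons 299 (.leaf 227 1814 (.leaf 228 1821 .nil)) .nil)) .nil)) .nil)) .nil)) .nil))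 (.cons 224 (.leaf 248 1799 (.cons 322 (.leaf 346 1996 (.cons 344 (.leaf 320 1990 (.cons 345 (.leaf 368 2182 (.cons 323 (.leaf 324 2562 (.cons 299 (.leaf 228 1821 (.cons 276 (.leaf 347 2013 (.cons 298 (.leaf 227 1814 (.leaf 296 2177 .nil)) .nil)) .nil)) .nil)) .nil)) .nil)) .nil)) .nil)) .nil)))) .nil))))))))
noncomputable def t181 : T := .cons 250 (.leaf 272 1986 (.cons 224 (.leaf 225 1795 (.cons 228 (.leaf 229 1801 (.cons 248 (.leaf 276 1984 (.leaf 223 1787 .nil)) .nil)) .nil)) .nil)) (.cons 297 (t180) (.cons 250 (.cons 224 (.leaf 225 1795 (.cons 228 (.leaf 229 1801 (.cons 248 (.leaf 276 1984 (.leaf 223 1787 .nil)) .nil)) .nil)) (.cons 224 (.leaf 225 1795 (.cons 228 (.leaf 229 1801 (.cons 248 (.leaf 223 1787 (.leaf 227 1793 .nil)) .nil)) .nil)) (.cons 276 (.leaf 248 1984 (.leaf 277 1992 .nil)) (.cons 224 (.leaf 225 1795 (.cons 228 (.leaf 229 1801 (.cons 204 (.leaf 180 1438 (.cons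 299 (.leaf 227 1629 (.leaf 276 1630 .nil)) .nil)) .nil)) .nil)) .nil)))) (.cons 250 (.leaf 272 1986 (.cons 276 (.leaf 248 1984 (.leaf 277 1992 .nil)) .nil)) (.cons 250 (.leaf 272 1986 (.cons 224 (.leaf 225 1795 (.cons 228 (.leaf 229 1801 (.cons 248 (.leaf 223 1787 (.leaf 227 1793 .nil)) .nil)) .nil)) .nil)) (.cons 250 (.leaf 272 1986 (.cons 224 (.leaf 225 1795 (.cons 228 (.leaf 229 1801 (.cons 204 (.leaf 180 1438 (.cons 299 (.leaf 227 1629 (.leaf 276 1630 .nil)) .nil)) .nil)) .nil)) .nil)) .nil)))))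
noncomputable def t182 : T := .cons 250 (.leaf 229 1801 (.cons 276 (.leaf 277 1992 (.cons 299 (.leaf 204 1630 (.leaf 323 1821 .nil)) .nil)) .nil)) (.cons 250 (.leaf 229 1801 (.cons 276 (.leaf 277 1992 (.cons 299 (.leaf 323 1821 (.cons 225 (.leaf 224 1795 (.cons 298 (.cons 297 (.leaf 296 2177 (.leaf 322 1804 .nil)) (.cons 201 (.leaf 274 1612 (.cons 176 (.leaf 200 1415 (.cons 177 (.leaf 152 1223 (.cons 178 (.leaf 202 1421 (.leaf 154 1229 .nil)) .nil)) .nil)) .nil)) .nil)) .nil)) .nil)) .nil)) .nil)) (.cons 250 (.leaf 229 1801 (.cons 276 (.leaf 277 1992 (.cons 204 (.leaf 180 1438 (.cons 203 (.leaf 179 1439 (.cons 225 (.leaf 224 1795 (.cons 205 (.leaf 181 1445 (.cons 274 (.cons 201 (.leaf 298 1612 (.leaf 177 1420 .nil)) (.cons 201 (.leaf 177 1420 (.cons 200 (.leaf 176 1415 (.cons 202 (.leaf 178 1421 (.leaf 227 1600 .nil)) .nil)) .nil)) (.cons 298 (.leaf 227 1622 (.leaf 322 1807 .nil))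 .nil))) .nil)) .nil)) .nil)) .nil)) .nil)) .nil)) (.cons 204 (.leaf 180 1438 (.cons 299 (.leaf 227 1629 (.leaf 276 1630 .nil)) .nil)) (.cons 204 (.leaf 180 1438 (.cons 299 (.leaf 227 1629 (.leaf 323 1821 .nil)) .nil)) .nil))))
noncomputable def t183 : T := .cons 204 (.leaf 180 1438 (.cons 299 (.leaf 227 1629 (.leaf 323 1821 .nil)) .nil)) (.cons 250 (.leaf 229 1801 (.cons 224 (.leaf 225 1795 (.cons 248 (.leaf 223 1787 (.leaf 227 1793 .nil)) .nil)) .nil)) (.cons 250 (.leaf 229 1801 (.cons 225 (.leaf 224 1795 (.cons 299 (.leaf 323 1821 (.cons 297 (.cons 180 (.leaf 204 1438 (.cons 298 (.leaf 322 1804 (.cons 201 (.leaf 274 1612 (.cons 176 (.leaf 200 1415 (.cons 177 (.leaf 152 1223 (.cons 178 (.leaf 202 1421 (.leaf 154 1229 .nil)) .nil)) .nil)) .nil)) .nil)) .nil)) (.cons 320 (.leaf 296 1798 (.cons 321 (.leaf 344 1990 (.cons 180 (.leaf 204 1438 (.cons 345 (.leaf 274 1997 (.cons 346 (.leaf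 322 1996 (.leaf 370 2188 .nil)) .nil)) .nil)) .nil)) .nil)) (.cons 320 (.leaf 296 1798 (.cons 321 (.leaf 344 1990 (.cons 274 (.leaf 345 1997 (.cons 201 (.leaf 298 1612 (.leaf 177 1420 .nil)) .nil)) .nil)) .nil)) (.cons 180 (.leaf 204 1438 (.cons 320 (.leaf 296 1798 (.cons 321 (.leaf 344 1990 (.cons 322 (.leaf 298 1804 (.leaf 346 1996 .nil)) .nil)) .nil)) .nil)) .nil)))) .nil)) .nil)) .nil)) .nil))
noncomputable def t184 : T := .cons 346 (.leaf 322 1996 (.cons 344 (.leaf 320 1990 (.cons 345 (.leaf 368 2182 (.leaf 370 2188 .nil)) .nil)) .nil)) (.cons 344 (.leaf 320 1990 (.cons 248 (.leaf 224 1799 (.cons 274 (.leaf 276 1987 (.cons 345 (.leaf 368 2182 (.cons 298 (.leaf 369 2189 (.cons 296 (.leaf 295 2169 (.cons 227 (.leaf 203 1622 (.cons 299 (.leaf 322 1814 (.cons 228 (.leaf 204 1629 (.leaf 323 1821 .nil)) .nil)) .nil)) .nil)) .nil)) .nil)) .nil)) .nil)) .nil)) (.cons 248 (.leaf 224 1799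 (.cons 274 (.leaf 276 1987 (.cons 246 (.leaf 247 1968 (.cons 344 (.leaf 320 1990 (.cons 345 (.leaf 368 2182 (.cons 369 (.leaf 298 2189 (.cons 370 (.leaf 346 2188 (.leaf 394 2380 .nil)) .nil)) .nil)) .nil)) .nil)) .nil)) .nil)) (.cons 322 (.leaf 346 1996 (.cons 248 (.leaf 224 1799 (.cons 274 (.leaf 276 1987 (.cons 296 (.cons 295 (.leaf 298 2169 (.leaf 294 2352 .nil)) (.cons 323 (.leaf 324 2371 (.cons 299 (.leaf 228 1821 (.cons 298 (.leaf 227 1814 (.cons 320 (.leaf 319 2361 (.cons 347 (.leaf 348 2560 (.leaf 371 2199 .nil)) .nil)) .nil)) .nil)) .nil)) (.cons 295 (.leaf 294 2352 (.cons 323 (.leaf 324 2371 (.leaf 320 2363 .nil)) .nil)) .nil))) .nil)) .nil)) .nil)) (.cons 346 (.leaf 322 1996 (.cons 248 (.leaf 224 1799 (.cons 274 (.leaf 276 1987 (.cons 246 (.leaf 247 1968 (.cons 345 (.leaf 370 2188 (.cons 368 (.leaf 344 2182 (.cons 369 (.leaf 298 2189 (.leaf 392 2374 .nil)) .nil)) .nil))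 .nil)) .nil)) .nil)) .nil)) .nil))))
noncomputable def t185 : T := .cons 200 (.leaf 224 1607 (.cons 176 (.leaf 201 1415 (.cons 296 (.leaf 320 1798 (.cons 274 (.leaf 276 2178 (.cons 295 (.leaf 298 2169 (.leaf 294 2161 .nil)) .nil)) .nil)) .nil)) .nil)) (.cons 296 (.leaf 320 1798 (.cons 200 (.leaf 224 1607 (.cons 201 (.leaf 176 1415 (.cons 202 (.leaf 178 1421 (.cons 203 (.cons 180 (.leaf 179 1409 (.cons 204 (.leaf 227 1437 (.leaf 228 1438 .nil)) .nil)) (.cons 180 (.leaf 179 1409 (.cons 204 (.leaf 227 1437 (.leaf 181 1417 .nil)) .nil)) (.cons 228 (.leaf 227 1600 (.cons 204 (.leaf 229 1608 (.cons 276 (.leaf 299 1630 (.leaf 274 2178 .nil)) .nil)) .nil)) (.cons 180 (.leaf 179 1409 (.cons 204 (.leaf 228 1438 (.leaf 181 1417 .nil)) .nil)) (.cons 276 (.leaf 274 2178 (.cons 179 (.leaf 227 1436 (.leaf 180 1409 .nil)) .nil)) .nil))))) .nil)) .nil)) .nil)) .nil)) (.cons 298 (.leaf 322 1804 (.cons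 200 (.leaf 224 1607 (.cons 201 (.leaf 176 1415 (.leaf 274 1612 .nil)) .nil)) .nil)) (.cons 298 (.leaf 322 1804 (.cons 201 (.leaf 274 1612 (.cons 178 (.leaf 202 1421 (.cons 177 (.leaf 154 1229 (.cons 152 (.leaf 176 1223 (.cons 153 (.leaf 128 1031 (.cons 296 (.leaf 320 1798 (.cons 299 (.leaf 276 2177 (.cons 323 (.leaf 228 1821 (.leaf 324 2368 .nil)) .nil)) .nil)) .nil)) .nil)) .nil)) .nil)) .nil)) .nil)) (.cons 200 (.leaf 224 1607 (.cons 176 (.leaf 201 1415 (.cons 296 (.leaf 320 1798 (.cons 298 (.leaf 322 1804 (.cons 299 (.leaf 276 2177 (.cons 323 (.leaf 228 1821 (.leaf 324 2368 .nil)) .nil)) .nil)) .nil)) .nil)) .nil)) (.cons 296 (.leaf 320 1798 (.cons 200 (.leaf 224 1607 (.cons 274 (.leaf 276 2178 (.cons 295 (.leaf 298 2169 (.leaf 294 2161 .nil)) .nil)) .nil)) .nil)) .nil)))))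
noncomputable def t186 : T := .cons 274 (.cons 296 (.leaf 276 2178 (.cons 294 (.leaf 295 2161 (.cons 320 (.leaf 225 1798 (.cons 344 (.leaf 321 1990 (.leaf 368 2181 .nil)) .nil)) .nil)) .nil)) (.cons 224 (.cons 321 (.leaf 248 1799 (.cons 225 (.leaf 200 1607 (.cons 201 (.leaf 298 1612 (.cons 202 (.leaf 178 1421 (.cons 320 (.leaf 296 1798 (.leaf 344 1990 .nil)) .nil)) .nil)) .nil)) .nil)) (.cons 321 (.leaf 248 1799 (.cons 346 (.leaf 322 1996 (.cons 345 (.leaf 370 2188 (.cons 368 (.leaf 344 2182 (.cons 369 (.leaf 298 2189 (.leaf 392 2374 .nil)) .nil)) .nil)) .nil)) .nil)) (.cons 225 (.leaf 200 1607 (.cons 298 (.leaf 201 1612 (.leaf 322 1804 .nil)) .nil)) (.cons 200 (.leaf 225 1607 (.cons 248 (.leaf 176 1412 (.leaf 321 1799 .nil)) .nil)) .nil)))) (.cons 248 (.leaf 276 1987 (.cons 224 (.leaf 321 1799 (.cons 200 (.leaf 176 1412 (.leaf 225 1607 .nil)) .nil)) .nil)) (.cons 296 (.leaf 276 2178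 (.cons 295 (.leaf 298 2169 (.leaf 294 2161 .nil)) .nil)) .nil)))) (.cons 225 t185 (.cons 321 (.cons 224 (.leaf 248 1799 (.cons 225 (.leaf 200 1607 (.cons 322 (.leaf 298 1804 (.leaf 346 1996 .nil)) .nil)) .nil)) (.cons 320 (.leaf 344 1990 (.cons 224 (.leaf 248 1799 (.cons 225 (.leaf 200 1607 (.leaf 296 1798 .nil)) .nil)) .nil)) (.cons 320 (.leaf 344 1990 (.cons 296 (.leaf 225 1798 (.cons 322 (.leaf 346 1996 (.cons 295 (.leaf 294 2352 (.leaf 323 2363 .nil)) .nil)) .nil)) .nil)) (.cons 224 (.leaf 248 1799 (.cons 322 (.leaf 346 1996 (.cons 344 (.leaf 320 1990 (.cons 345 (.leaf 368 2182 (.cons 323 (.leaf 324 2562 (.cons 299 (.leaf 228 1821 (.cons 276 (.leaf 347 2013 (.cons 298 (.leaf 227 1814 (.leaf 296 2177 .nil)) .nil)) .nil)) .nil)) .nil)) .nil)) .nil)) .nil)) .nil)))) (.cons 321 t184 (.cons 225 (.cons 200 (.leaf 224 1607 (.cons 201 (.leaf 176 1415 (.cons 298 (.leaf 274 1612 (.leaf 322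 1804 .nil)) .nil)) .nil)) (.cons 224 (.leaf 200 1607 (.cons 320 (.leaf 296 1798 (.cons 321 (.leaf 248 1799 (.leaf 344 1990 .nil)) .nil)) .nil)) (.cons 296 (.leaf 320 1798 (.cons 298 (.leaf 322 1804 (.cons 274 (.leaf 295 2169 (.leaf 201 1612 .nil)) .nil)) .nil)) .nil))) (.cons 296 (.cons 274 (.leaf 276 2178 (.cons 294 (.leaf 295 2161 (.cons 320 (.leaf 225 1798 (.cons 344 (.leaf 321 1990 (.leaf 368 2181 .nil)) .nil)) .nil)) .nil)) (.cons 320 (.leaf 225 1798 (.cons 344 (.leaf 321 1990 (.leaf 368 2181 .nil)) .nil)) (.cons 274 (.leaf 276 2178 (.cons 295 (.leaf 298 2169 (.leaf 294 2161 .nil)) .nil)) .nil))) (.cons 321 (.cons 248 (.leaf 224 1799 (.cons 276 (.leaf 274 1987 (.cons 322 (.leaf 346 1996 (.cons 323 (.cons 299 (.leaf 228 1821 (.leaf 347 2013 .nil)) (.cons 324 (.leaf 296 2371 (.cons 349 (.leaf 348 2568 (.cons 344 (.leaf 320 1990 (.leaf 345 2562 .nil)) .nil)) .nil)) .nil)) .nil))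 .nil)) .nil)) (.cons 248 (.leaf 224 1799 (.cons 276 (.leaf 274 1987 (.cons 322 (.leaf 346 1996 (.cons 323 (.cons 299 (.leaf 228 1821 (.leaf 347 2013 .nil)) (.cons 324 (.leaf 296 2371 (.cons 349 (.leaf 348 2568 (.cons 325 (.leaf 350 2576 (.cons 301 (.leaf 277 2023 (.leaf 302 2385 .nil)) .nil)) .nil)) .nil)) .nil)) .nil)) .nil)) .nil)) (.cons 320 (.leaf 344 1990 (.cons 224 (.leaf 248 1799 (.cons 225 (.leaf 200 1607 (.leaf 296 1798 .nil)) .nil)) .nil)) (.cons 320 (.leaf 344 1990 (.cons 296 (.leaf 225 1798 (.cons 322 (.leaf 346 1996 (.cons 295 (.leaf 294 2352 (.leaf 323 2363 .nil)) .nil)) .nil)) .nil)) (.cons 346 (.leaf 322 1996 (.cons 344 (.leaf 320 1990 (.cons 345 (.leaf 368 2182 (.leaf 370 2188 .nil)) .nil)) .nil)) .nil))))) (.cons 321 (.cons 346 (.leaf 322 1996 (.cons 344 (.leaf 320 1990 (.cons 345 (.leaf 368 2182 (.leaf 370 2188 .nil)) .nil)) .nil)) (.cons 248 (.leaf 224 1799 (.cons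 274 (.leaf 276 1987 (.cons 246 (.leaf 247 1968 (.cons 344 (.leaf 320 1990 (.cons 345 (.leaf 368 2182 (.cons 369 (.leaf 298 2189 (.cons 370 (.leaf 346 2188 (.leaf 394 2380 .nil)) .nil)) .nil)) .nil)) .nil)) .nil)) .nil)) (.cons 224 (.leaf 248 1799 (.cons 225 (.leaf 200 1607 (.cons 298 (.leaf 322 1804 (.cons 201 (.leaf 274 1612 (.cons 202 (.leaf 178 1421 (.cons 204 (.leaf 203 1602 (.cons 228 (.leaf 180 1438 (.cons 299 (.leaf 227 1629 (.leaf 276 1630 .nil)) .nil)) .nil)) .nil)) .nil)) .nil)) .nil)) .nil)) .nil))) (.cons 274 (.cons 296 (.leaf 276 2178 (.cons 295 (.leaf 298 2169 (.leaf 294 2161 .nil)) .nil)) (.cons 224 (.cons 321 (.leaf 248 1799 (.cons 225 (.leaf 200 1607 (.cons 201 (.leaf 298 1612 (.cons 202 (.leaf 178 1421 (.cons 204 (.leaf 203 1602 (.cons 228 (.leaf 180 1438 (.cons 299 (.leaf 227 1629 (.leaf 323 1821 .nil)) .nil)) .nil)) .nil)) .nil)) .nil)) .nil)) (.cons 200 (.leaf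 225 1607 (.cons 248 (.leaf 176 1412 (.leaf 321 1799 .nil)) .nil)) (.cons 321 (.leaf 248 1799 (.cons 346 (.leaf 322 1996 (.cons 345 (.leaf 370 2188 (.cons 368 (.leaf 344 2182 (.cons 369 (.leaf 298 2189 (.leaf 392 2374 .nil)) .nil)) .nil)) .nil)) .nil)) (.cons 225 (.leaf 200 1607 (.cons 298 (.leaf 201 1612 (.leaf 322 1804 .nil)) .nil)) .nil)))) (.cons 248 (.leaf 276 1987 (.cons 224 (.leaf 321 1799 (.cons 200 (.leaf 176 1412 (.leaf 225 1607 .nil)) .nil)) .nil)) .nil))) .nil))))))))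
noncomputable def t187 : T := .cons 276 (.cons 250 (.leaf 248 1984 (.leaf 277 1992 .nil)) (.cons 274 (.leaf 248 1987 (.cons 297 (.leaf 296 2178 (.cons 277 (.leaf 298 2186 (.cons 278 (.leaf 279 2011 (.cons 302 (.leaf 301 2192 (.leaf 303 2200 .nil)) .nil)) .nil)) .nil)) .nil)) (.cons 277 (.leaf 250 1992 (.cons 278 (.leaf 279 2011 (.cons 254 (.leaf 255 2009 (.cons 299 (.leaf 298 2194 (.cons 228 (.leaf 204 1630 (.leaf 323 1821 .nil)) .nil)) .nil)) .nil)) .nil)) (.cons 248 (.leaf 250 1984 (.leaf 274 1987 .nil)) .nil)))) (.cons 297 (t186) (.cons 228 t183 (.cons 276 (.cons 250 (.leaf 248 1984 (.leaf 277 1992 .nil)) (.cons 274 (.leaf 248 1987 (.cons 297 (.leaf 296 2178 (.cons 277 (.leaf 298 2186 (.cons 278 (.leaf 279 2011 (.cons 302 (.leaf 301 2192 (.leaf 303 2200 .nil)) .nil)) .nil)) .nil)) .nil)) (.cons 277 (.leaf 250 1992 (.cons 278 (.leaf 279 2011 (.cons 254 (.leaf 255 2009 (.cons 298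 (.leaf 299 2194 (.cons 274 (.leaf 297 2186 (.cons 302 (.leaf 301 2192 (.leaf 303 2200 .nil)) .nil)) .nil)) .nil)) .nil)) .nil)) (.cons 248 (.leaf 250 1984 (.leaf 274 1987 .nil)) .nil)))) (.cons 228 t182 (.cons 250 (.cons 224 (.leaf 225 1795 (.cons 228 (.leaf 229 1801 (.cons 248 (.leaf 276 1984 (.leaf 223 1787 .nil)) .nil)) .nil)) (.cons 224 (.leaf 225 1795 (.cons 228 (.leaf 229 1801 (.cons 248 (.leaf 223 1787 (.leaf 227 1793 .nil)) .nil)) .nil)) (.cons 276 (.leaf 248 1984 (.leaf 277 1992 .nil)) (.cons 224 (.leaf 225 1795 (.cons 228 (.leaf 229 1801 (.cons 204 (.leaf 180 1438 (.cons 299 (.leaf 227 1629 (.leaf 276 1630 .nil)) .nil)) .nil)) .nil)) .nil)))) (.cons 276 (.cons 277 (.leaf 250 1992 (.cons 278 (.leaf 279 2011 (.cons 254 (.leaf 255 2009 (.cons 302 (.leaf 303 2200 (.cons 274 (.leaf 248 1987 (.leaf 301 2192 .nil)) .nil)) .nil)) .nil)) .nil)) (.cons 274 (.leaf 248 1987 (.cons 297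 (.leaf 296 2178 (.cons 277 (.leaf 298 2186 (.cons 278 (.leaf 279 2011 (.cons 302 (.leaf 301 2192 (.leaf 303 2200 .nil)) .nil)) .nil)) .nil)) .nil)) (.cons 277 (.leaf 250 1992 (.cons 278 (.leaf 279 2011 (.cons 254 (.leaf 255 2009 (.cons 302 (.leaf 303 2200 (.cons 274 (.leaf 301 2192 (.cons 297 (.leaf 296 2178 (.leaf 298 2186 .nil)) .nil)) .nil)) .nil)) .nil)) .nil)) (.cons 248 (.leaf 250 1984 (.leaf 274 1987 .nil)) (.cons 250 (.leaf 248 1984 (.leaf 277 1992 .nil)) .nil))))) .nil))))))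
noncomputable def t188 : T := .cons 274 (.leaf 272 1985 (.cons 298 (.cons 322 (.leaf 346 2005 (.cons 227 (.leaf 203 1622 (.leaf 299 1814 .nil)) .nil)) (.cons 227 (.leaf 203 1622 (.cons 276 (.cons 297 (.leaf 296 2178 (.leaf 277 2186 .nil)) (.cons 249 (.leaf 248 1987 (.cons 277 (.leaf 250 1992 (.cons 278 (.leaf 299 2194 (.leaf 279 2011 .nil)) .nil)) .nil)) (.cons 249 (.leaf 248 1987 (.cons 297 (.leaf 296 2178 (.cons 225 (.leaf 201 1612 (.cons 224 (.leaf 250 1795 (.leaf 200 1607 .nil)) .nil)) .nil)) .nil)) .nil))) .nil)) (.cons 322 (.leaf 346 2005 (.cons 249 (.cons 248 (.leaf 276 1987 (.cons 225 (.leaf 201 1612 (.leaf 297 1804 .nil)) .nil)) (.cons 248 (.leaf 276 1987 (.cons 247 (.leaf 250 1976 (.leaf 246 1968 .nil)) .nil)) (.cons 225 (.leaf 201 1612 (.leaf 297 1804 .nil)) .nil))) .nil)) .nil))) .nil)) (.cons 249 t187 (.cons 249 t181 (.cons 274 (.leaf 272 1985 (.cons 228 (.cons 204 (.leaf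 180 1438 (.cons 299 (.leaf 227 1629 (.leaf 276 1630 .nil)) .nil)) (.cons 323 (.leaf 299 1821 (.cons 322 t177 .nil)) (.cons 204 (.leaf 180 1438 (.cons 276 (.cons 181 (.leaf 205 1445 (.cons 203 (.leaf 179 1439 (.cons 227 (.leaf 298 1622 (.cons 202 (.leaf 178 1431 (.cons 229 (.leaf 201 1608 (.leaf 230 1619 .nil)) .nil)) .nil)) .nil)) .nil)) (.cons 181 (.leaf 205 1445 (.cons 277 (.leaf 301 1636 (.cons 278 (.leaf 250 2003 (.leaf 279 2011 .nil)) .nil)) .nil)) (.cons 277 (.leaf 301 1636 (.cons 278 (.leaf 250 2003 (.leaf 279 2011 .nil)) .nil)) .nil))) .nil)) (.cons 204 (.leaf 180 1438 (.cons 299 (.leaf 276 1630 (.leaf 323 1821 .nil)) .nil)) (.cons 204 (.leaf 180 1438 (.cons 299 (.leaf 227 1629 (.leaf 323 1821 .nil)) .nil)) .nil))))) .nil)) (.cons 274 (.leaf 272 1985 (.cons 297 (.cons 321 t174 (.cons 298 t173 (.cons 249 t172 (.cons 321 t171 (.cons 296 (.leaf 276 2178 (.cons 295 (.leaf 298 2169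 (.leaf 294 2161 .nil)) .nil)) .nil))))) .nil)) (.cons 274 (.leaf 272 1985 (.cons 276 t170 .nil)) (.cons 272 (.leaf 274 1985 (.cons 249 (.leaf 250 1986 (.cons 225 t169 .nil)) .nil)) (.cons 228 t168 (.cons 272 (.leaf 274 1985 (.cons 249 (.leaf 250 1986 (.cons 225 t166 .nil)) .nil)) (.cons 274 (.leaf 272 1985 (.cons 298 t165 .nil)) (.cons 274 (.leaf 272 1985 (.cons 276 t162 .nil)) (.cons 274 (.leaf 272 1985 (.cons 276 t161 .nil)) .nil)))))))))))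
noncomputable def t189 : T := .cons 229 (.leaf 230 1809 (.cons 302 (.leaf 276 2192 (.leaf 326 1836 .nil)) .nil)) (.cons 276 (.leaf 302 2192 (.cons 298 (.leaf 297 2186 (.cons 227 (.leaf 203 1622 (.leaf 322 1813 .nil)) .nil)) .nil)) (.cons 229 (.leaf 230 1809 (.cons 326 (.leaf 302 1836 (.cons 325 (.leaf 350 2028 (.cons 324 (.leaf 348 2022 (.cons 323 (.cons 346 (.leaf 347 2578 (.cons 322 (.leaf 298 2005 (.leaf 299 2006 .nil)) .nil)) (.cons 347 (.leaf 299 2007 (.leaf 346 2578 .nil)) (.cons 298 (.leaf 299 2387 (.cons 322 (.leaf 346 2005 (.leaf 227 1813 .nil)) .nil)) (.cons 346 (.leaf 347 2578 (.cons 322 (.leaf 298 2005 (.leaf 345 2570 .nil)) .nil)) (.cons 299 (.leaf 347 2007 (.leaf 298 2387 .nil)) .nil))))) .nil)) .nil)) .nil)) .nil)) (.cons 325 (.cons 349 (.leaf 276 2023 (.cons 348 (.leaf 324 2022 (.leaf 372 2214 .nil)) .nil)) (.cons 324 (.leaf 348 2022 (.cons 326 (.leaf 350 2028 (.cons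 323 (.cons 299 (.leaf 347 2007 (.leaf 298 2387 .nil)) (.cons 347 (.leaf 299 2007 (.leaf 346 2578 .nil)) (.cons 346 (.leaf 347 2578 (.cons 322 (.leaf 298 2005 (.leaf 345 2570 .nil)) .nil)) (.cons 298 (.leaf 299 2387 (.cons 322 (.leaf 346 2005 (.leaf 227 1813 .nil)) .nil)) .nil)))) .nil)) .nil)) (.cons 229 (.leaf 230 1809 (.cons 276 (.leaf 349 2023 (.cons 181 (.leaf 205 1446 (.cons 298 (.leaf 297 2186 (.cons 322 (.leaf 346 2005 (.leaf 227 1813 .nil)) .nil)) .nil)) .nil)) .nil)) .nil))) .nil)))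
noncomputable def t190 : T := .cons 229 (.leaf 230 1809 (.cons 277 (.leaf 278 2000 (.cons 249 (.leaf 276 1992 (.cons 224 (.leaf 225 1795 (.cons 248 (.leaf 223 1787 (.cons 273 (.leaf 272 1986 (.leaf 274 1994 .nil)) .nil)) .nil)) .nil)) .nil)) .nil)) (.cons 277 (.leaf 278 2000 (.cons 249 (.leaf 276 1992 (.cons 224 (.leaf 225 1795 (.cons 248 (.leaf 223 1787 (.cons 272 (.leaf 271 1978 (.leaf 273 1986 .nil)) .nil)) .nil)) .nil)) .nil)) (.cons 277 (.leaf 278 2000 (.cons 229 (.leaf 230 1809 (.cons 249 (.leaf 276 1992 (.cons 224 (.leaf 225 1795 (.cons 248 (.leaf 223 1787 (.cons 247 (.leaf 274 1976 (.cons 271 (.leaf 272 1978 (.leaf 270 1970 .nil)) .nil)) .nil)) .nil)) .nil)) .nil)) .nil)) (.cons 273 (.leaf 274 1994 (.cons 249 (.leaf 272 1986 (.cons 224 (.leaf 225 1795 (.cons 248 (.leaf 276 1984 (.leaf 223 1787 .nil)) .nil)) .nil)) .nil)) (.cons 274 (.leaf 273 1994 (.cons 277 (.leaf 278 2000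 (.cons 301 t189 .nil)) .nil)) (.cons 229 (.leaf 230 1809 (.cons 277 (.leaf 278 2000 (.cons 249 (.cons 224 (.leaf 225 1795 (.cons 248 (.leaf 223 1787 (.cons 273 (.leaf 272 1986 (.leaf 274 1994 .nil)) .nil)) .nil)) (.cons 224 (.leaf 225 1795 (.cons 248 (.leaf 223 1787 (.cons 247 (.leaf 274 1976 (.cons 271 (.leaf 272 1978 (.leaf 270 1970 .nil)) .nil)) .nil)) .nil)) (.cons 224 (.leaf 225 1795 (.cons 248 (.leaf 223 1787 (.cons 272 (.leaf 271 1978 (.leaf 273 1986 .nil)) .nil)) .nil)) (.cons 274 (.leaf 273 1994 (.cons 224 (.leaf 225 1795 (.cons 248 (.leaf 247 1976 (.leaf 223 1787 .nil)) .nil)) .nil)) (.cons 273 (.leaf 272 1986 (.leaf 274 1994 .nil)) .nil))))) .nil)) .nil)) .nil)))))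
noncomputable def t191 : T := .cons 204 (.leaf 180 1438 (.cons 277 (.cons 301 (.leaf 276 1636 (.leaf 325 1831 .nil)) (.cons 301 (.leaf 325 1831 (.leaf 229 1639 .nil)) (.cons 250 (.leaf 278 2000 (.cons 299 (.leaf 227 1629 (.leaf 276 1630 .nil)) .nil)) .nil))) .nil)) (.cons 299 (.leaf 323 1821 (.cons 254 (.cons 255 (.leaf 276 2010 (.leaf 227 1819 .nil)) (.cons 278 (.leaf 279 2008 (.cons 250 (.leaf 277 2000 (.cons 249 (.leaf 229 1801 (.cons 248 (.leaf 276 1984 (.leaf 227 1793 .nil)) .nil)) .nil)) .nil)) (.cons 255 (.leaf 227 1819 (.cons 279 (.leaf 278 2008 (.leaf 280 2016 .nil)) .nil)) (.cons 255 (.leaf 276 2010 (.cons 279 (.leaf 278 2008 (.leaf 280 2016 .nil)) .nil)) .nil)))) .nil)) (.cons 204 (.leaf 180 1438 (.cons 277 (.cons 301 (.leaf 276 1636 (.leaf 325 1831 .nil)) (.cons 250 (.leaf 278 2000 (.cons 249 (.leaf 229 1801 (.leaf 276 1992 .nil)) .nil)) (.cons 301 (.leaf 325 1831 (.leaf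 229 1639 .nil)) .nil))) .nil)) (.cons 204 (.leaf 180 1438 (.cons 299 (.leaf 227 1629 (.leaf 276 1630 .nil)) .nil)) (.cons 204 (.leaf 180 1438 (.cons 299 (.leaf 227 1629 (.leaf 323 1821 .nil)) .nil)) .nil))))
noncomputable def t192 : T := .cons 230 (.leaf 231 1817 (.cons 229 (.leaf 250 1809 (.cons 278 (.leaf 279 2008 (.cons 205 (.leaf 181 1452 (.leaf 302 1647 .nil)) .nil)) .nil)) .nil)) (.cons 279 (.leaf 278 2008 (.cons 255 (.leaf 280 2016 (.cons 228 (.leaf 227 1819 (.cons 180 (.leaf 204 1438 (.cons 232 (.leaf 231 1825 (.cons 256 (.leaf 229 1827 (.leaf 233 1833 .nil)) .nil)) .nil)) .nil)) .nil)) .nil)) (.cons 231 (.leaf 230 1817 (.cons 255 (.leaf 232 1825 (.cons 228 (.leaf 227 1819 (.cons 180 (.leaf 204 1438 (.cons 256 (.leaf 229 1827 (.cons 280 (.leaf 279 2016 (.leaf 281 2024 .nil)) .nil)) .nil)) .nil)) .nil)) .nil)) (.cons 278 (.leaf 279 2008 (.cons 250 (.leaf 277 2000 (.cons 229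 (.leaf 230 1809 (.cons 181 (.leaf 205 1452 (.cons 228 (.leaf 249 1801 (.cons 255 (.leaf 227 1819 (.leaf 256 1827 .nil)) .nil)) .nil)) .nil)) .nil)) .nil)) (.cons 231 (.leaf 230 1817 (.cons 255 (.leaf 232 1825 (.cons 228 (.leaf 227 1819 (.cons 204 (.leaf 180 1438 (.cons 229 (.leaf 256 1827 (.cons 250 (.leaf 249 1801 (.cons 277 (.leaf 278 2000 (.leaf 301 1639 .nil)) .nil)) .nil)) .nil)) .nil)) .nil)) .nil)) (.cons 278 (.leaf 279 2008 (.cons 230 (.leaf 231 1817 (.cons 277 (.leaf 250 2000 (.cons 206 (.leaf 182 1454 (.leaf 301 1646 .nil)) .nil)) .nil)) .nil)) .nil)))))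
noncomputable def t193 : T := .cons 204 (.leaf 180 1438 (.cons 299 (.leaf 227 1629 (.leaf 276 1630 .nil)) .nil)) (.cons 299 (.leaf 323 1821 (.cons 254 (.cons 255 (.leaf 276 2010 (.leaf 227 1819 .nil)) (.cons 230 (.leaf 231 1817 (.cons 229 (.leaf 250 1809 (.cons 206 (.cons 182 (.leaf 158 1262 (.leaf 277 1454 .nil)) (.cons 207 (.leaf 227 1625 (.cons 208 (.leaf 205 1634 (.leaf 209 1642 .nil)) .nil)) .nil)) .nil)) .nil)) (.cons 255 (.leaf 276 2010 (.cons 231 (.leaf 230 1817 (.leaf 232 1825 .nil)) .nil)) .nil))) .nil)) (.cons 204 (.leaf 180 1438 (.cons 254 (.cons 230 (.leaf 231 1817 (.cons 255 (.leaf 276 2010 (.leaf 227 1819 .nil)) .nil)) (.cons 230 (.leaf 231 1817 (.cons 229 (.leaf 250 1809 (.cons 277 (.leaf 301 1639 (.cons 206 (.leaf 182 1454 (.cons 207 (.leaf 227 1625 (.cons 208 (.leaf 205 1634 (.leaf 209 1642 .nil)) .nil)) .nil)) .nil)) .nil)) .nil)) (.cons 255 (.leaf 276 2010 (.leaf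 227 1819 .nil)) (.cons 230 (.leaf 231 1817 (.cons 229 (.leaf 250 1809 (.cons 255 (.leaf 276 2010 (.leaf 256 1827 .nil)) .nil)) .nil)) .nil)))) .nil)) (.cons 204 (.leaf 180 1438 (.cons 299 (.leaf 276 1630 (.leaf 323 1821 .nil)) .nil)) (.cons 204 (.leaf 180 1438 (.cons 299 (.leaf 227 1629 (.leaf 323 1821 .nil)) .nil)) .nil))))
noncomputable def t194 : T := .cons 277 (.leaf 278 2000 (.cons 249 (.leaf 276 1992 (.cons 224 (.leaf 225 1795 (.cons 248 (.leaf 223 1787 (.cons 228 (.leaf 227 1793 (.leaf 229 1801 .nil)) .nil)) .nil)) .nil)) .nil)) (.cons 229 (.leaf 230 1809 (.cons 228 (.leaf 249 1801 (.cons 204 (.leaf 180 1438 (.cons 299 (.leaf 227 1629 (.leaf 276 1630 .nil)) .nil)) .nil)) .nil)) (.cons 277 (.leaf 278 2000 (.cons 249 (.leaf 276 1992 (.cons 224 (.leaf 225 1795 (.cons 248 (.leaf 223 1787 (.cons 272 (.leaf 271 1978 (.leaf 273 1986 .nil)) .nil)) .nil)) .nil)) .nil)) (.cons 277 (.leaf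 278 2000 (.cons 229 (.leaf 230 1809 (.cons 204 (.cons 180 (.leaf 228 1444 (.leaf 205 1447 .nil)) (.cons 205 (.leaf 180 1447 (.cons 181 (.leaf 276 1446 (.cons 182 (.leaf 158 1261 (.leaf 206 1453 .nil)) .nil)) .nil)) (.cons 228 (.leaf 301 1639 (.cons 299 (.leaf 227 1629 (.leaf 276 1630 .nil)) .nil)) .nil))) .nil)) .nil)) (.cons 229 (.leaf 230 1809 (.cons 228 (.leaf 249 1801 (.cons 204 (.leaf 180 1438 (.cons 277 (.leaf 278 2000 (.leaf 301 1639 .nil)) .nil)) .nil)) .nil)) .nil))))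
noncomputable def t195 : T := .cons 254 (.cons 255 (.leaf 276 2010 (.cons 279 (.leaf 278 2008 (.leaf 280 2016 .nil)) .nil)) (.cons 230 (.leaf 231 1817 (.cons 229 (.leaf 250 1809 (.cons 278 (.leaf 279 2008 (.cons 205 (.leaf 181 1452 (.leaf 302 1647 .nil)) .nil)) .nil)) .nil)) (.cons 231 (.leaf 230 1817 (.cons 255 (.leaf 276 2010 (.leaf 232 1825 .nil)) .nil)) .nil))) (.cons 250 t194 (.cons 254 (.cons 231 (.leaf 230 1817 (.cons 255 (.leaf 276 2010 (.leaf 232 1825 .nil)) .nil)) (.cons 278 (.leaf 279 2008 (.cons 230 (.leaf 231 1817 (.cons 302 (.cons 229 (.leaf 326 1839 (.leaf 205 1647 .nil)) (.cons 301 (.leaf 325 1838 (.cons 206 (.leaf 277 1646 (.cons 181 (.leaf 205 1455 (.cons 182 (.leaf 157 1263 (.cons 183 (.leaf 159 1269 (.leaf 207 1461 .nil)) .nil)) .nil)) .nil)) .nil)) (.cons 229 (.leaf 326 1839 (.cons 301 (.leaf 325 1838 (.cons 277 (.leaf 206 1645 (.cons 303 (.leaf 276 2200 (.leaf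 327 1844 .nil)) .nil)) .nil)) .nil)) .nil))) .nil)) .nil)) (.cons 255 (.leaf 276 2010 (.cons 279 (.leaf 278 2008 (.leaf 280 2016 .nil)) .nil)) (.cons 231 (.leaf 230 1817 (.cons 255 (.leaf 232 1825 (.cons 279 (.leaf 278 2008 (.leaf 280 2016 .nil)) .nil)) .nil)) .nil)))) (.cons 228 t193 (.cons 254 t192 (.cons 228 t191 (.cons 254 (.cons 255 (.leaf 276 2010 (.cons 279 (.leaf 278 2008 (.leaf 280 2016 .nil)) .nil)) (.cons 278 (.leaf 279 2008 (.cons 230 (.leaf 231 1817 (.cons 277 (.leaf 250 2000 (.cons 206 (.leaf 182 1454 (.leaf 301 1646 .nil)) .nil)) .nil)) .nil)) (.cons 231 (.leaf 230 1817 (.cons 255 (.leaf 276 2010 (.leaf 232 1825 .nil)) .nil)) .nil))) .nil))))))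
noncomputable def t196 : T := .cons 273 (.leaf 272 1985 (.cons 253 (.leaf 254 2002 (.leaf 276 1993 .nil)) .nil)) (.cons 273 (.leaf 272 1985 (.cons 276 (.cons 297 (.leaf 296 2178 (.cons 277 (.leaf 298 2186 (.cons 278 (.leaf 250 2003 (.leaf 279 2011 .nil)) .nil)) .nil)) (.cons 249 (.leaf 248 1987 (.cons 297 (.leaf 296 2178 (.cons 228 (.cons 250 (.leaf 229 1801 (.cons 225 (.leaf 224 1795 (.cons 298 (.leaf 201 1612 (.leaf 322 1804 .nil)) .nil)) .nil)) (.cons 204 (.leaf 180 1438 (.leaf 299 1630 .nil)) .nil)) .nil)) .nil)) (.cons 249 (.leaf 248 1987 (.cons 250 (.leaf 277 1992 (.cons 225 (.leaf 224 1795 (.cons 201 (.leaf 177 1420 (.leaf 298 1612 .nil)) .nil)) .nil)) .nil)) (.cons 297 (.leaf 296 2178 (.cons 248 (.leaf 249 1987 (.cons 277 (.leaf 298 2186 (.cons 278 (.leaf 279 2011 (.cons 302 (.leaf 301 2192 (.leaf 303 2200 .nil)) .nil)) .nil)) .nil)) .nil)) (.cons 249 (.leaf 248 1987 (.cons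 250 (.leaf 277 1992 (.cons 225 (.leaf 224 1795 (.cons 201 (.leaf 177 1420 (.cons 200 (.leaf 176 1415 (.cons 228 (.leaf 229 1801 (.cons 204 (.leaf 180 1438 (.leaf 299 1630 .nil)) .nil)) .nil)) .nil)) .nil)) .nil)) .nil)) .nil))))) .nil)) (.cons 253 (.leaf 254 2002 (.cons 250 (.cons 277 (.leaf 278 2000 (.cons 298 (.cons 276 (.leaf 249 1992 (.leaf 297 2186 .nil)) (.cons 227 (.leaf 203 1622 (.leaf 322 1813 .nil)) .nil)) .nil)) (.cons 229 (.leaf 230 1809 (.cons 249 (.leaf 228 1801 (.cons 248 (.leaf 247 1976 (.leaf 276 1984 .nil)) .nil)) .nil)) (.cons 277 (.leaf 278 2000 (.cons 298 (.cons 276 (.leaf 297 2186 (.cons 229 (.leaf 230 1809 (.cons 181 (.leaf 205 1446 (.cons 301 (.leaf 302 2192 (.cons 228 (.leaf 204 1636 (.leaf 325 1831 .nil)) .nil)) .nil)) .nil)) .nil)) (.cons 227 (.leaf 203 1622 (.leaf 322 1813 .nil)) .nil)) .nil)) (.cons 229 (.leaf 230 1809 (.cons 228 (.leaf 249 1801 (.cons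 204 (.leaf 180 1438 (.cons 277 (.leaf 278 2000 (.leaf 301 1639 .nil)) .nil)) .nil)) .nil)) .nil)))) .nil)) (.cons 273 (.leaf 272 1985 (.cons 253 (.leaf 254 2002 (.leaf 250 1994 .nil)) .nil)) .nil)))
noncomputable def t197 : T := .cons 274 t196 (.cons 253 t195 (.cons 253 (.cons 274 (.leaf 254 2002 (.cons 273 (.leaf 272 1985 (.leaf 276 1993 .nil)) .nil)) (.cons 254 (.cons 255 (.leaf 276 2010 (.cons 279 (.leaf 278 2008 (.leaf 280 2016 .nil)) .nil)) (.cons 231 (.leaf 230 1817 (.cons 255 (.leaf 276 2010 (.leaf 232 1825 .nil)) .nil)) (.cons 278 (.leaf 279 2008 (.cons 230 (.leaf 231 1817 (.cons 277 (.leaf 250 2000 (.cons 206 (.leaf 182 1454 (.leaf 301 1646 .nil)) .nil)) .nil)) .nil)) .nil))) (.cons 250 t190 (.cons 274 (.leaf 254 2002 (.cons 273 (.leaf 272 1985 (.leaf 250 1994 .nil)) .nil)) .nil)))) (.cons 273 t188 (.cons 253 (.cons 250 (.cons 274 (.leaf 254 2002 (.leaf 273 1994 .nil)) (.cons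 229 (.leaf 230 1809 (.cons 228 (.leaf 249 1801 (.cons 278 (.leaf 277 2000 (.cons 254 (.leaf 279 2008 (.cons 255 (.leaf 227 1819 (.leaf 256 1827 .nil)) .nil)) .nil)) .nil)) .nil)) (.cons 274 (.leaf 273 1994 (.cons 229 (.leaf 230 1809 (.cons 277 (.leaf 278 2000 (.cons 228 (.leaf 249 1801 (.cons 204 (.leaf 180 1444 (.leaf 301 1639 .nil)) .nil)) .nil)) .nil)) .nil)) .nil))) (.cons 250 t160 (.cons 254 t159 (.cons 254 (.leaf 274 2002 (.cons 231 (.leaf 230 1817 (.cons 255 (.leaf 232 1825 (.cons 279 (.leaf 278 2008 (.leaf 280 2016 .nil)) .nil)) .nil)) .nil)) (.cons 274 (.leaf 254 2002 (.cons 273 (.leaf 272 1985 (.leaf 250 1994 .nil)) .nil)) .nil))))) (.cons 274 (.cons 253 (.leaf 254 2002 (.cons 273 (.leaf 272 1985 (.leaf 276 1993 .nil)) .nil)) (.cons 273 (.leaf 272 1985 (.cons 276 t158 .nil)) (.cons 253 (.leaf 254 2002 (.cons 250 (.cons 229 (.leaf 230 1809 (.cons 249 (.leaf 228 1801 (.cons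 248 (.leaf 247 1976 (.leaf 276 1984 .nil)) .nil)) .nil)) (.cons 277 (.leaf 278 2000 (.cons 229 (.leaf 230 1809 (.cons 301 (.cons 228 (.leaf 325 1831 (.leaf 204 1639 .nil)) (.cons 302 (.leaf 276 2192 (.leaf 326 1836 .nil)) .nil)) .nil)) .nil)) (.cons 277 (.leaf 278 2000 (.cons 249 (.leaf 276 1992 (.cons 224 (.leaf 225 1795 (.cons 248 (.leaf 247 1976 (.leaf 223 1787 .nil)) .nil)) .nil)) .nil)) (.cons 229 (.leaf 230 1809 (.cons 228 (.leaf 249 1801 (.cons 204 (.leaf 180 1438 (.cons 277 (.leaf 278 2000 (.leaf 301 1639 .nil)) .nil)) .nil)) .nil)) .nil)))) .nil)) (.cons 253 (.leaf 254 2002 (.cons 273 (.leaf 272 1985 (.leaf 250 1994 .nil)) .nil)) .nil)))) (.cons 204 t157 (.cons 250 t147 (.cons 253 t144 (.cons 274 t142 (.cons 228 t140 (.cons 204 t138 (.cons 228 t134 (.cons 204 t132 (.cons 274 t127 (.cons 228 (.cons 204 (.leaf 180 1438 (.cons 253 (.cons 254 (.leaf 274 2002 (.cons 230 (.leaf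 231 1817 (.cons 276 (.leaf 299 1630 (.leaf 255 2010 .nil)) .nil)) .nil)) (.cons 254 (.leaf 274 2002 (.cons 230 (.leaf 231 1817 (.cons 278 (.leaf 279 2008 (.cons 277 (.leaf 250 2000 (.cons 301 (.leaf 276 1636 (.leaf 325 1837 .nil)) .nil)) .nil)) .nil)) .nil)) (.cons 254 (.leaf 274 2002 (.cons 230 (.leaf 231 1817 (.cons 278 (.leaf 279 2008 (.cons 277 (.leaf 250 2000 (.cons 301 (.leaf 325 1837 (.leaf 206 1646 .nil)) .nil)) .nil)) .nil)) .nil)) (.cons 277 (.cons 301 (.leaf 276 1636 (.leaf 325 1831 .nil)) (.cons 250 (.leaf 278 2000 (.cons 299 (.leaf 227 1629 (.leaf 323 1821 .nil)) .nil)) .nil)) .nil)))) .nil)) (.cons 299 (.leaf 323 1821 (.cons 253 t125 .nil)) (.cons 204 (.leaf 180 1438 (.cons 253 t124 .nil)) (.cons 204 (.leaf 180 1438 (.cons 299 (.leaf 227 1629 (.leaf 323 1821 .nil)) .nil)) (.cons 204 (.leaf 180 1438 (.cons 299 (.leaf 276 1630 (.leaf 323 1821 .nil)) .nil)) .nil))))) .nil)))))))))))))))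
noncomputable def t198 : T := .cons 180 (.leaf 204 1437 (.cons 179 (.leaf 156 1245 (.cons 252 (.leaf 276 1436 (.cons 228 (.leaf 155 1244 (.cons 274 (.leaf 298 1622 (.leaf 250 1430 .nil)) .nil)) .nil)) .nil)) .nil)) (.cons 274 (.leaf 298 1622 (.cons 179 (.leaf 250 1430 (.cons 156 (.leaf 180 1245 (.cons 155 (.leaf 132 1053 (.cons 252 (.leaf 276 1436 (.leaf 228 1244 .nil)) .nil)) .nil)) .nil)) .nil)) (.cons 180 (.leaf 204 1437 (.cons 179 (.leaf 156 1245 (.cons 252 (.leaf 276 1436 (.cons 155 (.leaf 228 1244 (.cons 130 (.leaf 154 1047 (.cons 131 (.leaf 106 855 (.cons 226 (.leaf 250 1238 (.leaf 202 1046 .nil)) .nil)) .nil)) .nil)) .nil)) .nil)) .nil)) (.cons 274 (.leaf 298 1622 (.cons 179 (.leaf 250 1430 (.cons 252 (.leaf 276 1436 (.cons 155 (.leaf 228 1244 (.cons 130 (.leaf 154 1047 (.cons 131 (.leaf 106 855 (.cons 132 (.leaf 156 1053 (.leaf 108 861 .nil)) .nil)) .nil)) .nil)) .nil)) .nil))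 .nil)) (.cons 204 (.leaf 180 1437 (.cons 298 (.leaf 274 1622 (.cons 299 (.leaf 228 1629 (.leaf 322 1814 .nil)) .nil)) .nil)) (.cons 180 (.leaf 204 1437 (.cons 179 (.leaf 156 1245 (.cons 274 (.leaf 298 1622 (.leaf 250 1430 .nil)) .nil)) .nil)) .nil)))))
noncomputable def t199 : T := .cons 178 (.leaf 202 1431 (.cons 179 (.leaf 154 1239 (.cons 156 (.leaf 180 1245 (.cons 155 (.leaf 132 1053 (.cons 252 (.leaf 276 1436 (.leaf 228 1244 .nil)) .nil)) .nil)) .nil)) .nil)) (.cons 274 (.leaf 298 1622 (.cons 179 (.leaf 250 1430 (.cons 154 (.leaf 178 1239 (.cons 155 (.leaf 130 1047 (.cons 252 (.leaf 276 1436 (.leaf 228 1244 .nil)) .nil)) .nil)) .nil)) .nil)) (.cons 274 (.leaf 298 1622 (.cons 179 (.leaf 250 1430 (.cons 156 (.leaf 180 1245 (.cons 155 (.leaf 132 1053 (.cons 252 (.leaf 276 1436 (.leaf 228 1244 .nil)) .nil)) .nil)) .nil)) .nil)) (.cons 202 (.leaf 178 1431 (.cons 204 (.leaf 180 1437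 (.cons 274 (.leaf 298 1622 (.cons 201 (.cons 228 (.leaf 200 1600 (.leaf 229 1608 .nil)) (.cons 176 (.leaf 177 1411 (.cons 200 (.leaf 175 1403 (.cons 224 (.leaf 223 1594 (.leaf 225 1602 .nil)) .nil)) .nil)) (.cons 176 (.leaf 177 1411 (.cons 224 (.leaf 225 1602 (.cons 229 (.leaf 228 1608 (.cons 205 (.leaf 230 1616 (.cons 182 (.leaf 181 1425 (.cons 206 (.leaf 226 1618 (.leaf 183 1433 .nil)) .nil)) .nil)) .nil)) .nil)) .nil)) .nil))) .nil)) .nil)) .nil)) (.cons 274 (.leaf 298 1622 (.cons 178 (.leaf 202 1431 (.cons 179 (.leaf 154 1239 (.leaf 250 1430 .nil)) .nil)) .nil)) .nil))))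
noncomputable def t200 : T := .cons 202 (.leaf 178 1431 (.cons 226 (.leaf 299 1623 (.cons 252 (.cons 179 (.leaf 276 1436 (.cons 155 (.leaf 250 1238 (.leaf 228 1244 .nil)) .nil)) (.cons 225 (.leaf 224 1792 (.cons 274 (.leaf 298 1622 (.cons 253 (.leaf 254 2002 (.leaf 250 1803 .nil)) .nil)) .nil)) (.cons 179 (.leaf 276 1436 (.cons 155 (.leaf 228 1244 (.leaf 131 1046 .nil)) .nil)) .nil))) .nil)) .nil)) (.cons 178 (.leaf 202 1431 (.cons 179 (.leaf 154 1239 (.cons 156 (.leaf 180 1245 (.cons 155 (.leaf 132 1053 (.cons 252 (.leaf 276 1436 (.leaf 228 1244 .nil)) .nil)) .nil)) .nil)) .nil)) (.cons 274 (.leaf 298 1622 (.cons 179 (.leaf 250 1430 (.cons 154 (.leaf 178 1239 (.cons 155 (.leaf 130 1047 (.cons 252 (.leaf 276 1436 (.leaf 228 1244 .nil)) .nil)) .nil)) .nil)) .nil)) (.cons 274 (.leaf 298 1622 (.cons 179 (.leaf 250 1430 (.cons 156 (.leaf 180 1245 (.cons 155 (.leaf 132 1053 (.cons 252 (.leaf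 276 1436 (.leaf 228 1244 .nil)) .nil)) .nil)) .nil)) .nil)) (.cons 202 (.leaf 178 1431 (.cons 298 (.leaf 274 1622 (.cons 299 (.leaf 226 1623 (.leaf 322 1814 .nil)) .nil)) .nil)) .nil))))
noncomputable def t201 : T := .cons 203 (.cons 202 (.leaf 178 1431 (.cons 204 (.leaf 180 1437 (.cons 226 (.leaf 299 1623 (.cons 205 (.leaf 206 1618 (.leaf 225 1610 .nil)) .nil)) .nil)) .nil)) (.cons 202 (.leaf 178 1431 (.cons 226 (.leaf 299 1623 (.cons 252 (.cons 179 (.leaf 276 1436 (.cons 155 (.leaf 250 1238 (.leaf 228 1244 .nil)) .nil)) (.cons 225 (.leaf 224 1792 (.cons 253 (.leaf 250 1803 (.leaf 254 1811 .nil)) .nil)) (.cons 179 (.leaf 276 1436 (.cons 155 (.leaf 228 1244 (.leaf 131 1046 .nil)) .nil)) .nil))) .nil)) .nil)) (.cons 180 (.leaf 204 1437 (.cons 179 (.leaf 156 1245 (.cons 154 (.leaf 178 1239 (.cons 155 (.leaf 130 1047 (.cons 252 (.leaf 276 1436 (.leaf 228 1244 .nil)) .nil)) .nil)) .nil))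 .nil)) (.cons 180 (.leaf 204 1437 (.cons 179 (.leaf 156 1245 (.cons 252 (.leaf 276 1436 (.cons 155 (.leaf 228 1244 (.cons 130 (.leaf 154 1047 (.cons 131 (.leaf 106 855 (.cons 226 (.leaf 250 1238 (.leaf 202 1046 .nil)) .nil)) .nil)) .nil)) .nil)) .nil)) .nil)) .nil)))) (.cons 203 (.cons 180 (.leaf 204 1437 (.cons 179 (.leaf 156 1245 (.cons 274 (.leaf 298 1622 (.leaf 250 1430 .nil)) .nil)) .nil)) (.cons 180 (.leaf 204 1437 (.cons 179 (.leaf 156 1245 (.cons 154 (.leaf 178 1239 (.cons 155 (.leaf 130 1047 (.cons 252 (.leaf 276 1436 (.leaf 228 1244 .nil)) .nil)) .nil)) .nil)) .nil)) (.cons 274 (.leaf 298 1622 (.cons 179 (.leaf 250 1430 (.cons 154 (.leaf 178 1239 (.cons 155 (.leaf 130 1047 (.cons 252 (.leaf 276 1436 (.leaf 228 1244 .nil)) .nil)) .nil)) .nil)) .nil)) (.cons 204 (.leaf 180 1437 (.cons 298 (.leaf 274 1622 (.cons 299 (.leaf 228 1629 (.leaf 322 1814 .nil)) .nil)) .nil)) .nil))))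 (.cons 203 t200 (.cons 203 (.cons 202 (.leaf 178 1431 (.cons 298 (.leaf 274 1622 (.cons 204 (.leaf 180 1437 (.cons 299 (.leaf 226 1623 (.leaf 322 1814 .nil)) .nil)) .nil)) .nil)) (.cons 178 (.leaf 202 1431 (.cons 179 (.leaf 154 1239 (.cons 180 (.leaf 204 1437 (.leaf 156 1245 .nil)) .nil)) .nil)) (.cons 180 (.leaf 204 1437 (.cons 179 (.leaf 156 1245 (.cons 274 (.leaf 298 1622 (.leaf 250 1430 .nil)) .nil)) .nil)) (.cons 202 (.leaf 178 1431 (.cons 298 (.leaf 274 1622 (.cons 299 (.leaf 226 1623 (.leaf 322 1814 .nil)) .nil)) .nil)) .nil)))) (.cons 203 t199 (.cons 203 (.cons 180 (.leaf 204 1437 (.cons 179 (.leaf 156 1245 (.cons 252 (.leaf 276 1436 (.cons 154 (.leaf 178 1239 (.cons 155 (.leaf 130 1047 (.leaf 228 1244 .nil)) .nil)) .nil)) .nil)) .nil)) (.cons 202 (.leaf 178 1431 (.cons 298 (.leaf 274 1622 (.cons 299 (.leaf 226 1623 (.leaf 322 1814 .nil)) .nil)) .nil)) (.cons 204 (.leaf 180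 1437 (.cons 298 (.leaf 274 1622 (.cons 299 (.leaf 228 1629 (.leaf 322 1814 .nil)) .nil)) .nil)) .nil))) (.cons 203 t198 (.cons 203 (.cons 202 (.leaf 178 1431 (.cons 298 (.leaf 274 1622 (.cons 299 (.leaf 226 1623 (.leaf 322 1814 .nil)) .nil)) .nil)) (.cons 274 (.leaf 298 1622 (.cons 179 (.leaf 250 1430 (.cons 154 (.leaf 178 1239 (.cons 155 (.leaf 130 1047 (.cons 252 (.leaf 276 1436 (.leaf 228 1244 .nil)) .nil)) .nil)) .nil)) .nil)) (.cons 202 (.leaf 178 1431 (.cons 226 (.leaf 299 1623 (.cons 252 (.cons 179 (.leaf 276 1436 (.cons 155 (.leaf 250 1238 (.leaf 228 1244 .nil)) .nil)) (.cons 179 (.leaf 276 1436 (.cons 155 (.leaf 250 1238 (.leaf 131 1046 .nil)) .nil)) (.cons 225 (.leaf 224 1792 (.cons 253 (.leaf 250 1803 (.leaf 254 1811 .nil)) .nil)) (.cons 179 (.leaf 276 1436 (.cons 155 (.leaf 228 1244 (.leaf 131 1046 .nil)) .nil)) .nil)))) .nil)) .nil)) (.cons 274 (.leaf 298 1622 (.cons 179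 (.leaf 250 1430 (.cons 252 (.leaf 276 1436 (.cons 155 (.leaf 228 1244 (.cons 130 (.leaf 154 1047 (.cons 131 (.leaf 106 855 (.cons 132 (.leaf 156 1053 (.leaf 108 861 .nil)) .nil)) .nil)) .nil)) .nil)) .nil)) .nil)) .nil)))) (.cons 203 (.cons 180 (.leaf 204 1437 (.cons 179 (.leaf 156 1245 (.cons 202 (.leaf 178 1431 (.cons 274 (.leaf 298 1622 (.leaf 250 1430 .nil)) .nil)) .nil)) .nil)) (.cons 274 (.leaf 298 1622 (.cons 179 (.leaf 250 1430 (.cons 156 (.leaf 180 1245 (.cons 155 (.leaf 132 1053 (.cons 252 (.leaf 276 1436 (.leaf 228 1244 .nil)) .nil)) .nil)) .nil)) .nil)) (.cons 180 (.leaf 204 1437 (.cons 179 (.leaf 156 1245 (.cons 202 (.leaf 178 1431 (.cons 181 (.leaf 182 1426 (.cons 226 (.leaf 299 1623 (.cons 155 (.leaf 250 1238 (.leaf 131 1046 .nil)) .nil)) .nil)) .nil)) .nil)) .nil)) (.cons 274 (.leaf 298 1622 (.cons 179 (.leaf 250 1430 (.cons 202 (.leaf 178 1431 (.cons 226 (.leaf 299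 1623 (.cons 131 (.leaf 155 1046 (.cons 252 (.leaf 276 1436 (.cons 253 (.leaf 254 2002 (.cons 225 (.leaf 224 1792 (.leaf 228 1800 .nil)) .nil)) .nil)) .nil)) .nil)) .nil)) .nil)) .nil)) (.cons 204 (.leaf 180 1437 (.cons 202 (.leaf 178 1431 (.cons 226 (.leaf 299 1623 (.cons 205 (.leaf 206 1618 (.leaf 225 1610 .nil)) .nil)) .nil)) .nil)) .nil))))) .nil))))))))
noncomputable def t202 : T := .cons 253 (.leaf 254 1811 (.cons 225 (.leaf 224 1792 (.leaf 250 1803 .nil)) .nil)) (.cons 225 (.leaf 224 1792 (.cons 228 (.cons 204 (.leaf 180 1438 (.leaf 205 1609 .nil)) (.cons 249 (.leaf 248 1794 (.cons 201 (.leaf 200 1603 (.cons 229 (.leaf 250 1801 (.leaf 202 1611 .nil)) .nil)) .nil)) .nil)) .nil)) (.cons 253 (.leaf 254 1811 (.cons 250 (.cons 273 (.leaf 274 1994 (.cons 249 (.leaf 272 1986 (.cons 248 (.leaf 276 1984 (.leaf 228 1793 .nil)) .nil)) .nil)) (.cons 229 (.leaf 230 1809 (.cons 228 (.leaf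 249 1801 (.cons 180 (.leaf 204 1438 (.cons 205 (.leaf 206 1617 (.cons 181 (.leaf 157 1254 (.leaf 276 1446 .nil)) .nil)) .nil)) .nil)) .nil)) (.cons 229 (.leaf 230 1809 (.cons 274 (.leaf 273 1994 (.cons 277 (.leaf 278 2000 (.cons 298 (.leaf 322 1813 (.cons 297 (.leaf 276 2186 (.leaf 321 1806 .nil)) .nil)) .nil)) .nil)) .nil)) (.cons 273 (.leaf 274 1994 (.cons 249 (.leaf 272 1986 (.cons 248 (.leaf 228 1793 (.leaf 247 1785 .nil)) .nil)) .nil)) .nil)))) .nil)) (.cons 253 (.leaf 254 1811 (.cons 225 (.leaf 224 1792 (.leaf 228 1800 .nil)) .nil)) .nil)))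
noncomputable def t203 : T := .cons 253 (.leaf 254 1811 (.cons 225 (.leaf 224 1792 (.leaf 250 1803 .nil)) .nil)) (.cons 225 (.leaf 224 1792 (.cons 228 (.cons 204 (.leaf 180 1438 (.leaf 299 1629 .nil)) (.cons 249 (.leaf 248 1794 (.cons 229 (.leaf 250 1801 (.cons 200 (.leaf 201 1603 (.cons 206 (.leaf 205 1617 (.cons 230 (.leaf 231 1818 (.leaf 207 1625 .nil)) .nil)) .nil)) .nil)) .nil)) .nil)) .nil)) (.cons 253 (.leaf 254 1811 (.cons 250 (.cons 273 (.leaf 274 1994 (.cons 249 (.leaf 272 1986 (.cons 248 (.leaf 276 1984 (.leaf 228 1793 .nil)) .nil)) .nil)) (.cons 229 (.leaf 230 1809 (.cons 228 (.leaf 249 1801 (.cons 180 (.leaf 204 1438 (.cons 205 (.leaf 206 1617 (.cons 181 (.leaf 157 1254 (.leaf 276 1446 .nil)) .nil)) .nil)) .nil)) .nil)) (.cons 229 (.leaf 230 1809 (.cons 274 (.leaf 273 1994 (.cons 277 (.leaf 278 2000 (.cons 298 (.leaf 322 1813 (.cons 297 (.leaf 276 2186 (.leaf 321 1806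 .nil)) .nil)) .nil)) .nil)) .nil)) (.cons 273 (.leaf 274 1994 (.cons 249 (.leaf 272 1986 (.cons 248 (.leaf 228 1793 (.leaf 247 1785 .nil)) .nil)) .nil)) .nil)))) .nil)) (.cons 253 (.leaf 254 1811 (.cons 225 (.leaf 224 1792 (.leaf 228 1800 .nil)) .nil)) .nil)))
noncomputable def t204 : T := .cons 299 (.leaf 202 1623 (.cons 228 (.leaf 204 1629 (.cons 298 (.leaf 322 1814 (.cons 225 (.cons 200 (.leaf 201 1603 (.cons 253 (.leaf 252 1800 (.cons 229 (.leaf 254 1808 (.cons 206 (.leaf 205 1617 (.cons 230 (.leaf 250 1810 (.leaf 207 1625 .nil)) .nil)) .nil)) .nil)) .nil)) (.cons 249 (.leaf 248 1794 (.cons 200 (.leaf 201 1603 (.cons 224 (.leaf 199 1595 (.cons 250 (.leaf 223 1784 (.leaf 229 1802 .nil)) .nil)) .nil)) .nil)) (.cons 200 (.leaf 201 1603 (.cons 224 (.leaf 252 1792 (.leaf 199 1595 .nil)) .nil)) (.cons 252 (.leaf 224 1792 (.leaf 253 1800 .nil)) .nil)))) .nil)) .nil)) .nil)) (.cons 252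 t203 (.cons 252 t202 (.cons 299 (.leaf 202 1623 (.cons 228 (.leaf 204 1629 (.cons 298 (.leaf 322 1814 (.cons 225 (.cons 200 (.leaf 201 1603 (.cons 224 (.leaf 252 1792 (.leaf 199 1595 .nil)) .nil)) (.cons 248 (.leaf 249 1794 (.cons 200 (.leaf 201 1603 (.cons 224 (.leaf 199 1595 (.leaf 247 1786 .nil)) .nil)) .nil)) (.cons 200 (.leaf 201 1603 (.cons 253 (.leaf 252 1800 (.cons 229 (.leaf 254 1808 (.cons 206 (.leaf 205 1617 (.cons 230 (.leaf 207 1625 (.cons 277 (.leaf 301 1645 (.cons 276 (.leaf 278 2194 (.cons 297 (.leaf 274 2186 (.leaf 296 2177 .nil)) .nil)) .nil)) .nil)) .nil)) .nil)) .nil)) .nil)) (.cons 252 (.leaf 224 1792 (.leaf 253 1800 .nil)) .nil)))) .nil)) .nil)) .nil)) (.cons 202 (.leaf 299 1623 (.cons 178 (.leaf 250 1428 (.leaf 154 1236 .nil)) .nil)) .nil))))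
noncomputable def t205 : T := .cons 203 (.cons 178 (.leaf 202 1431 (.cons 180 (.leaf 204 1437 (.cons 179 (.leaf 154 1239 (.leaf 156 1245 .nil)) .nil)) .nil)) (.cons 180 (.leaf 204 1437 (.cons 274 (.leaf 298 1622 (.cons 179 (.leaf 156 1245 (.leaf 250 1430 .nil)) .nil)) .nil)) (.cons 274 (.leaf 298 1622 (.cons 179 (.leaf 250 1430 (.cons 154 (.leaf 178 1239 (.cons 155 (.leaf 130 1047 (.cons 252 (.leaf 276 1436 (.leaf 228 1244 .nil)) .nil)) .nil)) .nil)) .nil)) (.cons 202 (.leaf 178 1431 (.cons 298 (.leaf 274 1622 (.cons 204 (.leaf 180 1437 (.cons 299 (.leaf 226 1623 (.leaf 228 1629 .nil)) .nil)) .nil)) .nil)) .nil)))) (.cons 226 t204 (.cons 203 (.cons 178 (.leaf 202 1431 (.cons 180 (.leaf 204 1437 (.cons 179 (.leaf 154 1239 (.leaf 156 1245 .nil)) .nil)) .nil)) (.cons 274 (.leaf 298 1622 (.cons 179 (.leaf 250 1430 (.cons 154 (.leaf 178 1239 (.cons 155 (.leaf 130 1047 (.cons 252 (.leaf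 276 1436 (.leaf 228 1244 .nil)) .nil)) .nil)) .nil)) .nil)) (.cons 180 (.leaf 204 1437 (.cons 179 (.leaf 156 1245 (.cons 274 (.leaf 298 1622 (.leaf 250 1430 .nil)) .nil)) .nil)) (.cons 178 (.leaf 202 1431 (.cons 204 (.leaf 180 1437 (.cons 298 (.leaf 274 1622 (.cons 299 (.leaf 228 1629 (.leaf 322 1814 .nil)) .nil)) .nil)) .nil)) .nil)))) t201))
noncomputable def t206 : T := .cons 204 (.leaf 228 1629 (.cons 203 (.leaf 180 1437 (.cons 178 (.leaf 202 1431 (.cons 179 (.leaf 154 1239 (.leaf 276 1436 .nil)) .nil)) .nil)) .nil)) (.cons 202 (.leaf 226 1623 (.cons 203 (.leaf 178 1431 (.cons 179 (.leaf 276 1436 (.cons 180 (.leaf 204 1437 (.leaf 156 1245 .nil)) .nil)) .nil)) .nil)) (.cons 202 (.leaf 226 1623 (.cons 203 (.leaf 178 1431 (.cons 179 (.leaf 276 1436 (.cons 155 (.leaf 228 1244 (.cons 156 (.leaf 180 1245 (.leaf 132 1053 .nil)) .nil)) .nil)) .nil)) .nil)) (.cons 204 (.leaf 228 1629 (.cons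 203 (.leaf 180 1437 (.cons 276 (.leaf 179 1436 (.cons 298 (.leaf 322 1814 (.cons 277 (.leaf 278 2194 (.cons 250 (.leaf 249 1992 (.cons 253 (.cons 254 (.leaf 255 2010 (.leaf 226 1811 .nil)) (.cons 229 (.leaf 230 1809 (.cons 205 (.leaf 181 1446 (.cons 206 (.leaf 226 1618 (.leaf 182 1453 .nil)) .nil)) .nil)) (.cons 230 (.leaf 229 1809 (.cons 254 (.leaf 255 2010 (.leaf 231 1817 .nil)) .nil)) .nil))) .nil)) .nil)) .nil)) .nil)) .nil)) .nil)) (.cons 228 (.leaf 204 1629 (.cons 226 (.leaf 202 1623 (.cons 253 (.leaf 254 1811 (.cons 250 (.cons 229 (.leaf 230 1809 (.leaf 249 1801 .nil)) (.cons 249 (.leaf 248 1793 (.cons 277 (.leaf 276 1992 (.leaf 278 2000 .nil)) .nil)) (.cons 229 (.leaf 230 1809 (.cons 205 (.leaf 206 1617 (.cons 181 (.leaf 157 1254 (.leaf 276 1446 .nil)) .nil)) .nil)) .nil))) .nil)) .nil)) .nil)) (.cons 204 (.leaf 228 1629 (.cons 202 (.leaf 226 1623 (.cons 203 (.leaf 178 1431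 (.leaf 180 1437 .nil)) .nil)) .nil)) .nil)))))
noncomputable def t207 : T := .cons 204 (.leaf 228 1629 (.cons 322 (.leaf 298 1814 (.cons 323 (.leaf 346 2006 (.cons 347 (.leaf 276 2013 (.cons 348 (.leaf 324 2012 (.leaf 372 2204 .nil)) .nil)) .nil)) .nil)) .nil)) (.cons 226 (.leaf 202 1623 (.cons 250 (.leaf 323 1815 (.cons 253 (.leaf 254 1811 (.cons 277 (.leaf 278 2000 (.cons 229 (.leaf 230 1809 (.cons 298 (.leaf 322 1814 (.cons 276 (.leaf 249 1992 (.cons 203 (.leaf 179 1436 (.cons 204 (.leaf 180 1437 (.cons 205 (.leaf 181 1446 (.leaf 206 1618 .nil)) .nil)) .nil)) .nil)) .nil)) .nil)) .nil)) .nil)) .nil)) .nil)) (.cons 204 (.leaf 228 1629 (.cons 203 (.leaf 180 1437 (.cons 178 (.leaf 202 1431 (.cons 179 (.leaf 154 1239 (.leaf 276 1436 .nil)) .nil)) .nil)) .nil)) (.cons 226 (.leaf 202 1623 (.cons 250 (.leaf 323 1815 (.cons 253 (.leaf 254 1811 (.cons 229 (.leaf 230 1809 (.cons 249 (.leaf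 228 1801 (.cons 248 (.leaf 276 1984 (.leaf 247 1785 .nil)) .nil)) .nil)) .nil)) .nil)) .nil)) (.cons 204 (.leaf 228 1629 (.cons 202 (.leaf 226 1623 (.cons 203 (.leaf 178 1431 (.leaf 180 1437 .nil)) .nil)) .nil)) .nil))))
noncomputable def t208 : T := .cons 204 (.leaf 180 1438 (.cons 254 (.cons 255 (.leaf 276 2010 (.leaf 227 1819 .nil)) (.cons 299 (.leaf 227 1629 (.leaf 276 1630 .nil)) (.cons 227 (.leaf 299 1629 (.leaf 255 1819 .nil)) (.cons 276 (.leaf 299 1630 (.leaf 255 2010 .nil)) .nil)))) .nil)) (.cons 299 (.leaf 323 1821 (.cons 254 (.cons 255 (.leaf 276 2010 (.leaf 227 1819 .nil)) (.cons 230 (.leaf 231 1817 (.cons 229 (.leaf 250 1809 (.cons 206 (.cons 182 (.leaf 158 1262 (.leaf 277 1454 .nil)) (.cons 207 (.leaf 227 1625 (.cons 208 (.leaf 205 1634 (.leaf 209 1642 .nil)) .nil)) .nil)) .nil)) .nil)) (.cons 255 (.leaf 276 2010 (.cons 231 (.leaf 230 1817 (.leaf 232 1825 .nil)) .nil))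 .nil))) .nil)) (.cons 204 (.leaf 180 1438 (.cons 254 (.cons 255 (.leaf 276 2010 (.leaf 227 1819 .nil)) (.cons 230 (.leaf 231 1817 (.cons 229 (.leaf 250 1809 (.cons 277 (.leaf 301 1639 (.cons 206 (.leaf 182 1454 (.cons 207 (.leaf 227 1625 (.cons 208 (.leaf 205 1634 (.leaf 209 1642 .nil)) .nil)) .nil)) .nil)) .nil)) .nil)) (.cons 276 (.leaf 255 2010 (.cons 179 (.leaf 203 1439 (.cons 181 (.leaf 205 1445 (.cons 230 (.leaf 231 1817 (.cons 250 (.leaf 229 1809 (.cons 249 (.leaf 248 1984 (.leaf 277 1992 .nil)) .nil)) .nil)) .nil)) .nil)) .nil)) .nil))) .nil)) (.cons 204 (.leaf 180 1438 (.cons 299 (.leaf 276 1630 (.leaf 323 1821 .nil)) .nil)) (.cons 204 (.leaf 180 1438 (.cons 299 (.leaf 227 1629 (.leaf 323 1821 .nil)) .nil)) .nil))))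
noncomputable def t209 : T := .cons 277 (.leaf 278 2000 (.cons 229 (.leaf 230 1809 (.cons 249 (.leaf 228 1801 (.leaf 276 1992 .nil)) .nil)) .nil)) (.cons 229 (.leaf 230 1809 (.cons 228 (.leaf 249 1801 (.cons 204 (.leaf 180 1438 (.cons 299 (.leaf 227 1629 (.leaf 276 1630 .nil)) .nil)) .nil)) .nil)) (.cons 277 (.leaf 278 2000 (.cons 249 (.leaf 276 1992 (.cons 224 (.leaf 225 1795 (.cons 248 (.leaf 223 1787 (.cons 272 (.leaf 271 1978 (.leaf 273 1986 .nil)) .nil)) .nil)) .nil)) .nil)) (.cons 277 (.leaf 278 2000 (.cons 229 (.leaf 230 1809 (.cons 204 (.cons 205 (.leaf 180 1447 (.cons 181 (.leaf 276 1446 (.cons 228 (.leaf 157 1254 (.leaf 301 1639 .nil)) .nil)) .nil)) (.cons 205 (.leaf 180 1447 (.cons 181 (.leaf 276 1446 (.cons 182 (.leaf 158 1261 (.leaf 206 1453 .nil)) .nil)) .nil)) (.cons 228 (.leaf 301 1639 (.cons 299 (.leaf 227 1629 (.leaf 276 1630 .nil)) .nil)) (.cons 228 (.leaf 180 1444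 (.leaf 301 1639 .nil)) .nil)))) .nil)) .nil)) (.cons 229 (.leaf 230 1809 (.cons 228 (.leaf 249 1801 (.cons 204 (.leaf 180 1438 (.cons 299 (.leaf 227 1629 (.leaf 323 1821 .nil)) .nil)) .nil)) .nil)) .nil))))
noncomputable def t210 : T := .cons 254 (.cons 255 (.leaf 276 2010 (.cons 279 (.leaf 278 2008 (.leaf 280 2016 .nil)) .nil)) (.cons 278 (.leaf 279 2008 (.cons 230 (.leaf 231 1817 (.cons 302 (.cons 229 (.leaf 250 1809 (.leaf 326 1839 .nil)) (.cons 301 (.leaf 325 1838 (.cons 206 (.leaf 277 1646 (.cons 181 (.leaf 205 1455 (.cons 182 (.leaf 157 1263 (.cons 183 (.leaf 159 1269 (.leaf 207 1461 .nil)) .nil)) .nil)) .nil)) .nil)) .nil)) .nil)) .nil)) (.cons 231 (.leaf 230 1817 (.cons 255 (.leaf 276 2010 (.leaf 232 1825 .nil)) .nil)) .nil))) (.cons 250 t209 (.cons 254 (.cons 278 (.leaf 279 2008 (.cons 255 (.leaf 276 2010 (.cons 228 (.leaf 227 1819 (.cons 180 (.leaf 204 1438 (.cons 232 (.leaf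 231 1825 (.cons 256 (.leaf 229 1827 (.leaf 233 1833 .nil)) .nil)) .nil)) .nil)) .nil)) .nil)) (.cons 278 (.leaf 279 2008 (.cons 230 (.leaf 231 1817 (.cons 302 (.cons 229 (.leaf 326 1839 (.leaf 205 1647 .nil)) (.cons 301 (.leaf 325 1838 (.cons 206 (.leaf 277 1646 (.cons 181 (.leaf 205 1455 (.cons 182 (.leaf 157 1263 (.cons 183 (.leaf 159 1269 (.leaf 207 1461 .nil)) .nil)) .nil)) .nil)) .nil)) (.cons 229 (.leaf 326 1839 (.cons 301 (.leaf 325 1838 (.cons 206 (.leaf 277 1645 (.cons 182 (.leaf 158 1262 (.cons 183 (.leaf 159 1269 (.leaf 207 1461 .nil)) .nil)) .nil)) .nil)) .nil)) .nil))) .nil)) .nil)) (.cons 255 (.leaf 276 2010 (.cons 231 (.leaf 230 1817 (.leaf 232 1825 .nil)) .nil)) (.cons 255 (.leaf 276 2010 (.cons 279 (.leaf 278 2008 (.leaf 280 2016 .nil)) .nil)) .nil)))) (.cons 254 (.cons 255 (.leaf 276 2010 (.cons 279 (.leaf 278 2008 (.leaf 280 2016 .nil)) .nil)) (.cons 230 (.leaf 231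 1817 (.cons 229 (.leaf 250 1809 (.cons 278 (.leaf 279 2008 (.cons 205 (.leaf 181 1452 (.leaf 302 1647 .nil)) .nil)) .nil)) .nil)) (.cons 255 (.leaf 276 2010 (.cons 231 (.leaf 230 1817 (.leaf 232 1825 .nil)) .nil)) .nil))) (.cons 228 t208 (.cons 254 t192 (.cons 228 t191 (.cons 254 (.cons 255 (.leaf 276 2010 (.cons 279 (.leaf 278 2008 (.leaf 280 2016 .nil)) .nil)) (.cons 278 (.leaf 279 2008 (.cons 230 (.leaf 231 1817 (.cons 277 (.leaf 250 2000 (.cons 206 (.leaf 182 1454 (.leaf 301 1646 .nil)) .nil)) .nil)) .nil)) (.cons 231 (.leaf 230 1817 (.cons 255 (.leaf 276 2010 (.leaf 232 1825 .nil)) .nil)) .nil))) .nil)))))))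
noncomputable def t211 : T := .cons 231 (.leaf 230 1817 (.cons 255 (.leaf 232 1825 (.cons 279 (.leaf 278 2008 (.leaf 280 2016 .nil)) .nil)) .nil)) (.cons 279 (.leaf 278 2008 (.cons 255 (.leaf 280 2016 (.cons 228 (.leaf 227 1819 (.cons 180 (.leaf 204 1438 (.cons 232 (.leaf 231 1825 (.cons 256 (.leaf 229 1827 (.leaf 233 1833 .nil)) .nil)) .nil)) .nil)) .nil)) .nil)) (.cons 231 (.leaf 230 1817 (.cons 255 (.leaf 232 1825 (.cons 228 (.leaf 227 1819 (.cons 180 (.leaf 204 1438 (.cons 256 (.leaf 229 1827 (.cons 280 (.leaf 279 2016 (.leaf 281 2024 .nil)) .nil)) .nil)) .nil)) .nil)) .nil)) (.cons 278 (.leaf 279 2008 (.cons 250 (.leaf 277 2000 (.cons 229 (.leaf 230 1809 (.cons 181 (.leaf 205 1452 (.cons 228 (.leaf 249 1801 (.cons 255 (.leaf 227 1819 (.leaf 256 1827 .nil)) .nil)) .nil)) .nil)) .nil)) .nil)) (.cons 231 (.leaf 230 1817 (.cons 255 (.leaf 232 1825 (.cons 228 (.leaf 227 1819 (.cons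 204 (.leaf 180 1438 (.cons 229 (.leaf 256 1827 (.cons 250 (.leaf 249 1801 (.cons 277 (.leaf 278 2000 (.leaf 301 1639 .nil)) .nil)) .nil)) .nil)) .nil)) .nil)) .nil)) (.cons 230 (.leaf 231 1817 (.cons 229 (.leaf 250 1809 (.cons 278 (.leaf 279 2008 (.cons 205 (.leaf 181 1452 (.leaf 302 1647 .nil)) .nil)) .nil)) .nil)) .nil)))))
noncomputable def t212 : T := .cons 277 (.leaf 250 2000 (.cons 279 (.leaf 254 2008 (.leaf 280 2019 .nil)) .nil)) (.cons 250 (.leaf 277 2000 (.cons 225 (.leaf 226 1803 (.cons 249 (.leaf 224 1795 (.cons 228 (.leaf 229 1801 (.cons 180 (.leaf 204 1438 (.cons 248 (.leaf 227 1793 (.cons 272 (.leaf 271 1978 (.leaf 273 1986 .nil)) .nil)) .nil)) .nil)) .nil)) .nil)) .nil)) (.cons 254 (.leaf 279 2008 (.cons 230 (.leaf 231 1817 (.cons 302 (.cons 229 (.leaf 326 1839 (.leaf 205 1647 .nil)) (.cons 301 (.leaf 325 1838 (.cons 206 (.leaf 277 1646 (.cons 181 (.leaf 205 1455 (.cons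 182 (.leaf 157 1263 (.cons 183 (.leaf 207 1461 (.leaf 159 1269 .nil)) .nil)) .nil)) .nil)) .nil)) (.cons 229 (.leaf 326 1839 (.cons 301 (.leaf 325 1838 (.cons 206 (.leaf 277 1645 (.cons 182 (.leaf 158 1262 (.cons 183 (.leaf 207 1461 (.leaf 159 1269 .nil)) .nil)) .nil)) .nil)) .nil)) .nil))) .nil)) .nil)) (.cons 254 (.leaf 279 2008 (.cons 227 (.leaf 226 1811 (.cons 230 (.leaf 231 1817 (.cons 229 (.leaf 250 1809 (.cons 205 (.leaf 181 1452 (.leaf 302 1647 .nil)) .nil)) .nil)) .nil)) .nil)) .nil)))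
noncomputable def t213 : T := .cons 278 t212 (.cons 250 (.cons 229 (.leaf 230 1809 (.cons 228 (.leaf 249 1801 (.cons 204 (.leaf 180 1438 (.cons 299 (.leaf 227 1629 (.leaf 323 1821 .nil)) .nil)) .nil)) .nil)) (.cons 226 (.leaf 225 1803 (.cons 202 (.leaf 178 1428 (.cons 299 (.leaf 227 1623 (.leaf 323 1815 .nil)) .nil)) .nil)) (.cons 225 (.leaf 226 1803 (.cons 229 (.leaf 230 1809 (.cons 249 (.leaf 224 1795 (.leaf 228 1801 .nil)) .nil)) .nil)) .nil))) (.cons 250 (.cons 226 (.leaf 225 1803 (.cons 202 (.leaf 178 1428 (.cons 299 (.leaf 227 1623 (.leaf 323 1815 .nil)) .nil)) .nil)) (.cons 230 (.leaf 229 1809 (.cons 254 (.leaf 231 1817 (.cons 278 (.leaf 277 2000 (.leaf 279 2008 .nil)) .nil)) .nil)) .nil)) (.cons 254 (.cons 227 (.leaf 226 1811 (.cons 230 (.leaf 231 1817 (.cons 278 (.leaf 279 2008 (.cons 302 (.cons 229 (.leaf 326 1839 (.leaf 205 1647 .nil)) (.cons 301 (.leaf 325 1838 (.cons 206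 (.leaf 277 1646 (.cons 181 (.leaf 205 1455 (.cons 182 (.leaf 157 1263 (.cons 183 (.leaf 159 1269 (.leaf 207 1461 .nil)) .nil)) .nil)) .nil)) .nil)) (.cons 229 (.leaf 326 1839 (.cons 301 (.leaf 325 1838 (.cons 206 (.leaf 277 1645 (.cons 182 (.leaf 158 1262 (.cons 183 (.leaf 159 1269 (.leaf 207 1461 .nil)) .nil)) .nil)) .nil)) .nil)) .nil))) .nil)) .nil)) .nil)) (.cons 231 (.leaf 230 1817 (.cons 255 (.leaf 232 1825 (.cons 279 (.leaf 278 2008 (.leaf 280 2016 .nil)) .nil)) .nil)) (.cons 227 (.leaf 226 1811 (.cons 228 (.leaf 255 1819 (.cons 204 (.leaf 180 1438 (.leaf 299 1629 .nil)) .nil)) .nil)) .nil))) (.cons 254 t211 (.cons 278 (.cons 277 (.leaf 250 2000 (.cons 279 (.leaf 254 2008 (.leaf 280 2019 .nil)) .nil)) (.cons 250 (.leaf 277 2000 (.cons 225 (.leaf 226 1803 (.cons 229 (.leaf 230 1809 (.cons 249 (.leaf 224 1795 (.leaf 228 1801 .nil)) .nil)) .nil)) .nil)) (.cons 254 (.leaf 279 2008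 (.cons 230 (.leaf 231 1817 (.cons 302 (.cons 229 (.leaf 326 1839 (.leaf 205 1647 .nil)) (.cons 301 (.leaf 325 1838 (.cons 206 (.leaf 277 1646 (.cons 181 (.leaf 205 1455 (.cons 182 (.leaf 157 1263 (.cons 183 (.leaf 207 1461 (.leaf 159 1269 .nil)) .nil)) .nil)) .nil)) .nil)) (.cons 229 (.leaf 326 1839 (.cons 301 (.leaf 325 1838 (.cons 206 (.leaf 277 1645 (.cons 182 (.leaf 158 1262 (.cons 183 (.leaf 207 1461 (.leaf 159 1269 .nil)) .nil)) .nil)) .nil)) .nil)) .nil))) .nil)) .nil)) (.cons 254 (.leaf 279 2008 (.cons 230 (.leaf 231 1817 (.cons 229 (.leaf 250 1809 (.cons 205 (.leaf 181 1452 (.leaf 302 1647 .nil)) .nil)) .nil)) .nil)) .nil)))) (.cons 278 (.cons 250 (.leaf 277 2000 (.cons 226 (.leaf 225 1803 (.cons 254 (.leaf 227 1811 (.leaf 279 2008 .nil)) .nil)) .nil)) (.cons 250 (.leaf 277 2000 (.cons 225 (.leaf 226 1803 (.cons 249 (.leaf 224 1795 (.cons 228 (.leaf 229 1801 (.cons 180 (.leaf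 204 1438 (.cons 248 (.leaf 227 1793 (.cons 272 (.leaf 271 1978 (.leaf 273 1986 .nil)) .nil)) .nil)) .nil)) .nil)) .nil)) .nil)) (.cons 254 (.leaf 279 2008 (.cons 227 (.leaf 226 1811 (.cons 228 (.leaf 255 1819 (.cons 204 (.leaf 180 1438 (.leaf 299 1629 .nil)) .nil)) .nil)) .nil)) (.cons 277 (.leaf 250 2000 (.cons 279 (.leaf 254 2008 (.leaf 280 2019 .nil)) .nil)) .nil)))) (.cons 254 (.cons 227 (.leaf 226 1811 (.cons 228 (.leaf 255 1819 (.cons 204 (.leaf 180 1438 (.leaf 299 1629 .nil)) .nil)) .nil)) (.cons 230 (.leaf 231 1817 (.cons 278 (.leaf 279 2008 (.cons 277 (.leaf 250 2000 (.cons 206 (.leaf 182 1454 (.leaf 301 1646 .nil)) .nil)) .nil)) .nil)) .nil)) .nil)))))))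
noncomputable def t214 : T := .cons 228 (.leaf 204 1629 (.cons 226 (.leaf 202 1623 (.cons 225 (.leaf 224 1792 (.cons 200 (.leaf 201 1603 (.cons 249 (.leaf 248 1794 (.cons 229 (.leaf 250 1801 (.cons 206 (.leaf 205 1617 (.cons 230 (.leaf 231 1818 (.leaf 207 1625 .nil)) .nil)) .nil)) .nil)) .nil)) .nil)) .nil)) .nil)) (.cons 202 (.leaf 226 1623 (.cons 203 (.leaf 178 1431 (.cons 179 (.leaf 276 1436 (.cons 180 (.leaf 204 1437 (.leaf 156 1245 .nil)) .nil)) .nil)) .nil)) (.cons 202 (.leaf 226 1623 (.cons 203 (.leaf 178 1431 (.cons 179 (.leaf 276 1436 (.cons 155 (.leaf 228 1244 (.cons 156 (.leaf 180 1245 (.leaf 132 1053 .nil)) .nil)) .nil)) .nil)) .nil)) (.cons 298 (.leaf 322 1814 (.cons 204 (.leaf 228 1629 (.cons 203 (.leaf 180 1437 (.cons 178 (.leaf 202 1431 (.cons 179 (.leaf 154 1239 (.leaf 276 1436 .nil)) .nil)) .nil)) .nil)) .nil)) (.cons 298 (.leaf 322 1814 (.cons 203 (.cons 204 (.leaf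 180 1437 (.leaf 228 1629 .nil)) (.cons 179 (.leaf 276 1436 (.cons 155 (.leaf 228 1244 (.cons 156 (.leaf 180 1245 (.leaf 132 1053 .nil)) .nil)) .nil)) (.cons 179 (.leaf 276 1436 (.cons 180 (.leaf 204 1437 (.leaf 156 1245 .nil)) .nil)) (.cons 179 (.leaf 276 1436 (.cons 154 (.leaf 178 1239 (.cons 155 (.leaf 228 1244 (.leaf 130 1047 .nil)) .nil)) .nil)) .nil)))) .nil)) .nil))))
noncomputable def t215 : T := .cons 226 (.cons 225 (.leaf 253 1803 (.cons 224 (.leaf 223 1784 (.leaf 227 1792 .nil)) .nil)) (.cons 202 (.leaf 178 1428 (.cons 299 (.leaf 227 1623 (.leaf 323 1815 .nil)) .nil)) (.cons 178 (.leaf 202 1428 (.cons 253 (.leaf 225 1803 (.cons 230 (.leaf 229 1809 (.cons 254 (.leaf 231 1817 (.cons 255 (.leaf 276 2010 (.cons 279 (.leaf 278 2008 (.leaf 280 2016 .nil)) .nil)) .nil)) .nil)) .nil)) .nil)) .nil))) (.cons 249 (.cons 224 (.leaf 225 1795 (.cons 229 (.leaf 228 1801 (.cons 248 (.leaf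 276 1984 (.leaf 223 1787 .nil)) .nil)) .nil)) (.cons 224 (.leaf 225 1795 (.cons 248 (.leaf 223 1787 (.cons 272 (.leaf 271 1978 (.leaf 273 1986 .nil)) .nil)) .nil)) (.cons 229 (.leaf 228 1801 (.cons 253 (.leaf 230 1809 (.cons 277 (.leaf 276 1992 (.leaf 278 2000 .nil)) .nil)) .nil)) .nil))) (.cons 249 (.cons 224 (.leaf 225 1795 (.cons 248 (.leaf 276 1984 (.leaf 223 1787 .nil)) .nil)) (.cons 224 (.leaf 225 1795 (.cons 248 (.leaf 223 1787 (.cons 272 (.leaf 271 1978 (.leaf 273 1986 .nil)) .nil)) .nil)) (.cons 276 (.leaf 277 1992 (.cons 273 (.leaf 272 1986 (.cons 299 (.cons 323 (.leaf 226 1815 (.leaf 228 1821 .nil)) (.cons 297 (.cons 224 (.leaf 225 1795 (.cons 298 (.leaf 296 2177 (.cons 322 (.leaf 227 1814 (.cons 346 (.leaf 370 2197 (.leaf 321 1996 .nil)) .nil)) .nil)) .nil)) (.cons 298 (.leaf 296 2177 (.cons 227 (.leaf 322 1814 (.cons 202 (.leaf 226 1623 (.cons 203 (.leaf 178 1431 (.leaf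 179 1436 .nil)) .nil)) .nil)) .nil)) (.cons 226 (.leaf 321 1805 (.cons 202 (.leaf 178 1428 (.leaf 227 1623 .nil)) .nil)) (.cons 226 (.leaf 321 1805 (.cons 202 (.leaf 178 1428 (.leaf 225 1613 .nil)) .nil)) .nil)))) (.cons 323 (.leaf 228 1821 (.leaf 347 2013 .nil)) .nil))) .nil)) .nil)) (.cons 276 (.leaf 248 1984 (.leaf 277 1992 .nil)) .nil)))) (.cons 226 (.cons 225 (.leaf 253 1803 (.cons 224 (.leaf 223 1784 (.leaf 227 1792 .nil)) .nil)) (.cons 202 (.leaf 178 1428 (.cons 299 (.leaf 227 1623 (.leaf 323 1815 .nil)) .nil)) (.cons 178 (.leaf 202 1428 (.cons 225 (.leaf 253 1803 (.cons 224 (.leaf 223 1784 (.leaf 249 1795 .nil)) .nil)) .nil)) .nil))) (.cons 249 (.cons 228 (.leaf 229 1801 (.cons 248 (.leaf 276 1984 (.leaf 227 1793 .nil)) .nil)) (.cons 228 (.leaf 229 1801 (.cons 248 (.leaf 227 1793 (.cons 272 (.leaf 271 1978 (.leaf 273 1986 .nil)) .nil)) .nil)) (.cons 229 (.leaf 228 1801 (.cons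 253 (.leaf 230 1809 (.cons 277 (.leaf 276 1992 (.leaf 278 2000 .nil)) .nil)) .nil)) (.cons 276 (.leaf 248 1984 (.leaf 277 1992 .nil)) .nil)))) .nil))))
noncomputable def t216 : T := .cons 254 (.leaf 279 2008 (.cons 230 (.leaf 231 1817 (.cons 277 (.leaf 250 2000 (.cons 206 (.leaf 182 1454 (.leaf 301 1646 .nil)) .nil)) .nil)) .nil)) (.cons 250 (.leaf 277 2000 (.cons 225 (.leaf 226 1803 (.cons 229 (.leaf 230 1809 (.cons 249 (.leaf 224 1795 (.leaf 228 1801 .nil)) .nil)) .nil)) .nil)) (.cons 254 (.leaf 279 2008 (.cons 230 (.leaf 231 1817 (.cons 302 (.cons 229 (.leaf 326 1839 (.leaf 205 1647 .nil)) (.cons 301 (.leaf 325 1838 (.cons 206 (.leaf 277 1646 (.cons 181 (.leaf 205 1455 (.cons 182 (.leaf 157 1263 (.cons 183 (.leaf 207 1461 (.leaf 159 1269 .nil)) .nil)) .nil)) .nil)) .nil)) (.cons 229 (.leaf 326 1839 (.cons 301 (.leaf 325 1838 (.cons 206 (.leaf 277 1645 (.cons 182 (.leaf 158 1262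 (.cons 183 (.leaf 207 1461 (.leaf 159 1269 .nil)) .nil)) .nil)) .nil)) .nil)) .nil))) .nil)) .nil)) (.cons 254 (.leaf 279 2008 (.cons 230 (.leaf 231 1817 (.cons 229 (.leaf 250 1809 (.cons 205 (.leaf 181 1452 (.leaf 302 1647 .nil)) .nil)) .nil)) .nil)) (.cons 277 (.leaf 250 2000 (.cons 279 (.leaf 254 2008 (.leaf 280 2019 .nil)) .nil)) .nil))))
noncomputable def t217 : T := .cons 204 (.leaf 180 1438 (.cons 299 (.leaf 276 1630 (.leaf 323 1821 .nil)) .nil)) (.cons 299 (.leaf 323 1821 (.cons 250 (.cons 225 (.leaf 226 1803 (.cons 249 (.leaf 224 1795 (.leaf 229 1801 .nil)) .nil)) (.cons 225 (.leaf 226 1803 (.cons 278 (.leaf 277 2000 (.cons 254 (.leaf 279 2008 (.cons 255 (.leaf 276 2010 (.cons 232 (.leaf 231 1825 (.cons 256 (.leaf 229 1827 (.leaf 233 1833 .nil)) .nil)) .nil)) .nil)) .nil)) .nil)) (.cons 229 (.leaf 249 1801 (.cons 278 (.leaf 277 2000 (.cons 254 (.leaf 279 2008 (.cons 255 (.leaf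 276 2010 (.leaf 256 1827 .nil)) .nil)) .nil)) .nil)) (.cons 225 (.leaf 226 1803 (.cons 249 (.leaf 224 1795 (.cons 277 (.leaf 276 1992 (.leaf 278 2000 .nil)) .nil)) .nil)) .nil)))) .nil)) (.cons 204 (.leaf 180 1438 (.cons 277 (.cons 301 (.leaf 276 1636 (.leaf 325 1831 .nil)) (.cons 250 (.leaf 278 2000 (.cons 249 (.leaf 229 1801 (.leaf 276 1992 .nil)) .nil)) (.cons 301 (.leaf 325 1831 (.leaf 229 1639 .nil)) .nil))) .nil)) (.cons 204 (.leaf 180 1438 (.cons 299 (.leaf 323 1821 (.cons 277 (.cons 301 (.leaf 325 1831 (.leaf 229 1639 .nil)) (.cons 250 (.leaf 278 2000 (.cons 225 (.leaf 226 1803 (.cons 249 (.leaf 224 1795 (.leaf 229 1801 .nil)) .nil)) .nil)) (.cons 278 (.leaf 250 2000 (.cons 279 (.leaf 254 2008 (.leaf 280 2019 .nil)) .nil)) .nil))) .nil)) .nil)) .nil)))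
noncomputable def t218 : T := .cons 226 (.leaf 225 1803 (.cons 299 (.leaf 323 1815 (.cons 202 (.leaf 178 1428 (.cons 254 (.cons 230 (.leaf 229 1809 (.leaf 231 1817 .nil)) (.cons 276 (.leaf 255 2010 (.cons 249 (.leaf 248 1984 (.leaf 277 1992 .nil)) .nil)) .nil)) .nil)) .nil)) .nil)) (.cons 229 (.leaf 230 1809 (.cons 228 (.leaf 249 1801 (.cons 204 (.leaf 180 1438 (.cons 299 (.leaf 276 1630 (.leaf 323 1821 .nil)) .nil)) .nil)) .nil)) (.cons 225 (.leaf 226 1803 (.cons 249 (.leaf 224 1795 (.cons 276 (.leaf 248 1984 (.leaf 277 1992 .nil)) .nil)) .nil)) (.cons 226 (.leaf 225 1803 (.cons 299 (.leaf 323 1815 (.cons 202 (.leaf 178 1428 (.cons 254 (.cons 229 (.leaf 230 1809 (.cons 255 (.leaf 276 2010 (.cons 231 (.leaf 232 1825 (.cons 256 (.leaf 228 1827 (.cons 280 (.leaf 279 2016 (.leaf 281 2024 .nil)) .nil)) .nil)) .nil)) .nil)) (.cons 255 (.leaf 276 2010 (.cons 232 (.leaf 231 1825 (.cons 256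 (.leaf 233 1833 (.cons 280 (.leaf 279 2016 (.leaf 281 2024 .nil)) .nil)) .nil)) .nil)) (.cons 230 (.leaf 229 1809 (.leaf 231 1817 .nil)) (.cons 255 (.leaf 276 2010 (.cons 229 (.leaf 230 1809 (.cons 256 (.leaf 228 1827 (.cons 280 (.leaf 279 2016 (.leaf 281 2024 .nil)) .nil)) .nil)) .nil)) .nil)))) .nil)) .nil)) .nil)) (.cons 229 (.leaf 230 1809 (.cons 225 (.leaf 226 1803 (.cons 249 (.leaf 224 1795 (.leaf 228 1801 .nil)) .nil)) .nil)) .nil))))
noncomputable def t219 : T := .cons 226 (.leaf 225 1803 (.cons 277 (.leaf 278 2000 (.cons 299 (.leaf 323 1815 (.cons 229 (.leaf 230 1809 (.cons 202 (.leaf 178 1428 (.cons 204 (.cons 205 (.leaf 180 1447 (.cons 228 (.leaf 276 1630 (.leaf 249 1801 .nil)) .nil)) (.cons 205 (.leaf 180 1447 (.cons 276 (.leaf 249 1992 (.leaf 181 1446 .nil)) .nil)) (.cons 228 (.leaf 276 1630 (.leaf 249 1801 .nil)) (.cons 180 (.leaf 228 1444 (.leaf 205 1447 .nil)) .nil))))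 .nil)) .nil)) .nil)) .nil)) .nil)) (.cons 225 (.leaf 226 1803 (.cons 229 (.leaf 230 1809 (.cons 249 (.leaf 224 1795 (.leaf 228 1801 .nil)) .nil)) .nil)) (.cons 277 (.leaf 278 2000 (.cons 249 (.leaf 276 1992 (.cons 224 (.leaf 225 1795 (.cons 248 (.leaf 223 1787 (.cons 272 (.leaf 271 1978 (.leaf 273 1986 .nil)) .nil)) .nil)) .nil)) .nil)) (.cons 226 (.leaf 225 1803 (.cons 277 (.leaf 278 2000 (.cons 299 (.leaf 323 1815 (.cons 229 (.leaf 230 1809 (.cons 202 (.leaf 178 1428 (.cons 204 (.cons 205 (.leaf 180 1447 (.cons 228 (.leaf 276 1630 (.leaf 301 1639 .nil)) .nil)) (.cons 205 (.leaf 180 1447 (.cons 181 (.leaf 276 1446 (.cons 182 (.leaf 158 1261 (.leaf 206 1453 .nil)) .nil)) .nil)) (.cons 228 (.leaf 276 1630 (.leaf 301 1639 .nil)) (.cons 180 (.leaf 228 1444 (.leaf 205 1447 .nil)) .nil)))) .nil)) .nil)) .nil)) .nil)) .nil)) (.cons 277 (.leaf 278 2000 (.cons 229 (.leaf 230 1809 (.cons 249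 (.leaf 228 1801 (.leaf 276 1992 .nil)) .nil)) .nil)) .nil))))
noncomputable def t220 : T := .cons 254 (.cons 255 (.leaf 276 2010 (.cons 232 (.leaf 231 1825 (.cons 256 (.leaf 233 1833 (.cons 280 (.leaf 279 2016 (.leaf 281 2024 .nil)) .nil)) .nil)) .nil)) (.cons 230 (.leaf 231 1817 (.cons 229 (.leaf 250 1809 (.cons 278 (.leaf 279 2008 (.cons 205 (.leaf 181 1452 (.leaf 302 1647 .nil)) .nil)) .nil)) .nil)) (.cons 255 (.leaf 276 2010 (.cons 280 (.leaf 279 2016 (.cons 256 (.leaf 281 2024 (.cons 229 (.leaf 228 1827 (.cons 230 (.leaf 250 1809 (.leaf 257 1835 .nil)) .nil)) .nil)) .nil)) .nil)) (.cons 231 (.leaf 230 1817 (.cons 255 (.leaf 276 2010 (.leaf 232 1825 .nil)) .nil)) .nil)))) (.cons 254 (.cons 255 (.leaf 276 2010 (.cons 232 (.leaf 231 1825 (.cons 256 (.leaf 233 1833 (.cons 280 (.leaf 279 2016 (.leaf 281 2024 .nil)) .nil)) .nil)) .nil)) (.cons 278 (.leaf 279 2008 (.cons 230 (.leaf 231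 1817 (.cons 302 (.cons 229 (.leaf 326 1839 (.leaf 205 1647 .nil)) (.cons 301 (.leaf 325 1838 (.cons 206 (.leaf 277 1646 (.cons 181 (.leaf 205 1455 (.cons 182 (.leaf 157 1263 (.cons 183 (.leaf 159 1269 (.leaf 207 1461 .nil)) .nil)) .nil)) .nil)) .nil)) (.cons 229 (.leaf 326 1839 (.cons 301 (.leaf 325 1838 (.cons 206 (.leaf 277 1645 (.cons 182 (.leaf 158 1262 (.cons 183 (.leaf 159 1269 (.leaf 207 1461 .nil)) .nil)) .nil)) .nil)) .nil)) .nil))) .nil)) .nil)) (.cons 255 (.leaf 276 2010 (.cons 279 (.leaf 278 2008 (.leaf 280 2016 .nil)) .nil)) (.cons 231 (.leaf 230 1817 (.cons 255 (.leaf 276 2010 (.leaf 232 1825 .nil)) .nil)) .nil)))) (.cons 250 t219 (.cons 250 t218 (.cons 228 t217 (.cons 278 t216 (.cons 254 (.cons 255 (.leaf 276 2010 (.cons 232 (.leaf 231 1825 (.cons 256 (.leaf 233 1833 (.cons 280 (.leaf 279 2016 (.leaf 281 2024 .nil)) .nil)) .nil)) .nil)) (.cons 230 (.leaf 231 1817 (.cons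 278 (.leaf 279 2008 (.cons 277 (.leaf 250 2000 (.cons 206 (.leaf 182 1454 (.leaf 301 1646 .nil)) .nil)) .nil)) .nil)) (.cons 231 (.leaf 230 1817 (.cons 255 (.leaf 276 2010 (.leaf 232 1825 .nil)) .nil)) (.cons 255 (.leaf 276 2010 (.cons 279 (.leaf 278 2008 (.leaf 280 2016 .nil)) .nil)) .nil)))) .nil))))))
noncomputable def t221 : T := .cons 228 (.leaf 323 1821 (.cons 204 (.leaf 180 1438 (.leaf 227 1629 .nil)) .nil)) (.cons 323 (.cons 322 (.leaf 346 2006 (.cons 298 (.leaf 227 1814 (.cons 324 (.leaf 348 2012 (.cons 297 (.leaf 296 2368 (.leaf 325 2379 .nil)) .nil)) .nil)) .nil)) (.cons 347 (.leaf 276 2013 (.cons 348 (.leaf 324 2012 (.leaf 372 2204 .nil)) .nil)) (.cons 346 (.leaf 322 2006 (.cons 347 (.leaf 276 2013 (.leaf 370 2198 .nil)) .nil)) .nil))) (.cons 227 (.cons 298 (.leaf 322 1814 (.cons 204 (.leaf 228 1629 (.cons 203 (.leaf 180 1437 (.cons 178 (.leaf 202 1431 (.cons 179 (.leaf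 154 1239 (.leaf 276 1436 .nil)) .nil)) .nil)) .nil)) .nil)) (.cons 202 (.leaf 226 1623 (.cons 203 (.leaf 178 1431 (.cons 179 (.leaf 276 1436 (.cons 180 (.leaf 204 1437 (.leaf 156 1245 .nil)) .nil)) .nil)) .nil)) (.cons 226 (.leaf 202 1623 (.cons 225 (.leaf 224 1792 (.cons 253 (.leaf 254 1811 (.leaf 228 1800 .nil)) .nil)) .nil)) (.cons 298 (.leaf 322 1814 (.cons 203 (.cons 179 (.leaf 276 1436 (.cons 155 (.leaf 228 1244 (.cons 156 (.leaf 180 1245 (.leaf 132 1053 .nil)) .nil)) .nil)) (.cons 179 (.leaf 276 1436 (.cons 180 (.leaf 204 1437 (.leaf 156 1245 .nil)) .nil)) (.cons 204 (.leaf 180 1437 (.leaf 228 1629 .nil)) (.cons 179 (.leaf 276 1436 (.cons 154 (.leaf 178 1239 (.cons 155 (.leaf 228 1244 (.leaf 130 1047 .nil)) .nil)) .nil)) .nil)))) .nil)) .nil)))) (.cons 323 (.leaf 228 1821 (.cons 346 (.leaf 322 2006 (.cons 347 (.leaf 276 2013 (.leaf 370 2198 .nil)) .nil)) .nil)) .nil)))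
noncomputable def t222 : T := .cons 277 (.leaf 278 2000 (.cons 226 (.leaf 225 1803 (.cons 229 (.leaf 230 1809 (.cons 202 (.leaf 178 1428 (.cons 228 (.cons 204 (.leaf 180 1444 (.leaf 301 1639 .nil)) (.cons 227 (.leaf 254 1808 (.leaf 201 1611 .nil)) .nil)) .nil)) .nil)) .nil)) .nil)) (.cons 226 (.leaf 225 1803 (.cons 178 (.leaf 202 1428 (.cons 229 (.leaf 230 1809 (.cons 254 (.leaf 227 1811 (.cons 255 (.leaf 276 2010 (.cons 231 (.leaf 232 1825 (.cons 256 (.leaf 228 1827 (.cons 280 (.leaf 279 2016 (.leaf 281 2024 .nil)) .nil)) .nil)) .nil)) .nil)) .nil)) .nil)) .nil)) (.cons 278 (.leaf 277 2000 (.cons 254 (.leaf 279 2008 (.cons 231 (.leaf 230 1817 (.cons 255 (.leaf 276 2010 (.leaf 232 1825 .nil)) .nil)) .nil)) .nil)) (.cons 226 (.leaf 225 1803 (.cons 178 (.leaf 202 1428 (.cons 254 (.leaf 227 1811 (.cons 255 (.leaf 276 2010 (.cons 232 (.leaf 231 1825 (.cons 256 (.leaf 233 1833 (.cons 280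 (.leaf 279 2016 (.leaf 281 2024 .nil)) .nil)) .nil)) .nil)) .nil)) .nil)) .nil)) (.cons 277 (.leaf 278 2000 (.cons 226 (.leaf 225 1803 (.cons 229 (.leaf 230 1809 (.cons 202 (.leaf 178 1428 (.cons 228 (.cons 204 (.leaf 180 1444 (.leaf 301 1639 .nil)) (.cons 227 (.leaf 201 1611 (.cons 205 (.leaf 206 1617 (.cons 181 (.leaf 157 1254 (.leaf 276 1446 .nil)) .nil)) .nil)) .nil)) .nil)) .nil)) .nil)) .nil)) .nil))))
noncomputable def t223 : T := .cons 249 (.cons 229 (.leaf 228 1801 (.cons 253 (.leaf 230 1809 (.cons 248 (.leaf 276 1984 (.cons 272 (.leaf 271 1978 (.leaf 273 1986 .nil)) .nil)) .nil)) .nil)) (.cons 228 (.leaf 229 1801 (.cons 248 (.leaf 227 1793 (.cons 272 (.leaf 271 1978 (.leaf 273 1986 .nil)) .nil)) .nil)) (.cons 229 (.leaf 228 1801 (.cons 253 (.leaf 230 1809 (.cons 225 (.leaf 224 1795 (.leaf 226 1803 .nil)) .nil)) .nil)) (.cons 276 (.leaf 248 1984 (.leaf 277 1992 .nil)) .nil))))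 (.cons 253 t222 (.cons 249 (.cons 225 (.leaf 224 1795 (.cons 228 (.leaf 229 1801 (.cons 248 (.leaf 276 1984 (.leaf 227 1793 .nil)) .nil)) .nil)) (.cons 228 (.leaf 229 1801 (.cons 248 (.leaf 227 1793 (.cons 272 (.leaf 271 1978 (.leaf 273 1986 .nil)) .nil)) .nil)) (.cons 225 (.leaf 224 1795 (.cons 228 (.leaf 229 1801 (.cons 204 (.leaf 180 1438 (.cons 273 (.leaf 272 1986 (.cons 276 (.leaf 277 1992 (.cons 203 (.leaf 179 1439 (.cons 205 (.leaf 181 1445 (.cons 202 (.leaf 226 1610 (.cons 178 (.leaf 227 1431 (.leaf 201 1421 .nil)) .nil)) .nil)) .nil)) .nil)) .nil)) .nil)) .nil)) .nil)) (.cons 276 (.leaf 248 1984 (.leaf 277 1992 .nil)) .nil)))) (.cons 249 (.cons 225 (.leaf 224 1795 (.cons 226 (.leaf 253 1803 (.cons 178 (.leaf 202 1428 (.cons 228 (.leaf 229 1801 (.cons 227 (.leaf 248 1793 (.cons 204 (.leaf 180 1438 (.leaf 205 1609 .nil)) .nil)) .nil)) .nil)) .nil)) .nil)) (.cons 224 (.leaf 225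 1795 (.cons 248 (.leaf 223 1787 (.cons 272 (.leaf 271 1978 (.leaf 273 1986 .nil)) .nil)) .nil)) (.cons 228 (.leaf 229 1801 (.cons 248 (.leaf 227 1793 (.cons 272 (.leaf 271 1978 (.leaf 273 1986 .nil)) .nil)) .nil)) (.cons 225 (.leaf 224 1795 (.cons 226 (.leaf 253 1803 (.cons 178 (.leaf 202 1428 (.cons 228 (.leaf 229 1801 (.cons 273 (.leaf 272 1986 (.cons 204 (.leaf 180 1438 (.cons 227 (.leaf 205 1609 (.cons 201 (.leaf 200 1603 (.cons 177 (.leaf 153 1228 (.leaf 154 1229 .nil)) .nil)) .nil)) .nil)) .nil)) .nil)) .nil)) .nil)) .nil)) .nil)))) (.cons 249 (.cons 225 (.leaf 224 1795 (.cons 226 (.leaf 253 1803 (.cons 202 (.leaf 178 1428 (.cons 273 (.leaf 272 1986 (.leaf 297 1613 .nil)) .nil)) .nil)) .nil)) (.cons 276 (.leaf 248 1984 (.leaf 277 1992 .nil)) .nil)) (.cons 249 (.cons 224 (.leaf 225 1795 (.cons 229 (.leaf 228 1801 (.cons 248 (.leaf 276 1984 (.leaf 223 1787 .nil)) .nil)) .nil))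 (.cons 224 (.leaf 225 1795 (.cons 248 (.leaf 223 1787 (.cons 272 (.leaf 271 1978 (.leaf 273 1986 .nil)) .nil)) .nil)) (.cons 224 (.leaf 225 1795 (.cons 229 (.leaf 228 1801 (.cons 253 (.leaf 230 1809 (.cons 277 (.leaf 276 1992 (.leaf 278 2000 .nil)) .nil)) .nil)) .nil)) (.cons 276 (.leaf 248 1984 (.leaf 277 1992 .nil)) .nil)))) (.cons 249 (.cons 229 (.leaf 228 1801 (.cons 253 (.leaf 230 1809 (.cons 248 (.leaf 276 1984 (.cons 272 (.leaf 271 1978 (.leaf 273 1986 .nil)) .nil)) .nil)) .nil)) (.cons 228 (.leaf 229 1801 (.cons 248 (.leaf 227 1793 (.cons 272 (.leaf 271 1978 (.leaf 273 1986 .nil)) .nil)) .nil)) (.cons 229 (.leaf 228 1801 (.cons 253 (.leaf 230 1809 (.cons 277 (.leaf 276 1992 (.leaf 278 2000 .nil)) .nil)) .nil)) (.cons 276 (.leaf 248 1984 (.leaf 277 1992 .nil)) .nil)))) .nil))))))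
noncomputable def t224 : T := .cons 205 (.cons 180 (.leaf 204 1447 (.cons 181 (.leaf 276 1446 (.leaf 156 1255 .nil)) .nil)) (.cons 180 (.leaf 204 1447 (.cons 181 (.leaf 156 1255 (.cons 182 (.leaf 158 1261 (.leaf 206 1453 .nil)) .nil)) .nil)) (.cons 204 (.leaf 180 1447 (.cons 278 (.leaf 250 2000 (.leaf 302 1644 .nil)) .nil)) (.cons 276 (.leaf 181 1446 (.cons 278 (.leaf 250 2000 (.leaf 279 2011 .nil)) .nil)) .nil)))) (.cons 205 (.cons 180 (.leaf 204 1447 (.cons 181 (.leaf 276 1446 (.leaf 156 1255 .nil)) .nil)) (.cons 204 (.leaf 180 1447 (.cons 206 (.leaf 182 1453 (.cons 203 (.cons 179 (.leaf 178 1427 (.cons 227 (.leaf 276 1436 (.leaf 226 1618 .nil)) .nil)) (.cons 178 (.leaf 179 1427 (.cons 202 (.leaf 227 1431 (.leaf 177 1419 .nil)) .nil)) (.cons 178 (.leaf 179 1427 (.cons 202 (.leaf 177 1419 (.cons 226 (.leaf 250 1428 (.leaf 225 1610 .nil)) .nil)) .nil)) (.cons 226 (.leaf 227 1618 (.cons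 225 (.leaf 250 1803 (.leaf 202 1610 .nil)) .nil)) .nil)))) .nil)) .nil)) (.cons 276 (.leaf 181 1446 (.cons 182 (.leaf 206 1453 (.cons 250 (.leaf 249 1992 (.cons 226 (.leaf 225 1803 (.cons 202 (.leaf 178 1428 (.cons 299 (.leaf 227 1623 (.leaf 323 1815 .nil)) .nil)) .nil)) .nil)) .nil)) .nil)) (.cons 180 (.leaf 204 1447 (.cons 181 (.leaf 156 1255 (.cons 182 (.leaf 158 1261 (.leaf 206 1453 .nil)) .nil)) .nil)) .nil)))) (.cons 205 (.cons 180 (.leaf 204 1447 (.cons 181 (.leaf 276 1446 (.leaf 156 1255 .nil)) .nil)) (.cons 278 (.leaf 302 1644 (.cons 279 (.leaf 276 2011 (.leaf 280 2019 .nil)) .nil)) (.cons 180 (.leaf 204 1447 (.cons 181 (.leaf 156 1255 (.cons 182 (.leaf 158 1261 (.leaf 206 1453 .nil)) .nil)) .nil)) .nil))) (.cons 250 (.leaf 278 2000 (.cons 226 (.leaf 225 1803 (.cons 202 (.leaf 178 1428 (.cons 299 (.leaf 227 1623 (.leaf 323 1815 .nil)) .nil)) .nil)) .nil)) .nil)))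
noncomputable def t225 : T := .cons 277 (.cons 204 (.leaf 180 1447 (.cons 206 (.leaf 182 1453 (.cons 230 (.leaf 301 1645 (.cons 231 (.leaf 232 1826 (.leaf 203 1624 .nil)) .nil)) .nil)) .nil)) (.cons 180 (.leaf 204 1447 (.cons 278 (.leaf 302 1644 (.cons 279 (.leaf 276 2011 (.leaf 280 2019 .nil)) .nil)) .nil)) (.cons 278 (.leaf 302 1644 (.cons 276 (.leaf 279 2011 (.leaf 181 1446 .nil)) .nil)) .nil))) (.cons 277 (.cons 204 (.leaf 180 1447 (.cons 206 (.leaf 182 1453 (.cons 230 (.leaf 301 1645 (.cons 231 (.leaf 232 1826 (.leaf 203 1624 .nil)) .nil)) .nil)) .nil)) (.cons 180 (.leaf 204 1447 (.cons 278 (.leaf 302 1644 (.cons 279 (.leaf 276 2011 (.leaf 280 2019 .nil)) .nil)) .nil)) (.cons 278 (.leaf 302 1644 (.cons 279 (.leaf 276 2011 (.leaf 280 2019 .nil)) .nil)) .nil))) (.cons 180 (.cons 204 (.leaf 277 1447 (.cons 156 (.leaf 181 1255 (.leaf 132 1060 .nil)) .nil)) (.cons 181 (.leaf 156 1255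 (.cons 182 (.leaf 158 1261 (.cons 206 (.leaf 277 1453 (.cons 179 (.leaf 178 1424 (.leaf 207 1432 .nil)) .nil)) .nil)) .nil)) (.cons 204 (.leaf 277 1447 (.cons 132 (.leaf 156 1060 (.cons 203 (.leaf 227 1437 (.cons 230 (.leaf 202 1616 (.cons 231 (.leaf 232 1826 (.leaf 206 1624 .nil)) .nil)) .nil)) .nil)) .nil)) (.cons 156 (.leaf 181 1255 (.cons 204 (.leaf 132 1060 (.cons 203 (.leaf 227 1437 (.cons 202 (.leaf 230 1616 (.cons 177 (.leaf 178 1419 (.cons 201 (.leaf 176 1411 (.cons 225 (.leaf 226 1610 (.leaf 224 1602 .nil)) .nil)) .nil)) .nil)) .nil)) .nil)) .nil)) (.cons 277 (.leaf 204 1447 (.cons 206 (.leaf 182 1453 (.cons 301 (.leaf 230 1645 (.cons 302 (.leaf 278 1644 (.leaf 326 1836 .nil)) .nil)) .nil)) .nil)) .nil))))) (.cons 181 (.leaf 276 1446 (.cons 156 (.leaf 180 1255 (.cons 157 (.leaf 132 1063 (.cons 158 (.leaf 182 1261 (.leaf 134 1069 .nil)) .nil)) .nil)) .nil)) (.cons 181 (.leaf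 276 1446 (.cons 180 (.leaf 156 1255 (.cons 204 (.leaf 277 1447 (.cons 203 (.leaf 227 1437 (.cons 202 (.leaf 230 1616 (.leaf 201 1417 .nil)) .nil)) .nil)) .nil)) .nil)) (.cons 181 (.leaf 276 1446 (.cons 157 (.cons 158 (.leaf 182 1261 (.leaf 134 1069 .nil)) (.cons 132 (.leaf 156 1063 (.cons 133 (.leaf 108 871 (.cons 110 (.leaf 134 877 (.cons 109 (.leaf 86 685 (.cons 206 (.leaf 230 1068 (.leaf 182 876 .nil)) .nil)) .nil)) .nil)) .nil)) (.cons 132 (.leaf 156 1063 (.cons 133 (.leaf 108 871 (.cons 134 (.leaf 158 1069 (.leaf 110 877 .nil)) .nil)) .nil)) (.cons 182 (.leaf 158 1261 (.cons 132 (.leaf 156 1063 (.cons 133 (.leaf 108 871 (.cons 206 (.leaf 277 1453 (.leaf 230 1068 .nil)) .nil)) .nil)) .nil)) .nil)))) .nil)) .nil)))))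
noncomputable def t226 : T := .cons 230 (.leaf 250 1809 (.cons 231 (.leaf 232 1826 (.cons 205 (.cons 181 (.leaf 276 1446 (.cons 156 (.leaf 180 1255 (.cons 157 (.leaf 132 1063 (.cons 158 (.leaf 182 1261 (.leaf 134 1069 .nil)) .nil)) .nil)) .nil)) (.cons 277 (.cons 206 (.leaf 182 1453 (.leaf 301 1645 .nil)) (.cons 180 (.leaf 204 1447 (.cons 278 (.leaf 302 1644 (.cons 279 (.leaf 276 2011 (.leaf 280 2019 .nil)) .nil)) .nil)) .nil)) (.cons 204 (.cons 180 (.leaf 277 1447 (.cons 156 (.leaf 181 1255 (.leaf 132 1060 .nil)) .nil)) (.cons 203 (.leaf 202 1616 (.leaf 206 1624 .nil)) .nil)) (.cons 181 (.leaf 276 1446 (.cons 158 (.leaf 182 1261 (.cons 157 (.leaf 134 1069 (.cons 133 (.leaf 206 1068 (.cons 132 (.leaf 156 1063 (.leaf 108 871 .nil)) .nil)) .nil)) .nil)) .nil)) .nil)))) .nil)) .nil)) (.cons 205 t225 (.cons 277 t224 (.cons 250 (.leaf 230 1809 (.cons 225 (.leaf 226 1803 (.cons 249 (.leaf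 224 1795 (.cons 248 (.leaf 276 1984 (.cons 272 (.leaf 271 1978 (.leaf 273 1986 .nil)) .nil)) .nil)) .nil)) .nil)) (.cons 250 (.leaf 230 1809 (.cons 226 (.leaf 225 1803 (.cons 202 (.leaf 178 1428 (.cons 299 (.leaf 227 1623 (.leaf 323 1815 .nil)) .nil)) .nil)) .nil)) .nil))))
noncomputable def t227 : T := .cons 254 (.cons 226 (.leaf 227 1811 (.cons 250 (.leaf 225 1803 (.cons 178 (.leaf 202 1428 (.cons 276 (.leaf 255 2010 (.cons 277 (.leaf 278 2000 (.leaf 249 1992 .nil)) .nil)) .nil)) .nil)) .nil)) (.cons 226 (.leaf 227 1811 (.cons 250 (.leaf 225 1803 (.cons 178 (.leaf 202 1428 (.cons 229 (.leaf 230 1809 (.cons 276 (.leaf 255 2010 (.cons 249 (.leaf 248 1984 (.leaf 277 1992 .nil)) .nil)) .nil)) .nil)) .nil)) .nil)) (.cons 226 (.leaf 227 1811 (.cons 250 (.leaf 225 1803 (.cons 278 (.leaf 277 2000 (.leaf 279 2008 .nil)) .nil)) .nil)) (.cons 255 (.leaf 276 2010 (.cons 231 (.leaf 230 1817 (.leaf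 232 1825 .nil)) .nil)) .nil)))) (.cons 229 t226 (.cons 254 (.cons 255 (.leaf 276 2010 (.cons 231 (.leaf 230 1817 (.leaf 232 1825 .nil)) .nil)) (.cons 278 (.leaf 279 2008 (.cons 230 (.leaf 231 1817 (.cons 227 (.leaf 226 1811 (.cons 302 (.cons 229 (.leaf 326 1839 (.leaf 205 1647 .nil)) (.cons 301 (.leaf 325 1838 (.cons 206 (.leaf 277 1646 (.cons 181 (.leaf 205 1455 (.cons 182 (.leaf 157 1263 (.cons 183 (.leaf 159 1269 (.leaf 207 1461 .nil)) .nil)) .nil)) .nil)) .nil)) (.cons 229 (.leaf 326 1839 (.cons 301 (.leaf 325 1838 (.cons 206 (.leaf 277 1645 (.cons 182 (.leaf 158 1262 (.cons 183 (.leaf 159 1269 (.leaf 207 1461 .nil)) .nil)) .nil)) .nil)) .nil)) .nil))) .nil)) .nil)) .nil)) (.cons 255 (.leaf 276 2010 (.cons 279 (.leaf 278 2008 (.leaf 280 2016 .nil)) .nil)) .nil))) (.cons 254 (.cons 226 (.leaf 227 1811 (.cons 225 (.leaf 250 1803 (.cons 255 (.leaf 276 2010 (.cons 232 (.leaf 231 1825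 (.cons 256 (.leaf 233 1833 (.cons 280 (.leaf 279 2016 (.leaf 281 2024 .nil)) .nil)) .nil)) .nil)) .nil)) .nil)) (.cons 226 (.leaf 227 1811 (.cons 230 (.leaf 231 1817 (.cons 250 (.leaf 225 1803 (.leaf 229 1809 .nil)) .nil)) .nil)) (.cons 255 (.leaf 276 2010 (.cons 231 (.leaf 230 1817 (.leaf 232 1825 .nil)) .nil)) (.cons 226 (.leaf 227 1811 (.cons 250 (.leaf 225 1803 (.cons 178 (.leaf 202 1428 (.cons 229 (.leaf 230 1809 (.cons 276 (.leaf 255 2010 (.cons 249 (.leaf 248 1984 (.leaf 277 1992 .nil)) .nil)) .nil)) .nil)) .nil)) .nil)) .nil)))) (.cons 254 (.cons 255 (.leaf 276 2010 (.cons 231 (.leaf 230 1817 (.leaf 232 1825 .nil)) .nil)) (.cons 230 (.leaf 231 1817 (.cons 278 (.leaf 279 2008 (.cons 229 (.leaf 250 1809 (.cons 205 (.leaf 181 1452 (.leaf 302 1647 .nil)) .nil)) .nil)) .nil)) (.cons 255 (.leaf 276 2010 (.cons 279 (.leaf 278 2008 (.leaf 280 2016 .nil)) .nil)) .nil))) (.cons 250 (.cons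 230 (.leaf 229 1809 (.cons 254 (.leaf 231 1817 (.cons 226 (.leaf 225 1803 (.leaf 227 1811 .nil)) .nil)) .nil)) (.cons 230 (.leaf 229 1809 (.cons 254 (.leaf 231 1817 (.cons 278 (.leaf 277 2000 (.leaf 279 2008 .nil)) .nil)) .nil)) (.cons 226 (.leaf 225 1803 (.cons 202 (.leaf 178 1428 (.cons 299 (.leaf 227 1623 (.leaf 323 1815 .nil)) .nil)) .nil)) .nil))) (.cons 254 (.cons 226 (.leaf 227 1811 (.cons 250 (.leaf 225 1803 (.cons 178 (.leaf 202 1428 (.cons 276 (.leaf 255 2010 (.cons 277 (.leaf 278 2000 (.leaf 249 1992 .nil)) .nil)) .nil)) .nil)) .nil)) (.cons 226 (.leaf 227 1811 (.cons 250 (.leaf 225 1803 (.cons 278 (.leaf 277 2000 (.leaf 279 2008 .nil)) .nil)) .nil)) (.cons 226 (.leaf 227 1811 (.cons 250 (.leaf 225 1803 (.cons 178 (.leaf 202 1428 (.cons 255 (.leaf 276 2010 (.cons 232 (.leaf 231 1825 (.cons 256 (.leaf 233 1833 (.cons 280 (.leaf 279 2016 (.leaf 281 2024 .nil)) .nil)) .nil))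 .nil)) .nil)) .nil)) .nil)) (.cons 255 (.leaf 276 2010 (.cons 279 (.leaf 278 2008 (.leaf 280 2016 .nil)) .nil)) .nil)))) (.cons 250 (.cons 230 (.leaf 229 1809 (.cons 254 (.leaf 231 1817 (.cons 226 (.leaf 225 1803 (.leaf 227 1811 .nil)) .nil)) .nil)) (.cons 230 (.leaf 229 1809 (.cons 254 (.leaf 231 1817 (.cons 276 (.leaf 255 2010 (.cons 249 (.leaf 248 1984 (.leaf 277 1992 .nil)) .nil)) .nil)) .nil)) (.cons 226 (.leaf 225 1803 (.cons 202 (.leaf 178 1428 (.cons 299 (.leaf 227 1623 (.leaf 323 1815 .nil)) .nil)) .nil)) .nil))) (.cons 254 (.cons 226 (.leaf 227 1811 (.cons 250 (.leaf 225 1803 (.cons 178 (.leaf 202 1428 (.cons 276 (.leaf 255 2010 (.cons 277 (.leaf 278 2000 (.leaf 249 1992 .nil)) .nil)) .nil)) .nil)) .nil)) (.cons 226 (.leaf 227 1811 (.cons 250 (.leaf 225 1803 (.cons 178 (.leaf 202 1428 (.cons 229 (.leaf 230 1809 (.cons 276 (.leaf 255 2010 (.cons 249 (.leaf 248 1984 (.leaf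 277 1992 .nil)) .nil)) .nil)) .nil)) .nil)) .nil)) (.cons 226 (.leaf 227 1811 (.cons 250 (.leaf 225 1803 (.cons 278 (.leaf 277 2000 (.leaf 279 2008 .nil)) .nil)) .nil)) (.cons 255 (.leaf 276 2010 (.cons 279 (.leaf 278 2008 (.leaf 280 2016 .nil)) .nil)) .nil)))) .nil))))))))
noncomputable def t228 : T := .cons 227 (.cons 204 (.leaf 228 1629 (.cons 202 (.leaf 226 1623 (.cons 203 (.leaf 178 1431 (.leaf 180 1437 .nil)) .nil)) .nil)) (.cons 226 (.leaf 202 1623 (.cons 253 (.leaf 254 1811 (.cons 224 (.leaf 225 1792 (.cons 322 (.leaf 298 1814 (.cons 323 (.leaf 250 1815 (.leaf 346 2006 .nil)) .nil)) .nil)) .nil)) .nil)) (.cons 228 (.leaf 204 1629 (.leaf 323 1821 .nil)) .nil))) (.cons 227 (.cons 204 (.leaf 228 1629 (.cons 202 (.leaf 226 1623 (.cons 203 (.leaf 178 1431 (.leaf 180 1437 .nil)) .nil)) .nil)) (.cons 226 (.leaf 202 1623 (.cons 225 (.leaf 224 1792 (.cons 253 (.leaf 250 1803 (.leaf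 254 1811 .nil)) .nil)) .nil)) (.cons 204 (.leaf 228 1629 (.cons 203 (.leaf 180 1437 (.cons 178 (.leaf 202 1431 (.cons 179 (.leaf 154 1239 (.leaf 276 1436 .nil)) .nil)) .nil)) .nil)) (.cons 204 (.leaf 228 1629 (.cons 203 (.leaf 180 1437 (.cons 276 (.leaf 179 1436 (.cons 298 (.leaf 322 1814 (.cons 277 (.leaf 278 2194 (.cons 250 (.leaf 249 1992 (.cons 253 (.cons 254 (.leaf 255 2010 (.leaf 226 1811 .nil)) (.cons 230 (.leaf 229 1809 (.cons 254 (.leaf 255 2010 (.leaf 231 1817 .nil)) .nil)) (.cons 229 (.leaf 230 1809 (.cons 205 (.leaf 181 1446 (.cons 226 (.leaf 225 1803 (.leaf 206 1618 .nil)) .nil)) .nil)) .nil))) .nil)) .nil)) .nil)) .nil)) .nil)) .nil)) .nil)))) (.cons 323 (.cons 322 (.leaf 346 2006 (.cons 298 (.leaf 227 1814 (.cons 324 (.leaf 348 2012 (.cons 297 (.leaf 296 2368 (.leaf 325 2379 .nil)) .nil)) .nil)) .nil)) (.cons 347 (.leaf 276 2013 (.cons 348 (.leaf 324 2012 (.leaf 372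 2204 .nil)) .nil)) (.cons 346 (.leaf 322 2006 (.cons 347 (.leaf 276 2013 (.leaf 370 2198 .nil)) .nil)) .nil))) (.cons 323 (.leaf 228 1821 (.cons 346 (.leaf 322 2006 (.cons 347 (.leaf 276 2013 (.leaf 370 2198 .nil)) .nil)) .nil)) (.cons 228 (.leaf 323 1821 (.cons 250 (.cons 229 (.leaf 249 1801 (.cons 230 (.leaf 227 1810 (.leaf 231 1818 .nil)) .nil)) (.cons 229 (.leaf 249 1801 (.cons 230 (.leaf 231 1818 (.leaf 253 1809 .nil)) .nil)) (.cons 204 (.leaf 180 1438 (.leaf 227 1629 .nil)) .nil))) .nil)) .nil))))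
noncomputable def t229 : T := .cons 299 t228 (.cons 253 (t227) (.cons 250 t223 (.cons 299 t221 (.cons 253 t220 (.cons 250 t215 (.cons 299 (.cons 228 (.leaf 323 1821 (.cons 204 (.leaf 180 1438 (.leaf 227 1629 .nil)) .nil)) (.cons 227 t214 (.cons 323 (.cons 322 (.leaf 346 2006 (.cons 298 (.leaf 227 1814 (.cons 324 (.leaf 348 2012 (.cons 297 (.leaf 296 2368 (.leaf 325 2379 .nil)) .nil)) .nil)) .nil)) (.cons 347 (.leaf 276 2013 (.cons 348 (.leaf 324 2012 (.leaf 372 2204 .nil)) .nil)) (.cons 346 (.leaf 322 2006 (.cons 347 (.leaf 276 2013 (.leaf 370 2198 .nil)) .nil)) .nil))) (.cons 323 (.leaf 228 1821 (.cons 346 (.leaf 322 2006 (.cons 347 (.leaf 276 2013 (.leaf 370 2198 .nil)) .nil)) .nil)) .nil)))) (.cons 253 t213 (.cons 253 t210 (.cons 299 (.cons 227 t207 (.cons 227 t206 (.cons 323 (.cons 322 (.leaf 346 2006 (.cons 298 (.leaf 227 1814 (.cons 324 (.leaf 348 2012 (.cons 297 (.leaf 296 2368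 (.leaf 325 2379 .nil)) .nil)) .nil)) .nil)) (.cons 347 (.leaf 276 2013 (.cons 348 (.leaf 324 2012 (.leaf 372 2204 .nil)) .nil)) (.cons 346 (.leaf 322 2006 (.cons 347 (.leaf 276 2013 (.leaf 370 2198 .nil)) .nil)) .nil))) (.cons 323 (.leaf 228 1821 (.cons 346 (.leaf 322 2006 (.cons 347 (.leaf 276 2013 (.leaf 370 2198 .nil)) .nil)) .nil)) (.cons 323 (.leaf 228 1821 (.cons 322 (.leaf 346 2006 (.cons 298 (.leaf 227 1814 (.cons 324 (.leaf 348 2012 (.cons 297 (.leaf 296 2368 (.leaf 325 2379 .nil)) .nil)) .nil)) .nil)) .nil)) (.cons 228 (.leaf 323 1821 (.cons 204 (.leaf 180 1438 (.leaf 227 1629 .nil)) .nil)) .nil)))))) .nil)))))))))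
noncomputable def t230 : T := .cons 204 (.leaf 228 1629 (.cons 226 (.leaf 202 1623 (.cons 323 (.leaf 250 1815 (.cons 322 (.leaf 298 1814 (.leaf 346 2006 .nil)) .nil)) .nil)) .nil)) (.cons 204 (.leaf 228 1629 (.cons 226 (.leaf 202 1623 (.cons 323 (.leaf 250 1815 (.cons 180 (.leaf 203 1437 (.cons 346 (.leaf 322 2006 (.cons 347 (.leaf 370 2198 (.cons 348 (.leaf 324 2012 (.leaf 372 2204 .nil)) .nil)) .nil)) .nil)) .nil)) .nil)) .nil)) (.cons 204 (.leaf 228 1629 (.cons 203 (.leaf 180 1437 (.cons 298 (.leaf 274 1622 (.leaf 322 1814 .nil)) .nil)) .nil)) (.cons 204 (.leaf 228 1629 (.cons 203 (.leaf 180 1437 (.cons 226 (.leaf 202 1623 (.cons 205 (.leaf 206 1618 (.cons 224 (.leaf 225 1601 (.cons 250 (.leaf 323 1815 (.cons 179 (.leaf 274 1430 (.leaf 155 1238 .nil)) .nil)) .nil)) .nil)) .nil)) .nil)) .nil)) (.cons 298 (.leaf 322 1814 (.cons 226 (.leaf 202 1623 (.cons 323 (.leaf 250 1815 (.cons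 348 (.leaf 324 2012 (.cons 347 (.leaf 372 2204 (.cons 370 (.leaf 346 2198 (.cons 371 (.leaf 274 2199 (.leaf 394 2390 .nil)) .nil)) .nil)) .nil)) .nil)) .nil)) .nil)) .nil))))
noncomputable def t231 : T := .cons 202 (.leaf 178 1431 (.cons 298 (.leaf 274 1622 (.cons 299 (.leaf 226 1623 (.leaf 322 1814 .nil)) .nil)) .nil)) (.cons 274 (.leaf 298 1622 (.cons 179 (.leaf 250 1430 (.cons 154 (.leaf 178 1239 (.cons 155 (.leaf 130 1047 (.cons 156 (.leaf 180 1245 (.leaf 132 1053 .nil)) .nil)) .nil)) .nil)) .nil)) (.cons 179 (.cons 154 (.leaf 178 1239 (.cons 155 (.leaf 130 1047 (.cons 156 (.leaf 180 1245 (.leaf 132 1053 .nil)) .nil)) .nil)) (.cons 156 (.leaf 180 1245 (.cons 155 (.leaf 132 1053 (.cons 130 (.leaf 154 1047 (.cons 131 (.leaf 106 855 (.cons 226 (.leaf 250 1238 (.leaf 202 1046 .nil)) .nil)) .nil)) .nil)) .nil)) (.cons 156 (.leaf 180 1245 (.cons 155 (.leaf 132 1053 (.cons 202 (.leaf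 178 1431 (.cons 226 (.leaf 299 1623 (.leaf 250 1238 .nil)) .nil)) .nil)) .nil)) (.cons 178 (.leaf 202 1431 (.leaf 154 1239 .nil)) .nil)))) (.cons 299 (.cons 226 (.leaf 202 1623 (.cons 322 (.leaf 298 1814 (.cons 323 (.leaf 250 1815 (.leaf 346 2006 .nil)) .nil)) .nil)) (.cons 226 (.leaf 202 1623 (.cons 250 (.leaf 323 1815 (.cons 179 (.leaf 274 1430 (.leaf 155 1238 .nil)) .nil)) .nil)) (.cons 298 (.leaf 274 1622 (.leaf 322 1814 .nil)) .nil))) .nil)))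
noncomputable def t232 : T := .cons 180 (.leaf 204 1437 (.cons 179 (.leaf 156 1245 (.cons 250 (.leaf 274 1430 (.cons 154 (.leaf 178 1239 (.cons 155 (.leaf 130 1047 (.leaf 226 1238 .nil)) .nil)) .nil)) .nil)) .nil)) (.cons 178 (.leaf 202 1431 (.cons 179 (.leaf 154 1239 (.cons 156 (.leaf 180 1245 (.cons 155 (.leaf 132 1053 (.cons 250 (.leaf 274 1430 (.leaf 226 1238 .nil)) .nil)) .nil)) .nil)) .nil)) (.cons 204 (.leaf 180 1437 (.cons 299 (.leaf 228 1629 (.cons 226 (.leaf 202 1623 (.cons 205 (.leaf 206 1618 (.cons 224 (.leaf 225 1601 (.cons 250 (.leaf 323 1815 (.cons 179 (.leaf 274 1430 (.leaf 155 1238 .nil)) .nil)) .nil)) .nil)) .nil)) .nil)) .nil)) (.cons 178 (.leaf 202 1431 (.cons 179 (.leaf 154 1239 (.cons 250 (.leaf 274 1430 (.cons 226 (.leaf 155 1238 (.cons 299 (.leaf 323 1815 (.cons 228 (.leaf 204 1629 (.cons 229 (.leaf 230 1810 (.leaf 249 1802 .nil)) .nil)) .nil)) .nil)) .nil))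 .nil)) .nil)) (.cons 202 (.leaf 178 1431 (.cons 204 (.leaf 180 1437 (.cons 201 (.cons 176 (.leaf 177 1411 (.cons 200 (.leaf 228 1600 (.leaf 175 1403 .nil)) .nil)) (.cons 176 (.leaf 177 1411 (.cons 200 (.leaf 175 1403 (.cons 224 (.leaf 223 1594 (.leaf 225 1602 .nil)) .nil)) .nil)) (.cons 176 (.leaf 177 1411 (.cons 224 (.leaf 225 1602 (.cons 229 (.leaf 228 1608 (.cons 205 (.leaf 230 1616 (.cons 226 (.leaf 299 1623 (.leaf 206 1618 .nil)) .nil)) .nil)) .nil)) .nil)) (.cons 228 (.leaf 299 1629 (.leaf 200 1600 .nil)) .nil)))) .nil)) .nil)) (.cons 202 (.leaf 178 1431 (.cons 204 (.leaf 180 1437 (.cons 228 (.leaf 299 1629 (.cons 201 (.leaf 200 1600 (.leaf 229 1608 .nil)) .nil)) .nil)) .nil)) .nil)))))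
noncomputable def t233 : T := .cons 204 (.leaf 180 1437 (.cons 298 (.leaf 274 1622 (.cons 299 (.leaf 228 1629 (.leaf 322 1814 .nil)) .nil)) .nil)) (.cons 274 (.leaf 298 1622 (.cons 179 (.leaf 250 1430 (.cons 154 (.leaf 178 1239 (.cons 155 (.leaf 130 1047 (.cons 156 (.leaf 180 1245 (.leaf 132 1053 .nil)) .nil)) .nil)) .nil)) .nil)) (.cons 204 (.leaf 180 1437 (.cons 228 (.leaf 299 1629 (.cons 226 (.cons 205 (.leaf 206 1618 (.leaf 225 1609 .nil)) (.cons 225 (.leaf 224 1601 (.cons 200 (.leaf 201 1603 (.cons 249 (.leaf 248 1794 (.cons 229 (.leaf 250 1802 (.cons 230 (.leaf 231 1627 (.cons 254 (.leaf 253 1808 (.leaf 255 1816 .nil)) .nil)) .nil)) .nil)) .nil)) .nil)) (.cons 205 (.leaf 206 1618 (.cons 229 (.cons 230 (.leaf 250 1810 (.leaf 231 1627 .nil)) (.cons 250 (.leaf 249 1802 (.cons 179 (.leaf 155 1238 (.cons 178 (.leaf 154 1239 (.cons 253 (.leaf 254 1808 (.cons 277 (.leaf 301 1639 (.cons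 278 (.leaf 276 2003 (.leaf 302 1644 .nil)) .nil)) .nil)) .nil)) .nil)) .nil)) (.cons 230 (.leaf 231 1627 (.cons 254 (.leaf 253 1808 (.leaf 255 1816 .nil)) .nil)) .nil))) .nil)) .nil))) .nil)) .nil)) (.cons 274 (.leaf 298 1622 (.cons 250 (.leaf 179 1430 (.cons 273 (.cons 272 (.leaf 271 1977 (.cons 248 (.leaf 247 1979 (.cons 296 (.leaf 295 2170 (.cons 297 (.leaf 276 2178 (.cons 321 (.leaf 345 1997 (.leaf 224 1796 .nil)) .nil)) .nil)) .nil)) .nil)) (.cons 249 (.cons 248 (.leaf 247 1976 (.leaf 276 1984 .nil)) (.cons 276 (.leaf 277 1995 (.cons 297 (.leaf 296 2178 (.cons 321 (.leaf 345 1997 (.leaf 226 1805 .nil)) .nil)) .nil)) (.cons 248 (.leaf 247 1976 (.leaf 228 1793 .nil)) .nil))) (.cons 272 (.leaf 271 1977 (.cons 296 (.leaf 295 2170 (.cons 276 (.leaf 297 2178 (.cons 277 (.leaf 249 1995 (.leaf 278 2003 .nil)) .nil)) .nil)) .nil)) (.cons 272 (.leaf 271 1977 (.cons 248 (.leaf 247 1979 (.cons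 228 (.leaf 249 1793 (.cons 229 (.leaf 230 1810 (.cons 299 (.leaf 204 1629 (.cons 323 (.leaf 226 1815 (.leaf 347 2007 .nil)) .nil)) .nil)) .nil)) .nil)) .nil)) .nil)))) .nil)) .nil)) .nil)))
noncomputable def t234 : T := .cons 247 (.leaf 248 1786 (.cons 199 (.leaf 200 1595 (.cons 223 (.leaf 198 1587 (.leaf 246 1778 .nil)) .nil)) .nil)) (.cons 223 (.cons 201 (.leaf 222 1585 (.cons 247 (.leaf 248 1786 (.leaf 246 1778 .nil)) .nil)) (.cons 222 (.leaf 201 1585 (.cons 197 (.leaf 198 1579 (.cons 221 (.leaf 196 1571 (.cons 245 (.leaf 246 1770 (.leaf 244 1762 .nil)) .nil)) .nil)) .nil)) (.cons 247 (.leaf 248 1786 (.leaf 246 1778 .nil)) (.cons 201 (.leaf 222 1585 (.cons 248 (.leaf 247 1786 (.cons 177 (.leaf 153 1222 (.cons 272 (.leaf 249 1414 (.leaf 296 1605 .nil)) .nil)) .nil)) .nil)) .nil)))) (.cons 199 (.leaf 200 1595 (.cons 223 (.leaf 198 1587 (.cons 222 (.leaf 201 1585 (.cons 246 (.leaf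 247 1778 (.leaf 245 1770 .nil)) .nil)) .nil)) .nil)) (.cons 199 (.leaf 200 1595 (.cons 223 (.leaf 198 1587 (.cons 201 (.leaf 222 1585 (.cons 249 (.leaf 273 1421 (.cons 177 (.cons 153 (.leaf 129 1036 (.leaf 248 1222 .nil)) (.cons 152 (.leaf 176 1223 (.cons 153 (.leaf 129 1036 (.leaf 128 1031 .nil)) .nil)) (.cons 176 (.leaf 152 1223 (.cons 175 (.leaf 174 1392 (.cons 151 (.leaf 150 1203 (.leaf 248 1212 .nil)) .nil)) .nil)) .nil))) .nil)) .nil)) .nil)) .nil)) (.cons 200 (.leaf 199 1595 (.cons 248 (.leaf 247 1786 (.cons 249 (.cons 273 (.leaf 297 1613 (.leaf 201 1421 .nil)) (.cons 176 (.leaf 152 1220 (.cons 177 (.leaf 153 1221 (.cons 201 (.leaf 272 1413 (.cons 175 (.leaf 174 1392 (.leaf 151 1215 .nil)) .nil)) .nil)) .nil)) (.cons 273 (.leaf 297 1613 (.leaf 176 1412 .nil)) .nil))) .nil)) .nil)) .nil))))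
noncomputable def t235 : T := .cons 248 (.leaf 247 1786 (.cons 249 (.leaf 228 1794 (.cons 273 (.cons 297 (.leaf 202 1613 (.leaf 200 1607 .nil)) (.cons 297 (.leaf 202 1613 (.leaf 321 1799 .nil)) (.cons 274 (.leaf 276 1987 (.cons 201 (.leaf 298 1612 (.cons 272 (.leaf 177 1414 (.leaf 296 1605 .nil)) .nil)) .nil)) .nil))) .nil)) .nil)) (.cons 248 (.leaf 247 1786 (.cons 249 (.leaf 228 1794 (.cons 273 (.cons 297 (.leaf 202 1613 (.leaf 321 1799 .nil)) (.cons 274 (.leaf 276 1987 (.cons 201 (.leaf 298 1612 (.cons 272 (.leaf 177 1414 (.leaf 296 1605 .nil)) .nil)) .nil)) .nil)) .nil)) .nil)) (.cons 223 (.cons 200 (.leaf 199 1595 (.cons 201 (.leaf 228 1603 (.cons 222 (.leaf 202 1585 (.leaf 221 1577 .nil)) .nil)) .nil)) (.cons 246 (.leaf 247 1778 (.cons 222 (.leaf 245 1770 (.cons 201 (.leaf 202 1585 (.cons 200 (.leaf 228 1603 (.leaf 221 1577 .nil)) .nil)) .nil)) .nil)) (.cons 198 (.leaf 199 1587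 (.cons 222 (.leaf 197 1579 (.cons 246 (.leaf 247 1778 (.leaf 245 1770 .nil)) .nil)) .nil)) (.cons 199 (.leaf 200 1595 (.leaf 198 1587 .nil)) .nil)))) (.cons 200 (.leaf 199 1595 (.cons 249 (.cons 176 (.leaf 152 1220 (.cons 273 (.leaf 201 1415 (.leaf 297 1607 .nil)) .nil)) (.cons 228 (.leaf 201 1603 (.leaf 248 1794 .nil)) (.cons 176 (.leaf 152 1220 (.cons 248 (.leaf 228 1794 (.leaf 273 1412 .nil)) .nil)) .nil))) .nil)) (.cons 199 (.leaf 200 1595 (.cons 223 (.leaf 198 1587 (.cons 247 (.leaf 248 1786 (.leaf 246 1778 .nil)) .nil)) .nil)) .nil))))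
noncomputable def t236 : T := .cons 299 (.leaf 202 1623 (.cons 228 (.leaf 204 1629 (.cons 248 (.leaf 249 1794 (.cons 224 (.leaf 247 1786 (.cons 296 (.cons 272 (.leaf 201 1605 (.cons 199 (.leaf 200 1595 (.leaf 223 1599 .nil)) .nil)) (.cons 272 (.leaf 201 1605 (.cons 199 (.leaf 223 1599 (.cons 319 (.leaf 295 1790 (.cons 320 (.leaf 343 1982 (.cons 321 (.leaf 297 1796 (.leaf 345 1988 .nil)) .nil)) .nil)) .nil)) .nil)) (.cons 199 (.leaf 200 1595 (.cons 223 (.leaf 198 1587 (.leaf 272 1599 .nil)) .nil)) (.cons 200 (.leaf 199 1595 (.leaf 201 1603 .nil)) (.cons 201 (.leaf 200 1603 (.leaf 272 1605 .nil)) .nil))))) .nil)) .nil)) .nil)) .nil)) (.cons 224 t235 (.cons 228 (.cons 200 (.leaf 201 1603 (.cons 224 (.leaf 199 1595 (.cons 248 (.leaf 247 1786 (.leaf 249 1794 .nil)) .nil)) .nil)) (.cons 204 (.leaf 299 1629 (.leaf 205 1609 .nil)) .nil)) (.cons 202 (.leaf 299 1623 (.cons 178 (.leaf 154 1236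 (.cons 224 t234 .nil)) .nil)) (.cons 299 (.leaf 202 1623 (.cons 228 (.leaf 204 1629 (.cons 298 (.leaf 322 1814 (.cons 201 (.leaf 200 1603 (.cons 249 (.leaf 248 1794 (.cons 273 (.leaf 274 1612 (.cons 296 (.leaf 272 1606 (.cons 297 (.leaf 276 2177 (.leaf 320 1798 .nil)) .nil)) .nil)) .nil)) .nil)) .nil)) .nil)) .nil)) (.cons 299 (.leaf 202 1623 (.cons 228 (.leaf 204 1629 (.cons 248 (.leaf 249 1794 (.cons 224 (.leaf 247 1786 (.cons 296 (.cons 272 (.leaf 201 1605 (.cons 199 (.leaf 223 1599 (.cons 319 (.leaf 295 1790 (.cons 320 (.leaf 343 1982 (.cons 321 (.leaf 297 1796 (.leaf 345 1988 .nil)) .nil)) .nil)) .nil)) .nil)) (.cons 298 (.leaf 322 1814 (.cons 297 (.leaf 276 2177 (.cons 295 (.leaf 274 2169 (.cons 319 (.leaf 320 2362 (.leaf 318 2354 .nil)) .nil)) .nil)) .nil)) (.cons 272 (.leaf 201 1605 (.cons 319 (.leaf 295 1790 (.cons 320 (.leaf 343 1982 (.cons 321 (.leaf 345 1988 (.cons 322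 (.leaf 298 2361 (.cons 346 (.leaf 323 2006 (.leaf 347 2552 .nil)) .nil)) .nil)) .nil)) .nil)) .nil)) (.cons 272 (.leaf 201 1605 (.cons 199 (.leaf 223 1599 (.cons 297 (.leaf 321 1796 (.cons 298 (.leaf 322 1814 (.leaf 276 2177 .nil)) .nil)) .nil)) .nil)) .nil)))) .nil)) .nil)) .nil)) .nil)) (.cons 228 (.cons 201 (.leaf 200 1603 (.cons 205 (.leaf 204 1609 (.cons 229 (.leaf 202 1611 (.leaf 206 1617 .nil)) .nil)) .nil)) (.cons 202 (.leaf 299 1623 (.cons 201 (.leaf 200 1603 (.leaf 229 1611 .nil)) .nil)) (.cons 204 (.leaf 299 1629 (.leaf 205 1609 .nil)) .nil))) (.cons 299 (.leaf 202 1623 (.cons 228 (.leaf 204 1629 (.cons 248 (.leaf 249 1794 (.cons 224 (.leaf 247 1786 (.cons 199 (.leaf 200 1595 (.cons 223 (.leaf 198 1587 (.cons 296 (.leaf 272 1599 (.cons 298 (.leaf 322 1814 (.cons 297 (.leaf 276 2177 (.cons 295 (.leaf 274 2169 (.cons 319 (.leaf 320 2362 (.leaf 318 2354 .nil)) .nil)) .nil))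 .nil)) .nil)) .nil)) .nil)) .nil)) .nil)) .nil)) .nil)) .nil)))))))
noncomputable def t237 : T := .cons 229 (.cons 206 (.leaf 205 1617 (.cons 230 (.leaf 250 1810 (.leaf 207 1625 .nil)) .nil)) (.cons 206 (.leaf 205 1617 (.cons 230 (.leaf 207 1625 (.cons 254 (.leaf 253 1808 (.leaf 255 1816 .nil)) .nil)) .nil)) (.cons 205 (.leaf 206 1617 (.cons 204 (.leaf 299 1629 (.leaf 225 1609 .nil)) .nil)) (.cons 250 (.leaf 230 1810 (.leaf 249 1802 .nil)) .nil)))) (.cons 229 (.cons 206 (.leaf 205 1617 (.cons 230 (.leaf 250 1810 (.leaf 207 1625 .nil)) .nil)) (.cons 206 (.leaf 205 1617 (.cons 230 (.leaf 207 1625 (.cons 254 (.leaf 253 1808 (.leaf 255 1816 .nil)) .nil)) .nil)) (.cons 205 (.leaf 206 1617 (.cons 204 (.leaf 225 1609 (.cons 180 (.leaf 156 1246 (.cons 253 (.leaf 254 1808 (.leaf 277 1447 .nil)) .nil)) .nil)) .nil)) (.cons 250 (.leaf 230 1810 (.leaf 249 1802 .nil)) .nil)))) (.cons 225 (.cons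 248 (.leaf 249 1794 (.cons 224 (.leaf 247 1786 (.cons 250 (.leaf 223 1784 (.cons 229 (.leaf 230 1810 (.cons 205 (.leaf 206 1617 (.cons 299 (.leaf 323 1815 (.cons 298 (.leaf 322 1814 (.cons 274 (.leaf 201 1615 (.cons 297 (.leaf 321 1806 (.cons 276 (.leaf 277 2186 (.leaf 296 2177 .nil)) .nil)) .nil)) .nil)) .nil)) .nil)) .nil)) .nil)) .nil)) .nil)) (.cons 200 (.leaf 201 1603 (.cons 224 (.leaf 199 1595 (.cons 223 (.leaf 250 1784 (.cons 247 (.leaf 248 1786 (.leaf 246 1778 .nil)) .nil)) .nil)) .nil)) (.cons 200 (.leaf 201 1603 (.cons 224 (.leaf 199 1595 (.cons 250 (.leaf 223 1784 (.cons 229 (.leaf 230 1810 (.leaf 249 1802 .nil)) .nil)) .nil)) .nil)) (.cons 248 (.leaf 249 1794 (.cons 200 (.leaf 201 1603 (.cons 224 (.leaf 199 1595 (.leaf 247 1786 .nil)) .nil)) .nil)) (.cons 249 (.leaf 248 1794 (.cons 229 (.leaf 250 1802 (.cons 206 (.leaf 205 1617 (.cons 230 (.leaf 207 1625 (.cons 254 (.leaf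 253 1808 (.leaf 255 1816 .nil)) .nil)) .nil)) .nil)) .nil)) .nil))))) (.cons 204 (.leaf 299 1629 (.cons 205 (.leaf 225 1609 (.cons 206 (.leaf 207 1626 (.leaf 229 1617 .nil)) .nil)) .nil)) (.cons 299 (.leaf 204 1629 (.cons 298 (.leaf 322 1814 (.cons 323 (.leaf 250 1815 (.cons 348 (.leaf 324 2012 (.cons 347 (.leaf 372 2204 (.cons 370 (.leaf 346 2198 (.cons 371 (.leaf 274 2199 (.leaf 394 2390 .nil)) .nil)) .nil)) .nil)) .nil)) .nil)) .nil)) .nil))))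
noncomputable def t238 : T := .cons 224 (.leaf 223 1784 (.cons 248 (.leaf 247 1786 (.cons 249 (.leaf 276 1984 (.leaf 228 1793 .nil)) .nil)) .nil)) (.cons 202 (.leaf 178 1428 (.cons 224 (.leaf 223 1784 (.cons 248 (.leaf 247 1786 (.cons 274 (.cons 201 (.leaf 177 1423 (.leaf 298 1615 .nil)) (.cons 297 (.leaf 273 1614 (.cons 298 (.leaf 322 1813 (.leaf 321 1806 .nil)) .nil)) (.cons 201 (.leaf 177 1423 (.cons 228 (.leaf 229 1611 (.cons 204 (.leaf 205 1609 (.cons 156 (.leaf 180 1246 (.cons 272 (.leaf 296 1605 (.cons 273 (.leaf 271 1977 (.leaf 297 1614 .nil)) .nil)) .nil)) .nil)) .nil)) .nil)) .nil))) .nil)) .nil)) .nil)) (.cons 202 (.leaf 178 1428 (.cons 223 (.leaf 224 1784 (.cons 274 (.cons 297 (.leaf 273 1614 (.cons 298 (.leaf 322 1813 (.leaf 201 1615 .nil)) .nil)) (.cons 201 (.leaf 177 1423 (.cons 228 (.leaf 229 1611 (.cons 204 (.leaf 205 1609 (.cons 273 (.leaf 297 1614 (.cons 272 (.leaf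 271 1977 (.cons 296 (.leaf 295 2170 (.leaf 249 1606 .nil)) .nil)) .nil)) .nil)) .nil)) .nil)) (.cons 297 (.leaf 273 1614 (.cons 298 (.leaf 322 1813 (.leaf 321 1806 .nil)) .nil)) (.cons 201 (.leaf 177 1423 (.leaf 298 1615 .nil)) .nil)))) .nil)) .nil)) (.cons 202 (.leaf 178 1428 (.cons 274 (.cons 273 (.leaf 297 1614 (.cons 272 (.leaf 271 1977 (.cons 248 (.leaf 247 1979 (.cons 249 (.leaf 276 1984 (.leaf 228 1793 .nil)) .nil)) .nil)) .nil)) (.cons 201 (.leaf 177 1423 (.leaf 298 1615 .nil)) .nil)) .nil)) (.cons 202 (.leaf 178 1428 (.cons 224 (.leaf 223 1784 (.cons 248 (.leaf 247 1786 (.cons 249 (.leaf 276 1984 (.cons 272 (.leaf 271 1978 (.cons 201 (.leaf 177 1414 (.leaf 296 1605 .nil)) .nil)) .nil)) .nil)) .nil)) .nil)) .nil))))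
noncomputable def t239 : T := .cons 204 (.leaf 205 1609 (.cons 201 (.leaf 200 1603 (.cons 156 (.leaf 180 1246 (.cons 250 (.cons 177 (.leaf 153 1228 (.cons 178 (.leaf 202 1428 (.cons 154 (.leaf 249 1229 (.cons 106 (.leaf 130 846 (.cons 155 (.leaf 157 1226 (.cons 176 (.leaf 179 1217 (.leaf 175 1209 .nil)) .nil)) .nil)) .nil)) .nil)) .nil)) (.cons 177 (.leaf 153 1228 (.cons 274 (.leaf 298 1615 (.leaf 249 1420 .nil)) .nil)) (.cons 177 (.leaf 153 1228 (.cons 202 (.leaf 178 1428 (.leaf 229 1611 .nil)) .nil)) (.cons 229 (.leaf 230 1810 (.leaf 202 1611 .nil)) .nil)))) .nil)) .nil)) .nil)) (.cons 205 (.leaf 204 1609 (.cons 229 (.leaf 206 1617 (.cons 250 (.leaf 230 1810 (.leaf 249 1802 .nil)) .nil)) .nil)) (.cons 204 (.leaf 205 1609 (.cons 201 (.leaf 200 1603 (.cons 156 (.leaf 180 1246 (.cons 250 (.cons 177 (.leaf 153 1228 (.cons 178 (.leaf 202 1428 (.cons 154 (.leaf 249 1229 (.cons 106 (.leaf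 130 846 (.cons 155 (.leaf 157 1226 (.cons 176 (.leaf 179 1217 (.leaf 175 1209 .nil)) .nil)) .nil)) .nil)) .nil)) .nil)) (.cons 177 (.leaf 153 1228 (.cons 274 (.leaf 298 1615 (.leaf 249 1420 .nil)) .nil)) (.cons 202 (.leaf 178 1428 (.cons 274 (.leaf 298 1615 (.cons 273 (.leaf 297 1614 (.cons 272 (.leaf 271 1977 (.cons 296 (.leaf 295 2170 (.leaf 249 1606 .nil)) .nil)) .nil)) .nil)) .nil)) (.cons 202 (.leaf 178 1428 (.cons 177 (.leaf 153 1228 (.leaf 274 1423 .nil)) .nil)) .nil)))) .nil)) .nil)) .nil)) (.cons 201 (.leaf 200 1603 (.cons 202 (.leaf 229 1611 (.cons 178 (.leaf 250 1428 (.leaf 154 1236 .nil)) .nil)) .nil)) (.cons 201 (.leaf 200 1603 (.cons 205 (.leaf 204 1609 (.cons 229 (.leaf 202 1611 (.leaf 206 1617 .nil)) .nil)) .nil)) .nil))))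
noncomputable def t240 : T := .cons 223 (.cons 200 (.leaf 199 1595 (.cons 201 (.leaf 228 1603 (.cons 222 (.leaf 202 1585 (.leaf 221 1577 .nil)) .nil)) .nil)) (.cons 246 (.leaf 247 1778 (.cons 222 (.leaf 245 1770 (.cons 201 (.leaf 202 1585 (.cons 200 (.leaf 228 1603 (.leaf 221 1577 .nil)) .nil)) .nil)) .nil)) (.cons 198 (.leaf 199 1587 (.cons 222 (.leaf 197 1579 (.cons 246 (.leaf 247 1778 (.leaf 245 1770 .nil)) .nil)) .nil)) (.cons 199 (.leaf 200 1595 (.leaf 198 1587 .nil)) .nil)))) (.cons 248 (.leaf 247 1786 (.cons 249 (.leaf 228 1794 (.cons 273 (.cons 297 (.leaf 202 1613 (.leaf 321 1799 .nil)) (.cons 274 (.leaf 276 1987 (.cons 201 (.leaf 298 1612 (.cons 272 (.leaf 177 1414 (.leaf 296 1605 .nil)) .nil)) .nil)) .nil)) .nil)) .nil)) (.cons 200 (.leaf 199 1595 (.cons 249 (.cons 176 (.leaf 152 1220 (.cons 273 (.leaf 201 1415 (.leaf 297 1607 .nil)) .nil)) (.cons 228 (.leaf 201 1603 (.leaf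 248 1794 .nil)) (.cons 176 (.leaf 152 1220 (.cons 248 (.leaf 228 1794 (.leaf 273 1412 .nil)) .nil)) .nil))) .nil)) (.cons 199 (.leaf 200 1595 (.cons 223 (.leaf 198 1587 (.cons 247 (.leaf 248 1786 (.leaf 246 1778 .nil)) .nil)) .nil)) .nil)))
noncomputable def t241 : T := .cons 224 (.cons 223 (.leaf 250 1784 (.cons 247 (.leaf 248 1786 (.leaf 246 1778 .nil)) .nil)) (.cons 200 (.leaf 199 1595 (.cons 249 (.cons 176 (.leaf 152 1220 (.cons 273 (.leaf 201 1415 (.leaf 297 1607 .nil)) .nil)) (.cons 228 (.leaf 201 1603 (.leaf 248 1794 .nil)) (.cons 176 (.leaf 152 1220 (.cons 248 (.leaf 247 1786 (.leaf 228 1794 .nil)) .nil)) .nil))) .nil)) (.cons 199 (.leaf 200 1595 (.cons 223 (.leaf 250 1784 (.leaf 198 1587 .nil)) .nil)) .nil))) (.cons 224 t240 (.cons 224 (.cons 250 (.leaf 223 1784 (.cons 178 (.leaf 202 1428 (.cons 248 (.leaf 247 1786 (.cons 249 (.leaf 276 1984 (.cons 272 (.leaf 271 1978 (.cons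 201 (.leaf 177 1414 (.leaf 296 1605 .nil)) .nil)) .nil)) .nil)) .nil)) .nil)) (.cons 248 (.leaf 247 1786 (.cons 200 (.leaf 199 1595 (.cons 249 (.cons 176 (.leaf 152 1220 (.leaf 273 1412 .nil)) (.cons 152 (.leaf 176 1220 (.cons 250 (.leaf 276 1984 (.cons 272 (.leaf 271 1978 (.cons 201 (.leaf 177 1413 (.leaf 296 1605 .nil)) .nil)) .nil)) .nil)) (.cons 250 (.leaf 276 1984 (.cons 178 (.leaf 202 1428 (.cons 272 (.leaf 271 1978 (.cons 201 (.leaf 177 1413 (.leaf 296 1605 .nil)) .nil)) .nil)) .nil)) .nil))) .nil)) .nil)) (.cons 199 (.leaf 200 1595 (.cons 223 (.leaf 198 1587 (.cons 247 (.leaf 248 1786 (.leaf 246 1778 .nil)) .nil)) .nil)) (.cons 223 (.leaf 250 1784 (.cons 199 (.leaf 200 1595 (.leaf 198 1587 .nil)) .nil)) .nil)))) (.cons 228 (.cons 201 (.leaf 200 1603 (.cons 205 (.leaf 204 1609 (.cons 229 (.leaf 202 1611 (.leaf 206 1617 .nil)) .nil)) .nil)) (.cons 249 (.leaf 248 1794 (.cons 205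 (.leaf 204 1609 (.cons 229 (.leaf 206 1617 (.leaf 250 1802 .nil)) .nil)) .nil)) (.cons 249 (.leaf 248 1794 (.cons 201 (.leaf 200 1603 (.cons 204 (.leaf 205 1609 (.cons 180 (.leaf 156 1246 (.cons 202 (.cons 178 (.leaf 250 1428 (.leaf 154 1236 .nil)) (.cons 273 (.leaf 297 1613 (.cons 274 (.leaf 298 1612 (.cons 177 (.leaf 250 1420 (.cons 152 (.leaf 176 1223 (.cons 153 (.leaf 129 1036 (.leaf 128 1031 .nil)) .nil)) .nil)) .nil)) .nil)) (.cons 178 (.leaf 154 1236 (.leaf 273 1421 .nil)) .nil))) .nil)) .nil)) .nil)) .nil)) (.cons 249 (.leaf 248 1794 (.cons 201 (.leaf 200 1603 (.cons 202 (.leaf 229 1611 (.cons 178 (.leaf 250 1428 (.leaf 154 1236 .nil)) .nil)) .nil)) .nil)) .nil)))) (.cons 224 (.cons 223 (.leaf 250 1784 (.cons 200 (.leaf 199 1595 (.cons 201 (.leaf 228 1603 (.cons 222 (.leaf 202 1585 (.leaf 221 1577 .nil)) .nil)) .nil)) .nil)) (.cons 200 (.leaf 199 1595 (.cons 201 (.leaf 228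 1603 (.cons 248 (.leaf 247 1786 (.cons 177 (.leaf 153 1222 (.leaf 272 1413 .nil)) .nil)) .nil)) .nil)) (.cons 223 (.leaf 250 1784 (.cons 247 (.leaf 248 1786 (.leaf 246 1778 .nil)) .nil)) .nil))) (.cons 228 t239 (.cons 224 (.cons 199 (.leaf 200 1595 (.cons 223 (.leaf 250 1784 (.leaf 198 1587 .nil)) .nil)) (.cons 199 (.leaf 200 1595 (.cons 223 (.leaf 198 1587 (.cons 247 (.leaf 248 1786 (.leaf 246 1778 .nil)) .nil)) .nil)) (.cons 199 (.leaf 200 1595 (.cons 248 (.leaf 247 1786 (.cons 228 (.leaf 249 1794 (.cons 205 (.leaf 204 1609 (.cons 229 (.leaf 206 1617 (.cons 254 (.leaf 253 1808 (.cons 230 (.leaf 250 1810 (.leaf 255 1816 .nil)) .nil)) .nil)) .nil)) .nil)) .nil)) .nil)) (.cons 223 (.leaf 250 1784 (.cons 247 (.leaf 248 1786 (.leaf 246 1778 .nil)) .nil)) .nil)))) (.cons 250 t238 .nil)))))))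
noncomputable def t242 : T := .cons 299 (.cons 228 (.leaf 204 1629 (.cons 202 (.leaf 226 1623 (.cons 203 (.leaf 178 1431 (.cons 298 (.leaf 274 1622 (.leaf 322 1814 .nil)) .nil)) .nil)) .nil)) (.cons 226 (.leaf 202 1623 (.cons 228 (.leaf 204 1629 (.cons 250 (.leaf 323 1815 (.cons 229 (.leaf 230 1810 (.leaf 249 1802 .nil)) .nil)) .nil)) .nil)) (.cons 228 (.leaf 204 1629 (.cons 323 (.cons 322 (.leaf 298 1814 (.leaf 346 2006 .nil)) (.cons 348 (.leaf 324 2012 (.cons 347 (.leaf 372 2204 (.cons 274 (.leaf 250 2007 (.cons 370 (.leaf 346 2198 (.cons 371 (.leaf 298 2199 (.leaf 394 2390 .nil)) .nil)) .nil)) .nil)) .nil)) (.cons 346 (.leaf 322 2006 (.cons 347 (.leaf 370 2198 (.cons 348 (.leaf 324 2012 (.leaf 372 2204 .nil)) .nil)) .nil)) (.cons 298 (.leaf 322 1814 (.cons 348 (.leaf 324 2012 (.cons 347 (.leaf 372 2204 (.cons 274 (.leaf 203 1622 (.leaf 250 2007 .nil)) .nil)) .nil)) .nil)) .nil))))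 .nil)) (.cons 298 (.leaf 322 1814 (.cons 202 (.leaf 226 1623 (.cons 203 (.leaf 178 1431 (.leaf 274 1622 .nil)) .nil)) .nil)) .nil)))) (.cons 226 (.cons 202 (.leaf 299 1623 (.cons 178 (.leaf 250 1428 (.leaf 154 1236 .nil)) .nil)) (.cons 225 t241 (.cons 228 t237 (.cons 225 t236 .nil)))) (.cons 203 (.cons 202 (.leaf 178 1431 (.cons 204 (.leaf 180 1437 (.cons 201 (.cons 176 (.leaf 177 1411 (.cons 200 (.leaf 228 1600 (.leaf 175 1403 .nil)) .nil)) (.cons 176 (.leaf 177 1411 (.cons 200 (.leaf 175 1403 (.cons 224 (.leaf 223 1594 (.leaf 225 1602 .nil)) .nil)) .nil)) (.cons 176 (.leaf 177 1411 (.cons 224 (.leaf 225 1602 (.cons 229 (.leaf 228 1608 (.cons 205 (.leaf 230 1616 (.cons 182 (.leaf 181 1425 (.cons 206 (.leaf 226 1618 (.leaf 183 1433 .nil)) .nil)) .nil)) .nil)) .nil)) .nil)) (.cons 228 (.leaf 200 1600 (.leaf 229 1608 .nil)) .nil)))) .nil)) .nil)) (.cons 274 (.leaf 298 1622 (.cons 179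 (.leaf 250 1430 (.cons 180 (.leaf 204 1437 (.leaf 156 1245 .nil)) .nil)) .nil)) (.cons 274 (.leaf 298 1622 (.cons 178 (.leaf 202 1431 (.cons 179 (.leaf 154 1239 (.leaf 250 1430 .nil)) .nil)) .nil)) .nil))) (.cons 203 t233 (.cons 203 t232 (.cons 203 (.cons 202 (.leaf 178 1431 (.cons 204 (.leaf 180 1437 (.cons 228 (.leaf 299 1629 (.cons 201 (.leaf 200 1600 (.leaf 229 1608 .nil)) .nil)) .nil)) .nil)) (.cons 178 (.leaf 202 1431 (.cons 179 (.leaf 154 1239 (.cons 274 (.leaf 298 1622 (.leaf 250 1430 .nil)) .nil)) .nil)) (.cons 180 (.leaf 204 1437 (.cons 179 (.leaf 156 1245 (.cons 274 (.leaf 298 1622 (.leaf 250 1430 .nil)) .nil)) .nil)) .nil))) (.cons 203 t231 (.cons 203 (.cons 202 (.leaf 178 1431 (.cons 298 (.leaf 274 1622 (.cons 299 (.leaf 226 1623 (.leaf 322 1814 .nil)) .nil)) .nil)) (.cons 204 (.leaf 180 1437 (.cons 298 (.leaf 274 1622 (.cons 299 (.leaf 228 1629 (.leaf 322 1814 .nil))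 .nil)) .nil)) (.cons 178 (.leaf 202 1431 (.cons 179 (.leaf 154 1239 (.cons 180 (.leaf 204 1437 (.leaf 156 1245 .nil)) .nil)) .nil)) .nil))) (.cons 204 (.cons 228 (.leaf 299 1629 (.cons 180 (.leaf 203 1437 (.leaf 156 1246 .nil)) .nil)) (.cons 299 (.leaf 228 1629 (.cons 226 (.leaf 202 1623 (.cons 323 (.leaf 250 1815 (.cons 322 (.leaf 298 1814 (.leaf 346 2006 .nil)) .nil)) .nil)) .nil)) (.cons 203 (.leaf 180 1437 (.cons 202 (.leaf 178 1431 (.cons 201 (.cons 176 (.leaf 177 1411 (.cons 200 (.leaf 228 1600 (.leaf 175 1403 .nil)) .nil)) (.cons 176 (.leaf 177 1411 (.cons 200 (.leaf 175 1403 (.cons 224 (.leaf 225 1602 (.leaf 223 1594 .nil)) .nil)) .nil)) (.cons 176 (.leaf 177 1411 (.cons 224 (.leaf 225 1602 (.cons 229 (.leaf 228 1608 (.cons 205 (.leaf 230 1616 (.cons 182 (.leaf 181 1425 (.cons 206 (.leaf 226 1618 (.leaf 183 1433 .nil)) .nil)) .nil)) .nil)) .nil)) .nil)) (.cons 228 (.leaf 200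 1600 (.leaf 229 1608 .nil)) .nil)))) .nil)) .nil)) (.cons 203 (.leaf 180 1437 (.cons 202 (.leaf 178 1431 (.cons 226 (.leaf 299 1623 (.cons 205 (.leaf 206 1618 (.leaf 225 1610 .nil)) .nil)) .nil)) .nil)) .nil)))) (.cons 299 t230 .nil)))))))))
noncomputable def t243 : T := .cons 225 (.leaf 224 1795 (.cons 228 (.leaf 229 1801 (.cons 204 (.leaf 180 1438 (.cons 273 (.leaf 272 1986 (.cons 276 (.leaf 277 1992 (.cons 205 (.leaf 181 1445 (.cons 226 (.leaf 253 1803 (.leaf 227 1609 .nil)) .nil)) .nil)) .nil)) .nil)) .nil)) .nil)) (.cons 273 (.leaf 272 1986 (.cons 229 (.leaf 228 1801 (.cons 253 (.leaf 230 1809 (.leaf 274 1994 .nil)) .nil)) .nil)) (.cons 277 (.leaf 276 1992 (.cons 224 (.leaf 225 1795 (.cons 253 (.leaf 278 2000 (.cons 230 (.leaf 229 1809 (.cons 254 (.leaf 274 2002 (.leaf 231 1817 .nil)) .nil)) .nil)) .nil)) .nil)) (.cons 276 (.leaf 277 1992 (.cons 225 (.leaf 224 1795 (.cons 228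 (.leaf 229 1801 (.cons 204 (.leaf 180 1438 (.cons 205 (.leaf 181 1445 (.cons 226 (.leaf 227 1609 (.cons 273 (.leaf 272 1986 (.cons 297 (.leaf 321 1805 (.cons 296 (.leaf 274 2178 (.leaf 320 1798 .nil)) .nil)) .nil)) .nil)) .nil)) .nil)) .nil)) .nil)) .nil)) (.cons 277 (.leaf 276 1992 (.cons 224 (.leaf 225 1795 (.cons 253 (.leaf 278 2000 (.cons 273 (.leaf 272 1986 (.leaf 274 1994 .nil)) .nil)) .nil)) .nil)) .nil))))
noncomputable def t244 : T := .cons 252 (.cons 225 (.leaf 224 1795 (.cons 228 (.leaf 229 1801 (.cons 204 (.leaf 180 1438 (.cons 273 (.leaf 272 1986 (.cons 276 (.leaf 248 1984 (.leaf 277 1992 .nil)) .nil)) .nil)) .nil)) .nil)) (.cons 273 (.leaf 272 1986 (.cons 229 (.leaf 228 1801 (.cons 253 (.leaf 230 1809 (.leaf 274 1994 .nil)) .nil)) .nil)) (.cons 224 (.leaf 225 1795 (.cons 229 (.leaf 228 1801 (.cons 253 (.leaf 230 1809 (.cons 277 (.leaf 276 1992 (.leaf 278 2000 .nil)) .nil))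 .nil)) .nil)) (.cons 276 (.leaf 248 1984 (.leaf 277 1992 .nil)) .nil)))) (.cons 252 t243 (.cons 248 (.cons 247 (.leaf 274 1976 (.cons 223 (.leaf 224 1787 (.leaf 222 1779 .nil)) .nil)) (.cons 224 (.leaf 223 1787 (.cons 225 (.leaf 252 1795 (.cons 227 (.leaf 228 1793 (.cons 272 (.leaf 271 1978 (.cons 201 (.leaf 177 1414 (.leaf 296 1605 .nil)) .nil)) .nil)) .nil)) .nil)) (.cons 247 (.leaf 274 1976 (.cons 227 (.leaf 228 1793 (.leaf 226 1785 .nil)) .nil)) .nil))) (.cons 248 (.leaf 276 1984 (.cons 247 (.leaf 274 1976 (.cons 223 (.leaf 224 1787 (.leaf 222 1779 .nil)) .nil)) .nil)) (.cons 248 (.leaf 276 1984 (.cons 224 (.leaf 223 1787 (.cons 225 (.leaf 252 1795 (.cons 227 (.leaf 228 1793 (.cons 272 (.leaf 271 1978 (.cons 201 (.leaf 177 1414 (.leaf 296 1605 .nil)) .nil)) .nil)) .nil)) .nil)) .nil)) (.cons 248 (.leaf 276 1984 (.cons 247 (.leaf 274 1976 (.cons 227 (.leaf 228 1793 (.leaf 226 1785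 .nil)) .nil)) .nil)) .nil)))))
noncomputable def t245 : T := .cons 248 (.leaf 276 1984 (.cons 247 (.leaf 274 1976 (.cons 223 (.leaf 224 1787 (.leaf 222 1779 .nil)) .nil)) .nil)) (.cons 252 (.cons 224 (.leaf 225 1795 (.cons 229 (.leaf 228 1801 (.cons 253 (.leaf 230 1809 (.cons 277 (.leaf 276 1992 (.leaf 278 2000 .nil)) .nil)) .nil)) .nil)) (.cons 273 (.leaf 272 1986 (.cons 229 (.leaf 228 1801 (.cons 253 (.leaf 230 1809 (.leaf 274 1994 .nil)) .nil)) .nil)) (.cons 225 (.leaf 224 1795 (.cons 228 (.leaf 229 1801 (.cons 204 (.leaf 180 1438 (.cons 273 (.leaf 272 1986 (.cons 276 (.leaf 277 1992 (.cons 205 (.leaf 181 1445 (.cons 226 (.leaf 227 1609 (.cons 297 (.leaf 202 1613 (.leaf 321 1805 .nil)) .nil)) .nil)) .nil)) .nil)) .nil)) .nil)) .nil)) (.cons 224 (.leaf 225 1795 (.cons 273 (.leaf 272 1986 (.cons 253 (.leaf 274 1994 (.cons 230 (.leaf 229 1809 (.cons 254 (.leaf 231 1817 (.cons 278 (.leaf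 277 2000 (.leaf 279 2008 .nil)) .nil)) .nil)) .nil)) .nil)) .nil)) (.cons 224 (.leaf 225 1795 (.cons 273 (.leaf 272 1986 (.cons 253 (.leaf 274 1994 (.cons 277 (.leaf 276 1992 (.leaf 278 2000 .nil)) .nil)) .nil)) .nil)) .nil))))) (.cons 248 (.cons 247 (.leaf 274 1976 (.cons 223 (.leaf 224 1787 (.leaf 222 1779 .nil)) .nil)) (.cons 224 (.leaf 223 1787 (.cons 225 (.leaf 252 1795 (.cons 227 (.leaf 228 1793 (.cons 272 (.leaf 271 1978 (.cons 201 (.leaf 177 1414 (.leaf 296 1605 .nil)) .nil)) .nil)) .nil)) .nil)) (.cons 247 (.leaf 274 1976 (.cons 227 (.leaf 228 1793 (.leaf 226 1785 .nil)) .nil)) .nil))) (.cons 248 (.leaf 276 1984 (.cons 224 (.leaf 223 1787 (.cons 225 (.leaf 252 1795 (.cons 227 (.leaf 228 1793 (.cons 272 (.leaf 271 1978 (.cons 201 (.leaf 177 1414 (.leaf 296 1605 .nil)) .nil)) .nil)) .nil)) .nil)) .nil)) (.cons 248 (.leaf 276 1984 (.cons 247 (.leaf 274 1976 (.cons 227 (.leaf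 228 1793 (.leaf 226 1785 .nil)) .nil)) .nil)) .nil))))
noncomputable def t246 : T := .cons 276 (.leaf 277 1992 (.cons 228 (.leaf 229 1801 (.cons 204 (.leaf 180 1438 (.cons 203 (.leaf 179 1439 (.cons 273 (.leaf 272 1986 (.cons 225 (.leaf 224 1795 (.cons 205 (.leaf 181 1445 (.cons 274 (.leaf 253 1993 (.cons 201 (.leaf 177 1420 (.leaf 298 1612 .nil)) .nil)) .nil)) .nil)) .nil)) .nil)) .nil)) .nil)) .nil)) (.cons 273 (.leaf 272 1986 (.cons 229 (.leaf 228 1801 (.cons 253 (.leaf 230 1809 (.leaf 274 1994 .nil)) .nil)) .nil)) (.cons 277 (.leaf 276 1992 (.cons 224 (.leaf 225 1795 (.cons 229 (.leaf 228 1801 (.cons 253 (.leaf 230 1809 (.leaf 278 2000 .nil)) .nil)) .nil)) .nil)) (.cons 277 (.leaf 276 1992 (.cons 224 (.leaf 225 1795 (.cons 253 (.leaf 278 2000 (.cons 230 (.leaf 229 1809 (.cons 254 (.leaf 274 2002 (.leaf 231 1817 .nil)) .nil)) .nil)) .nil)) .nil)) (.cons 277 (.leaf 276 1992 (.cons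 224 (.leaf 225 1795 (.cons 253 (.leaf 278 2000 (.cons 273 (.leaf 272 1986 (.leaf 274 1994 .nil)) .nil)) .nil)) .nil)) (.cons 276 (.leaf 277 1992 (.cons 228 (.leaf 229 1801 (.cons 204 (.leaf 180 1438 (.cons 203 (.leaf 179 1439 (.cons 273 (.leaf 272 1986 (.cons 225 (.leaf 224 1795 (.cons 205 (.leaf 181 1445 (.cons 274 (.cons 201 (.leaf 177 1420 (.leaf 298 1612 .nil)) (.cons 201 (.leaf 177 1420 (.cons 200 (.leaf 176 1415 (.cons 202 (.leaf 178 1421 (.leaf 227 1600 .nil)) .nil)) .nil)) (.cons 298 (.leaf 227 1622 (.leaf 322 1807 .nil)) .nil))) .nil)) .nil)) .nil)) .nil)) .nil)) .nil)) .nil)) .nil)))))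
noncomputable def t247 : T := .cons 248 (.leaf 276 1984 (.cons 224 (.leaf 223 1787 (.cons 225 (.leaf 252 1795 (.cons 272 (.leaf 271 1978 (.cons 201 (.leaf 177 1414 (.leaf 296 1605 .nil)) .nil)) .nil)) .nil)) .nil)) (.cons 252 (.cons 277 (.leaf 276 1992 (.cons 253 (.leaf 278 2000 (.cons 225 (.leaf 224 1795 (.leaf 226 1803 .nil)) .nil)) .nil)) (.cons 273 (.leaf 272 1986 (.cons 224 (.leaf 225 1795 (.cons 253 (.leaf 274 1994 (.cons 230 (.leaf 229 1809 (.cons 254 (.leaf 231 1817 (.cons 226 (.leaf 227 1811 (.cons 178 (.leaf 202 1428 (.cons 255 (.leaf 276 2010 (.cons 279 (.leaf 278 2008 (.leaf 280 2016 .nil)) .nil)) .nil)) .nil)) .nil)) .nil)) .nil)) .nil)) .nil)) (.cons 273 (.leaf 272 1986 (.cons 224 (.leaf 225 1795 (.cons 253 (.leaf 274 1994 (.cons 230 (.leaf 229 1809 (.cons 254 (.leaf 231 1817 (.cons 278 (.leaf 277 2000 (.leaf 279 2008 .nil)) .nil)) .nil)) .nil)) .nil)) .nil)) (.cons 277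 (.leaf 276 1992 (.cons 253 (.leaf 278 2000 (.cons 273 (.leaf 272 1986 (.leaf 274 1994 .nil)) .nil)) .nil)) (.cons 276 (.leaf 277 1992 (.cons 273 (.leaf 272 1986 (.cons 225 (.leaf 224 1795 (.cons 297 (.cons 226 (.leaf 202 1613 (.leaf 321 1805 .nil)) (.cons 296 (.leaf 274 2178 (.leaf 320 1798 .nil)) .nil)) .nil)) .nil)) .nil)) .nil))))) (.cons 248 (.cons 247 (.leaf 274 1976 (.cons 223 (.leaf 224 1787 (.leaf 222 1779 .nil)) .nil)) (.cons 224 (.leaf 223 1787 (.cons 225 (.leaf 252 1795 (.cons 272 (.leaf 271 1978 (.cons 201 (.leaf 177 1414 (.leaf 296 1605 .nil)) .nil)) .nil)) .nil)) (.cons 247 (.leaf 274 1976 (.cons 271 (.leaf 272 1978 (.leaf 270 1970 .nil)) .nil)) .nil))) (.cons 276 (.leaf 248 1984 (.cons 277 (.leaf 274 1995 (.leaf 278 2003 .nil)) .nil)) .nil)))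
noncomputable def t248 : T := .cons 276 (.leaf 248 1984 (.cons 277 (.leaf 274 1995 (.leaf 278 2003 .nil)) .nil)) (.cons 252 (.cons 277 (.leaf 276 1992 (.cons 253 (.leaf 278 2000 (.cons 273 (.leaf 272 1986 (.leaf 274 1994 .nil)) .nil)) .nil)) (.cons 277 (.leaf 276 1992 (.cons 228 (.leaf 229 1801 (.cons 180 (.leaf 204 1438 (.cons 253 (.leaf 278 2000 (.cons 254 (.leaf 274 2002 (.cons 227 (.leaf 226 1811 (.leaf 255 1819 .nil)) .nil)) .nil)) .nil)) .nil)) .nil)) (.cons 273 (.leaf 272 1986 (.cons 229 (.leaf 228 1801 (.cons 253 (.leaf 230 1809 (.leaf 274 1994 .nil)) .nil)) .nil)) (.cons 276 (.leaf 277 1992 (.cons 273 (.leaf 272 1986 (.cons 228 (.leaf 229 1801 (.cons 204 (.leaf 180 1438 (.cons 203 (.leaf 179 1439 (.cons 205 (.leaf 181 1445 (.cons 206 (.cons 227 (.leaf 207 1626 (.leaf 226 1618 .nil)) (.cons 183 (.leaf 182 1433 (.cons 207 (.leaf 184 1441 (.cons 231 (.leaf 230 1624 (.leaf 232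 1632 .nil)) .nil)) .nil)) (.cons 182 (.leaf 183 1433 (.cons 226 (.leaf 227 1618 (.cons 202 (.leaf 178 1428 (.leaf 225 1610 .nil)) .nil)) .nil)) .nil))) .nil)) .nil)) .nil)) .nil)) .nil)) .nil)) .nil)))) (.cons 248 (.cons 227 (.leaf 228 1793 (.cons 247 (.leaf 274 1976 (.leaf 226 1785 .nil)) .nil)) (.cons 228 (.leaf 227 1793 (.cons 252 (.leaf 229 1801 (.cons 272 (.leaf 271 1978 (.leaf 273 1986 .nil)) .nil)) .nil)) (.cons 247 (.leaf 274 1976 (.cons 271 (.leaf 272 1978 (.leaf 270 1970 .nil)) .nil)) .nil))) (.cons 248 (.leaf 276 1984 (.cons 228 (.leaf 227 1793 (.cons 252 (.leaf 229 1801 (.cons 272 (.leaf 271 1978 (.leaf 273 1986 .nil)) .nil)) .nil)) .nil)) .nil)))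
noncomputable def t249 : T := .cons 225 (.leaf 224 1795 (.cons 228 (.leaf 229 1801 (.cons 204 (.leaf 180 1438 (.cons 273 (.leaf 272 1986 (.cons 276 (.leaf 277 1992 (.cons 205 (.leaf 181 1445 (.cons 226 (.leaf 253 1803 (.leaf 227 1609 .nil)) .nil)) .nil)) .nil)) .nil)) .nil)) .nil)) (.cons 224 (.leaf 225 1795 (.cons 229 (.leaf 228 1801 (.cons 253 (.leaf 230 1809 (.cons 254 (.leaf 274 2002 (.cons 278 (.leaf 277 2000 (.leaf 279 2008 .nil)) .nil)) .nil)) .nil)) .nil)) (.cons 273 (.leaf 272 1986 (.cons 229 (.leaf 228 1801 (.cons 253 (.leaf 230 1809 (.leaf 274 1994 .nil)) .nil)) .nil)) (.cons 276 (.leaf 277 1992 (.cons 225 (.leaf 224 1795 (.cons 228 (.leaf 229 1801 (.cons 204 (.leaf 180 1438 (.cons 205 (.leaf 181 1445 (.cons 226 (.leaf 227 1609 (.cons 178 (.leaf 202 1428 (.cons 273 (.leaf 272 1986 (.cons 297 (.leaf 321 1805 (.cons 296 (.leaf 274 2178 (.leaf 320 1798 .nil)) .nil)) .nil))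 .nil)) .nil)) .nil)) .nil)) .nil)) .nil)) .nil)) (.cons 277 (.leaf 276 1992 (.cons 224 (.leaf 225 1795 (.cons 253 (.leaf 278 2000 (.cons 230 (.leaf 229 1809 (.cons 254 (.leaf 274 2002 (.leaf 231 1817 .nil)) .nil)) .nil)) .nil)) .nil)) (.cons 277 (.leaf 276 1992 (.cons 224 (.leaf 225 1795 (.cons 253 (.leaf 278 2000 (.cons 254 (.leaf 274 2002 (.cons 227 (.leaf 226 1811 (.cons 231 (.leaf 230 1817 (.cons 255 (.leaf 228 1819 (.leaf 232 1825 .nil)) .nil)) .nil)) .nil)) .nil)) .nil)) .nil)) .nil)))))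
noncomputable def t250 : T := .cons 224 (.leaf 225 1795 (.cons 229 (.leaf 228 1801 (.cons 253 (.leaf 230 1809 (.cons 254 (.leaf 274 2002 (.cons 278 (.leaf 277 2000 (.leaf 279 2008 .nil)) .nil)) .nil)) .nil)) .nil)) (.cons 225 (.leaf 224 1795 (.cons 226 (.leaf 253 1803 (.cons 178 (.leaf 202 1428 (.cons 228 (.leaf 229 1801 (.cons 204 (.leaf 180 1438 (.cons 227 (.leaf 205 1609 (.cons 201 (.leaf 200 1603 (.cons 177 (.leaf 154 1229 (.leaf 274 1420 .nil)) .nil)) .nil)) .nil)) .nil)) .nil)) .nil)) .nil)) (.cons 277 (.leaf 276 1992 (.cons 229 (.leaf 228 1801 (.cons 253 (.leaf 230 1809 (.leaf 278 2000 .nil)) .nil)) .nil)) (.cons 276 (.leaf 277 1992 (.cons 225 (.leaf 224 1795 (.cons 228 (.leaf 229 1801 (.cons 204 (.leaf 180 1438 (.cons 203 (.leaf 179 1439 (.cons 205 (.leaf 181 1445 (.cons 226 (.leaf 202 1610 (.leaf 227 1609 .nil)) .nil)) .nil)) .nil)) .nil)) .nil)) .nil)) (.cons 277 (.leaf 276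 1992 (.cons 224 (.leaf 225 1795 (.cons 253 (.leaf 278 2000 (.cons 230 (.leaf 229 1809 (.cons 254 (.leaf 274 2002 (.leaf 231 1817 .nil)) .nil)) .nil)) .nil)) .nil)) (.cons 277 (.leaf 276 1992 (.cons 224 (.leaf 225 1795 (.cons 253 (.leaf 278 2000 (.cons 254 (.leaf 274 2002 (.cons 227 (.leaf 226 1811 (.cons 231 (.leaf 230 1817 (.cons 255 (.leaf 228 1819 (.leaf 232 1825 .nil)) .nil)) .nil)) .nil)) .nil)) .nil)) .nil)) .nil)))))
noncomputable def t251 : T := .cons 276 (.leaf 277 1992 (.cons 273 (.leaf 272 1986 (.cons 228 (.leaf 229 1801 (.cons 204 (.leaf 180 1438 (.cons 203 (.leaf 179 1439 (.cons 205 (.leaf 181 1445 (.cons 206 (.cons 227 (.leaf 207 1626 (.leaf 226 1618 .nil)) (.cons 183 (.leaf 182 1433 (.cons 207 (.leaf 184 1441 (.cons 231 (.leaf 230 1624 (.leaf 232 1632 .nil)) .nil)) .nil)) (.cons 182 (.leaf 183 1433 (.cons 226 (.leaf 227 1618 (.cons 202 (.leaf 178 1428 (.cons 297 (.leaf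 321 1805 (.leaf 274 1614 .nil)) .nil)) .nil)) .nil)) .nil))) .nil)) .nil)) .nil)) .nil)) .nil)) .nil)) (.cons 273 (.leaf 272 1986 (.cons 229 (.leaf 228 1801 (.cons 253 (.leaf 230 1809 (.leaf 274 1994 .nil)) .nil)) .nil)) (.cons 277 (.leaf 276 1992 (.cons 228 (.leaf 229 1801 (.cons 180 (.leaf 204 1438 (.cons 253 (.leaf 278 2000 (.cons 254 (.leaf 274 2002 (.cons 227 (.leaf 226 1811 (.leaf 255 1819 .nil)) .nil)) .nil)) .nil)) .nil)) .nil)) (.cons 277 (.leaf 276 1992 (.cons 253 (.leaf 278 2000 (.cons 273 (.leaf 272 1986 (.leaf 274 1994 .nil)) .nil)) .nil)) (.cons 277 (.leaf 276 1992 (.cons 229 (.leaf 228 1801 (.cons 253 (.leaf 230 1809 (.leaf 278 2000 .nil)) .nil)) .nil)) .nil))))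
noncomputable def t252 : T := .cons 276 (.leaf 248 1984 (.cons 277 (.leaf 274 1995 (.leaf 278 2003 .nil)) .nil)) (.cons 252 (.cons 225 (.leaf 224 1795 (.cons 228 (.leaf 229 1801 (.cons 204 (.leaf 180 1438 (.cons 273 (.leaf 272 1986 (.cons 276 (.leaf 277 1992 (.cons 203 (.leaf 179 1439 (.cons 205 (.leaf 181 1445 (.cons 202 (.leaf 226 1610 (.cons 178 (.leaf 201 1421 (.leaf 177 1419 .nil)) .nil)) .nil)) .nil)) .nil)) .nil)) .nil)) .nil)) .nil)) (.cons 277 (.leaf 276 1992 (.cons 224 (.leaf 225 1795 (.cons 253 (.leaf 278 2000 (.cons 230 (.leaf 229 1809 (.cons 254 (.leaf 274 2002 (.leaf 231 1817 .nil)) .nil)) .nil)) .nil)) .nil)) (.cons 273 (.leaf 272 1986 (.cons 224 (.leaf 225 1795 (.cons 253 (.leaf 274 1994 (.cons 229 (.leaf 228 1801 (.leaf 230 1809 .nil)) .nil)) .nil)) .nil)) (.cons 277 (.leaf 276 1992 (.cons 253 (.leaf 278 2000 (.cons 273 (.leaf 272 1986 (.leaf 274 1994 .nil)) .nil))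 .nil)) .nil)))) (.cons 252 (.cons 224 (.leaf 225 1795 (.cons 248 (.leaf 223 1787 (.cons 272 (.leaf 271 1978 (.leaf 273 1986 .nil)) .nil)) .nil)) (.cons 225 (.leaf 224 1795 (.cons 226 (.leaf 253 1803 (.cons 202 (.leaf 178 1428 (.cons 228 (.leaf 229 1801 (.cons 204 (.leaf 180 1438 (.cons 203 (.leaf 205 1610 (.cons 274 (.leaf 179 1429 (.cons 201 (.leaf 177 1420 (.leaf 298 1615 .nil)) .nil)) .nil)) .nil)) .nil)) .nil)) .nil)) .nil)) (.cons 273 (.leaf 272 1986 (.cons 229 (.leaf 228 1801 (.cons 253 (.leaf 230 1809 (.leaf 274 1994 .nil)) .nil)) .nil)) .nil))) (.cons 248 (.leaf 276 1984 (.cons 224 (.leaf 223 1787 (.cons 225 (.leaf 252 1795 (.cons 272 (.leaf 271 1978 (.cons 201 (.leaf 177 1414 (.leaf 296 1605 .nil)) .nil)) .nil)) .nil)) .nil)) .nil)))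
noncomputable def t253 : T := .cons 225 (.leaf 224 1795 (.cons 228 (.leaf 229 1801 (.cons 204 (.leaf 180 1438 (.cons 276 (.leaf 277 1992 (.cons 203 (.leaf 179 1439 (.cons 205 (.leaf 181 1445 (.cons 226 (.leaf 253 1803 (.leaf 202 1610 .nil)) .nil)) .nil)) .nil)) .nil)) .nil)) .nil)) (.cons 225 (.leaf 224 1795 (.cons 226 (.leaf 253 1803 (.cons 178 (.leaf 202 1428 (.cons 228 (.leaf 229 1801 (.cons 204 (.leaf 180 1438 (.cons 227 (.leaf 205 1609 (.cons 201 (.leaf 200 1603 (.cons 177 (.leaf 154 1229 (.leaf 274 1420 .nil)) .nil)) .nil)) .nil)) .nil)) .nil)) .nil)) .nil)) (.cons 277 (.leaf 276 1992 (.cons 229 (.leaf 228 1801 (.cons 253 (.leaf 230 1809 (.leaf 278 2000 .nil)) .nil)) .nil)) (.cons 277 (.leaf 276 1992 (.cons 224 (.leaf 225 1795 (.cons 253 (.leaf 278 2000 (.cons 230 (.leaf 229 1809 (.cons 254 (.leaf 274 2002 (.leaf 231 1817 .nil)) .nil)) .nil)) .nil)) .nil)) (.cons 277 (.leaf 276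 1992 (.cons 224 (.leaf 225 1795 (.cons 253 (.leaf 278 2000 (.cons 254 (.leaf 274 2002 (.cons 227 (.leaf 226 1811 (.cons 231 (.leaf 230 1817 (.cons 255 (.leaf 228 1819 (.leaf 232 1825 .nil)) .nil)) .nil)) .nil)) .nil)) .nil)) .nil)) (.cons 276 (.leaf 277 1992 (.cons 225 (.leaf 224 1795 (.cons 228 (.leaf 229 1801 (.cons 204 (.leaf 180 1438 (.cons 203 (.leaf 179 1439 (.cons 205 (.leaf 181 1445 (.cons 226 (.leaf 202 1610 (.leaf 227 1609 .nil)) .nil)) .nil)) .nil)) .nil)) .nil)) .nil)) .nil)))))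
noncomputable def t254 : T := .cons 252 (.cons 224 (.leaf 225 1795 (.cons 277 (.leaf 276 1992 (.cons 253 (.leaf 278 2000 (.cons 230 (.leaf 229 1809 (.cons 254 (.leaf 274 2002 (.leaf 231 1817 .nil)) .nil)) .nil)) .nil)) .nil)) (.cons 228 (.leaf 229 1801 (.cons 180 (.leaf 204 1438 (.cons 224 (.leaf 225 1795 (.cons 248 (.leaf 223 1787 (.leaf 227 1793 .nil)) .nil)) .nil)) .nil)) (.cons 276 (.leaf 248 1984 (.leaf 277 1992 .nil)) .nil))) (.cons 252 t253 (.cons 248 (.cons 247 (.leaf 274 1976 (.cons 223 (.leaf 224 1787 (.leaf 222 1779 .nil)) .nil)) (.cons 224 (.leaf 223 1787 (.cons 225 (.leaf 252 1795 (.cons 227 (.leaf 228 1793 (.cons 272 (.leaf 271 1978 (.cons 201 (.leaf 177 1414 (.leaf 296 1605 .nil)) .nil)) .nil)) .nil)) .nil)) (.cons 247 (.leaf 274 1976 (.cons 227 (.leaf 228 1793 (.leaf 226 1785 .nil)) .nil)) .nil))) (.cons 248 (.leaf 276 1984 (.cons 247 (.leaf 274 1976 (.cons 223 (.leaf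 224 1787 (.leaf 222 1779 .nil)) .nil)) .nil)) (.cons 248 (.leaf 276 1984 (.cons 224 (.leaf 223 1787 (.cons 225 (.leaf 252 1795 (.cons 227 (.leaf 228 1793 (.cons 272 (.leaf 271 1978 (.cons 201 (.leaf 177 1414 (.leaf 296 1605 .nil)) .nil)) .nil)) .nil)) .nil)) .nil)) (.cons 248 (.leaf 276 1984 (.cons 247 (.leaf 274 1976 (.cons 227 (.leaf 228 1793 (.leaf 226 1785 .nil)) .nil)) .nil)) .nil)))))
noncomputable def t255 : T := .cons 273 (.leaf 272 1986 (.cons 224 (.leaf 225 1795 (.cons 253 (.leaf 274 1994 (.cons 278 (.leaf 277 2000 (.cons 254 (.leaf 279 2008 (.cons 227 (.leaf 226 1811 (.cons 231 (.leaf 230 1817 (.cons 255 (.leaf 228 1819 (.leaf 232 1825 .nil)) .nil)) .nil)) .nil)) .nil)) .nil)) .nil)) .nil)) (.cons 225 (.leaf 224 1795 (.cons 226 (.leaf 253 1803 (.cons 178 (.leaf 202 1428 (.cons 228 (.leaf 229 1801 (.cons 204 (.leaf 180 1438 (.cons 227 (.leaf 205 1609 (.cons 201 (.leaf 200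 1603 (.cons 177 (.leaf 154 1229 (.leaf 274 1420 .nil)) .nil)) .nil)) .nil)) .nil)) .nil)) .nil)) .nil)) (.cons 273 (.leaf 272 1986 (.cons 228 (.leaf 229 1801 (.cons 180 (.leaf 204 1438 (.cons 253 (.leaf 274 1994 (.cons 278 (.leaf 277 2000 (.cons 254 (.leaf 279 2008 (.cons 227 (.leaf 226 1811 (.leaf 255 1819 .nil)) .nil)) .nil)) .nil)) .nil)) .nil)) .nil)) (.cons 225 (.leaf 224 1795 (.cons 253 (.leaf 226 1803 (.cons 273 (.leaf 272 1986 (.leaf 274 1994 .nil)) .nil)) .nil)) (.cons 273 (.leaf 272 1986 (.cons 225 (.leaf 224 1795 (.cons 228 (.leaf 229 1801 (.cons 204 (.leaf 180 1438 (.cons 226 (.cons 202 (.leaf 178 1428 (.leaf 297 1613 .nil)) (.cons 205 (.leaf 227 1609 (.cons 297 (.leaf 321 1805 (.cons 298 (.leaf 322 1804 (.cons 201 (.leaf 274 1612 (.cons 176 (.leaf 200 1415 (.cons 177 (.leaf 152 1223 (.leaf 153 1228 .nil)) .nil)) .nil)) .nil)) .nil)) .nil)) (.cons 202 (.leaf 178 1428 (.cons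 205 (.leaf 203 1610 (.leaf 227 1609 .nil)) .nil)) .nil))) .nil)) .nil)) .nil)) .nil)) (.cons 225 (.leaf 224 1795 (.cons 226 (.leaf 253 1803 (.cons 178 (.leaf 202 1428 (.cons 228 (.leaf 229 1801 (.cons 204 (.leaf 180 1438 (.cons 227 (.leaf 205 1609 (.cons 201 (.leaf 200 1603 (.cons 177 (.leaf 154 1229 (.leaf 153 1228 .nil)) .nil)) .nil)) .nil)) .nil)) .nil)) .nil)) .nil)) (.cons 273 (.leaf 272 1986 (.cons 224 (.leaf 225 1795 (.cons 229 (.leaf 228 1801 (.cons 253 (.leaf 230 1809 (.leaf 274 1994 .nil)) .nil)) .nil)) .nil)) .nil))))))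
noncomputable def t256 : T := .cons 248 (.cons 224 (.leaf 223 1787 (.cons 225 (.leaf 252 1795 (.cons 227 (.leaf 228 1793 (.cons 272 (.leaf 271 1978 (.cons 201 (.leaf 177 1414 (.leaf 296 1605 .nil)) .nil)) .nil)) .nil)) .nil)) (.cons 247 (.leaf 274 1976 (.cons 223 (.leaf 224 1787 (.leaf 222 1779 .nil)) .nil)) (.cons 247 (.leaf 274 1976 (.cons 227 (.leaf 228 1793 (.leaf 226 1785 .nil)) .nil)) .nil))) (.cons 252 t255 (.cons 248 (.cons 227 (.leaf 228 1793 (.cons 223 (.leaf 224 1787 (.cons 247 (.leaf 274 1976 (.leaf 222 1779 .nil)) .nil)) .nil)) (.cons 227 (.leaf 228 1793 (.cons 224 (.leaf 223 1787 (.cons 272 (.leaf 271 1978 (.cons 200 (.cons 273 (.leaf 176 1412 (.leaf 297 1604 .nil)) (.cons 175 (.leaf 199 1407 (.cons 176 (.leaf 151 1215 (.cons 177 (.leaf 153 1221 (.leaf 201 1413 .nil)) .nil)) .nil)) (.cons 175 (.leaf 199 1407 (.cons 201 (.leaf 177 1413 (.cons 225 (.leaf 296 1605 (.cons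 273 (.leaf 297 1604 (.cons 202 (.leaf 178 1421 (.cons 203 (.leaf 204 1602 (.cons 274 (.leaf 298 1612 (.leaf 179 1430 .nil)) .nil)) .nil)) .nil)) .nil)) .nil)) .nil)) .nil))) .nil)) .nil)) .nil)) (.cons 247 (.leaf 274 1976 (.cons 223 (.leaf 224 1787 (.leaf 222 1779 .nil)) .nil)) (.cons 227 (.leaf 228 1793 (.cons 223 (.leaf 224 1787 (.cons 247 (.leaf 222 1779 (.leaf 226 1785 .nil)) .nil)) .nil)) (.cons 247 (.leaf 274 1976 (.cons 227 (.leaf 228 1793 (.leaf 226 1785 .nil)) .nil)) .nil))))) (.cons 252 (.cons 228 (.leaf 229 1801 (.cons 180 (.leaf 204 1438 (.cons 248 (.leaf 227 1793 (.cons 272 (.leaf 271 1978 (.leaf 273 1986 .nil)) .nil)) .nil)) .nil)) (.cons 225 (.leaf 224 1795 (.cons 226 (.leaf 253 1803 (.cons 202 (.leaf 178 1428 (.cons 273 (.leaf 272 1986 (.leaf 297 1613 .nil)) .nil)) .nil)) .nil)) (.cons 224 (.leaf 225 1795 (.cons 228 (.leaf 229 1801 (.cons 248 (.leaf 223 1787 (.leaf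 227 1793 .nil)) .nil)) .nil)) .nil))) (.cons 252 (.cons 229 (.leaf 228 1801 (.cons 253 (.leaf 230 1809 (.cons 225 (.leaf 224 1795 (.leaf 226 1803 .nil)) .nil)) .nil)) (.cons 229 (.leaf 228 1801 (.cons 253 (.leaf 230 1809 (.cons 273 (.leaf 272 1986 (.leaf 274 1994 .nil)) .nil)) .nil)) (.cons 228 (.leaf 229 1801 (.cons 180 (.leaf 204 1438 (.cons 272 (.leaf 273 1986 (.cons 248 (.leaf 271 1978 (.cons 223 (.leaf 224 1787 (.cons 247 (.leaf 274 1976 (.leaf 222 1779 .nil)) .nil)) .nil)) .nil)) .nil)) .nil)) (.cons 273 (.leaf 272 1986 (.cons 224 (.leaf 225 1795 (.cons 248 (.leaf 223 1787 (.cons 274 (.leaf 247 1976 (.leaf 253 1994 .nil)) .nil)) .nil)) .nil)) .nil)))) (.cons 248 (.cons 223 (.leaf 224 1787 (.cons 247 (.leaf 274 1976 (.leaf 222 1779 .nil)) .nil)) (.cons 223 (.leaf 224 1787 (.cons 228 (.leaf 227 1793 (.cons 252 (.leaf 229 1801 (.cons 272 (.leaf 271 1978 (.leaf 273 1986 .nil)) .nil))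 .nil)) .nil)) (.cons 227 (.leaf 228 1793 (.cons 247 (.leaf 274 1976 (.cons 271 (.leaf 272 1978 (.leaf 270 1970 .nil)) .nil)) .nil)) .nil))) (.cons 248 (.cons 227 (.leaf 228 1793 (.cons 223 (.leaf 224 1787 (.cons 247 (.leaf 274 1976 (.leaf 222 1779 .nil)) .nil)) .nil)) (.cons 224 (.leaf 223 1787 (.cons 228 (.leaf 227 1793 (.cons 252 (.leaf 225 1795 (.leaf 229 1801 .nil)) .nil)) .nil)) (.cons 247 (.leaf 274 1976 (.cons 223 (.leaf 224 1787 (.leaf 222 1779 .nil)) .nil)) (.cons 227 (.leaf 228 1793 (.cons 247 (.leaf 274 1976 (.leaf 226 1785 .nil)) .nil)) .nil)))) (.cons 248 (.cons 247 (.leaf 274 1976 (.cons 227 (.leaf 228 1793 (.leaf 226 1785 .nil)) .nil)) (.cons 228 (.leaf 227 1793 (.cons 252 (.leaf 229 1801 (.cons 272 (.leaf 271 1978 (.leaf 273 1986 .nil)) .nil)) .nil)) (.cons 247 (.leaf 274 1976 (.cons 271 (.leaf 272 1978 (.leaf 270 1970 .nil)) .nil)) .nil))) (.cons 248 (.cons 247 (.leaf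 274 1976 (.cons 223 (.leaf 224 1787 (.leaf 222 1779 .nil)) .nil)) (.cons 224 (.leaf 223 1787 (.cons 225 (.leaf 252 1795 (.cons 272 (.leaf 271 1978 (.cons 201 (.leaf 177 1414 (.leaf 296 1605 .nil)) .nil)) .nil)) .nil)) (.cons 247 (.leaf 274 1976 (.cons 271 (.leaf 272 1978 (.leaf 270 1970 .nil)) .nil)) .nil))) .nil))))))))
noncomputable def t257 : T := .cons 321 (.leaf 224 1799 (.cons 272 (.leaf 345 1991 (.cons 320 (.leaf 344 1990 (.cons 322 (.leaf 346 1996 (.cons 225 (.leaf 296 1797 (.leaf 298 1804 .nil)) .nil)) .nil)) .nil)) .nil)) (.cons 225 (.cons 298 (.leaf 201 1612 (.leaf 322 1804 .nil)) (.cons 202 (.leaf 226 1613 (.cons 178 (.leaf 201 1421 (.cons 203 (.leaf 227 1431 (.cons 296 (.leaf 320 1798 (.cons 295 (.leaf 272 2170 (.leaf 294 2161 .nil)) .nil)) .nil)) .nil)) .nil)) (.cons 202 (.leaf 226 1613 (.cons 296 (.leaf 320 1798 (.cons 295 (.leaf 272 2170 (.leaf 298 2169 .nil)) .nil))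 .nil)) .nil))) (.cons 321 (.leaf 224 1799 (.cons 272 (.leaf 345 1991 (.cons 295 (.leaf 296 2170 (.cons 294 (.leaf 271 2162 (.cons 320 (.leaf 344 1990 (.cons 322 (.leaf 346 1996 (.leaf 319 2355 .nil)) .nil)) .nil)) .nil)) .nil)) .nil)) (.cons 321 (.leaf 224 1799 (.cons 272 (.leaf 345 1991 (.cons 320 (.leaf 344 1990 (.cons 322 (.leaf 346 1996 (.cons 225 (.leaf 298 1804 (.cons 201 (.leaf 177 1414 (.cons 202 (.leaf 178 1421 (.leaf 226 1613 .nil)) .nil)) .nil)) .nil)) .nil)) .nil)) .nil)) (.cons 321 (.leaf 224 1799 (.cons 320 (.leaf 344 1990 (.cons 225 (.leaf 296 1798 (.cons 298 (.leaf 201 1612 (.leaf 322 1804 .nil)) .nil)) .nil)) .nil)) (.cons 224 (.leaf 321 1799 (.cons 200 (.leaf 176 1412 (.leaf 225 1607 .nil)) .nil)) .nil)))))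
noncomputable def t258 : T := .cons 200 (.leaf 176 1412 (.cons 297 (.leaf 225 1607 (.leaf 321 1799 .nil)) .nil)) (.cons 297 (.leaf 321 1799 (.cons 225 (.cons 296 (.leaf 320 1798 (.cons 201 (.leaf 272 1605 (.cons 177 (.leaf 153 1222 (.cons 178 (.leaf 154 1229 (.leaf 202 1421 .nil)) .nil)) .nil)) .nil)) (.cons 226 (.leaf 202 1613 (.cons 227 (.leaf 228 1794 (.leaf 247 1786 .nil)) .nil)) (.cons 296 (.leaf 320 1798 (.cons 272 (.leaf 201 1605 (.cons 199 (.leaf 223 1599 (.cons 295 (.leaf 319 1790 (.cons 294 (.leaf 293 2153 (.cons 270 (.leaf 269 2155 (.cons 298 (.leaf 322 1804 (.leaf 271 2160 .nil)) .nil)) .nil)) .nil)) .nil)) .nil)) .nil)) .nil))) .nil)) (.cons 200 (.leaf 176 1412 (.cons 272 (.cons 177 (.leaf 201 1413 (.cons 199 (.leaf 175 1407 (.cons 271 (.leaf 295 1598 (.cons 270 (.leaf 269 1961 (.cons 294 (.leaf 293 2154 (.cons 223 (.leaf 296 1599 (.leaf 247 1590 .nil)) .nil)) .nil)) .nil))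 .nil)) .nil)) (.cons 199 (.leaf 175 1407 (.cons 223 (.leaf 296 1599 (.cons 271 (.leaf 295 1598 (.cons 270 (.leaf 269 1961 (.cons 294 (.leaf 293 2154 (.leaf 247 1590 .nil)) .nil)) .nil)) .nil)) .nil)) (.cons 201 (.leaf 177 1413 (.cons 199 (.leaf 175 1407 (.cons 271 (.leaf 295 1598 (.cons 270 (.leaf 269 1961 (.cons 294 (.leaf 293 2154 (.cons 223 (.leaf 247 1590 (.cons 222 (.leaf 221 1768 (.leaf 202 1586 .nil)) .nil)) .nil)) .nil)) .nil)) .nil)) .nil)) (.cons 201 (.leaf 177 1413 (.cons 225 (.leaf 296 1605 (.cons 202 (.leaf 178 1421 (.cons 203 (.leaf 223 1594 (.leaf 204 1602 .nil)) .nil)) .nil)) .nil)) (.cons 201 (.leaf 177 1413 (.cons 225 (.leaf 296 1605 (.cons 199 (.leaf 175 1407 (.cons 198 (.leaf 197 1576 (.leaf 226 1584 .nil)) .nil)) .nil)) .nil)) .nil))))) .nil)) (.cons 200 (.leaf 176 1412 (.cons 297 (.leaf 321 1799 (.leaf 272 1604 .nil)) .nil)) .nil)))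
noncomputable def t259 : T := .cons 250 (.leaf 276 1984 (.cons 227 (.leaf 228 1793 (.cons 247 (.leaf 274 1976 (.leaf 226 1785 .nil)) .nil)) .nil)) (.cons 273 (.cons 274 (.leaf 276 1987 (.cons 247 (.leaf 272 1979 (.leaf 246 1968 .nil)) .nil)) (.cons 224 t258 (.cons 274 (.leaf 276 1987 (.cons 247 (.leaf 246 1968 (.cons 225 (.cons 298 (.leaf 201 1612 (.cons 227 (.leaf 203 1622 (.cons 226 (.leaf 228 1794 (.leaf 224 1786 .nil)) .nil)) .nil)) (.cons 226 (.cons 227 (.leaf 228 1794 (.leaf 224 1786 .nil)) (.cons 202 (.leaf 297 1613 (.cons 178 (.leaf 154 1230 (.leaf 201 1421 .nil)) .nil)) .nil)) (.cons 297 (.cons 224 (.leaf 200 1607 (.leaf 321 1799 .nil)) (.cons 202 (.leaf 226 1613 (.cons 296 (.leaf 320 1798 (.cons 295 (.leaf 298 2169 (.leaf 294 2161 .nil)) .nil)) .nil)) .nil)) (.cons 298 (.leaf 201 1612 (.cons 322 (.leaf 346 2005 (.leaf 297 1804 .nil)) .nil)) .nil)))) .nil)) .nil)) (.cons 274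 (.leaf 276 1987 (.cons 297 t257 .nil)) .nil)))) (.cons 250 (.cons 227 (.leaf 228 1793 (.cons 247 (.leaf 274 1976 (.leaf 226 1785 .nil)) .nil)) (.cons 227 (.leaf 228 1793 (.cons 224 (.leaf 223 1787 (.cons 272 (.leaf 271 1978 (.cons 200 (.cons 273 (.leaf 176 1412 (.leaf 297 1604 .nil)) (.cons 175 (.leaf 199 1407 (.cons 176 (.leaf 151 1215 (.cons 177 (.leaf 153 1221 (.leaf 201 1413 .nil)) .nil)) .nil)) (.cons 175 (.leaf 199 1407 (.cons 201 (.leaf 177 1413 (.cons 225 (.leaf 296 1605 (.cons 273 (.leaf 297 1604 (.cons 202 (.leaf 178 1421 (.cons 203 (.leaf 204 1602 (.cons 274 (.leaf 298 1612 (.leaf 179 1430 .nil)) .nil)) .nil)) .nil)) .nil)) .nil)) .nil)) .nil))) .nil)) .nil)) .nil)) (.cons 223 (.leaf 224 1787 (.cons 247 (.leaf 274 1976 (.leaf 222 1779 .nil)) .nil)) (.cons 223 (.leaf 224 1787 (.cons 247 (.leaf 222 1779 (.cons 271 (.leaf 272 1978 (.leaf 270 1970 .nil)) .nil)) .nil)) .nil))))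 (.cons 250 (.leaf 276 1984 (.cons 223 (.leaf 224 1787 (.cons 247 (.leaf 222 1779 (.cons 271 (.leaf 272 1978 (.leaf 270 1970 .nil)) .nil)) .nil)) .nil)) (.cons 250 (.leaf 276 1984 (.cons 227 (.leaf 228 1793 (.cons 224 (.leaf 223 1787 (.cons 272 (.leaf 271 1978 (.cons 200 (.cons 273 (.leaf 176 1412 (.leaf 297 1604 .nil)) (.cons 175 (.leaf 199 1407 (.cons 176 (.leaf 151 1215 (.cons 177 (.leaf 153 1221 (.leaf 201 1413 .nil)) .nil)) .nil)) (.cons 175 (.leaf 199 1407 (.cons 201 (.leaf 177 1413 (.cons 225 (.leaf 296 1605 (.cons 273 (.leaf 297 1604 (.cons 202 (.leaf 178 1421 (.cons 203 (.leaf 204 1602 (.cons 274 (.leaf 298 1612 (.leaf 179 1430 .nil)) .nil)) .nil)) .nil)) .nil)) .nil)) .nil)) .nil))) .nil)) .nil)) .nil)) .nil)) .nil))))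
noncomputable def t260 : T := .cons 248 (.leaf 276 1984 (.cons 227 (.leaf 228 1793 (.cons 226 (.leaf 247 1785 (.cons 178 (.leaf 202 1428 (.cons 272 (.leaf 271 1978 (.cons 252 (.leaf 273 1986 (.cons 253 (.leaf 225 1803 (.leaf 254 1811 .nil)) .nil)) .nil)) .nil)) .nil)) .nil)) .nil)) (.cons 252 (.cons 229 (.leaf 228 1801 (.cons 253 (.leaf 230 1809 (.cons 225 (.leaf 224 1795 (.leaf 226 1803 .nil)) .nil)) .nil)) (.cons 229 (.leaf 228 1801 (.cons 253 (.leaf 230 1809 (.cons 277 (.leaf 276 1992 (.leaf 278 2000 .nil)) .nil)) .nil)) (.cons 225 (.leaf 224 1795 (.cons 226 (.leaf 253 1803 (.cons 202 (.leaf 178 1428 (.cons 273 (.leaf 272 1986 (.leaf 297 1613 .nil)) .nil)) .nil)) .nil)) (.cons 228 (.leaf 229 1801 (.cons 204 (.leaf 180 1438 (.cons 225 (.leaf 224 1795 (.cons 276 (.leaf 277 1992 (.cons 179 (.leaf 203 1439 (.cons 205 (.leaf 181 1445 (.cons 226 (.leaf 227 1609 (.cons 202 (.leaf 178 1428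 (.cons 273 (.leaf 272 1986 (.leaf 297 1613 .nil)) .nil)) .nil)) .nil)) .nil)) .nil)) .nil)) .nil)) .nil)) .nil)))) (.cons 252 (.cons 224 (.leaf 225 1795 (.cons 228 (.leaf 229 1801 (.cons 248 (.leaf 223 1787 (.leaf 227 1793 .nil)) .nil)) .nil)) (.cons 225 (.leaf 224 1795 (.cons 226 (.leaf 253 1803 (.cons 202 (.leaf 178 1428 (.cons 273 (.leaf 272 1986 (.leaf 297 1613 .nil)) .nil)) .nil)) .nil)) (.cons 228 (.leaf 229 1801 (.cons 180 (.leaf 204 1438 (.cons 248 (.leaf 227 1793 (.cons 272 (.leaf 271 1978 (.leaf 273 1986 .nil)) .nil)) .nil)) .nil)) .nil))) (.cons 248 (.leaf 276 1984 (.cons 223 (.leaf 224 1787 (.cons 227 (.leaf 228 1793 (.cons 247 (.leaf 222 1779 (.leaf 226 1785 .nil)) .nil)) .nil)) .nil)) (.cons 248 (.leaf 276 1984 (.cons 223 (.leaf 224 1787 (.cons 228 (.leaf 227 1793 (.cons 252 (.leaf 229 1801 (.cons 272 (.leaf 271 1978 (.leaf 273 1986 .nil)) .nil)) .nil)) .nil)) .nil))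 (.cons 248 (.leaf 276 1984 (.cons 223 (.leaf 224 1787 (.cons 247 (.leaf 222 1779 (.cons 271 (.leaf 272 1978 (.leaf 270 1970 .nil)) .nil)) .nil)) .nil)) .nil)))))
noncomputable def t261 : T := .cons 274 (.leaf 272 1985 (.cons 253 (.leaf 254 2002 (.leaf 276 1993 .nil)) .nil)) (.cons 250 (.cons 225 (.leaf 224 1795 (.cons 226 (.leaf 253 1803 (.cons 202 (.leaf 178 1428 (.leaf 297 1613 .nil)) .nil)) .nil)) (.cons 225 (.leaf 224 1795 (.cons 228 (.leaf 229 1801 (.cons 204 (.leaf 180 1438 (.cons 276 (.leaf 277 1992 (.cons 203 (.leaf 179 1439 (.cons 205 (.leaf 181 1445 (.cons 202 (.leaf 226 1610 (.cons 178 (.leaf 201 1421 (.leaf 177 1419 .nil)) .nil)) .nil)) .nil)) .nil)) .nil)) .nil)) .nil)) (.cons 253 (.leaf 274 1994 (.cons 229 (.leaf 228 1801 (.leaf 230 1809 .nil)) .nil)) .nil))) (.cons 250 (.leaf 272 1986 (.cons 225 (.leaf 224 1795 (.cons 226 (.leaf 253 1803 (.cons 202 (.leaf 178 1428 (.leaf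 297 1613 .nil)) .nil)) .nil)) .nil)) (.cons 250 (.leaf 272 1986 (.cons 225 (.leaf 224 1795 (.cons 228 (.leaf 229 1801 (.cons 204 (.leaf 180 1438 (.cons 276 (.leaf 277 1992 (.cons 203 (.leaf 179 1439 (.cons 205 (.leaf 181 1445 (.cons 202 (.leaf 226 1610 (.cons 178 (.leaf 201 1421 (.leaf 177 1419 .nil)) .nil)) .nil)) .nil)) .nil)) .nil)) .nil)) .nil)) .nil)) .nil)))
noncomputable def t262 : T := .cons 250 (.leaf 272 1986 (.cons 225 (.leaf 224 1795 (.cons 228 (.leaf 229 1801 (.cons 204 (.leaf 180 1438 (.cons 226 (.leaf 253 1803 (.cons 202 (.leaf 178 1428 (.leaf 297 1613 .nil)) .nil)) .nil)) .nil)) .nil)) .nil)) (.cons 274 (.leaf 272 1985 (.cons 253 (.leaf 254 2002 (.cons 225 (.cons 298 (.leaf 201 1612 (.cons 322 (.leaf 346 2005 (.leaf 297 1804 .nil)) .nil)) (.cons 226 (.cons 227 (.leaf 224 1792 (.leaf 228 1800 .nil)) (.cons 202 (.leaf 297 1613 (.cons 178 (.leaf 154 1230 (.leaf 201 1421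 .nil)) .nil)) .nil)) (.cons 297 (.cons 200 (.leaf 224 1607 (.cons 202 (.leaf 226 1613 (.cons 296 (.leaf 320 1798 (.cons 295 (.leaf 298 2169 (.leaf 294 2161 .nil)) .nil)) .nil)) .nil)) (.cons 224 (.leaf 200 1607 (.cons 226 (.leaf 227 1792 (.leaf 202 1613 .nil)) .nil)) (.cons 200 (.leaf 224 1607 (.cons 296 (.leaf 320 1798 (.cons 295 (.leaf 298 2169 (.leaf 294 2161 .nil)) .nil)) .nil)) (.cons 202 (.leaf 226 1613 (.cons 296 (.leaf 320 1798 (.cons 295 (.leaf 298 2169 (.leaf 294 2161 .nil)) .nil)) .nil)) .nil)))) (.cons 298 (.leaf 201 1612 (.cons 227 (.leaf 203 1622 (.cons 226 (.leaf 224 1792 (.leaf 228 1800 .nil)) .nil)) .nil)) .nil)))) .nil)) .nil)) (.cons 250 (.cons 225 (.leaf 224 1795 (.cons 228 (.leaf 229 1801 (.cons 204 (.leaf 180 1438 (.cons 226 (.leaf 253 1803 (.cons 202 (.leaf 178 1428 (.leaf 297 1613 .nil)) .nil)) .nil)) .nil)) .nil)) (.cons 225 (.leaf 224 1795 (.cons 228 (.leaf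 229 1801 (.cons 204 (.leaf 180 1438 (.cons 226 (.cons 202 (.leaf 178 1428 (.leaf 297 1613 .nil)) (.cons 205 (.leaf 227 1609 (.cons 297 (.leaf 321 1805 (.cons 298 (.leaf 322 1804 (.cons 201 (.leaf 274 1612 (.cons 176 (.leaf 200 1415 (.cons 177 (.leaf 152 1223 (.leaf 153 1228 .nil)) .nil)) .nil)) .nil)) .nil)) .nil)) (.cons 202 (.leaf 178 1428 (.cons 205 (.leaf 203 1610 (.leaf 227 1609 .nil)) .nil)) .nil))) .nil)) .nil)) .nil)) (.cons 253 (.leaf 274 1994 (.cons 229 (.leaf 228 1801 (.leaf 230 1809 .nil)) .nil)) (.cons 225 (.leaf 224 1795 (.cons 226 (.leaf 253 1803 (.cons 202 (.leaf 178 1428 (.leaf 297 1613 .nil)) .nil)) .nil)) .nil)))) (.cons 272 (.leaf 274 1985 (.leaf 250 1986 .nil)) .nil)))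
noncomputable def t263 : T := .cons 250 (.leaf 272 1986 (.cons 274 (.leaf 253 1994 (.cons 276 (.leaf 277 1992 (.cons 225 (.leaf 224 1795 (.cons 201 (.leaf 177 1420 (.leaf 298 1612 .nil)) .nil)) .nil)) .nil)) .nil)) (.cons 274 (.leaf 272 1985 (.cons 253 (.leaf 254 2002 (.leaf 276 1993 .nil)) .nil)) (.cons 250 (.leaf 272 1986 (.cons 277 (.leaf 276 1992 (.cons 229 (.leaf 228 1801 (.cons 253 (.leaf 230 1809 (.leaf 278 2000 .nil)) .nil)) .nil)) .nil)) (.cons 250 (.cons 274 (.leaf 253 1994 (.cons 276 (.leaf 277 1992 (.cons 225 (.leaf 224 1795 (.cons 201 (.leaf 177 1420 (.leaf 298 1612 .nil)) .nil)) .nil)) .nil)) (.cons 277 (.leaf 276 1992 (.cons 229 (.leaf 228 1801 (.cons 253 (.leaf 230 1809 (.leaf 278 2000 .nil)) .nil)) .nil)) (.cons 276 (.leaf 277 1992 (.cons 228 (.leaf 229 1801 (.cons 204 (.leaf 180 1438 (.cons 203 (.leaf 179 1439 (.cons 225 (.leaf 224 1795 (.cons 205 (.leaf 181 1445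 (.cons 274 (.cons 201 (.leaf 177 1420 (.leaf 298 1612 .nil)) (.cons 201 (.leaf 177 1420 (.cons 200 (.leaf 176 1415 (.cons 202 (.leaf 178 1421 (.leaf 227 1600 .nil)) .nil)) .nil)) (.cons 298 (.leaf 227 1622 (.leaf 322 1807 .nil)) .nil))) .nil)) .nil)) .nil)) .nil)) .nil)) .nil)) (.cons 274 (.leaf 253 1994 (.cons 225 (.leaf 224 1795 (.cons 201 (.leaf 177 1420 (.leaf 298 1612 .nil)) .nil)) .nil)) .nil)))) (.cons 272 (.leaf 274 1985 (.leaf 250 1986 .nil)) .nil))))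
noncomputable def t264 : T := .cons 274 (.leaf 272 1985 (.cons 253 (.leaf 254 2002 (.leaf 276 1993 .nil)) .nil)) (.cons 250 (.leaf 272 1986 (.cons 224 (.leaf 225 1795 (.cons 229 (.leaf 228 1801 (.cons 253 (.leaf 230 1809 (.cons 277 (.leaf 276 1992 (.leaf 278 2000 .nil)) .nil)) .nil)) .nil)) .nil)) (.cons 250 (.cons 225 (.leaf 224 1795 (.cons 228 (.leaf 229 1801 (.cons 204 (.leaf 180 1438 (.cons 276 (.leaf 277 1992 (.cons 205 (.leaf 181 1445 (.cons 226 (.leaf 253 1803 (.leaf 227 1609 .nil)) .nil)) .nil)) .nil)) .nil)) .nil)) (.cons 225 (.leaf 224 1795 (.cons 228 (.leaf 229 1801 (.cons 204 (.leaf 180 1438 (.cons 276 (.leaf 277 1992 (.cons 205 (.leaf 181 1445 (.cons 226 (.leaf 227 1609 (.cons 297 (.leaf 321 1805 (.cons 296 (.leaf 274 2178 (.leaf 320 1798 .nil)) .nil)) .nil)) .nil)) .nil)) .nil)) .nil)) .nil)) (.cons 253 (.leaf 274 1994 (.cons 229 (.leaf 228 1801 (.leaf 230 1809 .nil))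 .nil)) (.cons 253 (.leaf 274 1994 (.cons 277 (.leaf 276 1992 (.leaf 278 2000 .nil)) .nil)) .nil)))) (.cons 272 (.leaf 274 1985 (.leaf 250 1986 .nil)) .nil)))
noncomputable def t265 : T := .cons 250 (.leaf 272 1986 (.cons 225 (.leaf 224 1795 (.cons 228 (.leaf 229 1801 (.cons 204 (.leaf 180 1438 (.cons 276 (.leaf 277 1992 (.cons 203 (.leaf 179 1439 (.cons 205 (.leaf 181 1445 (.cons 202 (.leaf 226 1610 (.cons 178 (.leaf 227 1431 (.leaf 201 1421 .nil)) .nil)) .nil)) .nil)) .nil)) .nil)) .nil)) .nil)) .nil)) (.cons 274 (.leaf 272 1985 (.cons 253 (.leaf 254 2002 (.leaf 276 1993 .nil)) .nil)) (.cons 250 (.cons 225 (.leaf 224 1795 (.cons 228 (.leaf 229 1801 (.cons 204 (.leaf 180 1438 (.cons 276 (.leaf 277 1992 (.cons 203 (.leaf 179 1439 (.cons 205 (.leaf 181 1445 (.cons 202 (.leaf 226 1610 (.cons 178 (.leaf 227 1431 (.leaf 201 1421 .nil)) .nil)) .nil)) .nil)) .nil)) .nil)) .nil)) .nil)) (.cons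 224 (.leaf 225 1795 (.cons 229 (.leaf 228 1801 (.cons 253 (.leaf 230 1809 (.leaf 274 1994 .nil)) .nil)) .nil)) (.cons 253 (.leaf 274 1994 (.cons 229 (.leaf 228 1801 (.leaf 230 1809 .nil)) .nil)) (.cons 253 (.leaf 274 1994 (.cons 277 (.leaf 276 1992 (.leaf 278 2000 .nil)) .nil)) .nil)))) (.cons 272 (.leaf 274 1985 (.leaf 250 1986 .nil)) .nil)))
noncomputable def t266 : T := .cons 250 (.leaf 272 1986 (.cons 253 (.leaf 274 1994 (.cons 229 (.leaf 228 1801 (.leaf 230 1809 .nil)) .nil)) .nil)) (.cons 274 (.leaf 272 1985 (.cons 253 (.leaf 254 2002 (.leaf 276 1993 .nil)) .nil)) (.cons 250 (.leaf 272 1986 (.cons 277 (.leaf 276 1992 (.cons 229 (.leaf 228 1801 (.cons 253 (.leaf 230 1809 (.leaf 278 2000 .nil)) .nil)) .nil)) .nil)) (.cons 250 (.cons 253 (.leaf 274 1994 (.cons 229 (.leaf 228 1801 (.leaf 230 1809 .nil)) .nil)) (.cons 276 (.leaf 277 1992 (.cons 228 (.leaf 229 1801 (.cons 204 (.leaf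 180 1438 (.cons 203 (.leaf 179 1439 (.cons 205 (.leaf 181 1445 (.cons 206 (.cons 227 (.leaf 207 1626 (.leaf 226 1618 .nil)) (.cons 183 (.leaf 182 1433 (.cons 207 (.leaf 184 1441 (.cons 231 (.leaf 230 1624 (.leaf 232 1632 .nil)) .nil)) .nil)) (.cons 182 (.leaf 183 1433 (.cons 226 (.leaf 227 1618 (.cons 202 (.leaf 178 1428 (.cons 297 (.leaf 321 1805 (.leaf 274 1614 .nil)) .nil)) .nil)) .nil)) .nil))) .nil)) .nil)) .nil)) .nil)) .nil)) (.cons 277 (.leaf 276 1992 (.cons 229 (.leaf 228 1801 (.cons 253 (.leaf 230 1809 (.leaf 278 2000 .nil)) .nil)) .nil)) (.cons 253 (.leaf 274 1994 (.cons 277 (.leaf 276 1992 (.leaf 278 2000 .nil)) .nil)) .nil)))) (.cons 272 (.leaf 274 1985 (.leaf 250 1986 .nil)) .nil))))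
noncomputable def t267 : T := .cons 202 (.leaf 178 1428 (.cons 297 (.leaf 225 1613 (.leaf 321 1805 .nil)) .nil)) (.cons 297 (.leaf 321 1805 (.cons 225 (.cons 224 (.leaf 223 1784 (.leaf 252 1795 .nil)) (.cons 252 (.leaf 253 1803 (.cons 228 (.leaf 229 1801 (.cons 180 (.leaf 204 1438 (.cons 298 (.leaf 322 1804 (.cons 201 (.leaf 274 1612 (.cons 200 (.leaf 176 1415 (.leaf 227 1603 .nil)) .nil)) .nil)) .nil)) .nil)) .nil)) (.cons 224 (.leaf 223 1784 (.leaf 200 1607 .nil)) .nil))) .nil)) (.cons 202 (.leaf 178 1428 (.cons 252 (.cons 225 (.leaf 224 1795 (.leaf 253 1803 .nil)) (.cons 225 (.leaf 224 1795 (.cons 228 (.leaf 229 1801 (.cons 204 (.leaf 180 1438 (.cons 205 (.leaf 203 1610 (.leaf 227 1609 .nil)) .nil)) .nil)) .nil)) (.cons 228 (.leaf 229 1801 (.cons 180 (.leaf 204 1438 (.cons 253 (.leaf 274 1994 (.cons 254 (.leaf 227 1811 (.cons 230 (.leaf 231 1817 (.cons 255 (.leaf 276 2010 (.cons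 279 (.leaf 278 2008 (.leaf 280 2016 .nil)) .nil)) .nil)) .nil)) .nil)) .nil)) .nil)) .nil))) .nil)) (.cons 202 (.leaf 178 1428 (.cons 297 (.leaf 321 1805 (.leaf 274 1614 .nil)) .nil)) .nil)))
noncomputable def t268 : T := .cons 274 (.cons 321 (.leaf 226 1805 (.leaf 345 1997 .nil)) (.cons 321 (.leaf 345 1997 (.cons 276 (.leaf 277 1995 (.leaf 296 2178 .nil)) .nil)) (.cons 276 (.leaf 277 1995 (.leaf 296 2178 .nil)) .nil))) (.cons 274 (.cons 321 (.leaf 345 1997 (.cons 276 (.leaf 277 1995 (.leaf 296 2178 .nil)) .nil)) (.cons 321 (.leaf 345 1997 (.cons 320 (.leaf 344 1990 (.cons 225 (.leaf 296 1798 (.cons 298 (.leaf 201 1612 (.leaf 322 1804 .nil)) .nil)) .nil)) .nil)) (.cons 276 (.leaf 277 1995 (.cons 321 (.leaf 345 1997 (.cons 320 (.leaf 344 1990 (.cons 322 (.leaf 346 1996 (.cons 298 (.leaf 227 1813 (.leaf 225 1804 .nil)) .nil)) .nil)) .nil)) .nil)) (.cons 276 (.leaf 277 1995 (.leaf 296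 2178 .nil)) .nil)))) (.cons 225 (.cons 202 (.leaf 226 1613 (.cons 178 (.leaf 201 1421 (.cons 203 (.leaf 227 1431 (.cons 296 (.leaf 320 1798 (.cons 274 (.leaf 276 2178 (.cons 298 (.leaf 295 2169 (.leaf 322 1804 .nil)) .nil)) .nil)) .nil)) .nil)) .nil)) (.cons 298 (.leaf 322 1804 (.cons 200 (.leaf 224 1607 (.cons 201 (.leaf 176 1415 (.leaf 274 1612 .nil)) .nil)) .nil)) (.cons 226 (.leaf 202 1613 (.cons 224 (.leaf 223 1784 (.leaf 200 1607 .nil)) .nil)) .nil))) (.cons 226 (.leaf 321 1805 (.cons 202 (.leaf 178 1428 (.leaf 225 1613 .nil)) .nil)) .nil)))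
noncomputable def t269 : T := .cons 226 (.cons 202 (.leaf 178 1428 (.cons 297 (.leaf 225 1613 (.leaf 321 1805 .nil)) .nil)) (.cons 297 (.leaf 321 1805 (.cons 225 (.cons 252 (.leaf 224 1795 (.leaf 253 1803 .nil)) (.cons 252 (.leaf 253 1803 (.cons 228 (.leaf 229 1801 (.cons 180 (.leaf 204 1438 (.cons 298 (.leaf 322 1804 (.cons 201 (.leaf 274 1612 (.cons 200 (.leaf 176 1415 (.leaf 227 1603 .nil)) .nil)) .nil)) .nil)) .nil)) .nil)) (.cons 224 (.leaf 223 1784 (.leaf 200 1607 .nil)) .nil))) .nil)) (.cons 202 (.leaf 178 1428 (.cons 252 (.cons 225 (.leaf 224 1795 (.leaf 253 1803 .nil)) (.cons 225 (.leaf 224 1795 (.cons 228 (.leaf 229 1801 (.cons 204 (.leaf 180 1438 (.cons 205 (.leaf 203 1610 (.leaf 227 1609 .nil)) .nil)) .nil)) .nil)) (.cons 228 (.leaf 229 1801 (.cons 180 (.leaf 204 1438 (.cons 253 (.leaf 274 1994 (.cons 254 (.leaf 227 1811 (.cons 278 (.leaf 277 2000 (.leaf 279 2008 .nil))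 .nil)) .nil)) .nil)) .nil)) .nil))) .nil)) (.cons 202 (.leaf 178 1428 (.cons 297 (.leaf 321 1805 (.leaf 274 1614 .nil)) .nil)) .nil)))) (.cons 297 t268 (.cons 252 (.cons 225 (.leaf 224 1795 (.cons 226 (.leaf 253 1803 (.cons 202 (.leaf 178 1428 (.leaf 297 1613 .nil)) .nil)) .nil)) (.cons 277 (.leaf 276 1992 (.cons 229 (.leaf 228 1801 (.cons 253 (.leaf 230 1809 (.leaf 278 2000 .nil)) .nil)) .nil)) (.cons 225 (.leaf 224 1795 (.cons 228 (.leaf 229 1801 (.cons 204 (.leaf 180 1438 (.cons 276 (.leaf 277 1992 (.cons 203 (.leaf 179 1439 (.cons 205 (.leaf 181 1445 (.cons 202 (.leaf 226 1610 (.cons 178 (.leaf 227 1431 (.leaf 201 1421 .nil)) .nil)) .nil)) .nil)) .nil)) .nil)) .nil)) .nil)) .nil))) (.cons 252 (.cons 276 (.leaf 277 1992 (.cons 228 (.leaf 229 1801 (.cons 204 (.leaf 180 1438 (.cons 203 (.leaf 179 1439 (.cons 225 (.leaf 224 1795 (.cons 205 (.leaf 181 1445 (.cons 274 (.leaf 253 1993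 (.cons 201 (.leaf 177 1420 (.leaf 298 1612 .nil)) .nil)) .nil)) .nil)) .nil)) .nil)) .nil)) .nil)) (.cons 277 (.leaf 276 1992 (.cons 229 (.leaf 228 1801 (.cons 253 (.leaf 230 1809 (.leaf 278 2000 .nil)) .nil)) .nil)) (.cons 276 (.leaf 277 1992 (.cons 228 (.leaf 229 1801 (.cons 204 (.leaf 180 1438 (.cons 203 (.leaf 179 1439 (.cons 225 (.leaf 224 1795 (.cons 205 (.leaf 181 1445 (.cons 274 (.cons 201 (.leaf 177 1420 (.leaf 298 1612 .nil)) (.cons 201 (.leaf 177 1420 (.cons 200 (.leaf 176 1415 (.cons 202 (.leaf 178 1421 (.leaf 227 1600 .nil)) .nil)) .nil)) (.cons 298 (.leaf 227 1622 (.leaf 322 1807 .nil)) .nil))) .nil)) .nil)) .nil)) .nil)) .nil)) .nil)) (.cons 274 (.leaf 253 1994 (.cons 225 (.leaf 224 1795 (.cons 201 (.leaf 177 1420 (.leaf 298 1612 .nil)) .nil)) .nil)) .nil)))) (.cons 252 (.cons 253 (.leaf 274 1994 (.cons 229 (.leaf 228 1801 (.leaf 230 1809 .nil)) .nil)) (.cons 276 (.leaf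 277 1992 (.cons 228 (.leaf 229 1801 (.cons 204 (.leaf 180 1438 (.cons 203 (.leaf 179 1439 (.cons 205 (.leaf 181 1445 (.cons 206 (.cons 227 (.leaf 207 1626 (.leaf 226 1618 .nil)) (.cons 183 (.leaf 182 1433 (.cons 207 (.leaf 184 1441 (.cons 231 (.leaf 230 1624 (.leaf 232 1632 .nil)) .nil)) .nil)) (.cons 182 (.leaf 183 1433 (.cons 226 (.leaf 227 1618 (.cons 202 (.leaf 178 1428 (.cons 297 (.leaf 321 1805 (.leaf 274 1614 .nil)) .nil)) .nil)) .nil)) .nil))) .nil)) .nil)) .nil)) .nil)) .nil)) (.cons 277 (.leaf 276 1992 (.cons 229 (.leaf 228 1801 (.cons 253 (.leaf 230 1809 (.leaf 278 2000 .nil)) .nil)) .nil)) (.cons 253 (.leaf 274 1994 (.cons 277 (.leaf 276 1992 (.leaf 278 2000 .nil)) .nil)) .nil)))) (.cons 226 t267 (.cons 252 (.cons 225 (.leaf 224 1795 (.cons 228 (.leaf 229 1801 (.cons 204 (.leaf 180 1438 (.cons 276 (.leaf 277 1992 (.cons 205 (.leaf 181 1445 (.cons 226 (.leaf 253 1803 (.leaf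 227 1609 .nil)) .nil)) .nil)) .nil)) .nil)) .nil)) (.cons 225 (.leaf 224 1795 (.cons 228 (.leaf 229 1801 (.cons 204 (.leaf 180 1438 (.cons 276 (.leaf 277 1992 (.cons 205 (.leaf 181 1445 (.cons 226 (.leaf 227 1609 (.cons 297 (.leaf 321 1805 (.cons 296 (.leaf 274 2178 (.leaf 320 1798 .nil)) .nil)) .nil)) .nil)) .nil)) .nil)) .nil)) .nil)) (.cons 253 (.leaf 274 1994 (.cons 229 (.leaf 228 1801 (.leaf 230 1809 .nil)) .nil)) (.cons 253 (.leaf 274 1994 (.cons 277 (.leaf 276 1992 (.leaf 278 2000 .nil)) .nil)) .nil)))) (.cons 252 (.cons 225 (.leaf 224 1795 (.cons 226 (.leaf 253 1803 (.cons 202 (.leaf 178 1428 (.leaf 297 1613 .nil)) .nil)) .nil)) (.cons 225 (.leaf 224 1795 (.cons 228 (.leaf 229 1801 (.cons 204 (.leaf 180 1438 (.cons 276 (.leaf 277 1992 (.cons 203 (.leaf 179 1439 (.cons 205 (.leaf 181 1445 (.cons 202 (.leaf 226 1610 (.cons 178 (.leaf 201 1421 (.leaf 177 1419 .nil)) .nil)) .nil))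 .nil)) .nil)) .nil)) .nil)) .nil)) (.cons 253 (.leaf 274 1994 (.cons 229 (.leaf 228 1801 (.leaf 230 1809 .nil)) .nil)) .nil))) .nil)))))))
noncomputable def t270 : T := .cons 225 (.cons 200 (.leaf 224 1607 (.cons 201 (.leaf 176 1415 (.cons 202 (.leaf 178 1421 (.leaf 226 1613 .nil)) .nil)) .nil)) (.cons 200 (.leaf 224 1607 (.cons 176 (.leaf 201 1415 (.cons 320 (.leaf 296 1798 (.cons 321 (.leaf 344 1990 (.cons 322 (.leaf 298 1804 (.leaf 346 1996 .nil)) .nil)) .nil)) .nil)) .nil)) (.cons 202 (.leaf 226 1613 (.cons 201 (.leaf 178 1421 (.cons 296 (.leaf 272 1606 (.leaf 320 1798 .nil)) .nil)) .nil)) (.cons 226 (.leaf 202 1613 (.cons 200 (.leaf 224 1607 (.cons 321 (.leaf 250 1805 (.cons 322 (.leaf 298 1804 (.leaf 346 1996 .nil)) .nil)) .nil)) .nil)) .nil)))) (.cons 225 (.cons 200 (.leaf 224 1607 (.cons 176 (.leaf 201 1415 (.cons 296 (.leaf 320 1798 (.cons 274 (.leaf 276 2178 (.cons 295 (.leaf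 272 2170 (.leaf 298 2169 .nil)) .nil)) .nil)) .nil)) .nil)) (.cons 200 (.leaf 224 1607 (.cons 201 (.leaf 176 1415 (.cons 202 (.leaf 178 1421 (.leaf 226 1613 .nil)) .nil)) .nil)) (.cons 296 (.leaf 320 1798 (.cons 201 (.leaf 272 1606 (.cons 274 (.leaf 276 2178 (.leaf 298 1612 .nil)) .nil)) .nil)) (.cons 200 (.leaf 224 1607 (.cons 202 (.leaf 226 1613 (.cons 296 (.leaf 320 1798 (.cons 274 (.leaf 276 2178 (.cons 295 (.leaf 272 2170 (.leaf 298 2169 .nil)) .nil)) .nil)) .nil)) .nil)) .nil)))) (.cons 225 (.cons 200 (.leaf 224 1607 (.cons 201 (.leaf 176 1415 (.cons 202 (.leaf 178 1421 (.leaf 226 1613 .nil)) .nil)) .nil)) (.cons 200 (.leaf 224 1607 (.cons 201 (.leaf 176 1415 (.cons 298 (.leaf 274 1612 (.leaf 322 1804 .nil)) .nil)) .nil)) (.cons 202 (.leaf 226 1613 (.cons 201 (.leaf 178 1421 (.cons 298 (.leaf 274 1612 (.leaf 322 1804 .nil)) .nil)) .nil)) (.cons 200 (.leaf 224 1607 (.cons 226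 (.leaf 202 1613 (.cons 298 (.leaf 322 1804 (.cons 321 (.leaf 250 1805 (.cons 344 (.leaf 320 1990 (.cons 345 (.leaf 368 2182 (.cons 369 (.leaf 274 2189 (.cons 370 (.leaf 346 2188 (.leaf 394 2380 .nil)) .nil)) .nil)) .nil)) .nil)) .nil)) .nil)) .nil)) .nil)))) (.cons 225 (.cons 296 (.leaf 320 1798 (.cons 200 (.leaf 224 1607 (.cons 201 (.leaf 176 1415 (.leaf 272 1606 .nil)) .nil)) .nil)) (.cons 226 (.leaf 202 1613 (.cons 200 (.leaf 224 1607 (.cons 176 (.leaf 201 1415 (.cons 321 (.leaf 250 1805 (.cons 344 (.leaf 320 1990 (.cons 345 (.leaf 368 2182 (.cons 346 (.leaf 322 1996 (.leaf 370 2188 .nil)) .nil)) .nil)) .nil)) .nil)) .nil)) .nil)) (.cons 226 (.leaf 202 1613 (.cons 200 (.leaf 224 1607 (.cons 201 (.leaf 176 1415 (.cons 198 (.leaf 199 1584 (.cons 227 (.leaf 228 1603 (.cons 250 (.leaf 321 1805 (.cons 177 (.leaf 274 1420 (.leaf 153 1228 .nil)) .nil)) .nil)) .nil)) .nil)) .nil)) .nil))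 (.cons 296 (.leaf 320 1798 (.cons 201 (.leaf 272 1606 (.cons 202 (.leaf 178 1421 (.leaf 226 1613 .nil)) .nil)) .nil)) (.cons 226 (.leaf 202 1613 (.cons 200 (.leaf 224 1607 (.cons 250 (.leaf 321 1805 (.cons 296 (.leaf 320 1798 (.cons 274 (.leaf 276 2178 (.cons 272 (.leaf 295 2170 (.leaf 271 1977 .nil)) .nil)) .nil)) .nil)) .nil)) .nil)) .nil))))) (.cons 225 (.cons 200 (.leaf 224 1607 (.cons 176 (.leaf 201 1415 (.cons 320 (.leaf 296 1798 (.cons 321 (.leaf 344 1990 (.cons 322 (.leaf 298 1804 (.leaf 346 1996 .nil)) .nil)) .nil)) .nil)) .nil)) (.cons 298 (.leaf 322 1804 (.cons 200 (.leaf 224 1607 (.cons 201 (.leaf 176 1415 (.leaf 274 1612 .nil)) .nil)) .nil)) (.cons 296 (.leaf 320 1798 (.cons 200 (.leaf 224 1607 (.cons 201 (.leaf 176 1415 (.leaf 272 1606 .nil)) .nil)) .nil)) (.cons 296 (.leaf 320 1798 (.cons 201 (.leaf 272 1606 (.cons 274 (.leaf 276 2178 (.leaf 298 1612 .nil)) .nil)) .nil))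 (.cons 296 (.leaf 320 1798 (.cons 200 (.leaf 224 1607 (.cons 274 (.leaf 276 2178 (.cons 295 (.leaf 272 2170 (.leaf 298 2169 .nil)) .nil)) .nil)) .nil)) .nil))))) (.cons 225 (.cons 200 (.leaf 224 1607 (.cons 201 (.leaf 176 1415 (.cons 202 (.leaf 178 1421 (.leaf 226 1613 .nil)) .nil)) .nil)) (.cons 200 (.leaf 224 1607 (.cons 201 (.leaf 176 1415 (.cons 298 (.leaf 274 1612 (.leaf 322 1804 .nil)) .nil)) .nil)) (.cons 202 (.leaf 226 1613 (.cons 201 (.leaf 178 1421 (.cons 298 (.leaf 274 1612 (.leaf 322 1804 .nil)) .nil)) .nil)) (.cons 200 (.leaf 224 1607 (.cons 226 (.leaf 202 1613 (.cons 321 (.leaf 250 1805 (.cons 322 (.leaf 298 1804 (.leaf 346 1996 .nil)) .nil)) .nil)) .nil)) .nil)))) .nil)))))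
noncomputable def t271 : T := .cons 225 (.cons 200 (.leaf 224 1607 (.cons 201 (.leaf 176 1415 (.cons 202 (.leaf 178 1421 (.leaf 226 1613 .nil)) .nil)) .nil)) (.cons 296 (.leaf 320 1798 (.cons 201 (.leaf 272 1606 (.cons 176 (.leaf 200 1415 (.cons 177 (.leaf 152 1223 (.cons 178 (.leaf 154 1229 (.leaf 202 1421 .nil)) .nil)) .nil)) .nil)) .nil)) (.cons 296 (.leaf 320 1798 (.cons 201 (.leaf 272 1606 (.cons 274 (.leaf 276 2178 (.leaf 298 1612 .nil)) .nil)) .nil)) (.cons 200 (.leaf 224 1607 (.cons 226 (.leaf 202 1613 (.cons 298 (.leaf 322 1804 (.cons 321 (.leaf 250 1805 (.cons 344 (.leaf 320 1990 (.cons 345 (.leaf 368 2182 (.cons 369 (.leaf 274 2189 (.cons 370 (.leaf 346 2188 (.leaf 394 2380 .nil)) .nil)) .nil)) .nil)) .nil)) .nil)) .nil)) .nil)) .nil)))) (.cons 321 (.cons 344 (.leaf 320 1990 (.cons 345 (.leaf 368 2182 (.cons 346 (.leaf 322 1996 (.leaf 370 2188 .nil)) .nil)) .nil)) (.cons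 250 (.leaf 226 1805 (.cons 274 (.leaf 345 1997 (.cons 276 (.leaf 277 1995 (.leaf 296 2178 .nil)) .nil)) .nil)) (.cons 250 (.leaf 226 1805 (.cons 322 (.leaf 346 1996 (.cons 320 (.leaf 344 1990 (.cons 296 (.cons 295 (.leaf 294 2352 (.leaf 323 2363 .nil)) (.cons 274 (.leaf 276 2178 (.cons 271 (.leaf 272 1977 (.cons 298 (.leaf 227 1813 (.cons 323 (.leaf 324 2371 (.leaf 347 2004 .nil)) .nil)) .nil)) .nil)) (.cons 274 (.leaf 276 2178 (.cons 295 (.leaf 272 2170 (.leaf 298 2169 .nil)) .nil)) .nil))) .nil)) .nil)) .nil)) .nil))) t270)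
noncomputable def t272 : T := .cons 200 (.leaf 224 1607 (.cons 176 (.leaf 201 1415 (.cons 226 (.leaf 202 1613 (.cons 321 (.leaf 250 1805 (.cons 344 (.leaf 320 1990 (.cons 345 (.leaf 368 2182 (.cons 346 (.leaf 322 1996 (.leaf 370 2188 .nil)) .nil)) .nil)) .nil)) .nil)) .nil)) .nil)) (.cons 224 (.leaf 200 1607 (.cons 250 (.leaf 252 1795 (.cons 222 (.leaf 223 1776 (.cons 320 (.leaf 296 1798 (.cons 321 (.leaf 344 1990 (.cons 322 (.leaf 298 1804 (.leaf 346 1996 .nil)) .nil)) .nil)) .nil)) .nil)) .nil)) (.cons 226 (.leaf 202 1613 (.cons 250 (.leaf 321 1805 (.cons 252 (.leaf 253 1803 (.cons 228 (.leaf 229 1801 (.cons 204 (.leaf 180 1438 (.cons 205 (.leaf 227 1609 (.cons 276 (.leaf 277 1992 (.leaf 181 1445 .nil)) .nil)) .nil)) .nil)) .nil)) .nil)) .nil)) (.cons 200 (.leaf 224 1607 (.cons 176 (.leaf 201 1415 (.cons 322 (.leaf 298 1804 (.cons 320 (.leaf 296 1798 (.cons 321 (.leaf 344 1990 (.leaf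 346 1996 .nil)) .nil)) .nil)) .nil)) .nil)) (.cons 200 (.leaf 224 1607 (.cons 201 (.leaf 176 1415 (.cons 202 (.leaf 178 1421 (.leaf 226 1613 .nil)) .nil)) .nil)) .nil))))
noncomputable def t273 : T := .cons 321 (.leaf 346 1996 (.cons 320 (.leaf 344 1990 (.cons 319 (.cons 294 (.leaf 295 2355 (.cons 318 (.leaf 298 2353 (.leaf 293 2347 .nil)) .nil)) (.cons 295 (.leaf 294 2355 (.cons 296 (.leaf 225 1798 (.leaf 323 2363 .nil)) .nil)) (.cons 318 (.leaf 298 2353 (.cons 342 (.leaf 343 2546 (.leaf 341 2538 .nil)) .nil)) .nil))) .nil)) .nil)) (.cons 225 (.leaf 298 1804 (.cons 200 (.leaf 224 1607 (.cons 201 (.leaf 176 1415 (.cons 296 (.leaf 272 1606 (.leaf 320 1798 .nil)) .nil)) .nil)) .nil)) (.cons 321 (.leaf 346 1996 (.cons 320 (.leaf 344 1990 (.cons 319 (.cons 294 (.leaf 295 2355 (.cons 318 (.leaf 298 2353 (.leaf 293 2347 .nil)) .nil)) (.cons 295 (.leaf 294 2355 (.cons 296 (.leaf 323 2363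 (.cons 343 (.leaf 342 2546 (.cons 367 (.leaf 391 2365 (.leaf 272 2173 .nil)) .nil)) .nil)) .nil)) (.cons 318 (.leaf 298 2353 (.cons 342 (.leaf 343 2546 (.leaf 341 2538 .nil)) .nil)) .nil))) .nil)) .nil)) (.cons 321 (.leaf 346 1996 (.cons 320 (.leaf 344 1990 (.cons 296 (.leaf 225 1798 (.cons 295 (.leaf 294 2352 (.leaf 323 2363 .nil)) .nil)) .nil)) .nil)) (.cons 298 (.leaf 225 1804 (.cons 346 (.leaf 321 1996 (.leaf 370 2191 .nil)) .nil)) .nil))))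
noncomputable def t274 : T := .cons 225 (.cons 200 (.leaf 224 1607 (.cons 202 (.leaf 226 1613 (.cons 320 (.leaf 296 1798 (.cons 321 (.leaf 344 1990 (.cons 322 (.leaf 298 1804 (.leaf 346 1996 .nil)) .nil)) .nil)) .nil)) .nil)) (.cons 200 (.leaf 224 1607 (.cons 176 (.leaf 201 1415 (.cons 320 (.leaf 296 1798 (.cons 321 (.leaf 344 1990 (.cons 322 (.leaf 298 1804 (.leaf 346 1996 .nil)) .nil)) .nil)) .nil)) .nil)) (.cons 202 (.leaf 226 1613 (.cons 201 (.leaf 178 1421 (.cons 296 (.leaf 272 1606 (.leaf 320 1798 .nil)) .nil)) .nil)) (.cons 226 (.leaf 202 1613 (.cons 250 (.leaf 321 1805 (.cons 224 (.leaf 223 1784 (.leaf 252 1795 .nil)) .nil)) .nil)) .nil)))) (.cons 321 (.cons 250 (.leaf 226 1805 (.cons 252 (.leaf 272 1986 (.cons 229 (.leaf 228 1801 (.cons 253 (.leaf 230 1809 (.cons 277 (.leaf 276 1992 (.leaf 278 2000 .nil)) .nil)) .nil)) .nil)) .nil)) (.cons 344 (.leaf 320 1990 (.cons 345 (.leaf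 368 2182 (.cons 346 (.leaf 322 1996 (.leaf 370 2188 .nil)) .nil)) .nil)) .nil)) (.cons 225 (.cons 224 (.leaf 200 1607 (.cons 226 (.leaf 202 1613 (.cons 250 (.leaf 223 1784 (.leaf 252 1795 .nil)) .nil)) .nil)) (.cons 200 (.leaf 224 1607 (.cons 201 (.leaf 176 1415 (.cons 296 (.leaf 272 1606 (.leaf 320 1798 .nil)) .nil)) .nil)) (.cons 202 (.leaf 226 1613 (.cons 201 (.leaf 178 1421 (.cons 296 (.leaf 272 1606 (.leaf 320 1798 .nil)) .nil)) .nil)) .nil))) (.cons 225 (.cons 200 (.leaf 224 1607 (.cons 201 (.leaf 176 1415 (.cons 202 (.leaf 178 1421 (.leaf 226 1613 .nil)) .nil)) .nil)) (.cons 296 (.leaf 320 1798 (.cons 200 (.leaf 224 1607 (.cons 201 (.leaf 176 1415 (.leaf 272 1606 .nil)) .nil)) .nil)) (.cons 296 (.leaf 320 1798 (.cons 201 (.leaf 272 1606 (.cons 202 (.leaf 178 1421 (.leaf 226 1613 .nil)) .nil)) .nil)) (.cons 200 (.leaf 224 1607 (.cons 202 (.leaf 226 1613 (.cons 320 (.leaf 296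 1798 (.cons 321 (.leaf 344 1990 (.cons 322 (.leaf 298 1804 (.leaf 346 1996 .nil)) .nil)) .nil)) .nil)) .nil)) .nil)))) (.cons 322 t273 (.cons 250 (.cons 226 (.leaf 321 1805 (.cons 202 (.leaf 178 1428 (.leaf 225 1613 .nil)) .nil)) (.cons 252 (.leaf 272 1986 (.cons 224 (.leaf 225 1795 (.cons 229 (.leaf 228 1801 (.cons 253 (.leaf 230 1809 (.cons 277 (.leaf 276 1992 (.leaf 278 2000 .nil)) .nil)) .nil)) .nil)) .nil)) (.cons 226 (.leaf 321 1805 (.cons 178 (.leaf 202 1428 (.cons 252 (.leaf 272 1986 (.cons 229 (.leaf 228 1801 (.cons 253 (.leaf 230 1809 (.cons 277 (.leaf 276 1992 (.leaf 278 2000 .nil)) .nil)) .nil)) .nil)) .nil)) .nil)) .nil))) (.cons 225 t272 .nil))))))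
noncomputable def t275 : T := .cons 277 (.cons 253 (.leaf 252 1993 (.leaf 254 2001 .nil)) (.cons 302 (.leaf 301 2192 (.cons 297 (.leaf 296 2178 (.leaf 298 2186 .nil)) .nil)) .nil)) (.cons 277 (.cons 253 (.leaf 252 1993 (.leaf 254 2001 .nil)) (.cons 302 (.leaf 301 2192 (.cons 278 (.leaf 303 2200 (.cons 255 (.leaf 254 2009 (.cons 279 (.leaf 252 2011 (.leaf 256 2017 .nil)) .nil)) .nil)) .nil)) (.cons 254 (.leaf 253 2001 (.cons 278 (.leaf 255 2009 (.cons 302 (.leaf 301 2192 (.leaf 303 2200 .nil)) .nil)) .nil)) (.cons 252 (.leaf 253 1993 (.cons 278 (.leaf 279 2011 (.cons 302 (.leaf 301 2192 (.leaf 303 2200 .nil)) .nil)) .nil)) .nil)))) (.cons 297 (.leaf 296 2178 (.cons 277 (.leaf 298 2186 (.cons 302 (.leaf 301 2192 (.cons 278 (.leaf 303 2200 (.cons 255 (.leaf 254 2009 (.cons 279 (.leaf 252 2011 (.leaf 256 2017 .nil)) .nil)) .nil)) .nil)) .nil)) .nil)) (.cons 297 (.leaf 296 2178 (.cons 277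 (.leaf 298 2186 (.cons 254 (.leaf 253 2001 (.cons 278 (.leaf 255 2009 (.cons 302 (.leaf 301 2192 (.leaf 303 2200 .nil)) .nil)) .nil)) .nil)) .nil)) (.cons 252 (.leaf 253 1993 (.cons 297 (.leaf 296 2178 (.cons 225 (.cons 200 (.leaf 224 1607 (.cons 201 (.leaf 176 1415 (.leaf 298 1612 .nil)) .nil)) (.cons 200 (.leaf 224 1607 (.cons 201 (.leaf 176 1415 (.cons 202 (.leaf 178 1421 (.leaf 226 1613 .nil)) .nil)) .nil)) (.cons 224 (.leaf 200 1607 (.cons 226 (.leaf 227 1792 (.leaf 202 1613 .nil)) .nil)) (.cons 298 (.leaf 201 1612 (.leaf 322 1804 .nil)) .nil)))) .nil)) .nil)) .nil))))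
noncomputable def t276 : T := .cons 272 (.leaf 252 1985 (.cons 296 (.leaf 295 2170 (.cons 225 (.leaf 201 1606 (.cons 297 (.leaf 276 2178 (.leaf 320 1798 .nil)) .nil)) .nil)) .nil)) (.cons 297 (.cons 296 (.leaf 276 2178 (.cons 225 (.leaf 320 1798 (.cons 201 (.leaf 272 1606 (.leaf 298 1612 .nil)) .nil)) .nil)) (.cons 321 (.cons 344 (.leaf 320 1990 (.cons 345 (.leaf 368 2182 (.cons 369 (.leaf 298 2189 (.cons 370 (.leaf 346 2188 (.leaf 394 2380 .nil)) .nil)) .nil)) .nil)) (.cons 344 (.leaf 320 1990 (.cons 345 (.leaf 368 2182 (.cons 298 (.leaf 369 2189 (.cons 225 (.leaf 201 1612 (.leaf 322 1804 .nil)) .nil)) .nil)) .nil)) (.cons 344 (.leaf 320 1990 (.cons 345 (.leaf 368 2182 (.cons 346 (.leaf 322 1996 (.leaf 370 2188 .nil)) .nil)) .nil)) (.cons 322 (.leaf 346 1996 (.cons 225 (.leaf 298 1804 (.cons 200 (.leaf 224 1607 (.cons 201 (.leaf 176 1415 (.cons 202 (.leaf 178 1421 (.leaf 226 1613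 .nil)) .nil)) .nil)) .nil)) .nil)) .nil)))) (.cons 296 (.leaf 276 2178 (.cons 225 (.leaf 320 1798 (.cons 200 (.leaf 224 1607 (.cons 201 (.leaf 176 1415 (.leaf 272 1606 .nil)) .nil)) .nil)) .nil)) (.cons 296 (.leaf 276 2178 (.cons 295 (.leaf 272 2170 (.leaf 298 2169 .nil)) .nil)) .nil)))) (.cons 276 t275 (.cons 252 (.leaf 272 1985 (.cons 253 (.leaf 254 2002 (.leaf 276 1993 .nil)) .nil)) (.cons 272 (.leaf 252 1985 (.cons 296 (.leaf 295 2170 (.cons 225 (.leaf 201 1606 (.cons 320 (.leaf 297 1798 (.leaf 344 1989 .nil)) .nil)) .nil)) .nil)) .nil))))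
noncomputable def t277 : T := .cons 252 (.cons 274 (.leaf 272 1985 (.cons 253 (.leaf 254 2002 (.leaf 276 1993 .nil)) .nil)) (.cons 250 (.leaf 272 1986 (.cons 225 (.leaf 224 1795 (.cons 226 (.leaf 253 1803 (.cons 202 (.leaf 178 1428 (.leaf 297 1613 .nil)) .nil)) .nil)) .nil)) (.cons 250 (.cons 225 (.leaf 224 1795 (.cons 226 (.leaf 253 1803 (.cons 202 (.leaf 178 1428 (.leaf 297 1613 .nil)) .nil)) .nil)) (.cons 225 (.leaf 224 1795 (.cons 228 (.leaf 229 1801 (.cons 204 (.leaf 180 1438 (.cons 276 (.leaf 277 1992 (.cons 203 (.leaf 179 1439 (.cons 205 (.leaf 181 1445 (.cons 202 (.leaf 226 1610 (.cons 178 (.leaf 227 1431 (.leaf 201 1421 .nil)) .nil)) .nil)) .nil)) .nil)) .nil)) .nil)) .nil)) (.cons 253 (.leaf 274 1994 (.cons 229 (.leaf 228 1801 (.leaf 230 1809 .nil)) .nil)) .nil))) (.cons 272 (.leaf 274 1985 (.leaf 250 1986 .nil)) .nil)))) (.cons 274 t276 (.cons 297 t274 (.cons 297 t271 (.cons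 250 (t269) (.cons 252 t266 (.cons 252 t265 (.cons 252 t264 (.cons 252 t263 (.cons 252 t262 (.cons 252 t261 .nil))))))))))
noncomputable def t278 : T := .cons 252 (.leaf 272 1985 (.cons 253 (.leaf 254 2002 (.leaf 276 1993 .nil)) .nil)) (.cons 248 (.leaf 276 1987 (.cons 247 (.leaf 272 1979 (.leaf 246 1968 .nil)) .nil)) (.cons 272 (.leaf 252 1985 (.cons 271 (.cons 248 (.leaf 247 1979 (.cons 270 (.leaf 269 1961 (.cons 294 (.leaf 293 2154 (.leaf 295 2162 .nil)) .nil)) .nil)) (.cons 294 (.leaf 295 2162 (.cons 270 (.leaf 293 2154 (.cons 245 (.leaf 246 1963 (.cons 269 (.leaf 248 1961 (.leaf 244 1955 .nil)) .nil)) .nil)) .nil)) (.cons 246 (.leaf 247 1971 (.cons 270 (.leaf 245 1963 (.cons 294 (.leaf 293 2154 (.leaf 295 2162 .nil)) .nil)) .nil)) (.cons 247 (.leaf 248 1979 (.leaf 246 1971 .nil)) .nil)))) .nil)) (.cons 276 (.leaf 248 1987 (.cons 277 (.cons 252 (.leaf 253 1993 (.cons 278 (.leaf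 279 2011 (.cons 302 (.leaf 301 2192 (.leaf 303 2200 .nil)) .nil)) .nil)) (.cons 298 (.leaf 297 2186 (.cons 322 (.leaf 346 2005 (.cons 201 (.leaf 225 1612 (.cons 302 (.leaf 301 2192 (.cons 278 (.leaf 303 2200 (.cons 203 (.leaf 227 1622 (.cons 255 (.leaf 254 2009 (.cons 279 (.leaf 252 2011 (.leaf 256 2017 .nil)) .nil)) .nil)) .nil)) .nil)) .nil)) .nil)) .nil)) (.cons 254 (.leaf 253 2001 (.cons 278 (.leaf 255 2009 (.cons 302 (.leaf 301 2192 (.leaf 303 2200 .nil)) .nil)) .nil)) (.cons 253 (.leaf 252 1993 (.leaf 254 2001 .nil)) .nil)))) .nil)) .nil)))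
noncomputable def t279 : T := .cons 272 (.cons 247 (.leaf 248 1979 (.cons 201 (.leaf 296 1606 (.leaf 298 1612 .nil)) .nil)) (.cons 248 (.leaf 247 1979 (.cons 201 (.leaf 177 1414 (.leaf 298 1612 .nil)) .nil)) (.cons 247 (.leaf 248 1979 (.cons 246 (.leaf 271 1971 (.cons 296 (.leaf 295 2170 (.cons 320 (.leaf 297 1798 (.leaf 344 1989 .nil)) .nil)) .nil)) .nil)) (.cons 296 (.leaf 295 2170 (.leaf 201 1606 .nil)) .nil)))) (.cons 297 (.cons 298 (.leaf 322 1804 (.cons 296 (.leaf 295 2169 (.leaf 320 1798 .nil)) .nil)) (.cons 200 (.leaf 224 1607 (.cons 202 (.leaf 226 1613 (.cons 296 (.leaf 320 1798 (.cons 295 (.leaf 272 2170 (.leaf 294 2161 .nil)) .nil)) .nil)) .nil)) (.cons 200 (.leaf 224 1607 (.cons 226 (.leaf 202 1613 (.cons 298 (.leaf 322 1804 (.cons 227 (.leaf 203 1622 (.cons 248 (.leaf 228 1794 (.cons 247 (.leaf 272 1979 (.leaf 246 1968 .nil)) .nil)) .nil)) .nil)) .nil)) .nil)) .nil)))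 (.cons 272 (.cons 247 (.leaf 248 1979 (.cons 246 (.leaf 271 1971 (.cons 296 (.leaf 295 2170 (.leaf 201 1606 .nil)) .nil)) .nil)) (.cons 248 (.leaf 247 1979 (.cons 201 (.leaf 177 1414 (.cons 200 (.leaf 176 1415 (.cons 224 (.leaf 297 1604 (.cons 175 (.leaf 199 1407 (.cons 202 (.leaf 178 1421 (.cons 203 (.leaf 204 1602 (.leaf 223 1594 .nil)) .nil)) .nil)) .nil)) .nil)) .nil)) .nil)) (.cons 296 (.leaf 295 2170 (.leaf 201 1606 .nil)) (.cons 247 (.leaf 248 1979 (.cons 246 (.leaf 271 1971 (.cons 296 (.leaf 295 2170 (.cons 320 (.leaf 297 1798 (.leaf 344 1989 .nil)) .nil)) .nil)) .nil)) .nil)))) (.cons 201 (.leaf 298 1612 (.cons 176 (.leaf 200 1415 (.cons 177 (.leaf 152 1223 (.cons 178 (.leaf 154 1229 (.leaf 202 1421 .nil)) .nil)) .nil)) .nil)) .nil)))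
noncomputable def t280 : T := .cons 272 (.cons 247 (.leaf 248 1979 (.cons 201 (.leaf 296 1606 (.leaf 298 1612 .nil)) .nil)) (.cons 296 (.leaf 295 2170 (.leaf 201 1606 .nil)) (.cons 248 (.leaf 247 1979 (.leaf 276 1987 .nil)) .nil))) (.cons 272 (.cons 247 (.leaf 248 1979 (.cons 246 (.leaf 271 1971 (.cons 296 (.leaf 295 2170 (.leaf 201 1606 .nil)) .nil)) .nil)) (.cons 296 (.leaf 295 2170 (.leaf 201 1606 .nil)) (.cons 248 (.leaf 247 1979 (.leaf 276 1987 .nil)) .nil))) (.cons 297 (.cons 298 (.leaf 322 1804 (.cons 296 (.leaf 276 2178 (.leaf 295 2169 .nil)) .nil)) (.cons 200 (.leaf 224 1607 (.cons 226 (.leaf 202 1613 (.cons 298 (.leaf 322 1804 (.cons 227 (.leaf 203 1622 (.cons 248 (.leaf 276 1987 (.leaf 228 1794 .nil)) .nil)) .nil)) .nil)) .nil)) (.cons 200 (.leaf 224 1607 (.cons 202 (.leaf 226 1613 (.cons 296 (.leaf 276 2178 (.leaf 320 1798 .nil)) .nil)) .nil)) (.cons 298 (.leaf 322 1804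 (.cons 296 (.leaf 295 2169 (.leaf 320 1798 .nil)) .nil)) .nil)))) (.cons 298 (.leaf 201 1612 (.cons 322 (.leaf 346 2005 (.leaf 297 1804 .nil)) .nil)) .nil)))
noncomputable def t281 : T := .cons 225 t280 (.cons 297 (.cons 296 (.leaf 276 2178 (.cons 225 (.leaf 320 1798 (.cons 201 (.leaf 272 1606 (.leaf 298 1612 .nil)) .nil)) .nil)) (.cons 321 (.cons 344 (.leaf 320 1990 (.cons 345 (.leaf 368 2182 (.cons 369 (.leaf 298 2189 (.cons 370 (.leaf 346 2188 (.leaf 394 2380 .nil)) .nil)) .nil)) .nil)) (.cons 344 (.leaf 320 1990 (.cons 345 (.leaf 368 2182 (.cons 298 (.leaf 369 2189 (.cons 225 (.leaf 201 1612 (.leaf 322 1804 .nil)) .nil)) .nil)) .nil)) (.cons 344 (.leaf 320 1990 (.cons 345 (.leaf 368 2182 (.cons 346 (.leaf 322 1996 (.leaf 370 2188 .nil)) .nil)) .nil)) (.cons 322 (.leaf 346 1996 (.cons 225 (.leaf 298 1804 (.cons 200 (.leaf 224 1607 (.cons 201 (.leaf 176 1415 (.cons 202 (.leaf 178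 1421 (.leaf 226 1613 .nil)) .nil)) .nil)) .nil)) .nil)) .nil)))) (.cons 296 (.leaf 276 2178 (.cons 225 (.leaf 320 1798 (.cons 200 (.leaf 224 1607 (.cons 201 (.leaf 176 1415 (.leaf 272 1606 .nil)) .nil)) .nil)) .nil)) (.cons 296 (.leaf 276 2178 (.cons 295 (.leaf 272 2170 (.leaf 298 2169 .nil)) .nil)) .nil)))) (.cons 225 t279 (.cons 248 (.leaf 276 1987 (.cons 247 (.leaf 272 1979 (.leaf 246 1968 .nil)) .nil)) (.cons 276 (.leaf 248 1987 (.cons 297 (.leaf 296 2178 (.cons 277 (.leaf 298 2186 (.cons 254 (.leaf 253 2001 (.cons 278 (.leaf 255 2009 (.cons 302 (.leaf 301 2192 (.leaf 303 2200 .nil)) .nil)) .nil)) .nil)) .nil)) .nil)) .nil))))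
noncomputable def t282 : T := .cons 297 (.leaf 296 2178 (.cons 277 (.leaf 298 2186 (.cons 302 (.leaf 301 2192 (.cons 254 (.leaf 253 2001 (.cons 278 (.leaf 255 2009 (.leaf 303 2200 .nil)) .nil)) .nil)) .nil)) .nil)) (.cons 277 (.cons 254 (.leaf 253 2001 (.cons 278 (.leaf 255 2009 (.cons 302 (.leaf 301 2192 (.leaf 303 2200 .nil)) .nil)) .nil)) (.cons 302 (.leaf 301 2192 (.cons 278 (.leaf 303 2200 (.cons 255 (.leaf 254 2009 (.cons 279 (.leaf 252 2011 (.leaf 256 2017 .nil)) .nil)) .nil)) .nil)) (.cons 252 (.leaf 253 1993 (.cons 278 (.leaf 279 2011 (.cons 302 (.leaf 301 2192 (.leaf 303 2200 .nil)) .nil)) .nil)) (.cons 253 (.leaf 252 1993 (.leaf 254 2001 .nil)) .nil)))) (.cons 297 (.leaf 296 2178 (.cons 277 (.leaf 298 2186 (.cons 302 (.leaf 301 2192 (.cons 278 (.leaf 303 2200 (.cons 255 (.leaf 254 2009 (.cons 279 (.leaf 252 2011 (.leaf 256 2017 .nil)) .nil)) .nil)) .nil)) .nil)) .nil)) (.cons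 252 (.leaf 253 1993 (.cons 297 (.leaf 296 2178 (.cons 225 (.cons 200 (.leaf 224 1607 (.cons 201 (.leaf 176 1415 (.leaf 298 1612 .nil)) .nil)) (.cons 200 (.leaf 224 1607 (.cons 201 (.leaf 176 1415 (.cons 202 (.leaf 178 1421 (.leaf 226 1613 .nil)) .nil)) .nil)) (.cons 224 (.leaf 200 1607 (.cons 226 (.leaf 227 1792 (.leaf 202 1613 .nil)) .nil)) (.cons 298 (.leaf 201 1612 (.leaf 322 1804 .nil)) .nil)))) .nil)) .nil)) .nil)))
noncomputable def t283 : T := .cons 296 (.leaf 276 2178 (.cons 225 (.leaf 320 1798 (.cons 201 (.leaf 272 1606 (.leaf 298 1612 .nil)) .nil)) .nil)) (.cons 321 (.cons 344 (.leaf 320 1990 (.cons 345 (.leaf 368 2182 (.cons 369 (.leaf 298 2189 (.cons 370 (.leaf 346 2188 (.leaf 394 2380 .nil)) .nil)) .nil)) .nil)) (.cons 344 (.leaf 320 1990 (.cons 345 (.leaf 368 2182 (.cons 298 (.leaf 369 2189 (.cons 225 (.leaf 201 1612 (.leaf 322 1804 .nil)) .nil)) .nil)) .nil)) (.cons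 252 (.leaf 272 1985 (.cons 253 (.leaf 254 2002 (.leaf 276 1993 .nil)) .nil)) .nil))) (.cons 296 (.leaf 276 2178 (.cons 225 (.leaf 320 1798 (.cons 200 (.leaf 224 1607 (.cons 201 (.leaf 176 1415 (.leaf 272 1606 .nil)) .nil)) .nil)) .nil)) (.cons 321 (.cons 344 (.leaf 320 1990 (.cons 345 (.leaf 368 2182 (.cons 369 (.leaf 298 2189 (.cons 370 (.leaf 346 2188 (.leaf 394 2380 .nil)) .nil)) .nil)) .nil)) (.cons 344 (.leaf 320 1990 (.cons 345 (.leaf 368 2182 (.cons 298 (.leaf 369 2189 (.cons 225 (.leaf 201 1612 (.leaf 322 1804 .nil)) .nil)) .nil)) .nil)) (.cons 272 (.leaf 252 1985 (.cons 295 (.leaf 296 2170 (.cons 271 (.leaf 294 2162 (.cons 246 (.leaf 247 1971 (.cons 245 (.leaf 270 1963 (.cons 344 (.leaf 320 1990 (.cons 345 (.leaf 368 2182 (.cons 346 (.leaf 322 1996 (.leaf 370 2188 .nil)) .nil)) .nil)) .nil)) .nil)) .nil)) .nil)) .nil)) (.cons 322 (.leaf 346 1996 (.cons 225 (.leaf 298 1804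 (.cons 200 (.leaf 224 1607 (.cons 201 (.leaf 176 1415 (.cons 202 (.leaf 178 1421 (.leaf 226 1613 .nil)) .nil)) .nil)) .nil)) .nil)) .nil)))) (.cons 296 (.leaf 276 2178 (.cons 225 (.leaf 320 1798 (.cons 200 (.leaf 224 1607 (.cons 295 (.leaf 298 2169 (.leaf 294 2161 .nil)) .nil)) .nil)) .nil)) (.cons 296 (.leaf 276 2178 (.cons 295 (.leaf 272 2170 (.leaf 298 2169 .nil)) .nil)) .nil)))))
noncomputable def t284 : T := .cons 297 t283 (.cons 297 (.cons 296 (.leaf 276 2178 (.cons 225 (.leaf 320 1798 (.cons 201 (.leaf 272 1606 (.leaf 298 1612 .nil)) .nil)) .nil)) (.cons 321 (.cons 322 (.leaf 346 1996 (.cons 225 (.leaf 298 1804 (.cons 200 (.leaf 224 1607 (.cons 201 (.leaf 176 1415 (.cons 202 (.leaf 178 1421 (.leaf 226 1613 .nil)) .nil)) .nil)) .nil)) .nil)) (.cons 344 (.leaf 320 1990 (.cons 345 (.leaf 368 2182 (.cons 369 (.leaf 298 2189 (.cons 370 (.leaf 346 2188 (.leaf 394 2380 .nil)) .nil))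 .nil)) .nil)) (.cons 344 (.leaf 320 1990 (.cons 345 (.leaf 368 2182 (.cons 298 (.leaf 369 2189 (.cons 225 (.leaf 201 1612 (.leaf 322 1804 .nil)) .nil)) .nil)) .nil)) (.cons 344 (.leaf 320 1990 (.cons 345 (.leaf 368 2182 (.cons 346 (.leaf 322 1996 (.leaf 370 2188 .nil)) .nil)) .nil)) .nil)))) (.cons 296 (.leaf 276 2178 (.cons 225 (.leaf 320 1798 (.cons 200 (.leaf 224 1607 (.cons 201 (.leaf 176 1415 (.leaf 272 1606 .nil)) .nil)) .nil)) .nil)) (.cons 296 (.leaf 276 2178 (.cons 295 (.leaf 272 2170 (.leaf 298 2169 .nil)) .nil)) .nil)))) (.cons 276 t282 (.cons 272 (.leaf 252 1985 (.cons 296 (.leaf 295 2170 (.cons 225 (.leaf 201 1606 (.cons 297 (.leaf 276 2178 (.leaf 320 1798 .nil)) .nil)) .nil)) .nil)) (.cons 252 (.leaf 272 1985 (.cons 253 (.leaf 254 2002 (.leaf 276 1993 .nil)) .nil)) (.cons 272 (.leaf 252 1985 (.cons 296 (.leaf 295 2170 (.cons 225 (.leaf 201 1606 (.cons 320 (.leaf 297 1798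 (.leaf 344 1989 .nil)) .nil)) .nil)) .nil)) .nil)))))
noncomputable def t285 : T := .cons 297 (.leaf 296 2178 (.cons 277 (.leaf 298 2186 (.cons 253 (.leaf 252 1993 (.leaf 254 2001 .nil)) .nil)) .nil)) (.cons 277 (.cons 302 (.leaf 301 2192 (.cons 278 (.leaf 303 2200 (.cons 255 (.leaf 254 2009 (.cons 279 (.leaf 252 2011 (.leaf 256 2017 .nil)) .nil)) .nil)) .nil)) (.cons 254 (.leaf 253 2001 (.cons 278 (.leaf 255 2009 (.cons 302 (.leaf 301 2192 (.leaf 303 2200 .nil)) .nil)) .nil)) (.cons 252 (.leaf 253 1993 (.cons 278 (.leaf 279 2011 (.cons 302 (.leaf 301 2192 (.leaf 303 2200 .nil)) .nil)) .nil)) (.cons 253 (.leaf 252 1993 (.leaf 254 2001 .nil)) .nil)))) (.cons 297 (.leaf 296 2178 (.cons 277 (.leaf 298 2186 (.cons 302 (.leaf 301 2192 (.cons 278 (.leaf 303 2200 (.cons 255 (.leaf 254 2009 (.cons 279 (.leaf 252 2011 (.leaf 256 2017 .nil)) .nil)) .nil)) .nil)) .nil)) .nil)) (.cons 297 (.leaf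 296 2178 (.cons 277 (.leaf 298 2186 (.cons 254 (.leaf 253 2001 (.cons 278 (.leaf 255 2009 (.cons 302 (.leaf 301 2192 (.leaf 303 2200 .nil)) .nil)) .nil)) .nil)) .nil)) (.cons 252 (.leaf 253 1993 (.cons 297 (.leaf 296 2178 (.cons 225 (.cons 200 (.leaf 224 1607 (.cons 201 (.leaf 176 1415 (.leaf 298 1612 .nil)) .nil)) (.cons 200 (.leaf 224 1607 (.cons 201 (.leaf 176 1415 (.cons 202 (.leaf 178 1421 (.leaf 226 1613 .nil)) .nil)) .nil)) (.cons 224 (.leaf 200 1607 (.cons 226 (.leaf 227 1792 (.leaf 202 1613 .nil)) .nil)) (.cons 298 (.leaf 201 1612 (.leaf 322 1804 .nil)) .nil)))) .nil)) .nil)) .nil))))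
noncomputable def t286 : T := .cons 298 (.leaf 201 1612 (.cons 322 (.leaf 346 2005 (.leaf 297 1804 .nil)) .nil)) (.cons 202 (.cons 297 (.leaf 226 1613 (.cons 224 (.leaf 200 1607 (.cons 320 (.leaf 296 1798 (.cons 321 (.leaf 248 1799 (.leaf 344 1990 .nil)) .nil)) .nil)) .nil)) (.cons 201 (.leaf 178 1421 (.cons 200 (.leaf 176 1415 (.cons 224 (.leaf 297 1607 (.cons 203 (.leaf 204 1602 (.leaf 223 1594 .nil)) .nil)) .nil)) .nil)) (.cons 178 (.leaf 201 1421 (.cons 226 (.leaf 154 1230 (.cons 227 (.leaf 203 1431 (.cons 224 (.leaf 252 1792 (.cons 248 (.leaf 228 1794 (.leaf 247 1786 .nil)) .nil)) .nil)) .nil)) .nil)) (.cons 178 (.leaf 201 1421 (.cons 226 (.leaf 154 1230 (.leaf 297 1613 .nil)) .nil)) .nil)))) (.cons 297 (.cons 202 (.leaf 226 1613 (.cons 224 (.leaf 200 1607 (.cons 320 (.leaf 296 1798 (.cons 321 (.leaf 248 1799 (.leaf 344 1990 .nil)) .nil)) .nil)) .nil)) (.cons 200 (.leaf 224 1607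 (.cons 226 (.leaf 202 1613 (.cons 298 (.leaf 322 1804 (.cons 227 (.leaf 203 1622 (.cons 228 (.leaf 248 1794 (.cons 204 (.leaf 205 1609 (.cons 180 (.leaf 252 1438 (.leaf 156 1246 .nil)) .nil)) .nil)) .nil)) .nil)) .nil)) .nil)) (.cons 202 (.leaf 226 1613 (.cons 296 (.leaf 320 1798 (.cons 295 (.leaf 298 2169 (.leaf 294 2161 .nil)) .nil)) .nil)) (.cons 298 (.leaf 322 1804 (.cons 296 (.leaf 295 2169 (.leaf 320 1798 .nil)) .nil)) .nil)))) (.cons 201 (.leaf 298 1612 (.cons 176 (.leaf 200 1415 (.cons 177 (.leaf 152 1223 (.cons 178 (.leaf 154 1229 (.leaf 202 1421 .nil)) .nil)) .nil)) .nil)) .nil)))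
noncomputable def t287 : T := .cons 298 (.leaf 201 1612 (.cons 322 (.leaf 346 2005 (.leaf 297 1804 .nil)) .nil)) (.cons 202 (.cons 201 (.leaf 178 1421 (.cons 200 (.leaf 176 1415 (.cons 224 (.leaf 297 1607 (.cons 203 (.leaf 204 1602 (.leaf 223 1594 .nil)) .nil)) .nil)) .nil)) (.cons 178 (.leaf 201 1421 (.cons 226 (.leaf 154 1230 (.cons 227 (.leaf 203 1431 (.cons 224 (.leaf 252 1792 (.cons 248 (.leaf 276 1987 (.leaf 228 1794 .nil)) .nil)) .nil)) .nil)) .nil)) (.cons 297 (.leaf 226 1613 (.cons 224 (.leaf 200 1607 (.cons 320 (.leaf 296 1798 (.cons 321 (.leaf 248 1799 (.leaf 344 1990 .nil)) .nil)) .nil)) .nil)) (.cons 178 (.leaf 201 1421 (.cons 226 (.leaf 154 1230 (.leaf 297 1613 .nil)) .nil)) .nil)))) (.cons 297 (.cons 200 (.leaf 224 1607 (.cons 226 (.leaf 202 1613 (.cons 298 (.leaf 322 1804 (.cons 227 (.leaf 203 1622 (.cons 228 (.leaf 248 1794 (.cons 204 (.leaf 205 1609 (.cons 180 (.leaf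 252 1438 (.leaf 156 1246 .nil)) .nil)) .nil)) .nil)) .nil)) .nil)) .nil)) (.cons 202 (.leaf 226 1613 (.cons 224 (.leaf 200 1607 (.cons 320 (.leaf 296 1798 (.cons 321 (.leaf 248 1799 (.leaf 344 1990 .nil)) .nil)) .nil)) .nil)) (.cons 200 (.leaf 224 1607 (.cons 296 (.leaf 276 2178 (.leaf 320 1798 .nil)) .nil)) (.cons 276 (.leaf 248 1987 (.leaf 296 2178 .nil)) .nil)))) (.cons 298 (.leaf 201 1612 (.cons 322 (.leaf 346 2005 (.cons 227 (.leaf 203 1622 (.cons 248 (.leaf 276 1987 (.cons 226 (.leaf 228 1794 (.cons 247 (.leaf 246 1968 (.leaf 224 1786 .nil)) .nil)) .nil)) .nil)) .nil)) .nil)) .nil)))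
noncomputable def t288 : T := .cons 225 t287 (.cons 225 t286 (.cons 276 t285 (.cons 276 (.leaf 248 1987 (.cons 297 (.leaf 296 2178 (.cons 277 (.cons 252 (.leaf 253 1993 (.cons 278 (.leaf 279 2011 (.cons 302 (.leaf 301 2192 (.leaf 303 2200 .nil)) .nil)) .nil)) (.cons 302 (.leaf 301 2192 (.cons 278 (.leaf 303 2200 (.cons 255 (.leaf 254 2009 (.cons 279 (.leaf 252 2011 (.leaf 256 2017 .nil)) .nil)) .nil)) .nil)) (.cons 254 (.leaf 253 2001 (.cons 278 (.leaf 255 2009 (.cons 302 (.leaf 301 2192 (.leaf 303 2200 .nil)) .nil)) .nil)) (.cons 253 (.leaf 252 1993 (.leaf 254 2001 .nil)) .nil)))) .nil)) .nil)) (.cons 276 (.leaf 248 1987 (.cons 277 (.cons 253 (.leaf 252 1993 (.leaf 254 2001 .nil)) (.cons 302 (.leaf 301 2192 (.cons 278 (.leaf 303 2200 (.cons 255 (.leaf 254 2009 (.cons 279 (.leaf 252 2011 (.leaf 256 2017 .nil)) .nil)) .nil)) .nil)) (.cons 254 (.leaf 253 2001 (.cons 278 (.leaf 255 2009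 (.cons 302 (.leaf 301 2192 (.leaf 303 2200 .nil)) .nil)) .nil)) (.cons 252 (.leaf 253 1993 (.cons 278 (.leaf 279 2011 (.cons 302 (.leaf 301 2192 (.leaf 303 2200 .nil)) .nil)) .nil)) .nil)))) .nil)) (.cons 276 (.leaf 248 1987 (.cons 297 (.leaf 296 2178 (.cons 277 (.leaf 298 2186 (.cons 254 (.leaf 253 2001 (.cons 278 (.leaf 255 2009 (.cons 302 (.leaf 301 2192 (.leaf 303 2200 .nil)) .nil)) .nil)) .nil)) .nil)) .nil)) .nil)))))
noncomputable def t289 : T := .cons 297 (.cons 224 (.leaf 200 1607 (.cons 321 (.leaf 248 1799 (.cons 322 (.leaf 298 1804 (.leaf 346 1996 .nil)) .nil)) .nil)) (.cons 320 (.leaf 296 1798 (.cons 202 (.leaf 226 1613 (.cons 321 (.leaf 344 1990 (.cons 322 (.leaf 298 1804 (.leaf 346 1996 .nil)) .nil)) .nil)) .nil)) (.cons 224 (.leaf 200 1607 (.cons 226 (.leaf 202 1613 (.cons 227 (.leaf 252 1792 (.cons 248 (.leaf 321 1799 (.leaf 228 1794 .nil)) .nil)) .nil)) .nil)) (.cons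 224 (.leaf 200 1607 (.cons 226 (.leaf 202 1613 (.cons 227 (.leaf 252 1792 (.cons 248 (.leaf 228 1794 (.leaf 247 1786 .nil)) .nil)) .nil)) .nil)) .nil)))) (.cons 297 (.cons 202 (.leaf 226 1613 (.cons 201 (.leaf 178 1421 (.cons 272 (.leaf 296 1606 (.cons 248 (.leaf 177 1414 (.cons 321 (.leaf 224 1799 (.leaf 345 1991 .nil)) .nil)) .nil)) .nil)) .nil)) (.cons 202 (.leaf 226 1613 (.cons 178 (.leaf 201 1421 (.cons 203 (.leaf 227 1431 (.cons 322 (.leaf 298 1804 (.cons 321 (.leaf 346 1996 (.cons 248 (.leaf 224 1799 (.cons 344 (.leaf 320 1990 (.cons 345 (.leaf 272 1991 (.leaf 368 2182 .nil)) .nil)) .nil)) .nil)) .nil)) .nil)) .nil)) .nil)) (.cons 296 (.leaf 320 1798 (.cons 272 (.leaf 201 1606 (.cons 322 (.leaf 298 1804 (.cons 321 (.leaf 346 1996 (.cons 248 (.leaf 224 1796 (.leaf 345 1991 .nil)) .nil)) .nil)) .nil)) .nil)) (.cons 202 (.leaf 226 1613 (.cons 201 (.leaf 178 1421 (.cons 296 (.leaf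 272 1606 (.leaf 320 1798 .nil)) .nil)) .nil)) (.cons 320 (.leaf 296 1798 (.cons 202 (.leaf 226 1613 (.cons 321 (.leaf 344 1990 (.cons 322 (.leaf 298 1804 (.leaf 346 1996 .nil)) .nil)) .nil)) .nil)) .nil))))) (.cons 201 (.cons 178 (.leaf 202 1421 (.cons 177 (.leaf 154 1229 (.cons 272 (.leaf 248 1414 (.leaf 296 1606 .nil)) .nil)) .nil)) (.cons 176 (.leaf 200 1415 (.cons 177 (.leaf 152 1223 (.cons 272 (.leaf 248 1414 (.leaf 296 1606 .nil)) .nil)) .nil)) (.cons 202 (.leaf 178 1421 (.cons 176 (.leaf 200 1415 (.cons 152 (.leaf 177 1223 (.cons 297 (.leaf 226 1613 (.cons 320 (.leaf 296 1798 (.cons 321 (.leaf 344 1990 (.cons 322 (.leaf 298 1804 (.leaf 346 1996 .nil)) .nil)) .nil)) .nil)) .nil)) .nil)) .nil)) (.cons 202 (.leaf 178 1421 (.cons 200 (.leaf 176 1415 (.cons 226 (.leaf 297 1613 (.cons 199 (.leaf 198 1584 (.leaf 227 1592 .nil)) .nil)) .nil)) .nil)) .nil)))) (.cons 297 (.cons 296 (.leaf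 320 1798 (.cons 272 (.leaf 201 1606 (.cons 322 (.leaf 298 1804 (.cons 321 (.leaf 346 1996 (.cons 248 (.leaf 224 1796 (.leaf 345 1991 .nil)) .nil)) .nil)) .nil)) .nil)) (.cons 296 (.leaf 320 1798 (.cons 272 (.leaf 201 1606 (.cons 322 (.leaf 298 1804 (.cons 321 (.leaf 346 1996 (.cons 345 (.leaf 248 1991 (.leaf 369 2183 .nil)) .nil)) .nil)) .nil)) .nil)) (.cons 224 (.leaf 200 1607 (.cons 321 (.leaf 248 1799 (.cons 322 (.leaf 298 1804 (.leaf 346 1996 .nil)) .nil)) .nil)) (.cons 200 (.leaf 224 1607 (.cons 201 (.leaf 176 1415 (.cons 296 (.leaf 272 1606 (.leaf 320 1798 .nil)) .nil)) .nil)) .nil)))) (.cons 201 (.cons 176 (.leaf 200 1415 (.cons 177 (.leaf 152 1223 (.cons 154 (.leaf 178 1229 (.cons 153 (.leaf 130 1037 (.cons 248 (.leaf 272 1414 (.leaf 224 1222 .nil)) .nil)) .nil)) .nil)) .nil)) (.cons 202 (.leaf 178 1421 (.cons 297 (.leaf 226 1613 (.cons 322 (.leaf 298 1804 (.cons 321 (.leaf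 346 1996 (.cons 248 (.leaf 224 1799 (.cons 272 (.leaf 177 1414 (.leaf 345 1991 .nil)) .nil)) .nil)) .nil)) .nil)) .nil)) (.cons 176 (.leaf 200 1415 (.cons 177 (.leaf 152 1223 (.cons 248 (.leaf 272 1414 (.cons 224 (.leaf 153 1222 (.cons 297 (.leaf 321 1799 (.cons 226 (.leaf 202 1613 (.cons 227 (.leaf 252 1792 (.leaf 228 1794 .nil)) .nil)) .nil)) .nil)) .nil)) .nil)) .nil)) (.cons 200 (.leaf 176 1415 (.cons 202 (.leaf 178 1421 (.cons 226 (.leaf 297 1613 (.cons 199 (.leaf 198 1584 (.leaf 227 1592 .nil)) .nil)) .nil)) .nil)) .nil)))) (.cons 297 (.cons 202 (.leaf 226 1613 (.cons 201 (.leaf 178 1421 (.cons 296 (.leaf 272 1606 (.leaf 320 1798 .nil)) .nil)) .nil)) (.cons 200 (.leaf 224 1607 (.cons 201 (.leaf 176 1415 (.cons 202 (.leaf 178 1421 (.leaf 226 1613 .nil)) .nil)) .nil)) (.cons 200 (.leaf 224 1607 (.cons 201 (.leaf 176 1415 (.cons 296 (.leaf 272 1606 (.leaf 320 1798 .nil)) .nil))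 .nil)) (.cons 200 (.leaf 224 1607 (.cons 320 (.leaf 296 1798 (.cons 321 (.leaf 344 1990 (.cons 322 (.leaf 298 1804 (.leaf 346 1996 .nil)) .nil)) .nil)) .nil)) .nil)))) .nil)))))
noncomputable def t290 : T := .cons 176 (.leaf 200 1415 (.cons 177 (.leaf 152 1223 (.cons 154 (.leaf 178 1229 (.cons 153 (.leaf 130 1037 (.cons 248 (.leaf 272 1414 (.leaf 224 1222 .nil)) .nil)) .nil)) .nil)) .nil)) (.cons 202 (.leaf 178 1421 (.cons 226 (.leaf 297 1613 (.cons 272 (.leaf 296 1606 (.cons 177 (.leaf 248 1414 (.cons 152 (.leaf 176 1223 (.cons 153 (.leaf 128 1031 (.leaf 129 1036 .nil)) .nil)) .nil)) .nil)) .nil)) .nil)) (.cons 200 (.leaf 176 1415 (.cons 224 (.leaf 297 1607 (.cons 272 (.leaf 296 1606 (.cons 248 (.leaf 177 1413 (.cons 199 (.leaf 175 1407 (.cons 198 (.leaf 197 1576 (.leaf 226 1584 .nil)) .nil)) .nil)) .nil)) .nil)) .nil)) (.cons 202 (.leaf 178 1421 (.cons 226 (.leaf 297 1613 (.cons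 272 (.leaf 296 1606 (.cons 248 (.leaf 177 1414 (.cons 227 (.leaf 228 1794 (.cons 224 (.leaf 252 1792 (.leaf 247 1786 .nil)) .nil)) .nil)) .nil)) .nil)) .nil)) (.cons 202 (.leaf 178 1421 (.cons 176 (.leaf 200 1415 (.cons 152 (.leaf 177 1223 (.cons 297 (.leaf 226 1613 (.cons 320 (.leaf 296 1798 (.cons 321 (.leaf 344 1990 (.cons 322 (.leaf 298 1804 (.leaf 346 1996 .nil)) .nil)) .nil)) .nil)) .nil)) .nil)) .nil)) (.cons 200 (.leaf 176 1415 (.cons 178 (.leaf 202 1421 (.cons 272 (.leaf 296 1606 (.cons 297 (.leaf 224 1607 (.cons 322 (.leaf 298 1804 (.cons 321 (.leaf 346 1996 (.cons 344 (.leaf 320 1990 (.cons 345 (.leaf 248 1991 (.leaf 368 2182 .nil)) .nil)) .nil)) .nil)) .nil)) .nil)) .nil)) .nil)) .nil)))))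
noncomputable def t291 : T := .cons 201 t290 (.cons 201 (.cons 176 (.leaf 200 1415 (.cons 177 (.leaf 152 1223 (.cons 272 (.leaf 248 1414 (.leaf 296 1606 .nil)) .nil)) .nil)) (.cons 178 (.leaf 202 1421 (.cons 177 (.leaf 154 1229 (.cons 272 (.leaf 248 1414 (.leaf 296 1606 .nil)) .nil)) .nil)) (.cons 176 (.leaf 200 1415 (.cons 177 (.leaf 152 1223 (.cons 178 (.leaf 154 1229 (.leaf 202 1421 .nil)) .nil)) .nil)) (.cons 202 (.leaf 178 1421 (.cons 200 (.leaf 176 1415 (.cons 272 (.leaf 296 1606 (.cons 203 (.cons 179 (.leaf 180 1409 (.cons 227 (.leaf 228 1600 (.cons 199 (.leaf 226 1592 (.cons 174 (.leaf 175 1395 (.cons 198 (.leaf 173 1387 (.cons 224 (.leaf 197 1576 (.leaf 204 1602 .nil)) .nil)) .nil)) .nil)) .nil)) .nil)) (.cons 179 (.leaf 180 1409 (.cons 227 (.leaf 228 1600 (.cons 199 (.leaf 226 1592 (.cons 174 (.leaf 175 1395 (.cons 198 (.leaf 173 1387 (.cons 222 (.leaf 221 1578 (.leaf 223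 1586 .nil)) .nil)) .nil)) .nil)) .nil)) .nil)) (.cons 224 (.leaf 204 1602 (.leaf 223 1594 .nil)) .nil))) .nil)) .nil)) .nil)) .nil)))) t289)
noncomputable def t292 : T := .cons 225 (.cons 202 (.leaf 226 1613 (.cons 178 (.leaf 201 1421 (.cons 203 (.leaf 227 1431 (.cons 296 (.leaf 320 1798 (.cons 295 (.leaf 272 2170 (.leaf 298 2169 .nil)) .nil)) .nil)) .nil)) .nil)) (.cons 202 (.leaf 226 1613 (.cons 178 (.leaf 201 1421 (.cons 203 (.leaf 227 1431 (.cons 296 (.leaf 320 1798 (.cons 295 (.leaf 272 2170 (.leaf 294 2161 .nil)) .nil)) .nil)) .nil)) .nil)) (.cons 224 (.leaf 200 1607 (.leaf 321 1799 .nil)) .nil))) (.cons 321 (.leaf 224 1799 (.cons 246 (.leaf 247 1968 (.cons 320 (.leaf 344 1990 (.cons 346 (.leaf 322 1996 (.cons 345 (.leaf 370 2188 (.cons 318 (.leaf 319 2544 (.cons 369 (.leaf 298 2189 (.cons 296 (.leaf 225 1798 (.leaf 393 2375 .nil)) .nil)) .nil)) .nil)) .nil)) .nil)) .nil)) .nil))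 (.cons 225 (.cons 202 (.leaf 226 1613 (.cons 178 (.leaf 201 1421 (.cons 203 (.leaf 227 1431 (.cons 296 (.leaf 320 1798 (.cons 295 (.leaf 272 2170 (.leaf 298 2169 .nil)) .nil)) .nil)) .nil)) .nil)) (.cons 202 (.leaf 226 1613 (.cons 178 (.leaf 201 1421 (.cons 203 (.leaf 227 1431 (.cons 296 (.leaf 320 1798 (.cons 295 (.leaf 272 2170 (.leaf 294 2161 .nil)) .nil)) .nil)) .nil)) .nil)) (.cons 298 (.leaf 201 1612 (.leaf 322 1804 .nil)) (.cons 202 (.leaf 226 1613 (.cons 296 (.leaf 320 1798 (.cons 295 (.leaf 272 2170 (.leaf 298 2169 .nil)) .nil)) .nil)) .nil)))) (.cons 321 (.leaf 224 1799 (.cons 272 (.leaf 247 1979 (.leaf 345 1991 .nil)) .nil)) .nil)))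
noncomputable def t293 : T := .cons 274 (.cons 276 (.leaf 248 1987 (.cons 297 (.leaf 296 2178 (.cons 277 (.leaf 298 2186 (.cons 253 (.leaf 252 1993 (.leaf 254 2001 .nil)) .nil)) .nil)) .nil)) (.cons 252 (.leaf 272 1985 (.cons 253 (.leaf 254 2002 (.leaf 276 1993 .nil)) .nil)) (.cons 272 (.leaf 252 1985 (.cons 247 (.leaf 248 1979 (.cons 246 (.leaf 271 1971 (.cons 296 (.leaf 295 2170 (.cons 225 (.leaf 201 1606 (.cons 320 (.leaf 297 1798 (.leaf 344 1989 .nil)) .nil)) .nil)) .nil)) .nil)) .nil)) (.cons 248 (.leaf 276 1987 (.cons 297 t292 .nil)) .nil)))) (.cons 225 t291 (.cons 274 t288 (.cons 274 t284 (.cons 274 (.cons 248 (.leaf 276 1987 (.cons 247 (.leaf 272 1979 (.leaf 246 1968 .nil)) .nil)) (.cons 276 (.leaf 248 1987 (.cons 297 (.leaf 296 2178 (.cons 277 (.leaf 298 2186 (.cons 302 (.leaf 301 2192 (.cons 254 (.leaf 253 2001 (.cons 278 (.leaf 255 2009 (.leaf 303 2200 .nil)) .nil)) .nil))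 .nil)) .nil)) .nil)) (.cons 252 (.leaf 272 1985 (.cons 253 (.leaf 254 2002 (.leaf 276 1993 .nil)) .nil)) (.cons 272 (.leaf 252 1985 (.cons 247 (.leaf 248 1979 (.cons 271 (.leaf 246 1971 (.cons 295 (.leaf 296 2170 (.leaf 294 2162 .nil)) .nil)) .nil)) .nil)) .nil)))) (.cons 274 (.cons 272 (.leaf 252 1985 (.cons 248 (.leaf 247 1979 (.leaf 276 1987 .nil)) .nil)) (.cons 276 (.leaf 248 1987 (.cons 277 (.cons 252 (.leaf 253 1993 (.cons 278 (.leaf 279 2011 (.cons 302 (.leaf 301 2192 (.leaf 303 2200 .nil)) .nil)) .nil)) (.cons 302 (.leaf 301 2192 (.cons 278 (.leaf 303 2200 (.cons 255 (.leaf 254 2009 (.cons 279 (.leaf 252 2011 (.leaf 256 2017 .nil)) .nil)) .nil)) .nil)) (.cons 254 (.leaf 253 2001 (.cons 278 (.leaf 255 2009 (.cons 302 (.leaf 301 2192 (.leaf 303 2200 .nil)) .nil)) .nil)) (.cons 253 (.leaf 252 1993 (.leaf 254 2001 .nil)) .nil)))) .nil)) (.cons 252 (.leaf 272 1985 (.cons 253 (.leaf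 254 2002 (.leaf 276 1993 .nil)) .nil)) (.cons 248 (.leaf 276 1987 (.cons 247 (.leaf 272 1979 (.leaf 246 1968 .nil)) .nil)) (.cons 272 (.leaf 252 1985 (.cons 247 (.leaf 248 1979 (.cons 271 (.leaf 246 1971 (.cons 295 (.leaf 296 2170 (.leaf 294 2162 .nil)) .nil)) .nil)) .nil)) .nil))))) (.cons 274 t281 (.cons 274 t278 (.cons 274 (.cons 276 (.leaf 248 1987 (.cons 297 (.leaf 296 2178 (.cons 277 (.leaf 298 2186 (.cons 302 (.leaf 301 2192 (.cons 254 (.leaf 253 2001 (.cons 278 (.leaf 255 2009 (.leaf 303 2200 .nil)) .nil)) .nil)) .nil)) .nil)) .nil)) (.cons 272 (.leaf 252 1985 (.cons 296 (.leaf 295 2170 (.cons 225 (.leaf 201 1606 (.cons 320 (.leaf 248 1797 (.leaf 297 1798 .nil)) .nil)) .nil)) .nil)) (.cons 252 (.leaf 272 1985 (.cons 253 (.leaf 254 2002 (.leaf 276 1993 .nil)) .nil)) .nil))) .nil))))))))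
noncomputable def t294 : T := .cons 248 (.leaf 276 1984 (.cons 224 (.leaf 223 1787 (.cons 225 (.leaf 252 1795 (.cons 227 (.leaf 228 1793 (.cons 272 (.leaf 271 1978 (.cons 201 (.leaf 177 1414 (.leaf 296 1605 .nil)) .nil)) .nil)) .nil)) .nil)) .nil)) (.cons 252 (.cons 224 (.leaf 225 1795 (.cons 229 (.leaf 228 1801 (.cons 253 (.leaf 230 1809 (.cons 277 (.leaf 276 1992 (.leaf 278 2000 .nil)) .nil)) .nil)) .nil)) (.cons 224 (.leaf 225 1795 (.cons 229 (.leaf 228 1801 (.cons 253 (.leaf 230 1809 (.cons 273 (.leaf 272 1986 (.leaf 274 1994 .nil)) .nil)) .nil)) .nil)) (.cons 277 (.leaf 276 1992 (.cons 229 (.leaf 228 1801 (.cons 253 (.leaf 230 1809 (.leaf 278 2000 .nil)) .nil)) .nil)) (.cons 225 (.leaf 224 1795 (.cons 228 (.leaf 229 1801 (.cons 204 (.leaf 180 1438 (.cons 273 (.leaf 272 1986 (.cons 276 (.leaf 277 1992 (.cons 203 (.leaf 179 1439 (.cons 205 (.leaf 181 1445 (.cons 202 (.leaf 226 1610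 (.cons 178 (.leaf 227 1431 (.leaf 201 1421 .nil)) .nil)) .nil)) .nil)) .nil)) .nil)) .nil)) .nil)) .nil)) (.cons 224 (.leaf 225 1795 (.cons 273 (.leaf 272 1986 (.cons 253 (.leaf 274 1994 (.cons 277 (.leaf 276 1992 (.leaf 278 2000 .nil)) .nil)) .nil)) .nil)) .nil))))) (.cons 248 (.cons 224 (.leaf 223 1787 (.cons 225 (.leaf 252 1795 (.cons 227 (.leaf 228 1793 (.cons 272 (.leaf 271 1978 (.cons 201 (.leaf 177 1414 (.leaf 296 1605 .nil)) .nil)) .nil)) .nil)) .nil)) (.cons 223 (.leaf 224 1787 (.cons 247 (.leaf 274 1976 (.leaf 222 1779 .nil)) .nil)) (.cons 247 (.leaf 274 1976 (.cons 227 (.leaf 228 1793 (.leaf 226 1785 .nil)) .nil)) .nil))) (.cons 248 (.leaf 276 1984 (.cons 223 (.leaf 224 1787 (.cons 247 (.leaf 274 1976 (.leaf 222 1779 .nil)) .nil)) .nil)) (.cons 248 (.leaf 276 1984 (.cons 247 (.leaf 274 1976 (.cons 227 (.leaf 228 1793 (.leaf 226 1785 .nil)) .nil)) .nil)) .nil))))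
noncomputable def t295 : T := .cons 250 t294 (.cons 273 t293 (.cons 273 t277 (.cons 250 t260 (.cons 248 t259 (.cons 250 t256 (.cons 250 t254 (.cons 250 t252 (.cons 250 (.cons 248 (.leaf 276 1984 (.cons 223 (.leaf 224 1787 (.cons 247 (.leaf 274 1976 (.leaf 222 1779 .nil)) .nil)) .nil)) (.cons 252 t251 (.cons 248 (.cons 223 (.leaf 224 1787 (.cons 247 (.leaf 274 1976 (.leaf 222 1779 .nil)) .nil)) (.cons 223 (.leaf 224 1787 (.cons 228 (.leaf 227 1793 (.cons 252 (.leaf 229 1801 (.cons 272 (.leaf 271 1978 (.leaf 273 1986 .nil)) .nil)) .nil)) .nil)) (.cons 247 (.leaf 274 1976 (.cons 227 (.leaf 228 1793 (.leaf 226 1785 .nil)) .nil)) .nil))) (.cons 248 (.leaf 276 1984 (.cons 223 (.leaf 224 1787 (.cons 247 (.leaf 222 1779 (.cons 271 (.leaf 272 1978 (.leaf 270 1970 .nil)) .nil)) .nil)) .nil)) .nil)))) (.cons 250 (.cons 276 (.leaf 248 1984 (.cons 277 (.leaf 274 1995 (.leaf 278 2003 .nil)) .nil))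 (.cons 252 t250 (.cons 248 (.cons 223 (.leaf 224 1787 (.cons 247 (.leaf 274 1976 (.leaf 222 1779 .nil)) .nil)) (.cons 224 (.leaf 223 1787 (.cons 228 (.leaf 227 1793 (.cons 252 (.leaf 225 1795 (.leaf 229 1801 .nil)) .nil)) .nil)) (.cons 247 (.leaf 274 1976 (.cons 227 (.leaf 228 1793 (.leaf 226 1785 .nil)) .nil)) .nil))) (.cons 248 (.leaf 276 1984 (.cons 224 (.leaf 223 1787 (.cons 228 (.leaf 227 1793 (.cons 252 (.leaf 225 1795 (.leaf 229 1801 .nil)) .nil)) .nil)) .nil)) .nil)))) (.cons 250 (.cons 248 (.leaf 276 1984 (.cons 223 (.leaf 224 1787 (.cons 247 (.leaf 274 1976 (.leaf 222 1779 .nil)) .nil)) .nil)) (.cons 252 t249 (.cons 248 (.cons 223 (.leaf 224 1787 (.cons 247 (.leaf 274 1976 (.leaf 222 1779 .nil)) .nil)) (.cons 224 (.leaf 223 1787 (.cons 225 (.leaf 252 1795 (.cons 227 (.leaf 228 1793 (.cons 272 (.leaf 271 1978 (.cons 201 (.leaf 177 1414 (.leaf 296 1605 .nil)) .nil)) .nil))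 .nil)) .nil)) (.cons 247 (.leaf 274 1976 (.cons 227 (.leaf 228 1793 (.leaf 226 1785 .nil)) .nil)) .nil))) (.cons 248 (.leaf 276 1984 (.cons 224 (.leaf 223 1787 (.cons 225 (.leaf 252 1795 (.cons 227 (.leaf 228 1793 (.cons 272 (.leaf 271 1978 (.cons 201 (.leaf 177 1414 (.leaf 296 1605 .nil)) .nil)) .nil)) .nil)) .nil)) .nil)) (.cons 248 (.leaf 276 1984 (.cons 247 (.leaf 274 1976 (.cons 227 (.leaf 228 1793 (.leaf 226 1785 .nil)) .nil)) .nil)) .nil))))) (.cons 250 t248 (.cons 250 t247 (.cons 250 (.cons 248 (.leaf 276 1984 (.cons 247 (.leaf 274 1976 (.cons 223 (.leaf 224 1787 (.leaf 222 1779 .nil)) .nil)) .nil)) (.cons 252 t246 (.cons 248 (.cons 247 (.leaf 274 1976 (.cons 223 (.leaf 224 1787 (.leaf 222 1779 .nil)) .nil)) (.cons 224 (.leaf 223 1787 (.cons 225 (.leaf 252 1795 (.cons 227 (.leaf 228 1793 (.cons 272 (.leaf 271 1978 (.cons 201 (.leaf 177 1414 (.leaf 296 1605 .nil)) .nil)) .nil))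 .nil)) .nil)) (.cons 247 (.leaf 274 1976 (.cons 271 (.leaf 272 1978 (.leaf 270 1970 .nil)) .nil)) .nil))) (.cons 248 (.leaf 276 1984 (.cons 224 (.leaf 223 1787 (.cons 225 (.leaf 252 1795 (.cons 227 (.leaf 228 1793 (.cons 272 (.leaf 271 1978 (.cons 201 (.leaf 177 1414 (.leaf 296 1605 .nil)) .nil)) .nil)) .nil)) .nil)) .nil)) (.cons 248 (.leaf 276 1984 (.cons 247 (.leaf 274 1976 (.cons 271 (.leaf 272 1978 (.leaf 270 1970 .nil)) .nil)) .nil)) .nil))))) (.cons 250 t245 (.cons 250 t244 .nil)))))))))))))))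
noncomputable def t296 : T := .cons 250 (.leaf 226 1815 (.cons 252 (.leaf 228 1821 (.cons 322 (.leaf 346 2006 (.cons 324 (.leaf 348 2012 (.cons 325 (.cons 298 (.leaf 326 2387 (.leaf 297 2379 .nil)) (.cons 302 (.leaf 301 2385 (.cons 326 (.leaf 303 2393 (.cons 350 (.leaf 349 2576 (.leaf 351 2584 .nil)) .nil)) .nil)) (.cons 297 (.leaf 298 2379 (.cons 301 (.leaf 302 2385 (.cons 321 (.leaf 296 2371 (.cons 344 (.leaf 345 2562 (.cons 320 (.leaf 343 2554 (.cons 273 (.leaf 249 1990 (.cons 274 (.leaf 347 2007 (.leaf 272 1985 .nil)) .nil)) .nil)) .nil)) .nil)) .nil)) .nil)) .nil))) .nil)) .nil)) .nil)) .nil)) (.cons 346 (.leaf 322 2006 (.cons 347 (.leaf 370 2198 (.cons 348 (.leaf 324 2012 (.leaf 372 2204 .nil)) .nil)) .nil)) (.cons 250 (.leaf 226 1815 (.cons 228 (.leaf 252 1821 (.cons 347 (.leaf 274 2007 (.cons 348 (.leaf 324 2012 (.leaf 372 2204 .nil)) .nil)) .nil)) .nil)) (.cons 250 (.leaf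 226 1815 (.cons 228 (.leaf 252 1821 (.cons 346 (.leaf 322 2006 (.cons 347 (.leaf 274 2007 (.leaf 370 2198 .nil)) .nil)) .nil)) .nil)) (.cons 250 (.leaf 226 1815 (.cons 252 (.leaf 228 1821 (.cons 322 (.leaf 346 2006 (.cons 324 (.leaf 348 2012 (.cons 325 (.cons 298 (.leaf 326 2387 (.leaf 297 2379 .nil)) (.cons 302 (.leaf 301 2385 (.cons 326 (.leaf 303 2393 (.cons 350 (.leaf 349 2576 (.leaf 351 2584 .nil)) .nil)) .nil)) (.cons 297 (.leaf 298 2379 (.cons 301 (.leaf 302 2385 (.cons 321 (.leaf 296 2371 (.cons 344 (.leaf 345 2562 (.cons 320 (.leaf 343 2554 (.cons 273 (.leaf 249 1990 (.cons 274 (.leaf 272 1985 (.leaf 253 1994 .nil)) .nil)) .nil)) .nil)) .nil)) .nil)) .nil)) .nil))) .nil)) .nil)) .nil)) .nil)) .nil))))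
noncomputable def t297 : T := .cons 250 (.leaf 226 1815 (.cons 252 (.leaf 228 1821 (.cons 324 (.leaf 348 2012 (.cons 249 (.cons 224 (.leaf 225 1795 (.cons 223 (.leaf 248 1787 (.cons 273 (.leaf 272 1986 (.cons 253 (.leaf 274 1994 (.cons 230 (.leaf 229 1809 (.cons 254 (.leaf 231 1817 (.cons 278 (.leaf 277 2000 (.leaf 279 2008 .nil)) .nil)) .nil)) .nil)) .nil)) .nil)) .nil)) (.cons 224 (.leaf 225 1795 (.cons 248 (.leaf 276 1984 (.leaf 223 1787 .nil)) .nil)) (.cons 224 (.leaf 225 1795 (.cons 272 (.leaf 273 1986 (.cons 277 (.leaf 276 1992 (.cons 253 (.leaf 278 2000 (.cons 230 (.leaf 229 1809 (.cons 254 (.leaf 274 2002 (.leaf 231 1817 .nil)) .nil)) .nil)) .nil)) .nil)) .nil)) (.cons 276 (.leaf 248 1984 (.leaf 347 2013 .nil)) .nil)))) .nil)) .nil)) .nil)) (.cons 252 (.leaf 228 1821 (.cons 347 (.leaf 276 2013 (.cons 348 (.leaf 324 2012 (.leaf 372 2204 .nil)) .nil)) .nil)) (.cons 250 (.leaf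 226 1815 (.cons 347 (.leaf 274 2007 (.cons 348 (.leaf 324 2012 (.leaf 372 2204 .nil)) .nil)) .nil)) (.cons 250 (.leaf 226 1815 (.cons 252 (.leaf 228 1821 (.cons 347 (.leaf 274 2007 (.leaf 276 2013 .nil)) .nil)) .nil)) (.cons 250 (.leaf 226 1815 (.cons 252 (.leaf 228 1821 (.cons 324 (.leaf 348 2012 (.cons 249 (.cons 224 (.leaf 225 1795 (.cons 223 (.leaf 248 1787 (.cons 273 (.leaf 272 1986 (.cons 253 (.leaf 274 1994 (.cons 230 (.leaf 229 1809 (.cons 254 (.leaf 231 1817 (.cons 278 (.leaf 277 2000 (.leaf 279 2008 .nil)) .nil)) .nil)) .nil)) .nil)) .nil)) .nil)) (.cons 224 (.leaf 225 1795 (.cons 272 (.leaf 273 1986 (.cons 277 (.leaf 276 1992 (.cons 253 (.leaf 278 2000 (.cons 230 (.leaf 229 1809 (.cons 254 (.leaf 274 2002 (.leaf 231 1817 .nil)) .nil)) .nil)) .nil)) .nil)) .nil)) (.cons 224 (.leaf 225 1795 (.cons 248 (.leaf 276 1984 (.leaf 223 1787 .nil)) .nil)) (.cons 276 (.leaf 248 1984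 (.leaf 277 1992 .nil)) .nil)))) .nil)) .nil)) .nil)) .nil))))
noncomputable def t298 : T := .cons 346 (.leaf 322 2006 (.cons 347 (.leaf 370 2198 (.cons 252 (.leaf 228 1821 (.leaf 276 2013 .nil)) .nil)) .nil)) (.cons 346 (.leaf 322 2006 (.cons 347 (.leaf 370 2198 (.cons 348 (.leaf 324 2012 (.leaf 372 2204 .nil)) .nil)) .nil)) (.cons 252 (.leaf 228 1821 (.cons 347 (.leaf 276 2013 (.cons 348 (.leaf 324 2012 (.leaf 372 2204 .nil)) .nil)) .nil)) (.cons 250 (.leaf 226 1815 (.cons 252 (.leaf 228 1821 (.cons 324 (.leaf 348 2012 (.cons 322 (.leaf 346 2006 (.cons 249 (.cons 224 (.leaf 225 1795 (.cons 248 (.leaf 276 1984 (.leaf 223 1787 .nil)) .nil)) (.cons 224 (.leaf 225 1795 (.cons 248 (.leaf 223 1787 (.cons 272 (.leaf 271 1978 (.leaf 273 1986 .nil)) .nil)) .nil)) (.cons 277 (.leaf 276 1992 (.cons 224 (.leaf 225 1795 (.cons 253 (.leaf 278 2000 (.cons 230 (.leaf 229 1809 (.cons 254 (.leaf 231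 1817 (.cons 325 (.leaf 301 1837 (.cons 298 (.leaf 326 2387 (.leaf 297 2379 .nil)) .nil)) .nil)) .nil)) .nil)) .nil)) .nil)) (.cons 276 (.leaf 248 1984 (.leaf 277 1992 .nil)) .nil)))) .nil)) .nil)) .nil)) .nil)) .nil)))
noncomputable def t299 : T := .cons 250 (.leaf 226 1815 (.cons 322 (.leaf 346 2006 (.cons 347 (.leaf 274 2007 (.cons 348 (.leaf 324 2012 (.leaf 372 2204 .nil)) .nil)) .nil)) .nil)) (.cons 346 (.leaf 322 2006 (.cons 347 (.leaf 370 2198 (.cons 348 (.leaf 324 2012 (.leaf 372 2204 .nil)) .nil)) .nil)) (.cons 250 (.leaf 226 1815 (.cons 347 (.leaf 274 2007 (.cons 348 (.leaf 324 2012 (.leaf 372 2204 .nil)) .nil)) .nil)) (.cons 250 (.leaf 226 1815 (.cons 346 (.leaf 322 2006 (.cons 347 (.leaf 274 2007 (.leaf 370 2198 .nil)) .nil)) .nil)) (.cons 250 (.leaf 226 1815 (.cons 322 (.leaf 346 2006 (.cons 324 (.leaf 348 2012 (.cons 325 (.cons 298 (.leaf 326 2387 (.leaf 297 2379 .nil))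 (.cons 301 (.leaf 302 2385 (.cons 350 (.leaf 349 2576 (.cons 326 (.leaf 351 2584 (.cons 277 (.leaf 253 2028 (.cons 276 (.leaf 278 2003 (.cons 249 (.leaf 248 1984 (.leaf 274 1995 .nil)) .nil)) .nil)) .nil)) .nil)) .nil)) (.cons 297 (.leaf 298 2379 (.cons 301 (.leaf 302 2385 (.cons 321 (.leaf 296 2371 (.cons 344 (.leaf 345 2562 (.cons 320 (.leaf 343 2554 (.cons 249 (.leaf 273 1990 (.cons 276 (.leaf 248 1984 (.cons 277 (.leaf 274 1995 (.leaf 278 2003 .nil)) .nil)) .nil)) .nil)) .nil)) .nil)) .nil)) .nil)) .nil))) .nil)) .nil)) .nil)) .nil))))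
noncomputable def t300 : T := .cons 252 (.cons 224 (.leaf 225 1795 (.cons 228 (.leaf 229 1801 (.cons 248 (.leaf 276 1984 (.leaf 223 1787 .nil)) .nil)) .nil)) (.cons 224 (.leaf 225 1795 (.cons 228 (.leaf 229 1801 (.cons 248 (.leaf 223 1787 (.cons 272 (.leaf 271 1978 (.leaf 273 1986 .nil)) .nil)) .nil)) .nil)) (.cons 277 (.leaf 276 1992 (.cons 224 (.leaf 225 1795 (.cons 253 (.leaf 278 2000 (.cons 230 (.leaf 229 1809 (.cons 254 (.leaf 274 2002 (.leaf 231 1817 .nil)) .nil)) .nil)) .nil)) .nil)) (.cons 276 (.leaf 248 1984 (.leaf 277 1992 .nil)) .nil)))) (.cons 252 (.cons 277 (.leaf 276 1992 (.cons 224 (.leaf 225 1795 (.cons 253 (.leaf 278 2000 (.cons 230 (.leaf 229 1809 (.cons 254 (.leaf 274 2002 (.leaf 231 1817 .nil)) .nil)) .nil)) .nil)) .nil)) (.cons 273 (.leaf 272 1986 (.cons 225 (.leaf 224 1795 (.cons 253 (.leaf 226 1803 (.leaf 274 1994 .nil)) .nil)) .nil)) (.cons 273 (.leaf 272 1986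 (.cons 225 (.leaf 224 1795 (.cons 226 (.leaf 253 1803 (.cons 202 (.leaf 178 1428 (.leaf 297 1613 .nil)) .nil)) .nil)) .nil)) (.cons 277 (.leaf 276 1992 (.cons 228 (.leaf 229 1801 (.cons 253 (.leaf 278 2000 (.cons 273 (.leaf 272 1986 (.leaf 274 1994 .nil)) .nil)) .nil)) .nil)) (.cons 276 (.leaf 277 1992 (.cons 273 (.leaf 272 1986 (.cons 225 (.leaf 224 1795 (.cons 297 (.cons 296 (.leaf 274 2178 (.leaf 298 2177 .nil)) (.cons 226 (.leaf 202 1613 (.leaf 321 1805 .nil)) .nil)) .nil)) .nil)) .nil)) .nil))))) (.cons 252 (.cons 273 (.leaf 272 1986 (.cons 225 (.leaf 224 1795 (.cons 253 (.leaf 226 1803 (.leaf 274 1994 .nil)) .nil)) .nil)) (.cons 225 (.leaf 224 1795 (.cons 226 (.leaf 253 1803 (.cons 202 (.leaf 178 1428 (.leaf 274 1620 .nil)) .nil)) .nil)) (.cons 273 (.leaf 272 1986 (.cons 253 (.leaf 274 1994 (.cons 229 (.leaf 228 1801 (.leaf 230 1809 .nil)) .nil)) .nil)) (.cons 225 (.leaf 224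 1795 (.cons 229 (.leaf 228 1801 (.cons 253 (.leaf 226 1803 (.leaf 230 1809 .nil)) .nil)) .nil)) (.cons 272 (.leaf 273 1986 (.cons 224 (.leaf 225 1795 (.cons 248 (.leaf 223 1787 (.leaf 271 1978 .nil)) .nil)) .nil)) .nil))))) (.cons 276 (.leaf 248 1984 (.cons 277 (.leaf 278 2003 (.leaf 252 1992 .nil)) .nil)) (.cons 248 (.leaf 276 1984 (.cons 247 (.leaf 274 1976 (.cons 271 (.leaf 272 1978 (.leaf 270 1970 .nil)) .nil)) .nil)) .nil))))
noncomputable def t301 : T := .cons 248 (.leaf 247 1976 (.cons 272 (.leaf 271 1978 (.cons 252 (.leaf 273 1985 (.cons 226 (.leaf 202 1620 (.cons 228 (.leaf 229 1801 (.cons 204 (.leaf 180 1438 (.cons 298 (.cons 225 (.leaf 253 1803 (.leaf 322 1807 .nil)) (.cons 322 (.leaf 346 2005 (.cons 321 (.leaf 297 1806 (.leaf 345 1998 .nil)) .nil)) (.cons 225 (.leaf 253 1803 (.leaf 201 1615 .nil)) .nil))) .nil)) .nil)) .nil)) .nil)) .nil)) .nil)) (.cons 226 (.leaf 202 1620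 (.cons 248 (.leaf 247 1976 (.cons 272 (.leaf 271 1978 (.cons 298 (.cons 225 (.leaf 322 1807 (.leaf 201 1615 .nil)) (.cons 321 (.leaf 297 1806 (.cons 322 (.leaf 346 2005 (.leaf 345 1998 .nil)) .nil)) (.cons 225 (.leaf 201 1615 (.cons 252 (.leaf 253 1803 (.cons 228 (.leaf 229 1801 (.cons 180 (.leaf 204 1438 (.cons 296 (.leaf 320 1797 (.cons 297 (.leaf 295 2169 (.leaf 321 1806 .nil)) .nil)) .nil)) .nil)) .nil)) .nil)) .nil))) .nil)) .nil)) .nil)) (.cons 248 (.leaf 247 1976 (.cons 272 (.leaf 271 1978 (.cons 252 (.leaf 273 1985 (.cons 229 (.leaf 228 1801 (.cons 253 (.leaf 254 2002 (.leaf 230 1809 .nil)) .nil)) .nil)) .nil)) .nil)) (.cons 226 (.leaf 202 1620 (.cons 298 (.cons 225 (.leaf 322 1807 (.leaf 201 1615 .nil)) (.cons 225 (.leaf 201 1615 (.cons 252 (.leaf 253 1803 (.cons 272 (.leaf 273 1985 (.cons 228 (.leaf 229 1801 (.cons 297 (.leaf 321 1806 (.cons 296 (.leaf 295 2169 (.leaf 271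 2171 .nil)) .nil)) .nil)) .nil)) .nil)) .nil)) (.cons 297 (.leaf 321 1806 (.cons 296 (.leaf 295 2169 (.cons 272 (.leaf 271 2171 (.cons 252 (.leaf 273 1985 (.cons 229 (.leaf 228 1801 (.cons 253 (.leaf 254 2002 (.leaf 230 1809 .nil)) .nil)) .nil)) .nil)) .nil)) .nil)) .nil))) .nil)) (.cons 226 (.leaf 202 1620 (.cons 298 (.cons 297 (.leaf 321 1806 (.cons 296 (.leaf 295 2169 (.cons 272 (.leaf 271 2171 (.cons 320 (.leaf 319 2362 (.cons 344 (.leaf 273 1989 (.cons 367 (.leaf 343 2174 (.cons 368 (.leaf 391 2366 (.cons 369 (.leaf 345 2180 (.leaf 393 2372 .nil)) .nil)) .nil)) .nil)) .nil)) .nil)) .nil)) .nil)) (.cons 322 (.leaf 346 2005 (.leaf 225 1807 .nil)) .nil)) .nil)) (.cons 226 (.leaf 202 1620 (.cons 247 (.leaf 248 1976 (.cons 298 (.cons 225 (.leaf 322 1807 (.leaf 201 1615 .nil)) (.cons 225 (.leaf 201 1615 (.cons 252 (.leaf 253 1803 (.cons 228 (.leaf 229 1801 (.cons 297 (.leaf 321 1806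 (.cons 296 (.leaf 295 2169 (.cons 320 (.leaf 319 2362 (.leaf 273 1798 .nil)) .nil)) .nil)) .nil)) .nil)) .nil)) (.cons 321 (.leaf 297 1806 (.cons 322 (.leaf 346 2005 (.leaf 345 1998 .nil)) .nil)) .nil))) .nil)) .nil)) .nil)))))
noncomputable def t302 : T := .cons 252 (.cons 272 (.leaf 273 1986 (.cons 277 (.leaf 276 1992 (.cons 253 (.leaf 278 2000 (.cons 230 (.leaf 229 1809 (.cons 254 (.leaf 274 2002 (.leaf 231 1817 .nil)) .nil)) .nil)) .nil)) .nil)) (.cons 273 (.leaf 272 1986 (.cons 253 (.leaf 274 1994 (.cons 229 (.leaf 228 1801 (.leaf 230 1809 .nil)) .nil)) .nil)) (.cons 276 (.leaf 248 1984 (.leaf 277 1992 .nil)) .nil))) (.cons 274 t301 (.cons 252 (.cons 272 (.leaf 273 1986 (.cons 277 (.leaf 276 1992 (.cons 253 (.leaf 278 2000 (.cons 230 (.leaf 229 1809 (.cons 254 (.leaf 274 2002 (.leaf 231 1817 .nil)) .nil)) .nil)) .nil)) .nil)) (.cons 273 (.leaf 272 1986 (.cons 253 (.leaf 274 1994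 (.cons 229 (.leaf 228 1801 (.leaf 230 1809 .nil)) .nil)) .nil)) (.cons 276 (.leaf 277 1992 (.cons 228 (.leaf 204 1630 (.leaf 229 1801 .nil)) .nil)) (.cons 276 (.leaf 277 1992 (.cons 204 (.leaf 228 1630 (.cons 273 (.leaf 272 1986 (.cons 274 (.leaf 253 1993 (.cons 226 (.leaf 202 1620 (.cons 297 (.leaf 296 2178 (.leaf 321 1805 .nil)) .nil)) .nil)) .nil)) .nil)) .nil)) .nil)))) (.cons 276 (.leaf 248 1984 (.cons 277 (.leaf 278 2003 (.leaf 252 1992 .nil)) .nil)) (.cons 248 (.leaf 276 1984 (.cons 247 (.leaf 274 1976 (.cons 271 (.leaf 272 1978 (.leaf 270 1970 .nil)) .nil)) .nil)) .nil))))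
noncomputable def t303 : T := .cons 248 (.leaf 276 1984 (.cons 223 (.leaf 224 1787 (.cons 272 (.leaf 271 1978 (.cons 247 (.leaf 274 1976 (.leaf 222 1779 .nil)) .nil)) .nil)) .nil)) (.cons 248 (.cons 223 (.leaf 224 1787 (.cons 272 (.leaf 271 1978 (.cons 247 (.leaf 274 1976 (.leaf 222 1779 .nil)) .nil)) .nil)) (.cons 223 (.leaf 224 1787 (.cons 272 (.leaf 271 1978 (.cons 252 (.leaf 273 1986 (.cons 229 (.leaf 228 1801 (.cons 253 (.leaf 230 1809 (.cons 254 (.leaf 274 2002 (.cons 278 (.leaf 277 2000 (.leaf 279 2008 .nil)) .nil)) .nil)) .nil)) .nil)) .nil)) .nil)) (.cons 223 (.leaf 224 1787 (.cons 247 (.leaf 274 1976 (.leaf 222 1779 .nil)) .nil)) (.cons 223 (.leaf 224 1787 (.cons 247 (.leaf 222 1779 (.cons 271 (.leaf 272 1978 (.leaf 270 1970 .nil)) .nil)) .nil)) (.cons 274 (.leaf 247 1976 (.cons 272 (.leaf 271 1978 (.cons 252 (.leaf 273 1985 (.cons 229 (.leaf 228 1801 (.cons 253 (.leaf 254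 2002 (.leaf 230 1809 .nil)) .nil)) .nil)) .nil)) .nil)) .nil))))) (.cons 252 (.cons 272 (.leaf 273 1986 (.cons 277 (.leaf 276 1992 (.cons 229 (.leaf 228 1801 (.cons 253 (.leaf 230 1809 (.leaf 278 2000 .nil)) .nil)) .nil)) .nil)) (.cons 229 (.leaf 228 1801 (.cons 253 (.leaf 230 1809 (.cons 273 (.leaf 272 1986 (.leaf 274 1994 .nil)) .nil)) .nil)) (.cons 276 (.leaf 277 1992 (.cons 228 (.leaf 204 1630 (.leaf 229 1801 .nil)) .nil)) (.cons 272 (.leaf 273 1986 (.cons 277 (.leaf 276 1992 (.cons 253 (.leaf 278 2000 (.cons 230 (.leaf 229 1809 (.cons 254 (.leaf 274 2002 (.leaf 231 1817 .nil)) .nil)) .nil)) .nil)) .nil)) (.cons 273 (.leaf 272 1986 (.cons 253 (.leaf 274 1994 (.cons 277 (.leaf 276 1992 (.leaf 278 2000 .nil)) .nil)) .nil)) .nil))))) (.cons 276 (.leaf 248 1984 (.cons 277 (.leaf 278 2003 (.leaf 252 1992 .nil)) .nil)) .nil)))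
noncomputable def t304 : T := .cons 229 (.leaf 228 1801 (.cons 253 (.leaf 230 1809 (.cons 225 (.leaf 224 1795 (.leaf 226 1803 .nil)) .nil)) .nil)) (.cons 229 (.leaf 228 1801 (.cons 253 (.leaf 230 1809 (.cons 274 (.leaf 254 2002 (.leaf 273 1994 .nil)) .nil)) .nil)) (.cons 228 (.leaf 229 1801 (.cons 225 (.leaf 224 1795 (.cons 180 (.leaf 204 1438 (.cons 274 (.cons 298 (.leaf 322 1807 (.cons 201 (.leaf 177 1420 (.leaf 273 1612 .nil)) .nil)) (.cons 202 (.leaf 226 1620 (.cons 201 (.leaf 177 1420 (.cons 178 (.leaf 273 1421 (.cons 130 (.leaf 154 1038 (.cons 179 (.leaf 181 1418 (.cons 200 (.leaf 203 1409 (.leaf 199 1401 .nil)) .nil)) .nil)) .nil)) .nil)) .nil)) (.cons 226 (.leaf 202 1620 (.cons 298 (.leaf 322 1807 (.cons 297 (.leaf 321 1806 (.cons 296 (.leaf 295 2169 (.cons 320 (.leaf 319 2362 (.leaf 273 1798 .nil)) .nil)) .nil)) .nil)) .nil)) (.cons 226 (.leaf 202 1620 (.cons 201 (.leaf 177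 1420 (.leaf 298 1615 .nil)) .nil)) .nil)))) .nil)) .nil)) .nil)) (.cons 225 (.leaf 224 1795 (.cons 226 (.leaf 253 1803 (.cons 202 (.leaf 178 1428 (.leaf 274 1620 .nil)) .nil)) .nil)) .nil)))
noncomputable def t305 : T := .cons 177 (.leaf 201 1413 (.cons 271 (.leaf 295 1598 (.cons 270 (.leaf 269 1961 (.cons 199 (.leaf 175 1407 (.cons 294 (.leaf 293 2154 (.cons 223 (.leaf 296 1599 (.leaf 247 1590 .nil)) .nil)) .nil)) .nil)) .nil)) .nil)) (.cons 247 (.leaf 274 1979 (.cons 175 (.leaf 199 1407 (.cons 246 (.leaf 245 1960 (.cons 221 (.leaf 222 1771 (.cons 225 (.leaf 226 1777 (.cons 295 (.leaf 271 1598 (.cons 296 (.leaf 320 1797 (.leaf 319 1790 .nil)) .nil)) .nil)) .nil)) .nil)) .nil)) .nil)) (.cons 177 (.leaf 201 1413 (.cons 295 (.leaf 271 1598 (.cons 296 (.leaf 274 2170 (.leaf 319 1790 .nil)) .nil)) .nil)) (.cons 201 (.leaf 177 1413 (.cons 225 (.leaf 296 1605 (.cons 175 (.leaf 199 1407 (.cons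 202 (.leaf 178 1421 (.cons 203 (.leaf 223 1594 (.leaf 204 1602 .nil)) .nil)) .nil)) .nil)) .nil)) (.cons 247 (.leaf 274 1979 (.cons 175 (.leaf 199 1407 (.cons 201 (.leaf 177 1413 (.cons 246 (.leaf 245 1960 (.cons 222 (.leaf 221 1771 (.cons 225 (.leaf 226 1777 (.cons 202 (.leaf 178 1421 (.leaf 223 1585 .nil)) .nil)) .nil)) .nil)) .nil)) .nil)) .nil)) .nil))))
noncomputable def t306 : T := .cons 297 (.leaf 321 1799 (.cons 200 (.leaf 176 1412 (.leaf 225 1607 .nil)) .nil)) (.cons 297 (.leaf 321 1799 (.cons 225 (.cons 202 (.leaf 226 1613 (.cons 178 (.leaf 201 1421 (.cons 296 (.leaf 320 1798 (.cons 298 (.leaf 276 2177 (.leaf 322 1804 .nil)) .nil)) .nil)) .nil)) (.cons 202 (.leaf 226 1613 (.cons 201 (.leaf 178 1421 (.cons 177 (.leaf 272 1414 (.leaf 153 1222 .nil)) .nil)) .nil)) (.cons 296 (.leaf 320 1798 (.cons 298 (.leaf 276 2177 (.leaf 322 1804 .nil)) .nil)) .nil))) .nil)) (.cons 200 (.leaf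 176 1412 (.cons 272 (.cons 177 (.leaf 201 1413 (.cons 271 (.leaf 295 1598 (.cons 270 (.leaf 269 1961 (.cons 199 (.leaf 175 1407 (.cons 294 (.leaf 293 2154 (.cons 223 (.leaf 296 1599 (.leaf 247 1590 .nil)) .nil)) .nil)) .nil)) .nil)) .nil)) (.cons 175 (.leaf 199 1407 (.cons 295 (.leaf 271 1598 (.cons 296 (.leaf 319 1790 (.cons 320 (.leaf 225 1797 (.leaf 344 1989 .nil)) .nil)) .nil)) .nil)) (.cons 177 (.leaf 201 1413 (.cons 271 (.leaf 295 1598 (.cons 270 (.leaf 269 1961 (.cons 199 (.leaf 175 1407 (.cons 294 (.leaf 293 2154 (.cons 223 (.leaf 247 1590 (.cons 222 (.leaf 221 1768 (.leaf 246 1589 .nil)) .nil)) .nil)) .nil)) .nil)) .nil)) .nil)) (.cons 177 (.leaf 201 1413 (.cons 295 (.leaf 271 1598 (.cons 296 (.leaf 319 1790 (.cons 320 (.leaf 225 1797 (.leaf 344 1989 .nil)) .nil)) .nil)) .nil)) (.cons 201 (.leaf 177 1413 (.cons 225 (.leaf 296 1605 (.cons 175 (.leaf 199 1407 (.cons 202 (.leaf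 178 1421 (.cons 203 (.leaf 223 1594 (.leaf 204 1602 .nil)) .nil)) .nil)) .nil)) .nil)) .nil))))) .nil)) (.cons 200 (.leaf 176 1412 (.cons 297 (.leaf 321 1799 (.leaf 272 1604 .nil)) .nil)) .nil)))
noncomputable def t307 : T := .cons 274 (.leaf 276 1987 (.cons 247 (.leaf 272 1979 (.leaf 246 1968 .nil)) .nil)) (.cons 224 t306 (.cons 224 (.cons 200 (.leaf 176 1412 (.cons 297 (.leaf 225 1607 (.leaf 321 1799 .nil)) .nil)) (.cons 297 (.leaf 321 1799 (.cons 225 (.cons 202 (.leaf 226 1613 (.cons 201 (.leaf 178 1421 (.cons 298 (.leaf 274 1612 (.leaf 322 1804 .nil)) .nil)) .nil)) (.cons 202 (.leaf 226 1613 (.cons 201 (.leaf 178 1421 (.cons 177 (.leaf 272 1414 (.leaf 153 1222 .nil)) .nil)) .nil)) (.cons 296 (.leaf 320 1798 (.cons 202 (.leaf 226 1613 (.cons 298 (.leaf 322 1804 (.cons 271 (.leaf 272 2171 (.cons 295 (.leaf 274 2169 (.leaf 270 2163 .nil)) .nil)) .nil)) .nil)) .nil)) (.cons 296 (.leaf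 320 1798 (.cons 201 (.leaf 272 1605 (.cons 298 (.leaf 274 1612 (.leaf 322 1804 .nil)) .nil)) .nil)) .nil)))) .nil)) (.cons 200 (.leaf 176 1412 (.cons 272 t305 .nil)) (.cons 200 (.leaf 176 1412 (.cons 297 (.leaf 321 1799 (.leaf 272 1604 .nil)) .nil)) .nil)))) (.cons 276 (.leaf 274 1987 (.cons 297 (.cons 296 (.leaf 298 2177 (.cons 225 (.leaf 320 1798 (.cons 200 (.leaf 224 1607 (.cons 201 (.leaf 176 1415 (.cons 202 (.leaf 178 1421 (.leaf 226 1613 .nil)) .nil)) .nil)) .nil)) .nil)) (.cons 296 (.leaf 298 2177 (.cons 320 (.leaf 225 1798 (.cons 344 (.leaf 321 1990 (.leaf 368 2181 .nil)) .nil)) .nil)) (.cons 224 (.leaf 321 1799 (.cons 200 (.leaf 176 1412 (.leaf 225 1607 .nil)) .nil)) (.cons 296 (.leaf 298 2177 (.cons 321 (.leaf 224 1799 (.cons 344 (.leaf 320 1990 (.cons 345 (.leaf 368 2182 (.cons 346 (.leaf 322 1996 (.leaf 370 2188 .nil)) .nil)) .nil)) .nil)) .nil)) .nil)))) .nil)) .nil)))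
noncomputable def t308 : T := .cons 250 (.leaf 276 1984 (.cons 247 (.leaf 274 1976 (.cons 271 (.leaf 272 1978 (.leaf 270 1970 .nil)) .nil)) .nil)) (.cons 273 t307 (.cons 250 (.cons 247 (.leaf 274 1976 (.cons 271 (.leaf 272 1978 (.leaf 270 1970 .nil)) .nil)) (.cons 272 (.leaf 271 1978 (.cons 224 (.leaf 223 1787 (.cons 296 (.cons 225 (.leaf 320 1797 (.leaf 201 1605 .nil)) (.cons 295 (.leaf 319 1790 (.cons 297 (.leaf 321 1796 (.cons 200 (.leaf 273 1604 (.cons 175 (.leaf 199 1407 (.cons 176 (.leaf 151 1215 (.cons 177 (.leaf 153 1221 (.leaf 201 1413 .nil)) .nil)) .nil)) .nil)) .nil)) .nil)) (.cons 225 (.leaf 320 1797 (.cons 295 (.leaf 319 1790 (.cons 297 (.leaf 321 1796 (.cons 200 (.leaf 273 1604 (.cons 175 (.leaf 199 1407 (.cons 176 (.leaf 152 1220 (.leaf 151 1215 .nil)) .nil)) .nil)) .nil)) .nil)) .nil)) .nil))) .nil)) .nil)) (.cons 247 (.leaf 274 1976 (.cons 223 (.leaf 224 1787 (.leaf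 222 1779 .nil)) .nil)) .nil))) (.cons 250 (.leaf 276 1984 (.cons 223 (.leaf 224 1787 (.cons 247 (.leaf 222 1779 (.cons 271 (.leaf 272 1978 (.leaf 270 1970 .nil)) .nil)) .nil)) .nil)) (.cons 250 (.leaf 276 1984 (.cons 272 (.leaf 271 1978 (.cons 224 (.leaf 223 1787 (.cons 296 (.cons 225 (.leaf 320 1797 (.leaf 201 1605 .nil)) (.cons 295 (.leaf 319 1790 (.cons 297 (.leaf 321 1796 (.cons 200 (.leaf 273 1604 (.cons 175 (.leaf 199 1407 (.cons 176 (.leaf 151 1215 (.cons 177 (.leaf 153 1221 (.leaf 201 1413 .nil)) .nil)) .nil)) .nil)) .nil)) .nil)) (.cons 225 (.leaf 320 1797 (.cons 295 (.leaf 319 1790 (.cons 297 (.leaf 321 1796 (.cons 200 (.leaf 273 1604 (.cons 175 (.leaf 199 1407 (.cons 176 (.leaf 152 1220 (.leaf 151 1215 .nil)) .nil)) .nil)) .nil)) .nil)) .nil)) .nil))) .nil)) .nil)) .nil)) (.cons 250 (.leaf 276 1984 (.cons 223 (.leaf 224 1787 (.cons 247 (.leaf 274 1976 (.leaf 222 1779 .nil))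 .nil)) .nil)) .nil)))))
noncomputable def t309 : T := .cons 248 (.leaf 271 1978 (.cons 224 (.leaf 223 1787 (.cons 273 (.leaf 252 1986 (.cons 200 (.leaf 176 1412 (.leaf 297 1604 .nil)) .nil)) .nil)) .nil)) (.cons 252 (.leaf 273 1986 (.cons 225 (.leaf 224 1795 (.cons 229 (.leaf 228 1801 (.cons 253 (.leaf 226 1803 (.leaf 230 1809 .nil)) .nil)) .nil)) .nil)) (.cons 248 (.leaf 271 1978 (.cons 224 (.leaf 223 1787 (.cons 296 (.cons 225 (.leaf 320 1797 (.leaf 201 1605 .nil)) (.cons 295 (.leaf 319 1790 (.cons 297 (.leaf 321 1796 (.cons 200 (.leaf 273 1604 (.cons 175 (.leaf 199 1407 (.cons 176 (.leaf 151 1215 (.cons 177 (.leaf 201 1413 (.leaf 153 1221 .nil)) .nil)) .nil)) .nil)) .nil)) .nil)) (.cons 225 (.leaf 320 1797 (.cons 295 (.leaf 319 1790 (.cons 297 (.leaf 321 1796 (.cons 200 (.leaf 273 1604 (.cons 175 (.leaf 199 1407 (.cons 176 (.leaf 152 1220 (.leaf 151 1215 .nil)) .nil)) .nil)) .nil))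 .nil)) .nil)) .nil))) .nil)) .nil)) (.cons 248 (.leaf 271 1978 (.cons 224 (.leaf 223 1787 (.cons 225 (.leaf 252 1795 (.cons 201 (.leaf 177 1414 (.leaf 296 1605 .nil)) .nil)) .nil)) .nil)) (.cons 273 (.leaf 252 1986 (.cons 271 (.leaf 248 1978 (.leaf 270 1969 .nil)) .nil)) .nil))))
noncomputable def t310 : T := .cons 271 (.cons 250 (.leaf 252 1986 (.leaf 274 1977 .nil)) (.cons 270 (.leaf 250 1969 (.cons 245 (.leaf 246 1963 (.cons 269 (.leaf 244 1955 (.cons 293 (.leaf 294 2154 (.leaf 292 2146 .nil)) .nil)) .nil)) .nil)) (.cons 274 (.leaf 252 1985 (.leaf 298 2168 .nil)) .nil))) (.cons 271 (.cons 250 (.leaf 274 1977 (.leaf 270 1969 .nil)) (.cons 270 (.leaf 250 1969 (.cons 245 (.leaf 246 1963 (.cons 269 (.leaf 244 1955 (.cons 293 (.leaf 294 2154 (.leaf 292 2146 .nil)) .nil)) .nil)) .nil)) (.cons 274 (.leaf 298 2168 (.cons 295 (.leaf 296 2170 (.leaf 294 2162 .nil)) .nil)) .nil))) (.cons 250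 (.leaf 252 1986 (.cons 271 (.leaf 270 1969 (.cons 297 (.cons 296 (.leaf 298 2171 (.cons 225 (.leaf 201 1606 (.leaf 320 1798 .nil)) .nil)) (.cons 226 (.leaf 321 1805 (.cons 202 (.leaf 178 1428 (.leaf 225 1613 .nil)) .nil)) (.cons 296 (.leaf 298 2171 (.cons 320 (.leaf 344 1989 (.cons 321 (.leaf 226 1805 (.cons 345 (.leaf 369 2183 (.cons 346 (.leaf 322 1996 (.leaf 370 2188 .nil)) .nil)) .nil)) .nil)) .nil)) .nil))) .nil)) .nil)) (.cons 274 (.leaf 252 1985 (.cons 271 (.leaf 298 2168 (.cons 295 (.leaf 296 2170 (.leaf 294 2162 .nil)) .nil)) .nil)) (.cons 252 (.leaf 274 1985 (.leaf 250 1986 .nil)) .nil))))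
noncomputable def t311 : T := .cons 226 (.cons 202 (.leaf 178 1428 (.leaf 274 1620 .nil)) (.cons 297 (.leaf 321 1805 (.cons 225 (.cons 224 (.leaf 223 1784 (.leaf 252 1795 .nil)) (.cons 252 (.leaf 253 1803 (.cons 228 (.leaf 229 1801 (.cons 180 (.leaf 204 1438 (.cons 298 (.leaf 322 1804 (.cons 201 (.leaf 274 1612 (.cons 176 (.leaf 200 1415 (.cons 177 (.leaf 152 1223 (.leaf 153 1228 .nil)) .nil)) .nil)) .nil)) .nil)) .nil)) .nil)) (.cons 224 (.leaf 223 1784 (.leaf 200 1607 .nil)) .nil))) .nil)) (.cons 297 (.leaf 321 1805 (.cons 202 (.leaf 178 1428 (.leaf 225 1613 .nil)) .nil)) .nil))) (.cons 226 (.cons 202 (.leaf 178 1428 (.leaf 274 1620 .nil)) (.cons 297 (.leaf 321 1805 (.cons 225 (.cons 224 (.leaf 223 1784 (.leaf 200 1607 .nil)) (.cons 298 (.leaf 322 1804 (.cons 201 (.leaf 274 1612 (.cons 296 (.leaf 276 2177 (.leaf 320 1798 .nil)) .nil)) .nil)) .nil)) .nil)) (.cons 297 (.leaf 321 1805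 (.cons 202 (.leaf 178 1428 (.leaf 225 1613 .nil)) .nil)) .nil))) (.cons 252 (.cons 228 (.leaf 229 1801 (.cons 204 (.leaf 180 1438 (.leaf 276 1630 .nil)) .nil)) (.cons 225 (.leaf 224 1795 (.cons 226 (.leaf 253 1803 (.cons 202 (.leaf 178 1428 (.leaf 297 1613 .nil)) .nil)) .nil)) .nil)) (.cons 252 (.cons 228 (.leaf 229 1801 (.cons 204 (.leaf 180 1438 (.leaf 276 1630 .nil)) .nil)) (.cons 253 (.leaf 274 1994 (.cons 229 (.leaf 228 1801 (.leaf 230 1809 .nil)) .nil)) (.cons 253 (.leaf 274 1994 (.cons 277 (.leaf 276 1992 (.leaf 278 2000 .nil)) .nil)) .nil))) .nil)))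
noncomputable def t312 : T := .cons 297 (.leaf 296 2178 (.cons 277 (.leaf 298 2186 (.cons 253 (.leaf 252 1993 (.leaf 254 2001 .nil)) .nil)) .nil)) (.cons 253 (.leaf 252 1993 (.cons 277 (.leaf 254 2001 (.cons 278 (.leaf 298 2194 (.cons 302 (.leaf 301 2192 (.leaf 303 2200 .nil)) .nil)) .nil)) .nil)) (.cons 297 (.leaf 296 2178 (.cons 277 (.leaf 298 2186 (.cons 254 (.leaf 253 2001 (.cons 278 (.leaf 255 2009 (.cons 302 (.leaf 301 2192 (.leaf 303 2200 .nil)) .nil)) .nil)) .nil)) .nil)) (.cons 297 (.leaf 296 2178 (.cons 277 (.cons 253 (.leaf 252 1993 (.leaf 254 2001 .nil)) (.cons 302 (.leaf 301 2192 (.cons 278 (.leaf 303 2200 (.cons 255 (.leaf 254 2009 (.cons 279 (.leaf 252 2011 (.leaf 256 2017 .nil)) .nil)) .nil)) .nil)) (.cons 254 (.leaf 253 2001 (.cons 278 (.leaf 255 2009 (.cons 302 (.leaf 301 2192 (.leaf 303 2200 .nil)) .nil)) .nil)) (.cons 252 (.leaf 253 1993 (.cons 204 (.leaf 228 1630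 (.cons 278 (.leaf 279 2011 (.cons 302 (.leaf 301 2192 (.leaf 303 2200 .nil)) .nil)) .nil)) .nil)) .nil)))) .nil)) (.cons 297 (.leaf 296 2178 (.cons 277 (.leaf 298 2186 (.cons 302 (.leaf 301 2192 (.cons 278 (.leaf 303 2200 (.cons 255 (.leaf 254 2009 (.cons 279 (.leaf 252 2011 (.leaf 256 2017 .nil)) .nil)) .nil)) .nil)) .nil)) .nil)) (.cons 252 (.leaf 253 1993 (.cons 297 (.leaf 296 2178 (.cons 321 (.cons 228 (.leaf 204 1630 (.cons 344 (.leaf 320 1990 (.cons 345 (.leaf 368 2182 (.cons 346 (.leaf 322 1996 (.leaf 370 2188 .nil)) .nil)) .nil)) .nil)) (.cons 344 (.leaf 320 1990 (.cons 345 (.leaf 368 2182 (.cons 204 (.leaf 228 1630 (.cons 369 (.leaf 298 2189 (.cons 370 (.leaf 346 2188 (.leaf 394 2380 .nil)) .nil)) .nil)) .nil)) .nil)) (.cons 344 (.leaf 320 1990 (.cons 345 (.leaf 368 2182 (.cons 298 (.leaf 369 2189 (.cons 225 (.leaf 201 1612 (.leaf 322 1804 .nil)) .nil)) .nil)) .nil)) (.cons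 322 (.leaf 346 1996 (.cons 225 (.leaf 298 1804 (.cons 200 (.leaf 224 1607 (.cons 201 (.leaf 176 1415 (.cons 202 (.leaf 178 1421 (.leaf 226 1613 .nil)) .nil)) .nil)) .nil)) .nil)) .nil)))) .nil)) .nil)) .nil)))))
noncomputable def t313 : T := .cons 272 (.leaf 252 1985 (.cons 296 (.leaf 295 2170 (.cons 201 (.leaf 225 1606 (.cons 298 (.leaf 271 2168 (.cons 297 (.leaf 276 2177 (.cons 320 (.leaf 319 2362 (.leaf 344 1989 .nil)) .nil)) .nil)) .nil)) .nil)) .nil)) (.cons 276 t312 (.cons 272 (.cons 296 (.leaf 295 2170 (.cons 201 (.leaf 225 1606 (.cons 298 (.leaf 271 2168 (.cons 297 (.leaf 276 2177 (.cons 320 (.leaf 319 2362 (.leaf 344 1989 .nil)) .nil)) .nil)) .nil)) .nil)) (.cons 296 (.leaf 295 2170 (.cons 225 (.leaf 201 1606 (.cons 297 (.leaf 276 2178 (.leaf 320 1798 .nil)) .nil)) .nil)) (.cons 271 (.leaf 298 2168 (.cons 246 (.leaf 247 1971 (.cons 270 (.leaf 245 1963 (.cons 294 (.leaf 293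 2154 (.leaf 295 2162 .nil)) .nil)) .nil)) .nil)) (.cons 298 (.leaf 271 2168 (.cons 322 (.leaf 346 2005 (.cons 225 (.leaf 201 1612 (.leaf 297 1804 .nil)) .nil)) .nil)) .nil)))) (.cons 252 (.leaf 272 1985 (.cons 253 (.leaf 254 2002 (.leaf 276 1993 .nil)) .nil)) (.cons 272 (.leaf 252 1985 (.cons 271 (.leaf 298 2168 (.cons 295 (.leaf 296 2170 (.leaf 294 2162 .nil)) .nil)) .nil)) .nil))))
noncomputable def t314 : T := .cons 296 (.cons 276 (.leaf 274 2178 (.leaf 298 2177 .nil)) (.cons 225 (.leaf 320 1798 (.cons 200 (.leaf 224 1607 (.cons 201 (.leaf 176 1415 (.leaf 272 1606 .nil)) .nil)) .nil)) .nil)) (.cons 225 (.cons 202 (.leaf 226 1613 (.cons 201 (.leaf 178 1421 (.cons 298 (.leaf 274 1612 (.leaf 322 1804 .nil)) .nil)) .nil)) (.cons 200 (.leaf 224 1607 (.cons 201 (.leaf 176 1415 (.cons 202 (.leaf 178 1421 (.leaf 226 1613 .nil)) .nil)) .nil)) (.cons 298 (.leaf 322 1804 (.cons 200 (.leaf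 224 1607 (.cons 201 (.leaf 176 1415 (.leaf 274 1612 .nil)) .nil)) .nil)) (.cons 200 (.leaf 224 1607 (.cons 226 (.leaf 202 1613 (.cons 321 (.leaf 250 1805 (.cons 322 (.leaf 298 1804 (.leaf 346 1996 .nil)) .nil)) .nil)) .nil)) .nil)))) (.cons 321 (.cons 250 (.leaf 226 1805 (.cons 320 (.leaf 344 1990 (.cons 322 (.leaf 346 1996 (.cons 298 (.leaf 319 2361 (.cons 296 (.leaf 276 2177 (.cons 271 (.leaf 272 2171 (.cons 295 (.leaf 274 2169 (.leaf 270 2163 .nil)) .nil)) .nil)) .nil)) .nil)) .nil)) .nil)) (.cons 320 (.leaf 344 1990 (.cons 322 (.leaf 346 1996 (.cons 298 (.leaf 319 2361 (.cons 296 (.leaf 276 2177 (.cons 271 (.leaf 272 2171 (.cons 295 (.leaf 274 2169 (.leaf 270 2163 .nil)) .nil)) .nil)) .nil)) .nil)) .nil)) (.cons 250 (.leaf 226 1805 (.cons 274 (.leaf 345 1997 (.cons 276 (.leaf 277 1995 (.leaf 296 2178 .nil)) .nil)) .nil)) (.cons 226 (.leaf 250 1805 (.cons 320 (.leaf 344 1990 (.cons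 322 (.leaf 346 1996 (.cons 319 (.leaf 298 2361 (.cons 294 (.leaf 295 2355 (.cons 318 (.leaf 293 2347 (.cons 342 (.leaf 341 2538 (.leaf 343 2546 .nil)) .nil)) .nil)) .nil)) .nil)) .nil)) .nil)) .nil)))) (.cons 225 (.cons 200 (.leaf 224 1607 (.cons 202 (.leaf 226 1613 (.cons 201 (.leaf 176 1415 (.leaf 178 1421 .nil)) .nil)) .nil)) (.cons 200 (.leaf 224 1607 (.cons 176 (.leaf 201 1415 (.cons 296 (.leaf 320 1798 (.cons 274 (.leaf 276 2178 (.cons 295 (.leaf 272 2170 (.leaf 294 2161 .nil)) .nil)) .nil)) .nil)) .nil)) (.cons 202 (.leaf 226 1613 (.cons 178 (.leaf 201 1421 (.cons 296 (.leaf 320 1798 (.cons 274 (.leaf 276 2178 (.cons 295 (.leaf 272 2170 (.leaf 294 2161 .nil)) .nil)) .nil)) .nil)) .nil)) (.cons 200 (.leaf 224 1607 (.cons 202 (.leaf 226 1613 (.cons 296 (.leaf 320 1798 (.cons 274 (.leaf 276 2178 (.cons 295 (.leaf 272 2170 (.leaf 294 2161 .nil)) .nil)) .nil)) .nil)) .nil)) .nil))))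 (.cons 225 (.cons 200 (.leaf 224 1607 (.cons 176 (.leaf 201 1415 (.cons 296 (.leaf 320 1798 (.cons 298 (.leaf 276 2177 (.leaf 322 1804 .nil)) .nil)) .nil)) .nil)) (.cons 226 (.leaf 202 1613 (.cons 200 (.leaf 224 1607 (.cons 321 (.leaf 250 1805 (.cons 322 (.leaf 298 1804 (.leaf 346 1996 .nil)) .nil)) .nil)) .nil)) (.cons 200 (.leaf 224 1607 (.cons 176 (.leaf 201 1415 (.cons 226 (.leaf 202 1613 (.cons 320 (.leaf 296 1798 (.cons 321 (.leaf 250 1805 (.leaf 344 1990 .nil)) .nil)) .nil)) .nil)) .nil)) (.cons 202 (.leaf 226 1613 (.cons 178 (.leaf 201 1421 (.cons 296 (.leaf 320 1798 (.cons 298 (.leaf 276 2177 (.leaf 322 1804 .nil)) .nil)) .nil)) .nil)) .nil)))) .nil))))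
noncomputable def t315 : T := .cons 298 (.cons 322 (.leaf 225 1804 (.cons 346 (.leaf 370 2197 (.leaf 321 1996 .nil)) .nil)) (.cons 296 (.leaf 276 2177 (.cons 271 (.leaf 272 2171 (.cons 270 (.leaf 295 2163 (.cons 320 (.leaf 319 2362 (.cons 321 (.leaf 226 1805 (.leaf 344 1990 .nil)) .nil)) .nil)) .nil)) .nil)) (.cons 296 (.leaf 276 2177 (.cons 320 (.leaf 319 2362 (.leaf 225 1798 .nil)) .nil)) .nil))) (.cons 298 (.cons 322 (.leaf 225 1804 (.cons 346 (.leaf 370 2197 (.leaf 321 1996 .nil)) .nil)) (.cons 296 (.leaf 276 2177 (.cons 320 (.leaf 319 2362 (.leaf 225 1798 .nil)) .nil)) (.cons 296 (.leaf 276 2177 (.cons 271 (.leaf 272 2171 (.cons 270 (.leaf 295 2163 (.cons 320 (.leaf 319 2362 (.cons 344 (.leaf 321 1990 (.leaf 368 2181 .nil)) .nil)) .nil)) .nil)) .nil)) .nil))) (.cons 225 (.cons 202 (.leaf 226 1613 (.cons 178 (.leaf 201 1421 (.cons 296 (.leaf 320 1798 (.cons 298 (.leaf 276 2177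 (.leaf 322 1804 .nil)) .nil)) .nil)) .nil)) (.cons 296 (.leaf 320 1798 (.cons 298 (.leaf 276 2177 (.leaf 322 1804 .nil)) .nil)) (.cons 226 (.leaf 202 1613 (.cons 224 (.leaf 223 1784 (.leaf 200 1607 .nil)) .nil)) .nil))) (.cons 321 (.leaf 226 1805 (.cons 320 (.leaf 344 1990 (.cons 322 (.leaf 346 1996 (.cons 298 (.leaf 319 2361 (.cons 296 (.leaf 276 2177 (.cons 271 (.leaf 272 2171 (.cons 295 (.leaf 270 2163 (.leaf 294 2352 .nil)) .nil)) .nil)) .nil)) .nil)) .nil)) .nil)) (.cons 226 (.leaf 321 1805 (.cons 202 (.leaf 178 1428 (.leaf 225 1613 .nil)) .nil)) .nil))))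
noncomputable def t316 : T := .cons 297 (.cons 226 (.leaf 321 1805 (.cons 202 (.leaf 178 1428 (.leaf 225 1613 .nil)) .nil)) (.cons 298 (.cons 322 (.leaf 225 1804 (.cons 346 (.leaf 370 2197 (.leaf 321 1996 .nil)) .nil)) (.cons 296 (.leaf 276 2177 (.cons 271 (.leaf 272 2171 (.cons 270 (.leaf 295 2163 (.cons 320 (.leaf 319 2362 (.cons 344 (.leaf 321 1990 (.leaf 368 2181 .nil)) .nil)) .nil)) .nil)) .nil)) (.cons 296 (.leaf 276 2177 (.cons 320 (.leaf 319 2362 (.leaf 225 1798 .nil)) .nil)) .nil))) (.cons 225 (.cons 202 (.leaf 226 1613 (.cons 178 (.leaf 201 1421 (.cons 296 (.leaf 320 1798 (.cons 298 (.leaf 276 2177 (.leaf 322 1804 .nil)) .nil)) .nil)) .nil)) (.cons 224 (.leaf 252 1795 (.leaf 200 1607 .nil)) .nil)) (.cons 252 (.leaf 272 1986 (.cons 226 (.leaf 321 1805 (.cons 178 (.leaf 202 1428 (.cons 228 (.leaf 229 1801 (.cons 204 (.leaf 180 1438 (.leaf 276 1630 .nil)) .nil)) .nil)) .nil))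 .nil)) .nil)))) (.cons 297 t315 (.cons 252 (.cons 225 (.leaf 224 1795 (.cons 226 (.leaf 253 1803 (.cons 202 (.leaf 178 1428 (.leaf 297 1613 .nil)) .nil)) .nil)) (.cons 276 (.leaf 277 1992 (.cons 228 (.leaf 204 1630 (.leaf 229 1801 .nil)) .nil)) .nil)) (.cons 252 (.leaf 272 1986 (.cons 276 (.leaf 277 1992 (.cons 228 (.leaf 204 1630 (.leaf 229 1801 .nil)) .nil)) .nil)) (.cons 252 (.leaf 272 1986 (.cons 225 (.leaf 224 1795 (.cons 226 (.leaf 253 1803 (.cons 202 (.leaf 178 1428 (.leaf 297 1613 .nil)) .nil)) .nil)) .nil)) .nil))))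
noncomputable def t317 : T := .cons 226 (.leaf 202 1620 (.cons 298 (.cons 225 (.leaf 322 1807 (.leaf 201 1615 .nil)) (.cons 225 (.leaf 201 1615 (.cons 247 (.leaf 248 1976 (.cons 252 (.leaf 253 1803 (.cons 228 (.leaf 229 1801 (.cons 297 (.leaf 321 1806 (.cons 296 (.leaf 295 2169 (.cons 320 (.leaf 319 2362 (.leaf 273 1798 .nil)) .nil)) .nil)) .nil)) .nil)) .nil)) .nil)) (.cons 322 (.leaf 346 2005 (.cons 321 (.leaf 297 1806 (.leaf 345 1998 .nil)) .nil)) .nil))) .nil)) (.cons 226 (.leaf 202 1620 (.cons 248 (.leaf 247 1976 (.cons 272 (.leaf 271 1978 (.cons 298 (.cons 225 (.leaf 322 1807 (.leaf 201 1615 .nil)) (.cons 321 (.leaf 297 1806 (.cons 322 (.leaf 346 2005 (.leaf 345 1998 .nil)) .nil)) (.cons 225 (.leaf 201 1615 (.cons 252 (.leaf 253 1803 (.cons 228 (.leaf 229 1801 (.cons 180 (.leaf 204 1438 (.cons 296 (.leaf 320 1797 (.cons 297 (.leaf 295 2169 (.leaf 321 1806 .nil)) .nil)) .nil))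 .nil)) .nil)) .nil)) .nil))) .nil)) .nil)) .nil)) (.cons 248 (.leaf 247 1976 (.cons 272 (.leaf 271 1978 (.cons 252 (.leaf 273 1985 (.cons 229 (.leaf 228 1801 (.cons 253 (.leaf 254 2002 (.leaf 230 1809 .nil)) .nil)) .nil)) .nil)) .nil)) (.cons 226 (.leaf 202 1620 (.cons 298 (.cons 225 (.leaf 322 1807 (.leaf 201 1615 .nil)) (.cons 225 (.leaf 201 1615 (.cons 252 (.leaf 253 1803 (.cons 272 (.leaf 273 1985 (.cons 228 (.leaf 229 1801 (.cons 297 (.leaf 321 1806 (.cons 296 (.leaf 295 2169 (.leaf 271 2171 .nil)) .nil)) .nil)) .nil)) .nil)) .nil)) (.cons 322 (.leaf 346 2005 (.cons 321 (.leaf 297 1806 (.leaf 345 1998 .nil)) .nil)) .nil))) .nil)) (.cons 226 (.leaf 202 1620 (.cons 298 (.cons 322 (.leaf 346 2005 (.leaf 225 1807 .nil)) (.cons 297 (.leaf 321 1806 (.cons 296 (.leaf 295 2169 (.cons 272 (.leaf 271 2171 (.cons 320 (.leaf 319 2362 (.cons 344 (.leaf 273 1989 (.cons 367 (.leaf 343 2174 (.cons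 368 (.leaf 391 2366 (.cons 369 (.leaf 345 2180 (.leaf 393 2372 .nil)) .nil)) .nil)) .nil)) .nil)) .nil)) .nil)) .nil)) .nil)) .nil)) .nil))))
noncomputable def t318 : T := .cons 225 (.leaf 224 1795 (.cons 226 (.leaf 253 1803 (.cons 202 (.leaf 178 1428 (.leaf 274 1620 .nil)) .nil)) .nil)) (.cons 229 (.leaf 228 1801 (.cons 253 (.leaf 230 1809 (.cons 274 (.leaf 254 2002 (.leaf 273 1994 .nil)) .nil)) .nil)) (.cons 228 (.leaf 229 1801 (.cons 225 (.leaf 224 1795 (.cons 180 (.leaf 204 1438 (.cons 274 (.cons 226 (.leaf 202 1620 (.cons 298 (.leaf 322 1807 (.leaf 201 1615 .nil)) .nil)) (.cons 202 (.leaf 226 1620 (.cons 201 (.leaf 177 1420 (.cons 178 (.leaf 273 1421 (.cons 130 (.leaf 154 1038 (.cons 179 (.leaf 181 1418 (.cons 200 (.leaf 203 1409 (.leaf 199 1401 .nil)) .nil)) .nil)) .nil)) .nil)) .nil)) (.cons 298 (.leaf 322 1807 (.cons 201 (.leaf 177 1420 (.leaf 273 1612 .nil)) .nil)) (.cons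 226 (.leaf 202 1620 (.cons 298 (.leaf 322 1807 (.cons 297 (.leaf 321 1806 (.cons 296 (.leaf 295 2169 (.cons 320 (.leaf 319 2362 (.leaf 273 1798 .nil)) .nil)) .nil)) .nil)) .nil)) .nil)))) .nil)) .nil)) .nil)) (.cons 225 (.leaf 224 1795 (.cons 229 (.leaf 228 1801 (.cons 253 (.leaf 226 1803 (.leaf 230 1809 .nil)) .nil)) .nil)) .nil)))
noncomputable def t319 : T := .cons 248 (.cons 272 (.leaf 271 1978 (.cons 223 (.leaf 224 1787 (.cons 247 (.leaf 274 1976 (.leaf 222 1779 .nil)) .nil)) .nil)) (.cons 272 (.leaf 271 1978 (.cons 224 (.leaf 223 1787 (.cons 296 (.cons 225 (.leaf 320 1797 (.leaf 201 1605 .nil)) (.cons 295 (.leaf 319 1790 (.cons 297 (.leaf 321 1796 (.cons 200 (.leaf 273 1604 (.cons 175 (.leaf 199 1407 (.cons 176 (.leaf 151 1215 (.cons 177 (.leaf 153 1221 (.leaf 201 1413 .nil)) .nil)) .nil)) .nil)) .nil)) .nil)) (.cons 225 (.leaf 320 1797 (.cons 295 (.leaf 319 1790 (.cons 297 (.leaf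 321 1796 (.cons 200 (.leaf 273 1604 (.cons 175 (.leaf 199 1407 (.cons 176 (.leaf 152 1220 (.leaf 151 1215 .nil)) .nil)) .nil)) .nil)) .nil)) .nil)) .nil))) .nil)) .nil)) (.cons 247 (.leaf 274 1976 (.cons 223 (.leaf 224 1787 (.leaf 222 1779 .nil)) .nil)) (.cons 247 (.leaf 274 1976 (.cons 271 (.leaf 272 1978 (.leaf 270 1970 .nil)) .nil)) .nil)))) (.cons 272 (.cons 273 (.leaf 252 1986 (.cons 271 (.leaf 248 1978 (.leaf 270 1969 .nil)) .nil)) (.cons 252 (.leaf 273 1986 (.cons 225 (.leaf 224 1795 (.cons 229 (.leaf 228 1801 (.cons 253 (.leaf 226 1803 (.leaf 230 1809 .nil)) .nil)) .nil)) .nil)) (.cons 248 (.leaf 271 1978 (.cons 224 (.leaf 223 1787 (.cons 296 (.cons 225 (.leaf 320 1797 (.leaf 201 1605 .nil)) (.cons 295 (.leaf 319 1790 (.cons 297 (.leaf 321 1796 (.cons 200 (.leaf 273 1604 (.cons 175 (.leaf 199 1407 (.cons 176 (.leaf 151 1215 (.cons 177 (.leaf 201 1413 (.leaf 153 1221 .nil))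 .nil)) .nil)) .nil)) .nil)) .nil)) (.cons 225 (.leaf 320 1797 (.cons 295 (.leaf 319 1790 (.cons 297 (.leaf 321 1796 (.cons 200 (.leaf 273 1604 (.cons 175 (.leaf 199 1407 (.cons 176 (.leaf 152 1220 (.leaf 151 1215 .nil)) .nil)) .nil)) .nil)) .nil)) .nil)) .nil))) .nil)) .nil)) (.cons 248 (.leaf 271 1978 (.cons 224 (.leaf 223 1787 (.cons 225 (.leaf 252 1795 (.cons 201 (.leaf 177 1414 (.leaf 296 1605 .nil)) .nil)) .nil)) .nil)) .nil)))) (.cons 252 (.cons 273 (.leaf 272 1986 (.cons 225 (.leaf 224 1795 (.cons 253 (.leaf 226 1803 (.leaf 274 1994 .nil)) .nil)) .nil)) (.cons 225 (.leaf 224 1795 (.cons 226 (.leaf 253 1803 (.cons 202 (.leaf 178 1428 (.leaf 274 1620 .nil)) .nil)) .nil)) (.cons 273 (.leaf 272 1986 (.cons 229 (.leaf 228 1801 (.cons 253 (.leaf 230 1809 (.leaf 274 1994 .nil)) .nil)) .nil)) (.cons 273 (.leaf 272 1986 (.cons 225 (.leaf 224 1795 (.cons 228 (.leaf 229 1801 (.cons 204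 (.leaf 180 1438 (.cons 297 (.cons 320 (.leaf 296 1798 (.cons 321 (.leaf 226 1805 (.leaf 344 1990 .nil)) .nil)) (.cons 320 (.leaf 296 1798 (.cons 321 (.leaf 344 1990 (.cons 322 (.leaf 298 1804 (.leaf 346 1996 .nil)) .nil)) .nil)) (.cons 202 (.leaf 226 1613 (.cons 201 (.leaf 178 1421 (.cons 176 (.leaf 200 1415 (.cons 177 (.leaf 152 1223 (.leaf 274 1420 .nil)) .nil)) .nil)) .nil)) .nil))) .nil)) .nil)) .nil)) .nil)) (.cons 225 (.leaf 224 1795 (.cons 229 (.leaf 228 1801 (.cons 253 (.leaf 226 1803 (.leaf 230 1809 .nil)) .nil)) .nil)) .nil))))) (.cons 248 (.cons 224 (.leaf 223 1787 (.cons 247 (.leaf 274 1976 (.cons 271 (.leaf 272 1978 (.leaf 270 1970 .nil)) .nil)) .nil)) (.cons 224 (.leaf 223 1787 (.cons 225 (.leaf 252 1795 (.cons 272 (.leaf 271 1978 (.cons 201 (.leaf 177 1414 (.leaf 296 1605 .nil)) .nil)) .nil)) .nil)) (.cons 247 (.leaf 274 1976 (.cons 271 (.leaf 272 1978 (.leaf 270 1970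 .nil)) .nil)) (.cons 274 (.leaf 247 1976 (.cons 202 (.leaf 226 1620 (.cons 224 (.leaf 223 1787 (.cons 252 (.leaf 225 1795 (.cons 229 (.leaf 228 1801 (.cons 253 (.leaf 254 2002 (.leaf 230 1809 .nil)) .nil)) .nil)) .nil)) .nil)) .nil)) .nil)))) (.cons 252 t318 (.cons 248 (.cons 223 (.leaf 224 1787 (.cons 272 (.leaf 271 1978 (.cons 247 (.leaf 274 1976 (.leaf 222 1779 .nil)) .nil)) .nil)) (.cons 223 (.leaf 224 1787 (.cons 272 (.leaf 271 1978 (.cons 252 (.leaf 273 1986 (.cons 229 (.leaf 228 1801 (.cons 253 (.leaf 230 1809 (.cons 254 (.leaf 274 2002 (.cons 278 (.leaf 277 2000 (.leaf 279 2008 .nil)) .nil)) .nil)) .nil)) .nil)) .nil)) .nil)) (.cons 223 (.leaf 224 1787 (.cons 247 (.leaf 274 1976 (.leaf 222 1779 .nil)) .nil)) (.cons 223 (.leaf 224 1787 (.cons 247 (.leaf 222 1779 (.cons 271 (.leaf 272 1978 (.leaf 270 1970 .nil)) .nil)) .nil)) (.cons 274 (.leaf 247 1976 (.cons 272 (.leaf 271 1978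 (.cons 252 (.leaf 273 1985 (.cons 229 (.leaf 228 1801 (.cons 253 (.leaf 254 2002 (.leaf 230 1809 .nil)) .nil)) .nil)) .nil)) .nil)) .nil))))) (.cons 274 t317 .nil))))))
noncomputable def t320 : T := .cons 320 (.leaf 344 1989 (.cons 225 (.leaf 201 1606 (.leaf 248 1797 .nil)) .nil)) (.cons 225 (.leaf 201 1606 (.cons 297 (.cons 298 (.leaf 271 2171 (.leaf 322 1804 .nil)) (.cons 202 (.leaf 226 1613 (.cons 224 (.leaf 200 1607 (.cons 321 (.leaf 248 1796 (.cons 345 (.leaf 369 2183 (.cons 346 (.leaf 322 1996 (.leaf 370 2188 .nil)) .nil)) .nil)) .nil)) .nil)) (.cons 224 (.leaf 200 1607 (.cons 248 (.leaf 321 1796 (.cons 199 (.leaf 223 1599 (.cons 226 (.leaf 202 1613 (.cons 246 (.leaf 247 1777 (.cons 271 (.leaf 298 2171 (.cons 270 (.leaf 269 2152 (.leaf 245 1963 .nil)) .nil)) .nil)) .nil)) .nil)) .nil)) .nil)) .nil))) .nil)) (.cons 320 (.leaf 344 1989 (.cons 248 (.cons 223 (.leaf 247 1791 (.cons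 319 (.leaf 343 1982 (.cons 297 (.leaf 298 2362 (.cons 321 (.leaf 224 1796 (.leaf 345 1988 .nil)) .nil)) .nil)) .nil)) (.cons 223 (.leaf 247 1791 (.cons 224 (.leaf 199 1599 (.cons 200 (.leaf 176 1412 (.leaf 297 1604 .nil)) .nil)) .nil)) (.cons 223 (.leaf 247 1791 (.cons 224 (.leaf 199 1599 (.cons 319 (.leaf 295 1790 (.leaf 343 1982 .nil)) .nil)) .nil)) (.cons 223 (.leaf 247 1791 (.cons 319 (.leaf 343 1982 (.cons 297 (.leaf 298 2362 (.cons 321 (.leaf 345 1988 (.cons 318 (.leaf 317 2345 (.cons 294 (.leaf 293 2347 (.cons 322 (.leaf 346 1996 (.leaf 295 2352 .nil)) .nil)) .nil)) .nil)) .nil)) .nil)) .nil)) (.cons 319 (.leaf 343 1982 (.cons 224 (.leaf 295 1790 (.cons 297 (.leaf 298 2362 (.leaf 321 1796 .nil)) .nil)) .nil)) .nil))))) .nil)) (.cons 320 (.leaf 344 1989 (.cons 225 (.leaf 201 1606 (.leaf 297 1798 .nil)) .nil)) .nil)))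
noncomputable def t321 : T := .cons 297 (.leaf 296 2178 (.cons 277 (.leaf 298 2186 (.cons 302 (.leaf 301 2192 (.cons 278 (.leaf 303 2200 (.cons 255 (.leaf 254 2009 (.cons 279 (.leaf 252 2011 (.leaf 256 2017 .nil)) .nil)) .nil)) .nil)) .nil)) .nil)) (.cons 253 (.leaf 252 1993 (.cons 277 (.leaf 254 2001 (.cons 278 (.leaf 298 2194 (.cons 302 (.leaf 301 2192 (.leaf 303 2200 .nil)) .nil)) .nil)) .nil)) (.cons 297 (.leaf 296 2178 (.cons 277 (.leaf 298 2186 (.cons 254 (.leaf 253 2001 (.cons 278 (.leaf 255 2009 (.cons 302 (.leaf 301 2192 (.leaf 303 2200 .nil)) .nil)) .nil)) .nil)) .nil)) (.cons 297 (.leaf 296 2178 (.cons 277 (.cons 302 (.leaf 301 2192 (.cons 278 (.leaf 303 2200 (.cons 255 (.leaf 254 2009 (.cons 279 (.leaf 252 2011 (.leaf 256 2017 .nil)) .nil)) .nil)) .nil)) (.cons 254 (.leaf 253 2001 (.cons 278 (.leaf 255 2009 (.cons 302 (.leaf 301 2192 (.leaf 303 2200 .nil)) .nil)) .nil))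 (.cons 252 (.leaf 253 1993 (.cons 204 (.leaf 228 1630 (.cons 278 (.leaf 279 2011 (.cons 302 (.leaf 301 2192 (.leaf 303 2200 .nil)) .nil)) .nil)) .nil)) (.cons 253 (.leaf 252 1993 (.leaf 254 2001 .nil)) .nil)))) .nil)) (.cons 252 (.leaf 253 1993 (.cons 297 (.leaf 296 2178 (.cons 321 (.cons 322 (.leaf 346 1996 (.cons 225 (.leaf 298 1804 (.cons 200 (.leaf 224 1607 (.cons 201 (.leaf 176 1415 (.cons 202 (.leaf 178 1421 (.leaf 226 1613 .nil)) .nil)) .nil)) .nil)) .nil)) (.cons 344 (.leaf 320 1990 (.cons 345 (.leaf 368 2182 (.cons 204 (.leaf 228 1630 (.cons 369 (.leaf 298 2189 (.cons 370 (.leaf 346 2188 (.leaf 394 2380 .nil)) .nil)) .nil)) .nil)) .nil)) (.cons 344 (.leaf 320 1990 (.cons 345 (.leaf 368 2182 (.cons 298 (.leaf 369 2189 (.cons 225 (.leaf 201 1612 (.leaf 322 1804 .nil)) .nil)) .nil)) .nil)) (.cons 228 (.leaf 204 1630 (.cons 344 (.leaf 320 1990 (.cons 345 (.leaf 368 2182 (.cons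 346 (.leaf 322 1996 (.leaf 370 2188 .nil)) .nil)) .nil)) .nil)) .nil)))) .nil)) .nil)) .nil))))
noncomputable def t322 : T := .cons 201 (.leaf 178 1421 (.cons 200 (.leaf 176 1415 (.cons 203 (.cons 224 (.leaf 297 1607 (.leaf 204 1602 .nil)) (.cons 180 (.leaf 179 1409 (.cons 204 (.leaf 181 1417 (.cons 228 (.leaf 252 1438 (.leaf 229 1608 .nil)) .nil)) .nil)) (.cons 223 (.leaf 224 1594 (.cons 199 (.leaf 222 1586 (.cons 174 (.leaf 175 1395 (.cons 198 (.leaf 226 1584 (.leaf 173 1387 .nil)) .nil)) .nil)) .nil)) .nil))) .nil)) .nil)) (.cons 297 (.leaf 226 1613 (.cons 224 (.leaf 200 1607 (.cons 320 (.leaf 296 1798 (.cons 321 (.leaf 248 1799 (.leaf 344 1990 .nil)) .nil)) .nil)) .nil)) (.cons 201 (.leaf 178 1421 (.cons 200 (.leaf 176 1415 (.cons 203 (.cons 224 (.leaf 204 1602 (.leaf 223 1594 .nil)) (.cons 180 (.leaf 179 1409 (.cons 204 (.leaf 181 1417 (.cons 228 (.leaf 252 1438 (.leaf 229 1608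 .nil)) .nil)) .nil)) (.cons 223 (.leaf 224 1594 (.cons 199 (.leaf 222 1586 (.cons 174 (.leaf 175 1395 (.cons 198 (.leaf 226 1584 (.leaf 173 1387 .nil)) .nil)) .nil)) .nil)) .nil))) .nil)) .nil)) (.cons 201 (.leaf 178 1421 (.cons 200 (.leaf 176 1415 (.cons 224 (.leaf 297 1607 (.cons 203 (.leaf 204 1602 (.leaf 223 1594 .nil)) .nil)) .nil)) .nil)) (.cons 226 (.leaf 297 1613 (.cons 178 (.leaf 154 1230 (.leaf 201 1421 .nil)) .nil)) .nil))))
noncomputable def t323 : T := .cons 176 (.leaf 200 1415 (.cons 177 (.leaf 152 1223 (.cons 178 (.leaf 154 1229 (.leaf 202 1421 .nil)) .nil)) .nil)) (.cons 274 (.leaf 298 1612 (.cons 276 (.leaf 248 1987 (.cons 252 (.leaf 253 1993 (.cons 204 (.leaf 228 1630 (.cons 202 (.leaf 178 1421 (.cons 203 (.leaf 224 1602 (.cons 181 (.leaf 180 1417 (.cons 205 (.leaf 226 1610 (.leaf 182 1425 .nil)) .nil)) .nil)) .nil)) .nil)) .nil)) .nil)) .nil)) (.cons 274 (.leaf 298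 1612 (.cons 176 (.leaf 200 1415 (.cons 276 (.leaf 248 1987 (.cons 277 (.cons 152 (.leaf 177 1223 (.cons 253 (.leaf 252 1993 (.leaf 254 2001 .nil)) .nil)) (.cons 302 (.leaf 301 2192 (.cons 278 (.leaf 303 2200 (.cons 152 (.leaf 177 1223 (.cons 255 (.leaf 254 2009 (.cons 279 (.leaf 252 2011 (.leaf 256 2017 .nil)) .nil)) .nil)) .nil)) .nil)) (.cons 152 (.leaf 177 1223 (.cons 254 (.leaf 253 2001 (.cons 278 (.leaf 255 2009 (.cons 302 (.leaf 301 2192 (.leaf 303 2200 .nil)) .nil)) .nil)) .nil)) (.cons 152 (.leaf 177 1223 (.cons 252 (.leaf 253 1993 (.cons 204 (.leaf 228 1630 (.cons 278 (.leaf 279 2011 (.cons 302 (.leaf 301 2192 (.leaf 303 2200 .nil)) .nil)) .nil)) .nil)) .nil)) (.cons 253 (.leaf 252 1993 (.leaf 254 2001 .nil)) .nil))))) .nil)) .nil)) .nil)) .nil))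
noncomputable def t324 : T := .cons 202 (.cons 226 (.leaf 297 1613 (.cons 178 (.leaf 154 1230 (.leaf 201 1421 .nil)) .nil)) (.cons 201 (.leaf 178 1421 (.cons 176 (.leaf 200 1415 (.cons 177 (.leaf 152 1223 (.cons 174 (.leaf 175 1392 (.cons 274 (.leaf 298 1612 (.cons 248 (.leaf 276 1987 (.cons 153 (.leaf 224 1222 (.cons 129 (.leaf 226 1036 (.cons 130 (.leaf 154 1037 (.leaf 106 845 .nil)) .nil)) .nil)) .nil)) .nil)) .nil)) .nil)) .nil)) .nil)) (.cons 297 (.leaf 226 1613 (.cons 224 (.leaf 200 1607 (.cons 320 (.leaf 296 1798 (.cons 321 (.leaf 248 1799 (.leaf 344 1990 .nil)) .nil)) .nil)) .nil)) (.cons 201 (.leaf 178 1421 (.cons 200 (.leaf 176 1415 (.cons 224 (.leaf 297 1607 (.cons 203 (.leaf 204 1602 (.leaf 223 1594 .nil)) .nil)) .nil)) .nil)) .nil)))) (.cons 201 t323 (.cons 297 (.cons 202 (.leaf 226 1613 (.cons 296 (.leaf 320 1798 (.cons 276 (.leaf 274 2178 (.leaf 298 2177 .nil)) .nil))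 .nil)) (.cons 202 (.leaf 226 1613 (.cons 224 (.leaf 200 1607 (.cons 321 (.leaf 248 1799 (.cons 322 (.leaf 298 1804 (.leaf 346 1996 .nil)) .nil)) .nil)) .nil)) (.cons 202 (.leaf 226 1613 (.cons 224 (.leaf 200 1607 (.cons 320 (.leaf 296 1798 (.cons 321 (.leaf 248 1799 (.leaf 344 1990 .nil)) .nil)) .nil)) .nil)) (.cons 296 (.leaf 320 1798 (.cons 298 (.leaf 276 2177 (.leaf 322 1804 .nil)) .nil)) .nil)))) (.cons 297 (.cons 200 (.leaf 224 1607 (.cons 201 (.leaf 176 1415 (.cons 202 (.leaf 178 1421 (.leaf 226 1613 .nil)) .nil)) .nil)) (.cons 296 (.leaf 320 1798 (.cons 298 (.leaf 276 2177 (.leaf 322 1804 .nil)) .nil)) .nil)) (.cons 202 t322 (.cons 298 (.cons 201 (.leaf 274 1612 (.cons 202 (.leaf 178 1421 (.cons 297 (.leaf 226 1613 (.leaf 322 1804 .nil)) .nil)) .nil)) (.cons 274 (.leaf 201 1612 (.cons 322 (.leaf 346 2005 (.cons 276 (.leaf 248 1987 (.cons 253 (.leaf 252 1993 (.cons 277 (.leaf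 254 2001 (.leaf 278 2194 .nil)) .nil)) .nil)) .nil)) .nil)) (.cons 297 (.leaf 322 1804 (.cons 296 (.leaf 276 2177 (.leaf 320 1798 .nil)) .nil)) (.cons 201 (.leaf 274 1612 (.cons 202 (.leaf 178 1421 (.cons 297 (.leaf 226 1613 (.cons 296 (.leaf 276 2177 (.leaf 320 1798 .nil)) .nil)) .nil)) .nil)) .nil)))) (.cons 297 (.cons 224 (.leaf 200 1607 (.cons 320 (.leaf 296 1798 (.cons 321 (.leaf 248 1799 (.leaf 344 1990 .nil)) .nil)) .nil)) (.cons 200 (.leaf 224 1607 (.cons 201 (.leaf 176 1415 (.cons 298 (.leaf 274 1612 (.leaf 322 1804 .nil)) .nil)) .nil)) (.cons 298 (.leaf 322 1804 (.cons 296 (.leaf 276 2177 (.leaf 320 1798 .nil)) .nil)) .nil))) .nil))))))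
noncomputable def t325 : T := .cons 321 (.cons 320 (.leaf 344 1990 (.cons 322 (.leaf 346 1996 (.cons 298 (.leaf 319 2361 (.cons 296 (.leaf 276 2177 (.cons 271 (.leaf 272 2171 (.cons 295 (.leaf 270 2163 (.leaf 294 2352 .nil)) .nil)) .nil)) .nil)) .nil)) .nil)) (.cons 248 (.leaf 224 1799 (.cons 322 (.leaf 346 1996 (.cons 345 (.leaf 272 1991 (.cons 368 (.leaf 344 2182 (.cons 369 (.leaf 392 2374 (.cons 393 (.leaf 298 2381 (.cons 394 (.leaf 370 2380 (.leaf 418 2572 .nil)) .nil)) .nil)) .nil)) .nil)) .nil)) .nil)) (.cons 248 (.leaf 224 1799 (.cons 345 (.leaf 272 1991 (.cons 346 (.leaf 322 1996 (.leaf 370 2188 .nil)) .nil)) .nil)) (.cons 248 (.leaf 224 1799 (.cons 344 (.leaf 320 1990 (.cons 345 (.leaf 272 1991 (.leaf 368 2182 .nil)) .nil)) .nil)) (.cons 224 (.leaf 248 1799 (.cons 344 (.leaf 320 1990 (.cons 345 (.leaf 368 2182 (.cons 346 (.leaf 322 1996 (.leaf 370 2188 .nil)) .nil)) .nil))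 .nil)) .nil))))) (.cons 225 (.cons 200 (.leaf 224 1607 (.cons 202 (.leaf 226 1613 (.cons 296 (.leaf 320 1798 (.cons 298 (.leaf 276 2177 (.leaf 322 1804 .nil)) .nil)) .nil)) .nil)) (.cons 200 (.leaf 224 1607 (.cons 201 (.leaf 176 1415 (.cons 202 (.leaf 178 1421 (.leaf 226 1613 .nil)) .nil)) .nil)) (.cons 296 (.leaf 320 1798 (.cons 298 (.leaf 276 2177 (.leaf 322 1804 .nil)) .nil)) .nil))) (.cons 321 (.cons 320 (.leaf 344 1990 (.cons 322 (.leaf 346 1996 (.cons 298 (.leaf 319 2361 (.leaf 225 1804 .nil)) .nil)) .nil)) (.cons 248 (.leaf 224 1799 (.cons 344 (.leaf 320 1990 (.cons 345 (.leaf 272 1991 (.leaf 368 2182 .nil)) .nil)) .nil)) (.cons 224 (.leaf 248 1799 (.cons 225 (.leaf 200 1607 (.cons 322 (.leaf 298 1804 (.leaf 346 1996 .nil)) .nil)) .nil)) .nil))) (.cons 225 (.cons 202 (.leaf 226 1613 (.cons 224 (.leaf 200 1607 (.cons 320 (.leaf 296 1798 (.cons 321 (.leaf 248 1799 (.leaf 344 1990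 .nil)) .nil)) .nil)) .nil)) (.cons 202 (.leaf 226 1613 (.cons 201 (.leaf 178 1421 (.cons 296 (.leaf 272 1606 (.leaf 320 1798 .nil)) .nil)) .nil)) (.cons 224 (.leaf 200 1607 (.cons 202 (.leaf 226 1613 (.cons 178 (.leaf 201 1421 (.cons 321 (.leaf 248 1799 (.cons 344 (.leaf 320 1990 (.cons 345 (.leaf 368 2182 (.cons 346 (.leaf 322 1996 (.leaf 370 2188 .nil)) .nil)) .nil)) .nil)) .nil)) .nil)) .nil)) (.cons 224 (.leaf 200 1607 (.cons 202 (.leaf 226 1613 (.cons 201 (.leaf 178 1421 (.cons 203 (.leaf 204 1602 (.cons 222 (.leaf 223 1585 (.cons 248 (.leaf 321 1799 (.cons 272 (.leaf 177 1414 (.leaf 296 1605 .nil)) .nil)) .nil)) .nil)) .nil)) .nil)) .nil)) (.cons 224 (.leaf 200 1607 (.cons 320 (.leaf 296 1798 (.cons 321 (.leaf 248 1799 (.leaf 344 1990 .nil)) .nil)) .nil)) .nil))))) (.cons 225 (.cons 200 (.leaf 224 1607 (.cons 201 (.leaf 176 1415 (.cons 202 (.leaf 178 1421 (.leaf 226 1613 .nil))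 .nil)) .nil)) (.cons 298 (.leaf 322 1804 (.cons 202 (.leaf 226 1613 (.cons 201 (.leaf 178 1421 (.cons 296 (.leaf 276 2177 (.leaf 272 1606 .nil)) .nil)) .nil)) .nil)) (.cons 200 (.leaf 224 1607 (.cons 201 (.leaf 176 1415 (.cons 272 (.leaf 296 1606 (.cons 248 (.leaf 177 1414 (.cons 321 (.leaf 345 1991 (.cons 322 (.leaf 298 1804 (.leaf 346 1996 .nil)) .nil)) .nil)) .nil)) .nil)) .nil)) (.cons 202 (.leaf 226 1613 (.cons 224 (.leaf 200 1607 (.cons 321 (.leaf 248 1799 (.cons 322 (.leaf 298 1804 (.leaf 346 1996 .nil)) .nil)) .nil)) .nil)) .nil)))) (.cons 298 (.cons 322 (.leaf 225 1804 (.cons 346 (.leaf 370 2197 (.leaf 321 1996 .nil)) .nil)) (.cons 296 (.leaf 276 2177 (.cons 320 (.leaf 319 2362 (.leaf 225 1798 .nil)) .nil)) (.cons 296 (.leaf 276 2177 (.cons 320 (.leaf 319 2362 (.cons 344 (.leaf 272 1989 (.leaf 321 1990 .nil)) .nil)) .nil)) .nil))) (.cons 225 (.cons 296 (.leaf 320 1798 (.cons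 200 (.leaf 224 1607 (.cons 201 (.leaf 176 1415 (.leaf 272 1606 .nil)) .nil)) .nil)) (.cons 224 (.leaf 200 1607 (.cons 202 (.leaf 226 1613 (.cons 201 (.leaf 178 1421 (.cons 203 (.leaf 204 1602 (.cons 248 (.leaf 321 1799 (.cons 177 (.leaf 272 1414 (.leaf 153 1222 .nil)) .nil)) .nil)) .nil)) .nil)) .nil)) (.cons 296 (.leaf 320 1798 (.cons 201 (.leaf 272 1606 (.cons 202 (.leaf 178 1421 (.leaf 226 1613 .nil)) .nil)) .nil)) (.cons 296 (.leaf 320 1798 (.cons 202 (.leaf 226 1613 (.cons 224 (.leaf 200 1607 (.cons 298 (.leaf 276 2177 (.cons 271 (.leaf 272 2171 (.cons 295 (.leaf 270 2163 (.cons 248 (.leaf 321 1799 (.cons 319 (.leaf 318 2354 (.leaf 247 1789 .nil)) .nil)) .nil)) .nil)) .nil)) .nil)) .nil)) .nil)) (.cons 224 (.leaf 200 1607 (.cons 202 (.leaf 226 1613 (.cons 178 (.leaf 201 1421 (.cons 320 (.leaf 296 1798 (.cons 321 (.leaf 248 1799 (.leaf 344 1990 .nil)) .nil)) .nil)) .nil)) .nil))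 .nil))))) .nil))))))
noncomputable def t326 : T := .cons 274 (.cons 272 (.leaf 252 1985 (.cons 247 (.leaf 248 1979 (.cons 296 (.leaf 295 2170 (.cons 225 (.leaf 201 1606 (.cons 320 (.leaf 297 1798 (.leaf 344 1989 .nil)) .nil)) .nil)) .nil)) .nil)) (.cons 276 (.leaf 248 1987 (.cons 297 (.leaf 296 2178 (.cons 277 (.leaf 298 2186 (.cons 302 (.leaf 301 2192 (.cons 278 (.leaf 303 2200 (.cons 255 (.leaf 254 2009 (.cons 279 (.leaf 252 2011 (.leaf 256 2017 .nil)) .nil)) .nil)) .nil)) .nil)) .nil)) .nil)) (.cons 272 (.leaf 252 1985 (.cons 271 (.leaf 298 2168 (.cons 295 (.leaf 296 2170 (.leaf 294 2162 .nil)) .nil)) .nil)) (.cons 248 (.leaf 276 1987 (.cons 247 (.leaf 272 1979 (.leaf 246 1968 .nil)) .nil)) .nil)))) (.cons 297 (.cons 298 (.cons 322 (.leaf 225 1804 (.cons 346 (.leaf 370 2197 (.leaf 321 1996 .nil)) .nil)) (.cons 296 (.leaf 276 2177 (.cons 320 (.leaf 319 2362 (.cons 344 (.leaf 272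 1989 (.leaf 321 1990 .nil)) .nil)) .nil)) (.cons 225 (.leaf 322 1804 (.cons 200 (.leaf 224 1607 (.cons 201 (.leaf 176 1415 (.cons 202 (.leaf 178 1421 (.leaf 226 1613 .nil)) .nil)) .nil)) .nil)) .nil))) t325) (.cons 225 t324 (.cons 274 (.cons 276 (.leaf 248 1987 (.cons 253 (.leaf 252 1993 (.cons 277 (.leaf 254 2001 (.cons 278 (.leaf 298 2194 (.cons 302 (.leaf 301 2192 (.leaf 303 2200 .nil)) .nil)) .nil)) .nil)) .nil)) (.cons 272 (.leaf 252 1985 (.cons 271 (.leaf 298 2168 (.cons 295 (.leaf 296 2170 (.leaf 294 2162 .nil)) .nil)) .nil)) (.cons 248 (.leaf 276 1987 (.cons 247 (.leaf 272 1979 (.leaf 246 1968 .nil)) .nil)) .nil))) (.cons 274 (.cons 272 (.leaf 252 1985 (.cons 296 (.leaf 295 2170 (.cons 201 (.leaf 225 1606 (.cons 298 (.leaf 271 2168 (.cons 297 (.leaf 276 2177 (.cons 320 (.leaf 319 2362 (.leaf 344 1989 .nil)) .nil)) .nil)) .nil)) .nil)) .nil)) (.cons 276 t321 (.cons 272 (.cons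 296 (.leaf 295 2170 (.cons 201 (.leaf 225 1606 (.cons 298 (.leaf 271 2168 (.cons 297 (.leaf 276 2177 (.cons 320 (.leaf 319 2362 (.leaf 344 1989 .nil)) .nil)) .nil)) .nil)) .nil)) (.cons 296 (.leaf 295 2170 (.cons 225 (.leaf 201 1606 (.cons 297 (.leaf 276 2178 (.leaf 320 1798 .nil)) .nil)) .nil)) (.cons 298 (.leaf 271 2168 (.cons 322 (.leaf 346 2005 (.cons 225 (.leaf 201 1612 (.leaf 297 1804 .nil)) .nil)) .nil)) (.cons 271 (.leaf 298 2168 (.cons 295 (.leaf 296 2170 (.leaf 294 2162 .nil)) .nil)) .nil)))) (.cons 252 (.leaf 272 1985 (.cons 253 (.leaf 254 2002 (.leaf 276 1993 .nil)) .nil)) (.cons 272 (.leaf 252 1985 (.cons 271 (.leaf 298 2168 (.cons 295 (.leaf 296 2170 (.leaf 294 2162 .nil)) .nil)) .nil)) .nil))))) (.cons 272 (.cons 274 (.leaf 252 1985 (.cons 247 (.leaf 248 1979 (.cons 296 (.leaf 295 2170 (.cons 225 (.leaf 201 1606 (.cons 320 (.leaf 297 1798 (.leaf 344 1989 .nil)) .nil))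 .nil)) .nil)) .nil)) (.cons 296 t320 (.cons 274 (.leaf 252 1985 (.cons 298 (.leaf 271 2168 (.cons 322 (.leaf 346 2005 (.cons 225 (.leaf 201 1612 (.leaf 297 1804 .nil)) .nil)) .nil)) .nil)) (.cons 274 (.leaf 252 1985 (.cons 271 (.leaf 298 2168 (.cons 295 (.leaf 296 2170 (.leaf 294 2162 .nil)) .nil)) .nil)) .nil)))) (.cons 274 (.cons 272 (.leaf 252 1985 (.cons 247 (.leaf 248 1979 (.cons 296 (.leaf 295 2170 (.cons 225 (.leaf 201 1606 (.cons 320 (.leaf 297 1798 (.leaf 344 1989 .nil)) .nil)) .nil)) .nil)) .nil)) (.cons 276 (.leaf 248 1987 (.cons 297 (.leaf 296 2178 (.cons 277 (.cons 302 (.leaf 301 2192 (.cons 278 (.leaf 303 2200 (.cons 255 (.leaf 254 2009 (.cons 279 (.leaf 252 2011 (.leaf 256 2017 .nil)) .nil)) .nil)) .nil)) (.cons 254 (.leaf 253 2001 (.cons 278 (.leaf 255 2009 (.cons 302 (.leaf 301 2192 (.leaf 303 2200 .nil)) .nil)) .nil)) (.cons 252 (.leaf 253 1993 (.cons 204 (.leaf 228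 1630 (.cons 278 (.leaf 279 2011 (.cons 302 (.leaf 301 2192 (.leaf 303 2200 .nil)) .nil)) .nil)) .nil)) (.cons 253 (.leaf 252 1993 (.leaf 254 2001 .nil)) .nil)))) .nil)) .nil)) (.cons 252 (.leaf 272 1985 (.cons 253 (.leaf 254 2002 (.leaf 276 1993 .nil)) .nil)) (.cons 248 (.leaf 276 1987 (.cons 247 (.leaf 272 1979 (.leaf 246 1968 .nil)) .nil)) .nil)))) (.cons 274 (.cons 276 (.leaf 248 1987 (.cons 253 (.leaf 252 1993 (.cons 277 (.leaf 254 2001 (.cons 278 (.leaf 298 2194 (.cons 302 (.leaf 301 2192 (.leaf 303 2200 .nil)) .nil)) .nil)) .nil)) .nil)) (.cons 272 (.leaf 252 1985 (.cons 298 (.leaf 271 2168 (.cons 322 (.leaf 346 2005 (.cons 225 (.leaf 201 1612 (.leaf 297 1804 .nil)) .nil)) .nil)) .nil)) (.cons 248 (.leaf 276 1987 (.cons 247 (.leaf 272 1979 (.leaf 246 1968 .nil)) .nil)) .nil))) .nil)))))))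
noncomputable def t327 : T := .cons 252 (.cons 224 (.leaf 225 1795 (.cons 228 (.leaf 229 1801 (.cons 248 (.leaf 276 1984 (.leaf 223 1787 .nil)) .nil)) .nil)) (.cons 224 (.leaf 225 1795 (.cons 228 (.leaf 229 1801 (.cons 248 (.leaf 223 1787 (.cons 272 (.leaf 271 1978 (.leaf 273 1986 .nil)) .nil)) .nil)) .nil)) (.cons 276 (.leaf 277 1992 (.cons 273 (.leaf 272 1986 (.cons 253 (.leaf 274 1993 (.cons 225 (.leaf 224 1795 (.leaf 226 1803 .nil)) .nil)) .nil)) .nil)) (.cons 276 (.leaf 248 1984 (.leaf 277 1992 .nil)) .nil)))) (.cons 252 (.cons 276 (.leaf 277 1992 (.cons 273 (.leaf 272 1986 (.cons 253 (.leaf 274 1993 (.cons 225 (.leaf 224 1795 (.leaf 226 1803 .nil)) .nil)) .nil)) .nil)) (.cons 273 (.leaf 272 1986 (.cons 225 (.leaf 224 1795 (.cons 253 (.leaf 226 1803 (.leaf 274 1994 .nil)) .nil)) .nil)) (.cons 276 (.leaf 277 1992 (.cons 228 (.leaf 204 1630 (.leaf 229 1801 .nil)) .nil)) .nil)))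 (.cons 252 (.cons 273 (.leaf 272 1986 (.cons 225 (.leaf 224 1795 (.cons 253 (.leaf 226 1803 (.leaf 274 1994 .nil)) .nil)) .nil)) (.cons 225 (.leaf 224 1795 (.cons 226 (.leaf 253 1803 (.cons 202 (.leaf 178 1428 (.leaf 274 1620 .nil)) .nil)) .nil)) (.cons 273 (.leaf 272 1986 (.cons 229 (.leaf 228 1801 (.cons 253 (.leaf 230 1809 (.leaf 274 1994 .nil)) .nil)) .nil)) (.cons 225 (.leaf 224 1795 (.cons 229 (.leaf 228 1801 (.cons 253 (.leaf 226 1803 (.leaf 230 1809 .nil)) .nil)) .nil)) (.cons 272 (.leaf 273 1986 (.cons 224 (.leaf 225 1795 (.cons 248 (.leaf 223 1787 (.leaf 271 1978 .nil)) .nil)) .nil)) .nil))))) (.cons 248 (.leaf 276 1984 (.cons 223 (.leaf 224 1787 (.cons 247 (.leaf 274 1976 (.leaf 222 1779 .nil)) .nil)) .nil)) (.cons 248 (.leaf 276 1984 (.cons 223 (.leaf 224 1787 (.cons 247 (.leaf 222 1779 (.cons 271 (.leaf 272 1978 (.leaf 270 1970 .nil)) .nil)) .nil)) .nil)) (.cons 276 (.leaf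 248 1984 (.cons 277 (.leaf 274 1995 (.leaf 278 2003 .nil)) .nil)) .nil)))))
noncomputable def t328 : T := .cons 250 t327 (.cons 273 (t326) (.cons 250 (.cons 274 (.cons 226 (.leaf 202 1620 (.cons 298 (.cons 225 (.leaf 322 1807 (.leaf 201 1615 .nil)) (.cons 321 (.leaf 297 1806 (.cons 322 (.leaf 346 2005 (.leaf 345 1998 .nil)) .nil)) (.cons 225 (.leaf 201 1615 (.cons 223 (.leaf 224 1784 (.cons 297 (.leaf 321 1806 (.cons 296 (.leaf 295 2169 (.cons 320 (.leaf 319 2362 (.leaf 273 1798 .nil)) .nil)) .nil)) .nil)) .nil)) .nil))) .nil)) (.cons 248 (.leaf 247 1976 (.cons 224 (.leaf 223 1787 (.cons 225 (.leaf 252 1795 (.cons 177 (.leaf 201 1420 (.cons 272 (.leaf 271 1978 (.cons 296 (.leaf 320 1797 (.cons 295 (.leaf 319 1790 (.cons 297 (.leaf 298 2169 (.leaf 321 1796 .nil)) .nil)) .nil)) .nil)) .nil)) .nil)) .nil)) .nil)) (.cons 248 (.leaf 247 1976 (.cons 272 (.leaf 271 1978 (.cons 252 (.leaf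 273 1985 (.cons 229 (.leaf 228 1801 (.cons 253 (.leaf 254 2002 (.leaf 230 1809 .nil)) .nil)) .nil)) .nil)) .nil)) .nil))) t319) (.cons 273 (.cons 252 (.cons 250 (.leaf 272 1986 (.cons 229 (.leaf 228 1801 (.cons 253 (.leaf 230 1809 (.leaf 274 1994 .nil)) .nil)) .nil)) (.cons 274 (.leaf 272 1985 (.cons 253 (.leaf 254 2002 (.leaf 276 1993 .nil)) .nil)) (.cons 250 (.cons 229 (.leaf 228 1801 (.cons 253 (.leaf 230 1809 (.leaf 274 1994 .nil)) .nil)) (.cons 228 (.leaf 229 1801 (.cons 204 (.leaf 180 1438 (.leaf 276 1630 .nil)) .nil)) (.cons 253 (.leaf 274 1994 (.cons 277 (.leaf 276 1992 (.leaf 278 2000 .nil)) .nil)) .nil))) (.cons 250 (.leaf 272 1986 (.cons 228 (.leaf 229 1801 (.cons 204 (.leaf 180 1438 (.leaf 276 1630 .nil)) .nil)) .nil)) .nil)))) (.cons 250 t316 (.cons 297 t314 (.cons 274 t313 (.cons 250 t311 (.cons 272 t310 .nil)))))) (.cons 250 (.cons 276 (.leaf 248 1984 (.cons 277 (.leaf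 278 2003 (.leaf 252 1992 .nil)) .nil)) (.cons 252 (.cons 228 (.leaf 229 1801 (.cons 204 (.leaf 180 1438 (.leaf 276 1630 .nil)) .nil)) (.cons 225 (.leaf 224 1795 (.cons 229 (.leaf 228 1801 (.cons 253 (.leaf 226 1803 (.leaf 230 1809 .nil)) .nil)) .nil)) (.cons 225 (.leaf 224 1795 (.cons 226 (.leaf 253 1803 (.cons 202 (.leaf 178 1428 (.cons 273 (.leaf 272 1986 (.leaf 297 1613 .nil)) .nil)) .nil)) .nil)) .nil))) (.cons 272 t309 (.cons 248 (.leaf 276 1984 (.cons 223 (.leaf 224 1787 (.cons 247 (.leaf 222 1779 (.cons 271 (.leaf 272 1978 (.leaf 270 1970 .nil)) .nil)) .nil)) .nil)) .nil)))) (.cons 248 t308 (.cons 250 (.cons 252 (.cons 228 (.leaf 229 1801 (.cons 204 (.leaf 180 1438 (.leaf 276 1630 .nil)) .nil)) (.cons 225 (.leaf 224 1795 (.cons 226 (.leaf 253 1803 (.cons 202 (.leaf 178 1428 (.leaf 274 1620 .nil)) .nil)) .nil)) .nil)) (.cons 248 (.cons 247 (.leaf 274 1976 (.cons 271 (.leaf 272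 1978 (.leaf 270 1970 .nil)) .nil)) (.cons 224 (.leaf 223 1787 (.cons 225 (.leaf 252 1795 (.cons 272 (.leaf 271 1978 (.cons 201 (.leaf 177 1414 (.leaf 296 1605 .nil)) .nil)) .nil)) .nil)) (.cons 223 (.leaf 224 1787 (.cons 247 (.leaf 274 1976 (.leaf 222 1779 .nil)) .nil)) .nil))) (.cons 248 (.leaf 276 1984 (.cons 247 (.leaf 274 1976 (.cons 271 (.leaf 272 1978 (.leaf 270 1970 .nil)) .nil)) .nil)) (.cons 248 (.leaf 276 1984 (.cons 224 (.leaf 223 1787 (.cons 225 (.leaf 252 1795 (.cons 271 (.leaf 272 1978 (.cons 247 (.leaf 270 1970 (.cons 246 (.leaf 226 1777 (.leaf 245 1769 .nil)) .nil)) .nil)) .nil)) .nil)) .nil)) .nil)))) (.cons 250 (.cons 276 (.leaf 248 1984 (.cons 277 (.leaf 274 1995 (.leaf 278 2003 .nil)) .nil)) (.cons 252 t304 (.cons 276 (.leaf 248 1984 (.cons 277 (.leaf 278 2003 (.leaf 252 1992 .nil)) .nil)) .nil))) (.cons 250 t303 (.cons 250 t302 (.cons 250 t300 .nil))))))))))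
noncomputable def t329 : T := .cons 250 (.leaf 226 1815 (.cons 252 (.leaf 228 1821 (.cons 322 (.leaf 346 2006 (.cons 324 (.leaf 348 2012 (.cons 325 (.cons 298 (.leaf 326 2387 (.leaf 297 2379 .nil)) (.cons 302 (.leaf 301 2385 (.cons 326 (.leaf 303 2393 (.cons 350 (.leaf 349 2576 (.leaf 351 2584 .nil)) .nil)) .nil)) (.cons 297 (.leaf 298 2379 (.cons 301 (.leaf 302 2385 (.cons 321 (.leaf 296 2371 (.cons 344 (.leaf 345 2562 (.cons 320 (.leaf 343 2554 (.cons 273 (.leaf 249 1990 (.cons 274 (.leaf 347 2007 (.leaf 272 1985 .nil)) .nil)) .nil)) .nil)) .nil)) .nil)) .nil)) .nil))) .nil)) .nil)) .nil)) .nil)) (.cons 346 (.leaf 322 2006 (.cons 347 (.leaf 370 2198 (.cons 252 (.leaf 228 1821 (.leaf 276 2013 .nil)) .nil)) .nil)) (.cons 346 (.leaf 322 2006 (.cons 347 (.leaf 370 2198 (.cons 250 (.leaf 226 1815 (.leaf 274 2007 .nil)) .nil)) .nil)) (.cons 250 (.leaf 226 1815 (.cons 228 (.leaf 252 1821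 (.cons 347 (.leaf 274 2007 (.cons 348 (.leaf 324 2012 (.leaf 372 2204 .nil)) .nil)) .nil)) .nil)) (.cons 250 (.leaf 226 1815 (.cons 252 (.leaf 228 1821 (.cons 322 (.leaf 346 2006 (.cons 324 (.leaf 348 2012 (.cons 325 (.cons 298 (.leaf 326 2387 (.leaf 297 2379 .nil)) (.cons 302 (.leaf 301 2385 (.cons 326 (.leaf 303 2393 (.cons 350 (.leaf 349 2576 (.leaf 351 2584 .nil)) .nil)) .nil)) (.cons 297 (.leaf 298 2379 (.cons 301 (.leaf 302 2385 (.cons 321 (.leaf 296 2371 (.cons 344 (.leaf 345 2562 (.cons 320 (.leaf 343 2554 (.cons 273 (.leaf 249 1990 (.cons 274 (.leaf 272 1985 (.leaf 253 1994 .nil)) .nil)) .nil)) .nil)) .nil)) .nil)) .nil)) .nil))) .nil)) .nil)) .nil)) .nil)) .nil))))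
noncomputable def t330 : T := .cons 323 t329 (.cons 249 t328 (.cons 323 (.cons 252 (.leaf 228 1821 (.cons 347 (.leaf 276 2013 (.cons 348 (.leaf 324 2012 (.leaf 372 2204 .nil)) .nil)) .nil)) (.cons 346 (.leaf 322 2006 (.cons 347 (.leaf 370 2198 (.cons 348 (.leaf 324 2012 (.leaf 372 2204 .nil)) .nil)) .nil)) (.cons 252 (.leaf 228 1821 (.cons 346 (.leaf 322 2006 (.cons 347 (.leaf 276 2013 (.leaf 370 2198 .nil)) .nil)) .nil)) (.cons 252 (.leaf 228 1821 (.cons 322 (.leaf 346 2006 (.cons 324 (.leaf 348 2012 (.cons 325 (.cons 298 (.leaf 326 2387 (.leaf 297 2379 .nil)) (.cons 301 (.leaf 302 2385 (.cons 349 (.leaf 350 2576 (.cons 277 (.leaf 276 2023 (.cons 254 (.leaf 278 2029 (.cons 253 (.leaf 274 2002 (.leaf 230 1837 .nil)) .nil)) .nil)) .nil)) .nil)) .nil)) .nil)) .nil)) .nil)) .nil)))) (.cons 323 t299 (.cons 323 t298 (.cons 323 t297 (.cons 323 t296 (.cons 323 (.cons 250 (.leaf 226 1815 (.cons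 228 (.leaf 252 1821 (.cons 347 (.leaf 274 2007 (.cons 348 (.leaf 324 2012 (.leaf 372 2204 .nil)) .nil)) .nil)) .nil)) (.cons 346 (.leaf 322 2006 (.cons 347 (.leaf 370 2198 (.cons 252 (.leaf 228 1821 (.leaf 276 2013 .nil)) .nil)) .nil)) (.cons 346 (.leaf 322 2006 (.cons 347 (.leaf 370 2198 (.cons 250 (.leaf 226 1815 (.leaf 274 2007 .nil)) .nil)) .nil)) (.cons 250 (.leaf 226 1815 (.cons 252 (.leaf 228 1821 (.cons 322 (.leaf 346 2006 (.cons 324 (.leaf 348 2012 (.cons 249 (.cons 224 (.leaf 225 1795 (.cons 248 (.leaf 276 1984 (.leaf 223 1787 .nil)) .nil)) (.cons 224 (.leaf 225 1795 (.cons 248 (.leaf 223 1787 (.cons 272 (.leaf 271 1978 (.leaf 273 1986 .nil)) .nil)) .nil)) (.cons 276 (.leaf 277 1992 (.cons 225 (.leaf 224 1795 (.cons 273 (.leaf 272 1986 (.cons 298 (.leaf 274 1807 (.leaf 297 1804 .nil)) .nil)) .nil)) .nil)) (.cons 276 (.leaf 248 1984 (.leaf 277 1992 .nil)) .nil)))) .nil)) .nil))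 .nil)) .nil)) .nil)))) .nil)))))))
noncomputable def t331 : T := .cons 178 (.leaf 202 1431 (.cons 179 (.leaf 154 1239 (.cons 180 (.leaf 204 1437 (.leaf 156 1245 .nil)) .nil)) .nil)) (.cons 178 (.leaf 202 1431 (.cons 179 (.leaf 154 1239 (.cons 156 (.leaf 180 1245 (.cons 155 (.leaf 132 1053 (.cons 252 (.leaf 276 1436 (.leaf 228 1244 .nil)) .nil)) .nil)) .nil)) .nil)) (.cons 180 (.leaf 204 1437 (.cons 179 (.leaf 156 1245 (.cons 154 (.leaf 178 1239 (.cons 155 (.leaf 130 1047 (.cons 252 (.leaf 276 1436 (.leaf 228 1244 .nil)) .nil)) .nil)) .nil)) .nil)) (.cons 202 (.leaf 178 1431 (.cons 299 (.leaf 226 1623 (.cons 228 (.leaf 204 1629 (.cons 200 (.leaf 201 1600 (.cons 229 (.leaf 230 1619 (.cons 252 (.leaf 323 1821 (.cons 179 (.leaf 276 1436 (.leaf 155 1244 .nil)) .nil)) .nil)) .nil)) .nil)) .nil)) .nil)) (.cons 180 (.leaf 204 1437 (.cons 179 (.leaf 156 1245 (.cons 252 (.leaf 276 1436 (.cons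 228 (.leaf 155 1244 (.cons 299 (.leaf 323 1821 (.cons 226 (.leaf 202 1623 (.cons 225 (.leaf 224 1792 (.leaf 253 1800 .nil)) .nil)) .nil)) .nil)) .nil)) .nil)) .nil)) (.cons 204 (.leaf 180 1437 (.cons 202 (.leaf 178 1431 (.cons 299 (.leaf 226 1623 (.leaf 228 1629 .nil)) .nil)) .nil)) .nil)))))
noncomputable def t332 : T := .cons 252 (.leaf 276 1436 (.cons 176 (.cons 151 (.leaf 127 1023 (.cons 248 (.leaf 175 1215 (.cons 153 (.leaf 129 1029 (.leaf 177 1221 .nil)) .nil)) .nil)) (.cons 151 (.leaf 127 1023 (.cons 248 (.leaf 175 1215 (.cons 247 (.leaf 223 1214 (.leaf 271 1406 .nil)) .nil)) .nil)) (.cons 247 (.leaf 223 1214 (.cons 248 (.leaf 271 1406 (.cons 273 (.leaf 249 1412 (.cons 272 (.leaf 274 1985 (.leaf 297 1604 .nil)) .nil)) .nil)) .nil)) (.cons 226 (.leaf 299 1623 (.cons 129 (.leaf 153 1029 (.cons 128 (.leaf 105 837 (.cons 223 (.leaf 247 1214 (.leaf 199 1022 .nil)) .nil)) .nil)) .nil))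 .nil)))) .nil)) (.cons 252 (.leaf 276 1436 (.cons 176 (.cons 151 (.leaf 127 1023 (.cons 248 (.leaf 175 1215 (.cons 153 (.leaf 129 1029 (.leaf 177 1221 .nil)) .nil)) .nil)) (.cons 151 (.leaf 127 1023 (.cons 248 (.leaf 175 1215 (.cons 247 (.leaf 223 1214 (.leaf 271 1406 .nil)) .nil)) .nil)) (.cons 247 (.leaf 223 1214 (.cons 248 (.leaf 271 1406 (.cons 273 (.leaf 249 1412 (.cons 272 (.leaf 274 1985 (.leaf 297 1604 .nil)) .nil)) .nil)) .nil)) (.cons 274 (.leaf 298 1622 (.cons 127 (.leaf 151 1023 (.cons 128 (.leaf 103 831 (.cons 129 (.leaf 153 1029 (.leaf 105 837 .nil)) .nil)) .nil)) .nil)) .nil)))) .nil)) (.cons 226 (.leaf 299 1623 (.cons 155 (.leaf 131 1046 (.cons 154 (.leaf 130 1047 (.leaf 153 1216 .nil)) .nil)) .nil)) (.cons 252 (.leaf 276 1436 (.cons 176 (.cons 151 (.leaf 127 1023 (.cons 248 (.leaf 175 1215 (.cons 247 (.leaf 223 1214 (.leaf 271 1406 .nil)) .nil)) .nil)) (.cons 274 (.leaf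 298 1622 (.cons 247 (.leaf 223 1214 (.cons 248 (.leaf 271 1406 (.cons 273 (.leaf 272 1985 (.leaf 249 1412 .nil)) .nil)) .nil)) .nil)) (.cons 274 (.leaf 298 1622 (.cons 151 (.leaf 127 1023 (.cons 248 (.leaf 175 1215 (.cons 273 (.leaf 272 1985 (.leaf 249 1412 .nil)) .nil)) .nil)) .nil)) (.cons 274 (.leaf 298 1622 (.cons 127 (.leaf 151 1023 (.cons 128 (.leaf 103 831 (.cons 223 (.leaf 247 1214 (.leaf 199 1022 .nil)) .nil)) .nil)) .nil)) .nil)))) .nil)) .nil)))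
noncomputable def t333 : T := .cons 299 (.leaf 226 1623 (.cons 276 (.leaf 252 1436 (.cons 298 (.leaf 322 1814 (.cons 297 (.leaf 296 2177 (.cons 273 (.leaf 272 1604 (.cons 249 (.leaf 176 1412 (.leaf 321 1799 .nil)) .nil)) .nil)) .nil)) .nil)) .nil)) (.cons 181 (.leaf 182 1426 (.cons 252 (.leaf 276 1436 (.cons 176 (.cons 151 (.leaf 175 1215 (.cons 152 (.leaf 127 1023 (.cons 153 (.leaf 129 1029 (.leaf 177 1221 .nil)) .nil)) .nil)) (.cons 247 (.leaf 271 1406 (.cons 152 (.leaf 223 1214 (.cons 153 (.leaf 129 1029 (.leaf 177 1221 .nil)) .nil)) .nil)) (.cons 151 (.leaf 175 1215 (.cons 152 (.leaf 127 1023 (.cons 247 (.leaf 223 1214 (.leaf 271 1406 .nil)) .nil)) .nil)) (.cons 175 (.leaf 151 1215 (.cons 271 (.leaf 247 1406 (.cons 272 (.leaf 199 1407 (.leaf 295 1598 .nil)) .nil)) .nil)) .nil)))) .nil)) .nil)) (.cons 299 (.leaf 226 1623 (.cons 298 (.leaf 322 1814 (.cons 276 (.leaf 252 1436 (.cons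 296 (.leaf 297 2177 (.cons 272 (.cons 199 (.leaf 175 1407 (.leaf 223 1599 .nil)) (.cons 295 (.leaf 271 1598 (.leaf 319 1790 .nil)) .nil)) .nil)) .nil)) .nil)) .nil)) (.cons 226 (.leaf 299 1623 (.cons 155 (.leaf 131 1046 (.cons 154 (.leaf 130 1047 (.cons 152 (.leaf 153 1216 (.cons 176 (.cons 151 (.leaf 127 1023 (.leaf 175 1215 .nil)) (.cons 247 (.leaf 223 1214 (.leaf 271 1406 .nil)) .nil)) .nil)) .nil)) .nil)) .nil)) .nil)))
noncomputable def t334 : T := .cons 252 (.leaf 276 1436 (.cons 176 (.cons 127 (.leaf 151 1023 (.cons 128 (.leaf 103 831 (.cons 223 (.leaf 247 1214 (.leaf 199 1022 .nil)) .nil)) .nil)) (.cons 129 (.leaf 153 1029 (.cons 128 (.leaf 105 837 (.cons 223 (.leaf 247 1214 (.leaf 199 1022 .nil)) .nil)) .nil)) (.cons 127 (.leaf 151 1023 (.cons 128 (.leaf 103 831 (.cons 129 (.leaf 153 1029 (.leaf 105 837 .nil)) .nil)) .nil)) (.cons 127 (.leaf 151 1023 (.cons 153 (.leaf 129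 1029 (.cons 155 (.leaf 154 1216 (.cons 226 (.leaf 299 1623 (.leaf 131 1046 .nil)) .nil)) .nil)) .nil)) .nil)))) .nil)) (.cons 226 (.leaf 299 1623 (.cons 155 (.leaf 131 1046 (.cons 154 (.leaf 130 1047 (.leaf 153 1216 .nil)) .nil)) .nil)) (.cons 252 (.leaf 276 1436 (.cons 176 (.cons 129 (.leaf 153 1029 (.cons 128 (.leaf 105 837 (.cons 223 (.leaf 247 1214 (.leaf 199 1022 .nil)) .nil)) .nil)) (.cons 151 (.leaf 127 1023 (.cons 181 (.leaf 182 1426 (.cons 247 (.leaf 223 1214 (.cons 248 (.leaf 175 1215 (.leaf 271 1406 .nil)) .nil)) .nil)) .nil)) (.cons 127 (.leaf 151 1023 (.cons 128 (.leaf 103 831 (.cons 129 (.leaf 153 1029 (.leaf 105 837 .nil)) .nil)) .nil)) .nil))) .nil)) (.cons 252 (.leaf 276 1436 (.cons 176 (.cons 151 (.leaf 127 1023 (.cons 181 (.leaf 182 1426 (.cons 247 (.leaf 223 1214 (.cons 248 (.leaf 175 1215 (.leaf 271 1406 .nil)) .nil)) .nil)) .nil)) (.cons 247 (.leaf 223 1214 (.cons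 248 (.leaf 271 1406 (.cons 273 (.leaf 249 1412 (.cons 272 (.leaf 274 1985 (.leaf 297 1604 .nil)) .nil)) .nil)) .nil)) (.cons 151 (.leaf 127 1023 (.cons 248 (.leaf 175 1215 (.cons 273 (.leaf 249 1412 (.cons 272 (.leaf 274 1985 (.leaf 297 1604 .nil)) .nil)) .nil)) .nil)) (.cons 226 (.leaf 299 1623 (.cons 127 (.leaf 151 1023 (.cons 128 (.leaf 103 831 (.cons 223 (.leaf 247 1214 (.leaf 199 1022 .nil)) .nil)) .nil)) .nil)) .nil)))) .nil)) .nil)))
noncomputable def t335 : T := .cons 274 (.leaf 298 1622 (.cons 252 (.leaf 273 1985 (.leaf 276 1436 .nil)) .nil)) (.cons 248 (.cons 175 (.leaf 199 1407 (.cons 151 (.leaf 176 1215 (.cons 295 (.leaf 271 1598 (.cons 296 (.leaf 319 1790 (.cons 297 (.leaf 273 1604 (.leaf 321 1796 .nil)) .nil)) .nil)) .nil)) .nil)) (.cons 199 (.leaf 175 1407 (.cons 181 (.leaf 182 1426 (.cons 252 (.leaf 276 1436 (.cons 296 (.leaf 223 1599 (.cons 297 (.leaf 273 1604 (.leaf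 321 1796 .nil)) .nil)) .nil)) .nil)) .nil)) (.cons 271 (.leaf 295 1598 (.cons 176 (.leaf 247 1406 (.cons 273 (.leaf 249 1412 (.leaf 297 1604 .nil)) .nil)) .nil)) (.cons 271 (.leaf 295 1598 (.cons 175 (.leaf 199 1407 (.cons 176 (.leaf 151 1215 (.leaf 247 1406 .nil)) .nil)) .nil)) .nil)))) (.cons 248 (.cons 271 (.leaf 295 1598 (.cons 176 (.leaf 247 1406 (.cons 273 (.leaf 249 1412 (.leaf 297 1604 .nil)) .nil)) .nil)) (.cons 271 (.leaf 295 1598 (.cons 175 (.leaf 199 1407 (.cons 176 (.leaf 151 1215 (.leaf 247 1406 .nil)) .nil)) .nil)) (.cons 273 (.leaf 297 1604 (.cons 274 (.leaf 298 1622 (.leaf 247 1979 .nil)) .nil)) (.cons 273 (.leaf 297 1604 (.cons 175 (.leaf 199 1407 (.cons 176 (.leaf 151 1215 (.leaf 249 1412 .nil)) .nil)) .nil)) .nil)))) (.cons 248 (.cons 271 (.leaf 295 1598 (.cons 175 (.leaf 199 1407 (.cons 176 (.leaf 151 1215 (.leaf 247 1406 .nil)) .nil)) .nil)) (.cons 199 (.leaf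 175 1407 (.cons 296 (.leaf 223 1599 (.cons 319 (.leaf 295 1790 (.cons 320 (.leaf 343 1982 (.cons 321 (.leaf 297 1796 (.leaf 345 1988 .nil)) .nil)) .nil)) .nil)) .nil)) (.cons 271 (.leaf 295 1598 (.cons 176 (.leaf 247 1406 (.cons 151 (.leaf 175 1215 (.cons 152 (.leaf 127 1023 (.cons 153 (.leaf 129 1029 (.leaf 177 1221 .nil)) .nil)) .nil)) .nil)) .nil)) (.cons 175 (.leaf 199 1407 (.cons 176 (.leaf 151 1215 (.cons 153 (.leaf 177 1221 (.cons 152 (.leaf 129 1029 (.cons 247 (.leaf 223 1214 (.leaf 271 1406 .nil)) .nil)) .nil)) .nil)) .nil)) (.cons 295 (.leaf 271 1598 (.cons 296 (.leaf 319 1790 (.cons 321 (.leaf 297 1796 (.cons 223 (.leaf 199 1599 (.cons 320 (.leaf 247 1791 (.leaf 345 1988 .nil)) .nil)) .nil)) .nil)) .nil)) .nil))))) .nil)))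
noncomputable def t336 : T := .cons 248 (.cons 225 (.leaf 202 1602 (.leaf 296 1605 .nil)) (.cons 200 (.leaf 177 1413 (.cons 175 (.leaf 199 1407 (.cons 176 (.leaf 202 1403 (.leaf 151 1215 .nil)) .nil)) .nil)) (.cons 200 (.leaf 177 1413 (.cons 175 (.leaf 199 1407 (.cons 151 (.leaf 176 1215 (.cons 295 (.leaf 271 1598 (.cons 296 (.leaf 225 1605 (.leaf 319 1790 .nil)) .nil)) .nil)) .nil)) .nil)) .nil))) (.cons 248 (.cons 200 (.leaf 177 1413 (.cons 175 (.leaf 199 1407 (.cons 151 (.leaf 176 1215 (.cons 295 (.leaf 271 1598 (.cons 296 (.leaf 225 1605 (.leaf 319 1790 .nil)) .nil)) .nil)) .nil)) .nil)) (.cons 200 (.leaf 177 1413 (.cons 175 (.leaf 199 1407 (.cons 176 (.leaf 151 1215 (.cons 271 (.leaf 247 1406 (.leaf 295 1598 .nil)) .nil)) .nil)) .nil)) (.cons 296 (.leaf 225 1605 (.cons 199 (.leaf 223 1599 (.cons 319 (.leaf 295 1790 (.cons 320 (.leaf 343 1982 (.cons 321 (.leaf 297 1796 (.leaf 345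 1988 .nil)) .nil)) .nil)) .nil)) .nil)) (.cons 296 (.leaf 225 1605 (.cons 253 (.leaf 254 2002 (.cons 200 (.leaf 177 1413 (.cons 295 (.leaf 271 1598 (.leaf 319 1790 .nil)) .nil)) .nil)) .nil)) (.cons 296 (.leaf 225 1605 (.cons 177 (.leaf 200 1413 (.cons 223 (.leaf 199 1599 (.cons 320 (.leaf 247 1791 (.cons 321 (.leaf 297 1796 (.leaf 345 1988 .nil)) .nil)) .nil)) .nil)) .nil)) .nil))))) (.cons 200 (.cons 202 (.leaf 223 1594 (.cons 175 (.leaf 176 1403 (.cons 199 (.leaf 248 1407 (.leaf 174 1395 .nil)) .nil)) .nil)) (.cons 202 (.leaf 223 1594 (.cons 176 (.leaf 175 1403 (.leaf 177 1411 .nil)) .nil)) (.cons 248 (.leaf 177 1413 (.cons 175 (.leaf 199 1407 (.cons 176 (.leaf 151 1215 (.cons 271 (.leaf 247 1406 (.leaf 295 1598 .nil)) .nil)) .nil)) .nil)) (.cons 248 (.leaf 177 1413 (.cons 199 (.leaf 175 1407 (.cons 223 (.leaf 202 1594 (.leaf 296 1599 .nil)) .nil)) .nil)) (.cons 177 (.leaf 248 1413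 (.cons 202 (.leaf 176 1411 (.leaf 223 1594 .nil)) .nil)) .nil))))) (.cons 202 (.leaf 225 1602 (.cons 176 (.leaf 177 1411 (.cons 200 (.leaf 175 1403 (.leaf 223 1594 .nil)) .nil)) .nil)) (.cons 225 (.leaf 202 1602 (.cons 248 (.leaf 296 1605 (.cons 177 (.leaf 153 1222 (.leaf 249 1414 .nil)) .nil)) .nil)) (.cons 202 (.leaf 225 1602 (.cons 200 (.leaf 223 1594 (.cons 175 (.leaf 176 1403 (.cons 199 (.leaf 248 1407 (.leaf 174 1395 .nil)) .nil)) .nil)) .nil)) .nil)))))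
noncomputable def t337 : T := .cons 156 (.leaf 132 1053 (.cons 128 (.leaf 129 1027 (.cons 152 (.leaf 127 1019 (.cons 176 (.leaf 175 1210 (.leaf 177 1218 .nil)) .nil)) .nil)) .nil)) (.cons 201 (.cons 177 (.leaf 129 1036 (.cons 200 (.leaf 199 1592 (.leaf 223 1594 .nil)) .nil)) (.cons 177 (.leaf 129 1036 (.cons 176 (.leaf 204 1411 (.cons 175 (.leaf 174 1392 (.leaf 152 1210 .nil)) .nil)) .nil)) (.cons 200 (.leaf 199 1592 (.leaf 223 1594 .nil)) .nil))) (.cons 156 (.leaf 132 1053 (.cons 129 (.leaf 128 1027 (.cons 201 (.leaf 177 1036 (.cons 200 (.leaf 199 1592 (.leaf 223 1594 .nil)) .nil)) .nil)) .nil)) (.cons 152 (.cons 127 (.leaf 128 1019 (.cons 151 (.leaf 126 1011 (.cons 175 (.leaf 176 1210 (.leaf 174 1202 .nil)) .nil)) .nil)) (.cons 128 (.leaf 127 1019 (.cons 156 (.leaf 132 1053 (.leaf 129 1027 .nil)) .nil)) (.cons 176 (.leaf 175 1210 (.cons 200 (.leaf 129 1029 (.cons 201 (.leaf 199 1592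 (.leaf 223 1594 .nil)) .nil)) .nil)) .nil))) (.cons 176 (.cons 156 (.leaf 132 1053 (.leaf 177 1218 .nil)) (.cons 152 (.leaf 175 1210 (.cons 127 (.leaf 128 1019 (.cons 151 (.leaf 200 1023 (.leaf 126 1011 .nil)) .nil)) .nil)) .nil)) .nil))))
noncomputable def t338 : T := .cons 252 (.leaf 276 1436 (.cons 226 (.leaf 225 1792 (.cons 202 (.leaf 299 1623 (.cons 155 (.leaf 131 1046 (.cons 156 (.leaf 180 1245 (.leaf 132 1053 .nil)) .nil)) .nil)) .nil)) .nil)) (.cons 252 (.leaf 276 1436 (.cons 226 (.leaf 225 1792 (.cons 202 (.leaf 299 1623 (.cons 155 (.leaf 131 1046 (.cons 154 (.leaf 130 1047 (.cons 153 t337 .nil)) .nil)) .nil)) .nil)) .nil)) (.cons 252 (.leaf 276 1436 (.cons 226 (.leaf 225 1792 (.cons 202 (.leaf 299 1623 (.cons 155 (.leaf 131 1046 (.cons 154 (.leaf 130 1047 (.cons 153 (.cons 180 (.leaf 204 1437 (.leaf 152 1216 .nil)) (.cons 201 (.cons 177 (.leaf 129 1036 (.cons 200 (.leaf 199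 1592 (.leaf 223 1594 .nil)) .nil)) (.cons 177 (.leaf 129 1036 (.cons 176 (.leaf 204 1411 (.cons 175 (.leaf 174 1392 (.leaf 152 1210 .nil)) .nil)) .nil)) (.cons 200 (.leaf 199 1592 (.leaf 223 1594 .nil)) .nil))) (.cons 204 (.leaf 180 1437 (.cons 205 (.leaf 206 1618 (.cons 201 (.cons 177 (.leaf 176 1411 (.leaf 129 1036 .nil)) (.cons 200 (.leaf 199 1592 (.leaf 223 1594 .nil)) .nil)) .nil)) .nil)) (.cons 152 (.leaf 180 1216 (.cons 127 (.leaf 128 1019 (.cons 151 (.leaf 126 1011 (.cons 175 (.leaf 176 1210 (.leaf 174 1202 .nil)) .nil)) .nil)) .nil)) .nil)))) .nil)) .nil)) .nil)) .nil)) .nil)) (.cons 180 (.leaf 204 1437 (.leaf 156 1245 .nil)) .nil)))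
noncomputable def t339 : T := .leaf 276 1436 (.cons 226 (.leaf 225 1792 (.cons 202 (.leaf 299 1623 (.cons 200 (.leaf 201 1409 (.cons 155 (.leaf 131 1046 (.cons 248 (.cons 272 (.cons 273 (.leaf 274 1985 (.leaf 297 1604 .nil)) (.cons 176 (.cons 175 (.leaf 151 1215 (.leaf 199 1407 .nil)) (.cons 271 (.leaf 247 1406 (.leaf 295 1598 .nil)) .nil)) .nil)) (.cons 152 (.cons 154 (.leaf 130 1047 (.leaf 153 1216 .nil)) (.cons 176 (.cons 151 (.leaf 127 1023 (.leaf 175 1215 .nil)) (.cons 153 (.leaf 129 1029 (.leaf 177 1221 .nil)) .nil)) (.cons 176 (.cons 151 (.leaf 127 1023 (.leaf 175 1215 .nil)) (.cons 247 (.leaf 223 1214 (.leaf 271 1406 .nil)) .nil)) .nil))) (.cons 272 (.cons 273 (.leaf 274 1985 (.leaf 297 1604 .nil)) (.cons 296 (.cons 199 (.leaf 175 1407 (.leaf 223 1599 .nil)) (.cons 295 (.leaf 271 1598 (.leaf 319 1790 .nil)) .nil)) .nil)) (.cons 176 (.cons 153 (.leaf 177 1221 (.cons 152 (.leaf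 129 1029 (.leaf 154 1216 .nil)) .nil)) (.cons 273 (.leaf 249 1412 (.cons 272 (.leaf 274 1985 (.leaf 297 1604 .nil)) .nil)) .nil)) .nil)))) .nil)) .nil)) .nil)) .nil)) .nil)
noncomputable def t340 : T := .cons 204 (.leaf 180 1437 (.cons 226 (.leaf 225 1601 (.cons 205 (.leaf 206 1618 (.cons 298 (.leaf 274 1622 (.cons 299 (.leaf 202 1623 (.leaf 322 1814 .nil)) .nil)) .nil)) .nil)) .nil)) (.cons 298 (.leaf 274 1622 (.cons 299 (.leaf 322 1814 (.cons 226 (.leaf 202 1623 (.cons 225 (.leaf 252 1792 (.cons 199 (.leaf 200 1595 (.cons 223 (.leaf 198 1587 (.cons 247 (.leaf 248 1786 (.leaf 246 1778 .nil)) .nil)) .nil)) .nil)) .nil)) .nil)) .nil)) (.cons 180 (.leaf 204 1437 (.cons 179 (.leaf 156 1245 (.cons 252 t339 .nil)) .nil)) (.cons 179 t338 (.cons 274 (.leaf 298 1622 (.cons 252 (.cons 179 (.leaf 276 1436 (.cons 180 (.leaf 204 1437 (.leaf 156 1245 .nil)) .nil)) (.cons 272 (.leaf 273 1985 (.cons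 204 (.leaf 180 1437 (.cons 201 t336 .nil)) .nil)) (.cons 253 (.leaf 254 2002 (.cons 273 (.leaf 272 1985 (.leaf 276 1993 .nil)) .nil)) .nil))) .nil)) (.cons 180 (.leaf 204 1437 (.cons 179 (.leaf 156 1245 (.cons 202 (.cons 181 (.leaf 182 1426 (.cons 200 (.leaf 201 1409 (.cons 298 (.leaf 274 1622 (.cons 299 (.leaf 226 1623 (.leaf 322 1814 .nil)) .nil)) .nil)) .nil)) (.cons 181 (.leaf 182 1426 (.cons 252 (.leaf 276 1436 (.cons 298 (.leaf 274 1622 (.cons 299 (.leaf 226 1623 (.leaf 322 1814 .nil)) .nil)) .nil)) .nil)) (.cons 200 (.leaf 201 1409 (.cons 272 t335 .nil)) (.cons 200 (.leaf 201 1409 (.cons 152 t334 .nil)) (.cons 200 (.leaf 201 1409 (.cons 248 t333 .nil)) (.cons 200 (.leaf 201 1409 (.cons 152 t332 .nil)) .nil)))))) .nil)) .nil)) (.cons 204 (.leaf 180 1437 (.cons 225 (.leaf 226 1601 (.cons 274 (.leaf 298 1622 (.cons 273 (.cons 252 (.leaf 272 1985 (.cons 253 (.leaf 254 2002 (.leaf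 276 1993 .nil)) .nil)) (.cons 276 (.cons 249 (.leaf 248 1987 (.cons 297 (.leaf 296 2178 (.leaf 200 1607 .nil)) .nil)) (.cons 252 (.leaf 253 1993 (.leaf 179 1436 .nil)) .nil)) (.cons 248 (.cons 247 (.leaf 272 1979 (.cons 246 (.leaf 245 1769 (.leaf 249 1968 .nil)) .nil)) (.cons 249 (.leaf 276 1987 (.cons 200 (.leaf 176 1412 (.leaf 297 1607 .nil)) .nil)) (.cons 272 (.leaf 247 1979 (.cons 200 (.leaf 297 1604 (.cons 295 (.leaf 296 2170 (.leaf 271 1598 .nil)) .nil)) .nil)) .nil))) (.cons 272 (.leaf 252 1985 (.cons 247 (.leaf 248 1979 (.cons 271 (.leaf 246 1971 (.cons 295 (.leaf 296 2170 (.leaf 294 2162 .nil)) .nil)) .nil)) .nil)) .nil)))) .nil)) .nil)) .nil)) .nil))))))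
noncomputable def t341 : T := .cons 301 (.leaf 277 1646 (.cons 181 (.leaf 205 1455 (.cons 183 (.leaf 207 1461 (.cons 302 (.leaf 325 1838 (.cons 303 (.leaf 279 1652 (.leaf 327 1844 .nil)) .nil)) .nil)) .nil)) .nil)) (.cons 205 (.leaf 181 1455 (.cons 183 (.leaf 207 1461 (.cons 302 (.leaf 229 1647 (.cons 303 (.leaf 279 1652 (.leaf 327 1844 .nil)) .nil)) .nil)) .nil)) (.cons 279 (.leaf 303 1652 (.cons 280 (.leaf 281 2027 (.cons 207 (.leaf 183 1461 (.cons 304 (.cons 277 (.leaf 301 1646 (.leaf 305 2216 .nil)) (.cons 231 (.leaf 302 1653 (.leaf 255 1660 .nil)) .nil)) .nil)) .nil)) .nil)) (.cons 279 (.leaf 303 1652 (.cons 280 (.leaf 281 2027 (.cons 207 (.leaf 183 1461 (.cons 304 (.cons 277 (.leaf 301 1646 (.leaf 305 2216 .nil)) (.cons 231 (.leaf 255 1660 (.cons 232 (.leaf 233 1834 (.leaf 256 1663 .nil)) .nil)) .nil)) .nil)) .nil)) .nil)) (.cons 301 (.leaf 277 1646 (.cons 181 (.leaf 205 1455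 (.cons 302 (.leaf 325 1838 (.cons 303 (.leaf 279 1652 (.leaf 327 1844 .nil)) .nil)) .nil)) .nil)) (.cons 301 (.leaf 277 1646 (.cons 181 (.leaf 205 1455 (.cons 302 (.leaf 325 1838 (.cons 207 (.leaf 183 1461 (.leaf 231 1653 .nil)) .nil)) .nil)) .nil)) .nil)))))
noncomputable def t342 : T := .cons 204 (.leaf 180 1437 (.cons 205 (.leaf 226 1618 (.cons 178 (.leaf 179 1427 (.cons 182 (.leaf 183 1433 (.cons 230 (.leaf 231 1624 (.leaf 277 1454 .nil)) .nil)) .nil)) .nil)) .nil)) (.cons 230 (.cons 182 (.leaf 277 1454 (.cons 158 (.leaf 229 1262 (.cons 159 (.leaf 183 1269 (.leaf 135 1077 .nil)) .nil)) .nil)) (.cons 278 t341 (.cons 182 (.cons 158 (.leaf 229 1262 (.cons 159 (.leaf 183 1269 (.leaf 135 1077 .nil)) .nil)) (.cons 157 (.leaf 181 1263 (.cons 183 (.leaf 159 1269 (.cons 278 (.leaf 207 1461 (.cons 279 (.leaf 255 1460 (.leaf 303 1652 .nil)) .nil)) .nil)) .nil)) (.cons 158 (.leaf 229 1262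 (.cons 157 (.leaf 181 1263 (.leaf 133 1071 .nil)) .nil)) .nil))) (.cons 182 (.leaf 277 1454 (.cons 157 (.leaf 181 1263 (.cons 183 (.leaf 159 1269 (.cons 158 (.leaf 133 1071 (.cons 255 (.leaf 279 1460 (.leaf 231 1268 .nil)) .nil)) .nil)) .nil)) .nil)) (.cons 182 (.leaf 277 1454 (.cons 158 (.leaf 229 1262 (.cons 157 (.leaf 181 1263 (.leaf 133 1071 .nil)) .nil)) .nil)) .nil))))) (.cons 204 (.leaf 180 1437 (.cons 205 (.leaf 226 1618 (.cons 182 (.leaf 183 1433 (.cons 229 (.leaf 277 1453 (.cons 158 (.leaf 181 1261 (.leaf 134 1070 .nil)) .nil)) .nil)) .nil)) .nil)) (.cons 204 (.leaf 180 1437 (.cons 205 (.leaf 226 1618 (.cons 179 (.leaf 178 1427 (.cons 230 (.leaf 231 1624 (.cons 181 (.leaf 278 1455 (.cons 157 (.leaf 229 1260 (.leaf 133 1068 .nil)) .nil)) .nil)) .nil)) .nil)) .nil)) (.cons 180 (.leaf 204 1437 (.cons 179 (.leaf 156 1245 (.cons 154 (.leaf 178 1239 (.cons 155 (.leaf 130 1047 (.cons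 182 (.leaf 181 1235 (.cons 230 (.leaf 277 1454 (.cons 158 (.leaf 229 1262 (.cons 159 (.leaf 183 1269 (.leaf 135 1077 .nil)) .nil)) .nil)) .nil)) .nil)) .nil)) .nil)) .nil)) .nil))))
noncomputable def t343 : T := .cons 326 (.leaf 229 1839 (.cons 325 (.leaf 349 2030 (.cons 230 (.leaf 301 1838 (.cons 327 (.leaf 303 1844 (.leaf 351 2036 .nil)) .nil)) .nil)) .nil)) (.cons 230 (.cons 205 (.leaf 229 1647 (.cons 206 (.leaf 181 1455 (.cons 204 (.leaf 226 1618 (.leaf 231 1624 .nil)) .nil)) .nil)) (.cons 231 (.leaf 207 1653 (.cons 232 (.leaf 233 1834 (.cons 303 (.leaf 327 1844 (.cons 279 (.leaf 206 1652 (.cons 208 (.leaf 255 1661 (.cons 280 (.leaf 281 2027 (.leaf 256 1662 .nil)) .nil)) .nil)) .nil)) .nil)) .nil)) (.cons 205 (.leaf 229 1647 (.cons 206 (.leaf 181 1455 (.cons 303 (.leaf 279 1652 (.leaf 327 1844 .nil)) .nil)) .nil)) (.cons 231 (.leaf 207 1653 (.cons 232 (.leaf 233 1834 (.cons 303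 (.leaf 327 1844 (.cons 208 (.cons 229 (.leaf 205 1647 (.leaf 209 1641 .nil)) (.cons 279 (.leaf 255 1661 (.cons 280 (.leaf 281 2027 (.leaf 256 1662 .nil)) .nil)) .nil)) .nil)) .nil)) .nil)) .nil)))) (.cons 230 (.cons 303 (.leaf 327 1844 (.cons 206 (.leaf 279 1652 (.cons 181 (.leaf 205 1455 (.cons 182 (.leaf 157 1263 (.cons 183 (.leaf 159 1269 (.leaf 207 1461 .nil)) .nil)) .nil)) .nil)) .nil)) (.cons 231 (.leaf 207 1653 (.cons 232 (.leaf 233 1834 (.cons 325 (.leaf 301 1838 (.cons 326 (.leaf 255 1845 (.leaf 349 2030 .nil)) .nil)) .nil)) .nil)) (.cons 303 (.leaf 327 1844 (.cons 206 (.leaf 279 1652 (.cons 205 (.leaf 181 1455 (.cons 204 (.leaf 226 1618 (.leaf 231 1624 .nil)) .nil)) .nil)) .nil)) .nil))) (.cons 326 (.leaf 229 1839 (.cons 231 (.leaf 255 1845 (.cons 349 (.leaf 325 2030 (.cons 350 (.leaf 373 2222 (.cons 351 (.leaf 327 2036 (.leaf 375 2228 .nil)) .nil)) .nil)) .nil)) .nil)) (.cons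 326 (.leaf 229 1839 (.cons 231 (.leaf 255 1845 (.cons 230 (.leaf 207 1653 (.cons 325 (.leaf 301 1838 (.leaf 349 2030 .nil)) .nil)) .nil)) .nil)) .nil))))
noncomputable def t344 : T := .cons 326 (.leaf 229 1839 (.cons 231 (.leaf 255 1845 (.cons 207 (.leaf 230 1653 (.cons 349 (.leaf 325 2030 (.cons 350 (.leaf 277 2031 (.leaf 373 2222 .nil)) .nil)) .nil)) .nil)) .nil)) (.cons 230 (.cons 205 (.leaf 229 1647 (.cons 206 (.leaf 181 1455 (.cons 204 (.leaf 226 1618 (.leaf 231 1624 .nil)) .nil)) .nil)) (.cons 207 (.leaf 231 1653 (.cons 206 (.leaf 183 1461 (.cons 303 (.leaf 279 1652 (.leaf 327 1844 .nil)) .nil)) .nil)) (.cons 231 (.leaf 207 1653 (.cons 232 (.leaf 233 1834 (.cons 303 (.leaf 327 1844 (.cons 208 (.cons 229 (.leaf 205 1647 (.leaf 209 1641 .nil)) (.cons 279 (.leaf 255 1661 (.cons 280 (.leaf 281 2027 (.leaf 256 1662 .nil)) .nil)) .nil)) .nil)) .nil)) .nil)) (.cons 205 (.leaf 229 1647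 (.cons 206 (.leaf 181 1455 (.cons 301 (.leaf 277 1646 (.leaf 325 1838 .nil)) .nil)) .nil)) .nil)))) (.cons 326 (.cons 231 (.leaf 255 1845 (.cons 207 (.leaf 230 1653 (.cons 349 (.leaf 325 2030 (.cons 350 (.leaf 277 2031 (.leaf 373 2222 .nil)) .nil)) .nil)) .nil)) (.cons 325 (.leaf 349 2030 (.cons 230 (.leaf 301 1838 (.cons 327 (.leaf 303 1844 (.leaf 351 2036 .nil)) .nil)) .nil)) (.cons 231 (.leaf 255 1845 (.cons 207 (.leaf 230 1653 (.cons 350 (.leaf 277 2031 (.cons 351 (.leaf 327 2036 (.leaf 375 2228 .nil)) .nil)) .nil)) .nil)) (.cons 350 (.leaf 277 2031 (.cons 255 (.leaf 231 1845 (.leaf 279 2037 .nil)) .nil)) .nil)))) (.cons 326 (.leaf 229 1839 (.cons 350 (.leaf 277 2031 (.cons 255 (.leaf 231 1845 (.leaf 279 2037 .nil)) .nil)) .nil)) (.cons 230 (.cons 205 (.leaf 229 1647 (.cons 206 (.leaf 181 1455 (.cons 204 (.leaf 226 1618 (.leaf 231 1624 .nil)) .nil)) .nil)) (.cons 207 (.leaf 231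 1653 (.cons 206 (.leaf 183 1461 (.cons 303 (.leaf 279 1652 (.leaf 327 1844 .nil)) .nil)) .nil)) (.cons 205 (.leaf 229 1647 (.cons 206 (.leaf 181 1455 (.cons 303 (.leaf 279 1652 (.leaf 327 1844 .nil)) .nil)) .nil)) (.cons 231 (.leaf 207 1653 (.cons 232 (.leaf 233 1834 (.cons 303 (.leaf 327 1844 (.cons 208 (.cons 229 (.leaf 205 1647 (.leaf 326 1839 .nil)) (.cons 279 (.leaf 255 1661 (.cons 280 (.leaf 281 2027 (.leaf 256 1662 .nil)) .nil)) .nil)) .nil)) .nil)) .nil)) .nil)))) (.cons 326 (.leaf 229 1839 (.cons 325 (.leaf 349 2030 (.cons 230 (.leaf 301 1838 (.cons 327 (.leaf 303 1844 (.leaf 351 2036 .nil)) .nil)) .nil)) .nil)) .nil)))))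
noncomputable def t345 : T := .cons 255 (.leaf 231 1845 (.cons 276 (.leaf 277 2009 (.cons 179 (.leaf 252 1436 (.cons 154 (.leaf 178 1239 (.cons 130 (.leaf 155 1047 (.cons 349 (.leaf 325 2030 (.cons 350 (.leaf 279 2037 (.leaf 373 2222 .nil)) .nil)) .nil)) .nil)) .nil)) .nil)) .nil)) (.cons 349 (.leaf 325 2030 (.cons 350 (.leaf 373 2222 (.cons 351 (.leaf 327 2036 (.leaf 375 2228 .nil)) .nil)) .nil)) (.cons 255 (.leaf 231 1845 (.cons 276 (.leaf 277 2009 (.cons 179 (.leaf 252 1436 (.cons 154 (.leaf 178 1239 (.cons 130 (.leaf 155 1047 (.cons 350 (.leaf 279 2037 (.cons 351 (.leaf 327 2036 (.leaf 375 2228 .nil)) .nil)) .nil)) .nil)) .nil)) .nil)) .nil)) (.cons 255 (.leaf 231 1845 (.cons 325 (.leaf 349 2030 (.cons 327 (.leaf 351 2036 (.cons 328 (.cons 276 (.leaf 277 2009 (.cons 305 (.leaf 304 2409 (.cons 329 (.leaf 301 2411 (.leaf 306 2417 .nil)) .nil)) .nil)) (.cons 276 (.leaf 277 2009 (.cons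 329 (.leaf 301 2411 (.cons 353 (.leaf 352 2600 (.leaf 354 2608 .nil)) .nil)) .nil)) (.cons 304 (.leaf 305 2409 (.cons 303 (.leaf 324 2401 (.cons 352 (.leaf 353 2600 (.leaf 279 2044 .nil)) .nil)) .nil)) .nil))) .nil)) .nil)) .nil)) .nil)))
noncomputable def t346 : T := .cons 230 (.cons 205 (.leaf 229 1647 (.cons 207 (.leaf 231 1653 (.cons 325 (.leaf 301 1838 (.cons 206 (.leaf 181 1455 (.leaf 183 1461 .nil)) .nil)) .nil)) .nil)) (.cons 205 (.leaf 229 1647 (.cons 181 (.leaf 206 1455 (.cons 231 (.leaf 207 1653 (.cons 326 (.leaf 255 1845 (.cons 327 (.leaf 303 1844 (.leaf 351 2036 .nil)) .nil)) .nil)) .nil)) .nil)) (.cons 301 (.leaf 325 1838 (.cons 277 (.leaf 276 2192 (.leaf 206 1646 .nil)) .nil)) (.cons 205 (.leaf 229 1647 (.cons 325 (.leaf 301 1838 (.cons 326 (.leaf 349 2030 (.cons 327 (.leaf 303 1844 (.leaf 351 2036 .nil)) .nil)) .nil)) .nil)) .nil)))) (.cons 326 t345 (.cons 230 (.cons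 205 (.leaf 229 1647 (.cons 181 (.leaf 206 1455 (.cons 231 (.leaf 207 1653 (.cons 325 (.leaf 301 1838 (.cons 326 (.leaf 255 1845 (.leaf 349 2030 .nil)) .nil)) .nil)) .nil)) .nil)) (.cons 205 (.leaf 229 1647 (.cons 206 (.leaf 181 1455 (.cons 303 (.leaf 279 1652 (.leaf 327 1844 .nil)) .nil)) .nil)) (.cons 303 (.leaf 327 1844 (.cons 206 (.leaf 279 1652 (.cons 207 (.leaf 183 1461 (.leaf 231 1653 .nil)) .nil)) .nil)) (.cons 205 (.leaf 229 1647 (.cons 325 (.leaf 301 1838 (.cons 326 (.leaf 349 2030 (.cons 327 (.leaf 303 1844 (.leaf 351 2036 .nil)) .nil)) .nil)) .nil)) .nil)))) (.cons 230 (.cons 303 (.leaf 327 1844 (.cons 205 (.leaf 229 1647 (.cons 206 (.leaf 181 1455 (.leaf 279 1652 .nil)) .nil)) .nil)) (.cons 205 (.leaf 229 1647 (.cons 206 (.leaf 181 1455 (.cons 204 (.leaf 226 1618 (.leaf 231 1624 .nil)) .nil)) .nil)) (.cons 303 (.leaf 327 1844 (.cons 277 (.leaf 276 2200 (.cons 304 (.leaf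 305 2219 (.cons 301 (.leaf 206 1646 (.leaf 325 1838 .nil)) .nil)) .nil)) .nil)) (.cons 303 (.leaf 327 1844 (.cons 277 (.leaf 276 2200 (.cons 304 (.leaf 305 2219 (.cons 231 (.leaf 207 1653 (.cons 328 (.cons 301 (.leaf 325 1838 (.leaf 329 2408 .nil)) (.cons 255 (.leaf 279 1852 (.cons 256 (.leaf 257 2026 (.leaf 280 1855 .nil)) .nil)) .nil)) .nil)) .nil)) .nil)) .nil)) .nil)))) (.cons 230 (.cons 205 (.leaf 229 1647 (.cons 206 (.leaf 181 1455 (.cons 204 (.leaf 226 1618 (.leaf 231 1624 .nil)) .nil)) .nil)) (.cons 301 (.leaf 325 1838 (.cons 277 (.leaf 276 2192 (.leaf 206 1646 .nil)) .nil)) (.cons 205 (.leaf 229 1647 (.cons 231 (.leaf 207 1653 (.cons 325 (.leaf 301 1838 (.cons 326 (.leaf 255 1845 (.leaf 349 2030 .nil)) .nil)) .nil)) .nil)) .nil))) (.cons 230 (.cons 205 (.leaf 229 1647 (.cons 207 (.leaf 231 1653 (.cons 325 (.leaf 301 1838 (.cons 206 (.leaf 181 1455 (.leaf 183 1461 .nil)) .nil))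 .nil)) .nil)) (.cons 205 (.leaf 229 1647 (.cons 206 (.leaf 181 1455 (.cons 204 (.leaf 226 1618 (.leaf 231 1624 .nil)) .nil)) .nil)) (.cons 301 (.leaf 325 1838 (.cons 277 (.leaf 276 2192 (.leaf 206 1646 .nil)) .nil)) (.cons 205 (.leaf 229 1647 (.cons 207 (.leaf 231 1653 (.cons 325 (.leaf 301 1838 (.cons 326 (.leaf 349 2030 (.cons 327 (.leaf 303 1844 (.leaf 351 2036 .nil)) .nil)) .nil)) .nil)) .nil)) .nil)))) (.cons 230 (.cons 205 (.leaf 229 1647 (.cons 206 (.leaf 181 1455 (.cons 204 (.leaf 226 1618 (.leaf 231 1624 .nil)) .nil)) .nil)) (.cons 205 (.leaf 229 1647 (.cons 206 (.leaf 181 1455 (.cons 303 (.leaf 279 1652 (.leaf 327 1844 .nil)) .nil)) .nil)) (.cons 207 (.leaf 231 1653 (.cons 206 (.leaf 183 1461 (.cons 303 (.leaf 279 1652 (.leaf 327 1844 .nil)) .nil)) .nil)) (.cons 205 (.leaf 229 1647 (.cons 231 (.leaf 207 1653 (.cons 326 (.leaf 255 1845 (.cons 327 (.leaf 303 1844 (.leaf 351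 2036 .nil)) .nil)) .nil)) .nil)) .nil)))) (.cons 230 (.cons 205 (.leaf 229 1647 (.cons 206 (.leaf 181 1455 (.cons 303 (.leaf 279 1652 (.leaf 327 1844 .nil)) .nil)) .nil)) (.cons 205 (.leaf 229 1647 (.cons 206 (.leaf 181 1455 (.cons 301 (.leaf 277 1646 (.leaf 325 1838 .nil)) .nil)) .nil)) (.cons 301 (.leaf 325 1838 (.cons 277 (.leaf 276 2192 (.leaf 206 1646 .nil)) .nil)) (.cons 205 (.leaf 229 1647 (.cons 325 (.leaf 301 1838 (.cons 326 (.leaf 349 2030 (.cons 327 (.leaf 303 1844 (.leaf 351 2036 .nil)) .nil)) .nil)) .nil)) .nil)))) .nil)))))))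
noncomputable def t347 : T := .cons 326 (.cons 255 (.leaf 231 1845 (.cons 229 (.leaf 253 1839 (.cons 276 (.leaf 277 2009 (.cons 325 (.leaf 349 2030 (.cons 350 (.leaf 279 2037 (.cons 351 (.leaf 327 2036 (.leaf 375 2228 .nil)) .nil)) .nil)) .nil)) .nil)) .nil)) (.cons 253 (.leaf 229 1839 (.cons 277 (.leaf 276 2001 (.leaf 350 2031 .nil)) .nil)) (.cons 255 (.leaf 231 1845 (.cons 276 (.leaf 277 2009 (.cons 325 (.leaf 349 2030 (.cons 350 (.leaf 279 2037 (.cons 351 (.leaf 327 2036 (.leaf 375 2228 .nil)) .nil)) .nil)) .nil)) .nil)) (.cons 255 (.leaf 231 1845 (.cons 229 (.leaf 253 1839 (.cons 325 (.leaf 349 2030 (.cons 350 (.leaf 279 2037 (.cons 351 (.leaf 327 2036 (.leaf 375 2228 .nil)) .nil)) .nil)) .nil)) .nil)) (.cons 255 (.leaf 231 1845 (.cons 277 (.leaf 276 2009 (.cons 253 (.leaf 229 1839 (.cons 325 (.leaf 349 2030 (.cons 327 (.leaf 351 2036 (.cons 324 (.cons 303 (.leaf 323 2393 (.leaf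 304 2401 .nil)) (.cons 348 (.leaf 347 2586 (.leaf 301 2022 .nil)) .nil)) .nil)) .nil)) .nil)) .nil)) .nil)) .nil))))) (.cons 326 (.cons 229 (.leaf 253 1839 (.cons 349 (.leaf 325 2030 (.cons 350 (.leaf 373 2222 (.cons 255 (.leaf 231 1845 (.leaf 279 2037 .nil)) .nil)) .nil)) .nil)) (.cons 229 (.leaf 253 1839 (.cons 349 (.leaf 325 2030 (.cons 350 (.leaf 373 2222 (.cons 351 (.leaf 327 2036 (.leaf 375 2228 .nil)) .nil)) .nil)) .nil)) (.cons 255 (.leaf 231 1845 (.cons 276 (.leaf 277 2009 (.cons 325 (.leaf 349 2030 (.cons 350 (.leaf 279 2037 (.cons 351 (.leaf 327 2036 (.leaf 375 2228 .nil)) .nil)) .nil)) .nil)) .nil)) (.cons 229 (.leaf 253 1839 (.cons 255 (.leaf 231 1845 (.cons 276 (.leaf 277 2009 (.cons 350 (.leaf 279 2037 (.cons 351 (.leaf 327 2036 (.leaf 375 2228 .nil)) .nil)) .nil)) .nil)) .nil)) (.cons 229 (.leaf 253 1839 (.cons 230 (.leaf 205 1647 (.cons 231 (.leaf 207 1653 (.leaf 255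 1845 .nil)) .nil)) .nil)) .nil))))) (.cons 230 (.cons 205 (.leaf 229 1647 (.cons 207 (.leaf 231 1653 (.cons 325 (.leaf 301 1838 (.cons 206 (.leaf 181 1455 (.leaf 183 1461 .nil)) .nil)) .nil)) .nil)) (.cons 303 (.leaf 327 1844 (.cons 205 (.leaf 229 1647 (.cons 206 (.leaf 181 1455 (.leaf 279 1652 .nil)) .nil)) .nil)) (.cons 207 (.leaf 231 1653 (.cons 183 (.leaf 206 1461 (.cons 301 (.leaf 325 1838 (.cons 327 (.leaf 303 1844 (.cons 326 (.leaf 351 2036 (.cons 253 (.leaf 229 1839 (.cons 277 (.leaf 276 2192 (.leaf 350 2031 .nil)) .nil)) .nil)) .nil)) .nil)) .nil)) .nil)) (.cons 207 (.leaf 231 1653 (.cons 183 (.leaf 206 1461 (.cons 301 (.leaf 325 1838 (.cons 327 (.leaf 303 1844 (.cons 326 (.leaf 351 2036 (.cons 277 (.leaf 276 2192 (.cons 350 (.leaf 253 2031 (.leaf 374 2223 .nil)) .nil)) .nil)) .nil)) .nil)) .nil)) .nil)) (.cons 205 (.leaf 229 1647 (.cons 207 (.leaf 231 1653 (.cons 325 (.leaf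 301 1838 (.cons 326 (.leaf 349 2030 (.cons 327 (.leaf 303 1844 (.leaf 351 2036 .nil)) .nil)) .nil)) .nil)) .nil)) .nil))))) (.cons 326 (.cons 229 (.leaf 253 1839 (.cons 349 (.leaf 325 2030 (.cons 350 (.leaf 373 2222 (.cons 351 (.leaf 327 2036 (.leaf 375 2228 .nil)) .nil)) .nil)) .nil)) (.cons 325 (.leaf 349 2030 (.cons 230 (.leaf 301 1838 (.cons 327 (.leaf 303 1844 (.leaf 351 2036 .nil)) .nil)) .nil)) (.cons 229 (.leaf 253 1839 (.cons 230 (.leaf 205 1647 (.cons 327 (.leaf 303 1844 (.leaf 351 2036 .nil)) .nil)) .nil)) (.cons 229 (.leaf 253 1839 (.cons 230 (.leaf 205 1647 (.cons 325 (.leaf 301 1838 (.leaf 349 2030 .nil)) .nil)) .nil)) .nil)))) (.cons 230 (.cons 207 (.leaf 231 1653 (.cons 206 (.leaf 183 1461 (.cons 301 (.leaf 277 1646 (.leaf 325 1838 .nil)) .nil)) .nil)) (.cons 231 (.leaf 207 1653 (.cons 205 (.leaf 229 1647 (.cons 206 (.leaf 204 1624 (.leaf 181 1455 .nil)) .nil)) .nil))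 (.cons 301 (.leaf 325 1838 (.cons 277 (.leaf 276 2192 (.leaf 206 1646 .nil)) .nil)) (.cons 205 (.leaf 229 1647 (.cons 231 (.leaf 207 1653 (.cons 325 (.leaf 301 1838 (.cons 326 (.leaf 255 1845 (.leaf 349 2030 .nil)) .nil)) .nil)) .nil)) .nil)))) (.cons 230 (.cons 205 (.leaf 229 1647 (.cons 206 (.leaf 181 1455 (.cons 204 (.leaf 226 1618 (.leaf 231 1624 .nil)) .nil)) .nil)) (.cons 205 (.leaf 229 1647 (.cons 206 (.leaf 181 1455 (.cons 303 (.leaf 279 1652 (.leaf 327 1844 .nil)) .nil)) .nil)) (.cons 207 (.leaf 231 1653 (.cons 206 (.leaf 183 1461 (.cons 303 (.leaf 279 1652 (.leaf 327 1844 .nil)) .nil)) .nil)) (.cons 205 (.leaf 229 1647 (.cons 231 (.leaf 207 1653 (.cons 326 (.leaf 255 1845 (.cons 327 (.leaf 303 1844 (.leaf 351 2036 .nil)) .nil)) .nil)) .nil)) .nil)))) .nil)))))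
noncomputable def t348 : T := .cons 326 (.cons 231 (.leaf 255 1845 (.cons 349 (.leaf 325 2030 (.cons 350 (.leaf 373 2222 (.cons 253 (.leaf 229 1839 (.leaf 277 2031 .nil)) .nil)) .nil)) .nil)) (.cons 325 (.leaf 349 2030 (.cons 230 (.leaf 301 1838 (.cons 327 (.leaf 303 1844 (.leaf 351 2036 .nil)) .nil)) .nil)) (.cons 231 (.leaf 255 1845 (.cons 230 (.leaf 207 1653 (.cons 327 (.leaf 303 1844 (.leaf 351 2036 .nil)) .nil)) .nil)) .nil))) (.cons 326 (.cons 231 (.leaf 255 1845 (.cons 349 (.leaf 325 2030 (.cons 350 (.leaf 373 2222 (.cons 351 (.leaf 327 2036 (.leaf 375 2228 .nil)) .nil)) .nil)) .nil)) (.cons 231 (.leaf 255 1845 (.cons 230 (.leaf 207 1653 (.cons 325 (.leaf 301 1838 (.leaf 349 2030 .nil)) .nil)) .nil)) (.cons 231 (.leaf 255 1845 (.cons 230 (.leaf 207 1653 (.cons 327 (.leaf 303 1844 (.leaf 351 2036 .nil)) .nil)) .nil)) (.cons 325 (.leaf 349 2030 (.cons 230 (.leaf 301 1838 (.cons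 327 (.leaf 303 1844 (.leaf 351 2036 .nil)) .nil)) .nil)) .nil)))) (.cons 230 (.cons 303 (.leaf 327 1844 (.cons 205 (.leaf 229 1647 (.cons 206 (.leaf 181 1455 (.leaf 279 1652 .nil)) .nil)) .nil)) (.cons 205 (.leaf 229 1647 (.cons 206 (.leaf 181 1455 (.cons 204 (.leaf 226 1618 (.leaf 231 1624 .nil)) .nil)) .nil)) (.cons 303 (.leaf 327 1844 (.cons 277 (.leaf 276 2200 (.cons 304 (.leaf 305 2219 (.cons 301 (.leaf 206 1646 (.leaf 325 1838 .nil)) .nil)) .nil)) .nil)) (.cons 303 (.leaf 327 1844 (.cons 277 (.leaf 276 2200 (.cons 304 (.leaf 305 2219 (.cons 231 (.leaf 207 1653 (.cons 328 (.cons 301 (.leaf 325 1838 (.leaf 329 2408 .nil)) (.cons 255 (.leaf 279 1852 (.cons 256 (.leaf 257 2026 (.leaf 280 1855 .nil)) .nil)) .nil)) .nil)) .nil)) .nil)) .nil)) .nil)))) t347))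
noncomputable def t349 : T := .cons 205 (.leaf 226 1618 (.cons 230 (.leaf 231 1624 (.leaf 181 1455 .nil)) .nil)) (.cons 230 (.cons 303 (.leaf 279 1652 (.cons 302 (.leaf 327 1844 (.cons 207 (.leaf 183 1461 (.leaf 231 1653 .nil)) .nil)) .nil)) (.cons 279 (.leaf 303 1652 (.cons 182 (.leaf 255 1460 (.cons 157 (.leaf 181 1263 (.cons 158 (.leaf 133 1071 (.cons 159 (.leaf 183 1269 (.leaf 135 1077 .nil)) .nil)) .nil)) .nil)) .nil)) (.cons 207 (.leaf 183 1461 (.cons 302 (.leaf 231 1653 (.cons 325 (.leaf 301 1838 (.cons 326 (.leaf 349 2030 (.cons 327 (.leaf 303 1844 (.leaf 351 2036 .nil)) .nil)) .nil)) .nil)) .nil)) (.cons 303 (.leaf 279 1652 (.cons 302 (.leaf 327 1844 (.cons 325 (.leaf 301 1838 (.cons 231 (.leaf 207 1653 (.cons 326 (.leaf 255 1845 (.leaf 349 2030 .nil)) .nil)) .nil)) .nil)) .nil)) (.cons 183 (.leaf 207 1461 (.cons 182 (.leaf 159 1269 (.cons 157 (.leaf 181 1263 (.cons 158 (.leaf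 133 1071 (.cons 255 (.leaf 279 1460 (.leaf 231 1268 .nil)) .nil)) .nil)) .nil)) .nil)) .nil))))) (.cons 205 (.leaf 226 1618 (.cons 183 (.leaf 182 1433 (.cons 207 (.leaf 184 1441 (.cons 231 (.leaf 255 1462 (.leaf 232 1632 .nil)) .nil)) .nil)) .nil)) (.cons 205 (.leaf 226 1618 (.cons 182 (.leaf 183 1433 (.cons 230 (.leaf 181 1455 (.cons 279 (.leaf 255 1460 (.leaf 303 1652 .nil)) .nil)) .nil)) .nil)) .nil)))
noncomputable def t350 : T := .cons 204 (.leaf 180 1437 (.cons 252 (.leaf 179 1436 (.cons 277 (.leaf 255 2009 (.leaf 279 2011 .nil)) .nil)) .nil)) (.cons 204 (.leaf 180 1437 (.cons 206 (.cons 205 (.leaf 226 1618 (.cons 230 (.leaf 231 1624 (.leaf 181 1455 .nil)) .nil)) (.cons 277 (.leaf 255 2009 (.cons 230 (.leaf 301 1646 (.cons 279 (.leaf 252 2011 (.leaf 303 1652 .nil)) .nil)) .nil)) (.cons 205 (.leaf 226 1618 (.cons 183 (.leaf 182 1433 (.cons 207 (.leaf 184 1441 (.cons 231 (.leaf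 255 1462 (.leaf 232 1632 .nil)) .nil)) .nil)) .nil)) .nil))) .nil)) (.cons 206 (.cons 180 (.leaf 204 1437 (.cons 277 (.leaf 255 2009 (.cons 230 (.leaf 301 1646 (.cons 181 (.leaf 205 1455 (.cons 182 (.leaf 157 1263 (.cons 183 (.leaf 159 1269 (.leaf 207 1461 .nil)) .nil)) .nil)) .nil)) .nil)) .nil)) (.cons 277 (.leaf 255 2009 (.cons 230 (.leaf 301 1646 (.cons 181 (.leaf 205 1455 (.cons 182 (.leaf 157 1263 (.cons 183 (.leaf 159 1269 (.leaf 207 1461 .nil)) .nil)) .nil)) .nil)) .nil)) (.cons 204 (.leaf 180 1437 (.cons 205 (.leaf 226 1618 (.cons 230 (.leaf 231 1624 (.leaf 181 1455 .nil)) .nil)) .nil)) (.cons 204 (.leaf 180 1437 (.cons 205 (.leaf 226 1618 (.cons 183 (.leaf 182 1433 (.cons 207 (.leaf 184 1441 (.cons 231 (.leaf 255 1462 (.leaf 232 1632 .nil)) .nil)) .nil)) .nil)) .nil)) (.cons 180 (.leaf 204 1437 (.cons 156 (.leaf 179 1245 (.cons 277 (.leaf 255 2009 (.cons 230 (.leaf 301 1646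 (.cons 183 (.leaf 207 1461 (.cons 182 (.leaf 159 1269 (.cons 181 (.leaf 157 1263 (.leaf 155 1243 .nil)) .nil)) .nil)) .nil)) .nil)) .nil)) .nil)) .nil))))) (.cons 179 (.leaf 252 1436 (.cons 180 (.leaf 204 1437 (.leaf 156 1245 .nil)) .nil)) (.cons 252 (.leaf 179 1436 (.cons 277 (.leaf 255 2009 (.leaf 279 2011 .nil)) .nil)) .nil))))
noncomputable def t351 : T := .cons 205 (.leaf 226 1618 (.cons 230 (.leaf 231 1624 (.leaf 181 1455 .nil)) .nil)) (.cons 230 (.cons 279 (.leaf 303 1652 (.cons 182 (.leaf 255 1460 (.cons 157 (.leaf 181 1263 (.cons 183 (.leaf 159 1269 (.leaf 207 1461 .nil)) .nil)) .nil)) .nil)) (.cons 279 (.leaf 303 1652 (.cons 182 (.leaf 255 1460 (.cons 157 (.leaf 181 1263 (.cons 158 (.leaf 133 1071 (.cons 159 (.leaf 183 1269 (.leaf 135 1077 .nil)) .nil)) .nil)) .nil)) .nil)) (.cons 207 (.leaf 183 1461 (.cons 301 (.leaf 277 1646 (.cons 302 (.leaf 231 1653 (.leaf 325 1838 .nil))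 .nil)) .nil)) (.cons 279 (.leaf 303 1652 (.cons 301 (.leaf 277 1646 (.cons 302 (.leaf 325 1838 (.cons 231 (.leaf 207 1653 (.cons 255 (.leaf 182 1460 (.leaf 326 1845 .nil)) .nil)) .nil)) .nil)) .nil)) .nil)))) (.cons 205 (.leaf 226 1618 (.cons 183 (.leaf 182 1433 (.cons 207 (.leaf 184 1441 (.cons 231 (.leaf 255 1462 (.leaf 232 1632 .nil)) .nil)) .nil)) .nil)) (.cons 205 (.leaf 226 1618 (.cons 182 (.leaf 183 1433 (.cons 230 (.leaf 181 1455 (.cons 279 (.leaf 255 1460 (.leaf 303 1652 .nil)) .nil)) .nil)) .nil)) .nil)))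
noncomputable def t352 : T := .cons 205 (.leaf 226 1618 (.cons 230 (.leaf 231 1624 (.leaf 181 1455 .nil)) .nil)) (.cons 230 (.cons 183 (.leaf 207 1461 (.cons 159 (.leaf 182 1269 (.cons 301 (.leaf 277 1646 (.cons 302 (.leaf 325 1838 (.cons 303 (.leaf 279 1652 (.leaf 327 1844 .nil)) .nil)) .nil)) .nil)) .nil)) (.cons 183 (.leaf 207 1461 (.cons 182 (.leaf 159 1269 (.cons 157 (.leaf 181 1263 (.cons 158 (.leaf 133 1071 (.cons 255 (.leaf 231 1268 (.cons 277 (.leaf 276 2009 (.leaf 301 1646 .nil)) .nil)) .nil)) .nil)) .nil)) .nil)) (.cons 277 (.leaf 301 1646 (.cons 255 (.leaf 276 2009 (.cons 279 (.leaf 182 1460 (.leaf 303 1652 .nil)) .nil)) .nil)) (.cons 207 (.leaf 183 1461 (.cons 279 (.leaf 303 1652 (.cons 182 (.leaf 255 1460 (.cons 157 (.leaf 181 1263 (.cons 158 (.leaf 133 1071 (.cons 231 (.leaf 302 1653 (.leaf 134 1076 .nil)) .nil)) .nil)) .nil)) .nil)) .nil)) (.cons 183 (.leaf 207 1461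 (.cons 277 (.leaf 301 1646 (.cons 276 (.leaf 255 2009 (.cons 279 (.leaf 252 2011 (.leaf 303 1652 .nil)) .nil)) .nil)) .nil)) .nil))))) (.cons 205 (.leaf 226 1618 (.cons 183 (.leaf 182 1433 (.cons 207 (.leaf 184 1441 (.cons 231 (.leaf 255 1462 (.leaf 232 1632 .nil)) .nil)) .nil)) .nil)) (.cons 205 (.leaf 226 1618 (.cons 182 (.leaf 183 1433 (.cons 230 (.leaf 181 1455 (.cons 279 (.leaf 255 1460 (.leaf 303 1652 .nil)) .nil)) .nil)) .nil)) .nil)))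
noncomputable def t353 : T := .cons 230 (.cons 301 (.leaf 325 1838 (.cons 277 (.leaf 276 2192 (.leaf 206 1646 .nil)) .nil)) (.cons 205 (.leaf 229 1647 (.cons 231 (.leaf 207 1653 (.cons 326 (.leaf 255 1845 (.cons 327 (.leaf 303 1844 (.leaf 351 2036 .nil)) .nil)) .nil)) .nil)) .nil)) (.cons 326 t345 (.cons 230 (.cons 205 (.leaf 229 1647 (.cons 231 (.leaf 207 1653 (.cons 326 (.leaf 255 1845 (.cons 327 (.leaf 303 1844 (.leaf 351 2036 .nil)) .nil)) .nil)) .nil)) (.cons 231 (.leaf 207 1653 (.cons 205 (.leaf 229 1647 (.cons 325 (.leaf 301 1838 (.cons 326 (.leaf 255 1845 (.leaf 349 2030 .nil)) .nil)) .nil)) .nil)) (.cons 205 (.leaf 229 1647 (.cons 206 (.leaf 181 1455 (.cons 303 (.leaf 279 1652 (.leaf 327 1844 .nil)) .nil)) .nil)) (.cons 303 (.leaf 327 1844 (.cons 206 (.leaf 279 1652 (.cons 207 (.leaf 183 1461 (.leaf 231 1653 .nil)) .nil)) .nil)) .nil)))) (.cons 230 (.cons 303 (.leaf 327 1844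 (.cons 205 (.leaf 229 1647 (.cons 206 (.leaf 181 1455 (.leaf 279 1652 .nil)) .nil)) .nil)) (.cons 205 (.leaf 229 1647 (.cons 206 (.leaf 181 1455 (.cons 204 (.leaf 226 1618 (.leaf 231 1624 .nil)) .nil)) .nil)) (.cons 303 (.leaf 327 1844 (.cons 277 (.leaf 276 2200 (.cons 304 (.leaf 305 2219 (.cons 301 (.leaf 206 1646 (.leaf 325 1838 .nil)) .nil)) .nil)) .nil)) (.cons 303 (.leaf 327 1844 (.cons 277 (.leaf 276 2200 (.cons 304 (.leaf 305 2219 (.cons 231 (.leaf 207 1653 (.cons 328 (.cons 301 (.leaf 325 1838 (.leaf 329 2408 .nil)) (.cons 255 (.leaf 279 1852 (.cons 256 (.leaf 257 2026 (.leaf 280 1855 .nil)) .nil)) .nil)) .nil)) .nil)) .nil)) .nil)) .nil)))) (.cons 230 (.cons 205 (.leaf 229 1647 (.cons 206 (.leaf 181 1455 (.cons 204 (.leaf 226 1618 (.leaf 231 1624 .nil)) .nil)) .nil)) (.cons 301 (.leaf 325 1838 (.cons 277 (.leaf 276 2192 (.leaf 206 1646 .nil)) .nil)) (.cons 205 (.leaf 229 1647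 (.cons 231 (.leaf 207 1653 (.cons 325 (.leaf 301 1838 (.cons 326 (.leaf 255 1845 (.leaf 349 2030 .nil)) .nil)) .nil)) .nil)) .nil))) (.cons 230 (.cons 205 (.leaf 229 1647 (.cons 206 (.leaf 181 1455 (.cons 204 (.leaf 226 1618 (.leaf 231 1624 .nil)) .nil)) .nil)) (.cons 301 (.leaf 325 1838 (.cons 277 (.leaf 276 2192 (.leaf 206 1646 .nil)) .nil)) (.cons 205 (.leaf 229 1647 (.cons 325 (.leaf 301 1838 (.cons 326 (.leaf 349 2030 (.cons 327 (.leaf 303 1844 (.leaf 351 2036 .nil)) .nil)) .nil)) .nil)) .nil))) (.cons 230 (.cons 205 (.leaf 229 1647 (.cons 231 (.leaf 207 1653 (.cons 326 (.leaf 255 1845 (.cons 327 (.leaf 303 1844 (.leaf 351 2036 .nil)) .nil)) .nil)) .nil)) (.cons 231 (.leaf 207 1653 (.cons 205 (.leaf 229 1647 (.cons 206 (.leaf 204 1624 (.leaf 181 1455 .nil)) .nil)) .nil)) (.cons 303 (.leaf 327 1844 (.cons 205 (.leaf 229 1647 (.cons 206 (.leaf 181 1455 (.leaf 279 1652 .nil)) .nil))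 .nil)) (.cons 303 (.leaf 327 1844 (.cons 206 (.leaf 279 1652 (.cons 207 (.leaf 183 1461 (.leaf 231 1653 .nil)) .nil)) .nil)) .nil)))) (.cons 230 (.cons 205 (.leaf 229 1647 (.cons 206 (.leaf 181 1455 (.cons 303 (.leaf 279 1652 (.leaf 327 1844 .nil)) .nil)) .nil)) (.cons 205 (.leaf 229 1647 (.cons 206 (.leaf 181 1455 (.cons 301 (.leaf 277 1646 (.leaf 325 1838 .nil)) .nil)) .nil)) (.cons 301 (.leaf 325 1838 (.cons 277 (.leaf 276 2192 (.leaf 206 1646 .nil)) .nil)) (.cons 205 (.leaf 229 1647 (.cons 325 (.leaf 301 1838 (.cons 326 (.leaf 349 2030 (.cons 327 (.leaf 303 1844 (.leaf 351 2036 .nil)) .nil)) .nil)) .nil)) .nil)))) .nil)))))))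
noncomputable def t354 : T := .cons 180 (.leaf 204 1437 (.cons 179 (.leaf 156 1245 (.cons 276 (.leaf 252 1436 (.cons 277 (.leaf 255 2009 (.cons 302 (.leaf 301 2192 (.leaf 303 2200 .nil)) .nil)) .nil)) .nil)) .nil)) (.cons 302 t353 (.cons 179 (.cons 156 (.leaf 180 1245 (.cons 154 (.leaf 178 1239 (.cons 155 (.leaf 130 1047 (.leaf 132 1053 .nil)) .nil)) .nil)) (.cons 156 (.leaf 180 1245 (.cons 132 (.leaf 155 1053 (.cons 276 (.leaf 252 1436 (.cons 277 (.leaf 255 2009 (.cons 302 (.leaf 301 2192 (.leaf 303 2200 .nil)) .nil)) .nil)) .nil)) .nil)) (.cons 276 (.leaf 252 1436 (.cons 154 (.leaf 178 1239 (.cons 277 (.leaf 255 2009 (.cons 302 (.leaf 301 2192 (.leaf 303 2200 .nil)) .nil)) .nil)) .nil)) .nil))) (.cons 204 (.leaf 180 1437 (.cons 206 t352 .nil)) (.cons 204 (.leaf 180 1437 (.cons 206 t351 .nil)) (.cons 276 t350 (.cons 204 (.leaf 180 1437 (.cons 206 t349 .nil)) (.cons 180 (.leaf 204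 1437 (.cons 179 (.leaf 156 1245 (.cons 154 (.leaf 178 1239 (.cons 155 (.leaf 130 1047 (.cons 302 (.cons 152 (.leaf 153 1216 (.cons 276 (.leaf 252 1436 (.cons 277 (.leaf 301 2192 (.leaf 303 2200 .nil)) .nil)) .nil)) (.cons 230 (.cons 152 (.leaf 153 1216 (.cons 181 (.leaf 182 1235 (.cons 205 (.leaf 206 1455 (.leaf 229 1647 .nil)) .nil)) .nil)) (.cons 325 (.leaf 301 1838 (.cons 326 (.leaf 349 2030 (.cons 327 (.leaf 303 1844 (.leaf 351 2036 .nil)) .nil)) .nil)) .nil)) (.cons 276 (.leaf 252 1436 (.cons 301 (.leaf 277 2192 (.cons 325 (.leaf 230 1838 (.cons 349 (.leaf 326 2030 (.leaf 373 2221 .nil)) .nil)) .nil)) .nil)) (.cons 276 (.leaf 252 1436 (.cons 303 (.leaf 277 2200 (.cons 327 (.leaf 230 1844 (.cons 351 (.leaf 279 2039 (.leaf 326 2036 .nil)) .nil)) .nil)) .nil)) .nil)))) .nil)) .nil)) .nil)) .nil)) (.cons 180 (.leaf 204 1437 (.cons 179 (.leaf 156 1245 (.cons 276 (.leaf 252 1436 (.cons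 277 (.leaf 255 2009 (.cons 178 (.leaf 154 1239 (.cons 206 (.cons 301 (.leaf 302 2192 (.leaf 230 1646 .nil)) (.cons 181 (.leaf 205 1424 (.cons 157 (.leaf 158 1233 (.cons 182 (.leaf 230 1263 (.leaf 207 1432 .nil)) .nil)) .nil)) (.cons 181 (.leaf 205 1424 (.cons 158 (.leaf 157 1233 (.cons 182 (.leaf 159 1241 (.leaf 207 1432 .nil)) .nil)) .nil)) .nil))) .nil)) .nil)) .nil)) .nil)) .nil)) (.cons 180 (.leaf 204 1437 (.cons 179 (.leaf 156 1245 (.cons 276 (.leaf 252 1436 (.cons 154 (.leaf 178 1239 (.cons 302 (.cons 155 (.leaf 130 1047 (.cons 255 (.leaf 277 2009 (.cons 231 (.leaf 326 1845 (.cons 207 (.leaf 183 1462 (.leaf 230 1653 .nil)) .nil)) .nil)) .nil)) (.cons 326 (.cons 231 (.leaf 255 1845 (.cons 230 (.leaf 207 1653 (.cons 327 (.leaf 303 1844 (.leaf 351 2036 .nil)) .nil)) .nil)) (.cons 255 (.leaf 231 1845 (.cons 349 (.leaf 325 2030 (.cons 350 (.leaf 279 2037 (.leaf 373 2222 .nil)) .nil))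 .nil)) (.cons 349 (.leaf 325 2030 (.cons 350 (.leaf 373 2222 (.cons 351 (.leaf 327 2036 (.leaf 375 2228 .nil)) .nil)) .nil)) .nil))) (.cons 155 (.leaf 130 1047 (.cons 303 (.leaf 277 2200 (.cons 327 (.leaf 230 1844 (.cons 351 (.leaf 279 2039 (.leaf 326 2036 .nil)) .nil)) .nil)) .nil)) (.cons 277 (.leaf 255 2009 (.leaf 303 2200 .nil)) .nil)))) .nil)) .nil)) .nil)) .nil)) .nil)))))))))
noncomputable def t355 : T := .cons 180 (.leaf 204 1437 (.cons 179 (.leaf 156 1245 (.cons 206 (.cons 178 (.leaf 154 1239 (.cons 181 (.leaf 205 1424 (.cons 158 (.leaf 157 1233 (.cons 276 (.leaf 255 2009 (.cons 301 (.leaf 302 2192 (.leaf 230 1646 .nil)) .nil)) .nil)) .nil)) .nil)) (.cons 178 (.leaf 154 1239 (.cons 181 (.leaf 205 1424 (.cons 158 (.leaf 157 1233 (.cons 276 (.leaf 255 2009 (.cons 182 (.leaf 159 1241 (.leaf 207 1432 .nil)) .nil)) .nil)) .nil)) .nil)) (.cons 178 (.leaf 154 1239 (.cons 181 (.leaf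 205 1424 (.cons 158 (.leaf 157 1233 (.cons 182 (.leaf 159 1241 (.leaf 207 1432 .nil)) .nil)) .nil)) .nil)) (.cons 230 (.leaf 301 1646 (.cons 181 (.leaf 205 1455 (.cons 207 (.leaf 183 1461 (.leaf 182 1432 .nil)) .nil)) .nil)) (.cons 154 (.leaf 178 1239 (.cons 155 (.leaf 130 1047 (.cons 276 (.leaf 255 2009 (.cons 303 (.leaf 302 2200 (.cons 230 (.leaf 301 1646 (.leaf 279 1652 .nil)) .nil)) .nil)) .nil)) .nil)) .nil))))) .nil)) .nil)) (.cons 180 (.leaf 204 1437 (.cons 179 (.leaf 156 1245 (.cons 206 (.cons 178 (.leaf 154 1239 (.cons 181 (.leaf 205 1424 (.cons 158 (.leaf 157 1233 (.cons 182 (.leaf 159 1241 (.leaf 207 1432 .nil)) .nil)) .nil)) .nil)) (.cons 230 (.leaf 301 1646 (.cons 181 (.leaf 205 1455 (.cons 207 (.leaf 183 1461 (.leaf 182 1432 .nil)) .nil)) .nil)) (.cons 230 (.leaf 301 1646 (.cons 154 (.leaf 178 1239 (.cons 183 (.leaf 207 1461 (.cons 182 (.leaf 159 1269 (.cons 279 (.leaf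 255 1460 (.leaf 303 1652 .nil)) .nil)) .nil)) .nil)) .nil)) (.cons 230 (.leaf 301 1646 (.cons 154 (.leaf 178 1239 (.cons 155 (.leaf 130 1047 (.cons 181 (.leaf 205 1455 (.leaf 182 1235 .nil)) .nil)) .nil)) .nil)) (.cons 230 (.leaf 301 1646 (.cons 154 (.leaf 178 1239 (.cons 205 (.leaf 181 1455 (.cons 207 (.leaf 183 1461 (.cons 302 (.leaf 229 1647 (.leaf 231 1653 .nil)) .nil)) .nil)) .nil)) .nil)) .nil))))) .nil)) .nil)) (.cons 180 (.leaf 204 1437 (.cons 179 (.leaf 156 1245 (.cons 206 (.cons 230 (.leaf 301 1646 (.cons 154 (.leaf 178 1239 (.cons 155 (.leaf 130 1047 (.cons 181 (.leaf 205 1455 (.leaf 182 1235 .nil)) .nil)) .nil)) .nil)) (.cons 178 (.leaf 154 1239 (.cons 181 (.leaf 205 1424 (.cons 158 (.leaf 157 1233 (.cons 182 (.leaf 159 1241 (.leaf 207 1432 .nil)) .nil)) .nil)) .nil)) (.cons 230 (.leaf 301 1646 (.cons 181 (.leaf 205 1455 (.cons 207 (.leaf 183 1461 (.leaf 182 1432 .nil))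 .nil)) .nil)) (.cons 230 (.leaf 301 1646 (.cons 154 (.leaf 178 1239 (.cons 130 (.leaf 155 1047 (.cons 303 (.leaf 279 1652 (.cons 302 (.leaf 276 2200 (.leaf 327 1844 .nil)) .nil)) .nil)) .nil)) .nil)) .nil)))) .nil)) .nil)) (.cons 276 (.leaf 255 2009 (.cons 302 (.leaf 301 2192 (.leaf 303 2200 .nil)) .nil)) (.cons 255 (.leaf 276 2009 (.cons 204 (.leaf 180 1437 (.cons 206 (.cons 205 (.leaf 226 1618 (.cons 230 (.leaf 231 1624 (.leaf 181 1455 .nil)) .nil)) (.cons 205 (.leaf 226 1618 (.cons 183 (.leaf 182 1433 (.cons 207 (.leaf 231 1462 (.leaf 184 1441 .nil)) .nil)) .nil)) (.cons 230 (.leaf 301 1646 (.cons 279 (.leaf 182 1460 (.leaf 303 1652 .nil)) .nil)) .nil))) .nil)) .nil)) (.cons 180 (.leaf 204 1437 (.cons 206 (.cons 276 (.leaf 255 2009 (.cons 303 (.leaf 302 2200 (.cons 279 (.leaf 230 1652 (.leaf 304 2208 .nil)) .nil)) .nil)) (.cons 179 (.leaf 156 1245 (.cons 178 (.leaf 154 1239 (.cons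 181 (.leaf 205 1424 (.cons 158 (.leaf 157 1233 (.cons 182 (.leaf 159 1241 (.leaf 207 1432 .nil)) .nil)) .nil)) .nil)) .nil)) .nil)) .nil)) (.cons 255 (.leaf 276 2009 (.cons 180 (.leaf 204 1437 (.cons 179 (.leaf 156 1245 (.cons 206 (.cons 178 (.leaf 154 1239 (.cons 230 (.leaf 301 1646 (.cons 181 (.leaf 205 1424 (.cons 182 (.leaf 157 1263 (.leaf 279 1460 .nil)) .nil)) .nil)) .nil)) (.cons 178 (.leaf 154 1239 (.cons 181 (.leaf 205 1424 (.cons 158 (.leaf 157 1233 (.cons 182 (.leaf 159 1241 (.leaf 207 1432 .nil)) .nil)) .nil)) .nil)) (.cons 256 (.leaf 257 2026 (.cons 230 (.leaf 301 1646 (.cons 181 (.leaf 205 1455 (.cons 182 (.leaf 157 1263 (.leaf 279 1460 .nil)) .nil)) .nil)) .nil)) (.cons 230 (.leaf 301 1646 (.cons 154 (.leaf 178 1239 (.cons 182 (.leaf 279 1460 (.cons 183 (.leaf 159 1269 (.leaf 207 1461 .nil)) .nil)) .nil)) .nil)) (.cons 230 (.leaf 301 1646 (.cons 205 (.leaf 181 1455 (.cons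 207 (.leaf 183 1461 (.cons 302 (.leaf 229 1647 (.leaf 231 1653 .nil)) .nil)) .nil)) .nil)) .nil))))) .nil)) .nil)) .nil)) .nil))))))
noncomputable def t356 : T := .cons 204 (.leaf 180 1437 (.cons 205 (.leaf 226 1618 (.cons 178 (.leaf 179 1427 (.cons 230 (.leaf 231 1624 (.cons 278 (.leaf 181 1455 (.leaf 301 1646 .nil)) .nil)) .nil)) .nil)) .nil)) (.cons 230 (.cons 278 (.leaf 301 1646 (.cons 181 (.leaf 205 1455 (.cons 207 (.leaf 183 1461 (.cons 302 (.leaf 231 1653 (.cons 303 (.leaf 279 1652 (.leaf 327 1844 .nil)) .nil)) .nil)) .nil)) .nil)) (.cons 182 (.leaf 253 1454 (.cons 157 (.leaf 181 1263 (.cons 158 (.leaf 133 1071 (.cons 159 (.leaf 183 1269 (.leaf 135 1077 .nil)) .nil)) .nil)) .nil)) (.cons 182 (.leaf 253 1454 (.cons 157 (.leaf 181 1263 (.cons 158 (.leaf 133 1071 (.cons 255 (.leaf 279 1460 (.leaf 231 1268 .nil)) .nil)) .nil)) .nil)) (.cons 182 (.leaf 253 1454 (.cons 159 (.leaf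 183 1269 (.cons 158 (.leaf 135 1077 (.cons 255 (.leaf 279 1460 (.leaf 231 1268 .nil)) .nil)) .nil)) .nil)) .nil)))) (.cons 180 (.leaf 204 1437 (.cons 179 (.leaf 156 1245 (.cons 178 (.leaf 154 1239 (.cons 181 (.leaf 205 1424 (.cons 158 (.leaf 157 1233 (.cons 182 (.leaf 207 1432 (.leaf 159 1241 .nil)) .nil)) .nil)) .nil)) .nil)) .nil)) (.cons 180 (.leaf 204 1437 (.cons 179 (.leaf 156 1245 (.cons 154 (.leaf 178 1239 (.cons 155 (.leaf 130 1047 (.cons 182 (.leaf 181 1235 (.cons 230 (.leaf 253 1454 (.cons 183 (.leaf 159 1269 (.cons 278 (.leaf 207 1461 (.leaf 301 1646 .nil)) .nil)) .nil)) .nil)) .nil)) .nil)) .nil)) .nil)) (.cons 204 (.leaf 180 1437 (.cons 205 (.leaf 226 1618 (.cons 178 (.leaf 179 1427 (.cons 182 (.leaf 183 1433 (.cons 230 (.leaf 231 1624 (.leaf 253 1454 .nil)) .nil)) .nil)) .nil)) .nil)) .nil))))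
noncomputable def t357 : T := .cons 204 (.leaf 180 1437 (.cons 276 (.leaf 253 2001 (.cons 278 (.leaf 255 2009 (.cons 302 (.leaf 301 2192 (.leaf 303 2200 .nil)) .nil)) .nil)) .nil)) (.cons 206 t356 (.cons 276 (.leaf 253 2001 (.cons 278 (.leaf 255 2009 (.cons 302 (.leaf 301 2192 (.leaf 303 2200 .nil)) .nil)) .nil)) (.cons 278 (t355) (.cons 253 (.leaf 276 2001 (.cons 204 (.leaf 180 1437 (.cons 206 (.cons 230 (.leaf 182 1454 (.cons 205 (.leaf 226 1618 (.leaf 231 1624 .nil)) .nil)) (.cons 230 (.leaf 182 1454 (.cons 301 (.leaf 325 1837 (.leaf 229 1645 .nil)) .nil)) (.cons 205 (.leaf 226 1618 (.cons 182 (.leaf 183 1433 (.leaf 229 1453 .nil)) .nil)) (.cons 205 (.leaf 226 1618 (.cons 230 (.leaf 231 1624 (.cons 301 (.leaf 325 1837 (.leaf 229 1645 .nil)) .nil)) .nil)) .nil)))) .nil)) .nil)) (.cons 204 (.leaf 180 1437 (.cons 206 (.cons 205 (.leaf 226 1618 (.cons 178 (.leaf 179 1427 (.cons 182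 (.leaf 183 1433 (.cons 253 (.leaf 276 2001 (.leaf 230 1454 .nil)) .nil)) .nil)) .nil)) (.cons 276 (.leaf 253 2001 (.cons 278 (.leaf 255 2009 (.cons 303 (.leaf 302 2200 (.cons 279 (.leaf 230 1652 (.leaf 304 2208 .nil)) .nil)) .nil)) .nil)) (.cons 205 (.leaf 226 1618 (.cons 178 (.leaf 179 1427 (.cons 182 (.leaf 183 1433 (.cons 230 (.leaf 231 1624 (.leaf 253 1454 .nil)) .nil)) .nil)) .nil)) (.cons 205 (.leaf 226 1618 (.cons 178 (.leaf 179 1427 (.cons 183 (.leaf 182 1433 (.cons 207 (.leaf 184 1441 (.cons 230 (.leaf 231 1624 (.leaf 278 1461 .nil)) .nil)) .nil)) .nil)) .nil)) (.cons 205 (.leaf 226 1618 (.cons 178 (.leaf 179 1427 (.cons 182 (.leaf 183 1433 (.cons 253 (.leaf 276 2001 (.leaf 229 1453 .nil)) .nil)) .nil)) .nil)) .nil))))) .nil)) .nil)))))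
noncomputable def t358 : T := .cons 252 (.leaf 253 2002 (.cons 179 (.leaf 276 1436 (.cons 180 (.leaf 204 1437 (.leaf 156 1245 .nil)) .nil)) .nil)) (.cons 277 t357 (.cons 278 t354 (.cons 278 (.cons 252 (.leaf 253 2002 (.cons 272 (.leaf 273 1985 (.cons 276 (.leaf 179 1436 (.cons 277 (.leaf 255 2009 (.leaf 279 2011 .nil)) .nil)) .nil)) .nil)) (.cons 302 t348 (.cons 302 t346 (.cons 253 (.leaf 252 2002 (.cons 302 t344 .nil)) (.cons 253 (.leaf 252 2002 (.cons 302 t343 .nil)) (.cons 252 (.leaf 253 2002 (.cons 272 (.leaf 273 1985 (.cons 276 (.leaf 179 1436 (.cons 277 (.leaf 279 2011 (.cons 302 (.leaf 301 2192 (.leaf 303 2200 .nil)) .nil)) .nil)) .nil)) .nil)) (.cons 252 (.leaf 253 2002 (.cons 272 (.leaf 273 1985 (.cons 276 (.leaf 179 1436 (.cons 277 (.leaf 255 2009 (.cons 302 (.leaf 301 2192 (.leaf 303 2200 .nil)) .nil)) .nil)) .nil)) .nil)) .nil))))))) (.cons 252 (.leaf 253 2002 (.cons 179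 (.leaf 276 1436 (.cons 154 (.leaf 178 1239 (.cons 155 (.leaf 130 1047 (.cons 156 (.leaf 180 1245 (.leaf 132 1053 .nil)) .nil)) .nil)) .nil)) .nil)) (.cons 253 (.leaf 252 2002 (.cons 277 (.leaf 276 2001 (.cons 204 (.leaf 180 1437 (.cons 206 (.cons 230 (.leaf 182 1454 (.cons 301 (.leaf 278 1646 (.leaf 325 1837 .nil)) .nil)) (.cons 205 (.leaf 226 1618 (.cons 182 (.leaf 183 1433 (.leaf 229 1453 .nil)) .nil)) (.cons 205 (.leaf 226 1618 (.cons 230 (.leaf 231 1624 (.cons 301 (.leaf 278 1646 (.leaf 325 1837 .nil)) .nil)) .nil)) .nil))) .nil)) .nil)) .nil)) (.cons 253 (.leaf 252 2002 (.cons 206 t342 .nil)) .nil))))))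
noncomputable def t359 : T := .cons 230 (.leaf 231 1818 (.cons 254 (.leaf 255 1816 (.cons 253 (.leaf 274 2002 (.leaf 226 1808 .nil)) .nil)) .nil)) (.cons 230 (.leaf 231 1818 (.cons 206 (.leaf 207 1625 (.cons 205 (.leaf 226 1617 (.cons 157 (.leaf 181 1254 (.cons 254 (.leaf 255 1816 (.cons 278 (.leaf 302 1647 (.cons 277 (.leaf 301 1646 (.cons 276 (.leaf 298 2194 (.leaf 279 2011 .nil)) .nil)) .nil)) .nil)) .nil)) .nil)) .nil)) .nil)) (.cons 253 (.cons 254 (.leaf 274 2002 (.leaf 226 1808 .nil)) (.cons 226 (.leaf 225 1800 (.cons 205 (.leaf 206 1617 (.cons 181 (.leaf 157 1254 (.leaf 276 1446 .nil)) .nil)) .nil)) (.cons 254 (.leaf 274 2002 (.leaf 255 1819 .nil)) .nil))) (.cons 230 (.leaf 231 1818 (.cons 206 (.leaf 207 1625 (.cons 205 (.leaf 226 1617 (.cons 181 (.leaf 157 1254 (.cons 253 (.leaf 276 1446 (.cons 182 (.leaf 158 1261 (.leaf 277 1453 .nil)) .nil)) .nil)) .nil)) .nil)) .nil)) (.cons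 230 (.leaf 231 1818 (.cons 206 (.leaf 207 1625 (.cons 254 (.leaf 255 1816 (.cons 253 (.leaf 274 2002 (.cons 182 (.leaf 158 1262 (.leaf 277 1454 .nil)) .nil)) .nil)) .nil)) .nil)) .nil))))
noncomputable def t360 : T := .cons 298 (.leaf 322 1814 (.cons 274 (.leaf 203 1622 (.cons 276 (.cons 297 (.leaf 277 2186 (.leaf 296 2177 .nil)) (.cons 277 (.leaf 278 2194 (.cons 253 (.leaf 254 2001 (.cons 252 (.leaf 273 1993 (.cons 301 (.leaf 302 2192 (.cons 323 (.leaf 228 1821 (.leaf 347 2013 .nil)) .nil)) .nil)) .nil)) .nil)) (.cons 297 (.leaf 296 2177 (.cons 273 (.cons 252 (.leaf 272 1985 (.leaf 253 1993 .nil)) (.cons 248 (.leaf 249 1987 (.cons 272 (.leaf 247 1979 (.leaf 271 2168 .nil)) .nil)) (.cons 249 (.leaf 248 1987 (.cons 225 (.leaf 201 1612 (.cons 252 (.leaf 253 1993 (.cons 228 (.leaf 204 1629 (.leaf 323 1821 .nil)) .nil)) .nil)) .nil)) .nil))) .nil)) .nil))) .nil)) .nil)) (.cons 228 (.leaf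 204 1629 (.cons 323 (.leaf 252 1821 (.cons 346 (.leaf 322 2006 (.cons 347 (.leaf 370 2198 (.cons 348 (.leaf 324 2012 (.leaf 372 2204 .nil)) .nil)) .nil)) .nil)) .nil)) (.cons 298 (.leaf 322 1814 (.cons 274 (.leaf 203 1622 (.cons 276 (.cons 297 (.leaf 277 2186 (.leaf 296 2177 .nil)) (.cons 277 (.leaf 278 2194 (.cons 253 (.leaf 254 2001 (.cons 252 (.leaf 273 1993 (.cons 301 (.leaf 302 2192 (.cons 323 (.leaf 347 2013 (.cons 324 (.leaf 348 2012 (.cons 325 (.leaf 326 2387 (.leaf 349 2023 .nil)) .nil)) .nil)) .nil)) .nil)) .nil)) .nil)) (.cons 297 (.leaf 296 2177 (.cons 273 (.cons 252 (.leaf 272 1985 (.leaf 253 1993 .nil)) (.cons 249 (.leaf 248 1987 (.cons 225 (.leaf 201 1612 (.cons 252 (.leaf 253 1993 (.cons 224 (.leaf 226 1792 (.leaf 200 1607 .nil)) .nil)) .nil)) .nil)) (.cons 248 (.leaf 249 1987 (.cons 272 (.leaf 247 1979 (.leaf 271 2168 .nil)) .nil)) .nil))) .nil)) .nil))) .nil)) .nil))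 (.cons 228 (.leaf 204 1629 (.cons 252 (.leaf 323 1821 (.cons 229 t359 .nil)) .nil)) (.cons 298 (.leaf 322 1814 (.cons 203 (.leaf 274 1622 (.cons 204 (.leaf 180 1437 (.leaf 228 1629 .nil)) .nil)) .nil)) .nil))))
noncomputable def t361 : T := .cons 253 (.leaf 254 1811 (.cons 203 (.cons 179 (.leaf 276 1436 (.cons 154 (.leaf 178 1239 (.cons 155 (.leaf 130 1047 (.leaf 228 1244 .nil)) .nil)) .nil)) (.cons 225 (.leaf 224 1792 (.leaf 228 1800 .nil)) (.cons 179 (.leaf 276 1436 (.cons 178 (.leaf 202 1431 (.leaf 154 1239 .nil)) .nil)) .nil))) .nil)) (.cons 225 (.leaf 224 1792 (.cons 203 (.cons 179 (.leaf 276 1436 (.cons 155 (.leaf 228 1244 (.cons 130 (.leaf 154 1047 (.cons 131 (.leaf 202 1046 (.leaf 106 855 .nil)) .nil)) .nil)) .nil)) (.cons 202 (.leaf 178 1431 (.cons 274 (.leaf 298 1622 (.cons 273 (.leaf 272 1985 (.cons 249 (.leaf 297 1613 (.cons 248 (.leaf 276 1987 (.leaf 228 1794 .nil)) .nil))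 .nil)) .nil)) .nil)) (.cons 179 (.leaf 276 1436 (.cons 155 (.leaf 228 1244 (.cons 130 (.leaf 154 1047 (.cons 131 (.leaf 106 855 (.cons 132 (.leaf 156 1053 (.leaf 108 861 .nil)) .nil)) .nil)) .nil)) .nil)) (.cons 202 (.leaf 178 1431 (.cons 274 (.leaf 298 1622 (.cons 273 (.leaf 272 1985 (.cons 249 (.leaf 297 1613 (.cons 228 (.leaf 248 1794 (.cons 201 (.leaf 200 1600 (.leaf 229 1611 .nil)) .nil)) .nil)) .nil)) .nil)) .nil)) (.cons 179 (.leaf 276 1436 (.cons 178 (.leaf 202 1431 (.leaf 154 1239 .nil)) .nil)) .nil))))) .nil)) (.cons 253 (.leaf 254 1811 (.cons 203 (.cons 179 (.leaf 276 1436 (.cons 154 (.leaf 178 1239 (.cons 155 (.leaf 130 1047 (.leaf 228 1244 .nil)) .nil)) .nil)) (.cons 274 (.leaf 298 1622 (.cons 273 (.leaf 272 1985 (.leaf 276 1993 .nil)) .nil)) (.cons 178 (.leaf 202 1431 (.cons 179 (.leaf 154 1239 (.cons 155 (.leaf 228 1244 (.cons 156 (.leaf 180 1245 (.leaf 132 1053 .nil))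 .nil)) .nil)) .nil)) .nil))) .nil)) (.cons 253 (.leaf 254 1811 (.cons 225 (.leaf 224 1792 (.leaf 228 1800 .nil)) .nil)) (.cons 253 (.leaf 254 1811 (.cons 225 (.leaf 224 1792 (.cons 274 (.cons 273 (.leaf 272 1985 (.leaf 276 1993 .nil)) (.cons 203 (.leaf 298 1622 (.cons 179 (.leaf 276 1436 (.cons 154 (.leaf 178 1239 (.cons 155 (.leaf 130 1047 (.cons 156 (.leaf 180 1245 (.leaf 132 1053 .nil)) .nil)) .nil)) .nil)) .nil)) (.cons 273 (.leaf 272 1985 (.cons 298 (.leaf 203 1622 (.cons 249 (.leaf 201 1612 (.cons 322 (.leaf 346 2005 (.leaf 297 1804 .nil)) .nil)) .nil)) .nil)) .nil))) .nil)) .nil)) .nil))))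
noncomputable def t362 : T := .cons 253 (.leaf 254 1811 (.cons 225 (.leaf 224 1792 (.leaf 228 1800 .nil)) .nil)) (.cons 225 (.leaf 224 1792 (.cons 299 (.cons 323 (.leaf 228 1821 (.cons 322 (.leaf 298 1814 (.leaf 346 2006 .nil)) .nil)) (.cons 298 (.leaf 322 1814 (.cons 203 (.leaf 274 1622 (.cons 179 (.leaf 276 1436 (.cons 154 (.leaf 178 1239 (.cons 155 (.leaf 130 1047 (.leaf 228 1244 .nil)) .nil)) .nil)) .nil)) .nil)) (.cons 298 (.leaf 322 1814 (.cons 203 (.leaf 274 1622 (.cons 179 (.leaf 276 1436 (.cons 154 (.leaf 178 1239 (.cons 155 (.leaf 130 1047 (.cons 156 (.leaf 180 1245 (.leaf 132 1053 .nil)) .nil)) .nil)) .nil)) .nil)) .nil)) (.cons 323 (.leaf 228 1821 (.cons 322 (.leaf 346 2006 (.cons 347 (.leaf 276 2013 (.cons 348 (.leaf 324 2012 (.leaf 372 2204 .nil)) .nil)) .nil)) .nil)) (.cons 323 (.leaf 228 1821 (.cons 347 (.leaf 276 2013 (.cons 348 (.leaf 324 2012 (.leaf 372 2204 .nil))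 .nil)) .nil)) .nil))))) .nil)) (.cons 253 (.leaf 254 1811 (.cons 274 (.cons 203 (.leaf 298 1622 (.cons 273 (.leaf 272 1985 (.leaf 276 1993 .nil)) .nil)) (.cons 203 (.leaf 298 1622 (.cons 179 (.leaf 276 1436 (.cons 154 (.leaf 178 1239 (.cons 155 (.leaf 130 1047 (.leaf 228 1244 .nil)) .nil)) .nil)) .nil)) (.cons 273 (.leaf 272 1985 (.leaf 276 1993 .nil)) (.cons 272 (.leaf 273 1985 (.cons 298 (.leaf 203 1622 (.cons 322 (.leaf 299 1814 (.leaf 346 2005 .nil)) .nil)) .nil)) .nil)))) .nil)) (.cons 253 (.leaf 254 1811 (.cons 225 (.leaf 224 1792 (.cons 274 (.cons 273 (.leaf 272 1985 (.leaf 276 1993 .nil)) (.cons 203 (.leaf 298 1622 (.cons 179 (.leaf 276 1436 (.cons 154 (.leaf 178 1239 (.cons 155 (.leaf 130 1047 (.cons 156 (.leaf 180 1245 (.leaf 132 1053 .nil)) .nil)) .nil)) .nil)) .nil)) (.cons 273 (.leaf 272 1985 (.cons 298 (.leaf 203 1622 (.cons 249 (.leaf 201 1612 (.cons 322 (.leaf 299 1814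 (.leaf 346 2005 .nil)) .nil)) .nil)) .nil)) .nil))) .nil)) .nil)) .nil)))
noncomputable def t363 : T := .cons 253 (.leaf 254 1811 (.cons 203 (.cons 179 (.leaf 276 1436 (.cons 154 (.leaf 178 1239 (.cons 155 (.leaf 130 1047 (.leaf 228 1244 .nil)) .nil)) .nil)) (.cons 202 (.leaf 178 1431 (.leaf 299 1623 .nil)) (.cons 179 (.leaf 276 1436 (.cons 155 (.leaf 228 1244 (.cons 130 (.leaf 154 1047 (.cons 131 (.leaf 202 1046 (.leaf 106 855 .nil)) .nil)) .nil)) .nil)) .nil))) .nil)) (.cons 225 (.leaf 224 1792 (.cons 203 (.cons 179 (.leaf 276 1436 (.cons 155 (.leaf 228 1244 (.cons 130 (.leaf 154 1047 (.cons 131 (.leaf 202 1046 (.leaf 106 855 .nil)) .nil)) .nil)) .nil)) (.cons 179 (.leaf 276 1436 (.cons 155 (.leaf 228 1244 (.cons 130 (.leaf 154 1047 (.cons 131 (.leaf 106 855 (.cons 132 (.leaf 156 1053 (.leaf 108 861 .nil)) .nil)) .nil)) .nil)) .nil)) (.cons 202 (.leaf 178 1431 (.leaf 299 1623 .nil))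 .nil))) .nil)) (.cons 253 (.leaf 254 1811 (.cons 225 (.leaf 224 1792 (.leaf 228 1800 .nil)) .nil)) (.cons 253 (.leaf 254 1811 (.cons 225 (.leaf 224 1792 (.cons 274 (.cons 273 (.leaf 272 1985 (.leaf 276 1993 .nil)) (.cons 203 (.leaf 298 1622 (.cons 179 (.leaf 276 1436 (.cons 156 (.leaf 180 1245 (.cons 155 (.leaf 132 1053 (.cons 130 (.leaf 154 1047 (.cons 131 (.leaf 202 1046 (.leaf 106 855 .nil)) .nil)) .nil)) .nil)) .nil)) .nil)) (.cons 273 (.leaf 272 1985 (.cons 298 (.leaf 203 1622 (.cons 249 (.leaf 201 1612 (.cons 322 (.leaf 299 1814 (.leaf 346 2005 .nil)) .nil)) .nil)) .nil)) .nil))) .nil)) .nil)) .nil)))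
noncomputable def t364 : T := .cons 180 (.leaf 204 1437 (.cons 179 (.leaf 156 1245 (.cons 252 (.leaf 276 1436 (.cons 274 (.leaf 298 1622 (.cons 178 (.leaf 202 1431 (.leaf 154 1239 .nil)) .nil)) .nil)) .nil)) .nil)) (.cons 178 (.leaf 202 1431 (.cons 179 (.leaf 154 1239 (.cons 156 (.leaf 180 1245 (.cons 155 (.leaf 132 1053 (.cons 252 (.leaf 276 1436 (.leaf 228 1244 .nil)) .nil)) .nil)) .nil)) .nil)) (.cons 274 (.leaf 298 1622 (.cons 179 (.cons 202 (.leaf 178 1431 (.cons 252 (.leaf 276 1436 (.cons 155 (.leaf 228 1244 (.cons 130 (.leaf 154 1047 (.cons 131 (.leaf 106 855 (.leaf 226 1046 .nil)) .nil)) .nil)) .nil)) .nil)) (.cons 252 (.leaf 276 1436 (.cons 155 (.leaf 228 1244 (.cons 130 (.leaf 154 1047 (.cons 131 (.leaf 106 855 (.cons 132 (.leaf 156 1053 (.leaf 108 861 .nil)) .nil)) .nil)) .nil)) .nil)) (.cons 178 (.leaf 202 1431 (.leaf 154 1239 .nil)) (.cons 202 (.leaf 178 1431 (.cons 252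 (.leaf 276 1436 (.cons 155 (.leaf 228 1244 (.cons 131 (.leaf 226 1046 (.cons 132 (.leaf 156 1053 (.leaf 108 861 .nil)) .nil)) .nil)) .nil)) .nil)) .nil)))) .nil)) (.cons 180 (.leaf 204 1437 (.cons 179 (.leaf 156 1245 (.cons 252 (.leaf 276 1436 (.cons 274 (.leaf 298 1622 (.cons 253 (.leaf 254 2002 (.cons 228 (.leaf 155 1244 (.cons 226 (.leaf 225 1800 (.cons 273 (.leaf 272 1985 (.cons 229 (.cons 202 (.leaf 201 1611 (.leaf 230 1619 .nil)) (.cons 206 (.leaf 205 1617 (.cons 230 (.leaf 231 1818 (.leaf 207 1625 .nil)) .nil)) (.cons 202 (.leaf 201 1611 (.cons 181 (.leaf 182 1426 (.cons 205 (.leaf 206 1617 (.leaf 157 1254 .nil)) .nil)) .nil)) .nil))) .nil)) .nil)) .nil)) .nil)) .nil)) .nil)) .nil)) .nil)) (.cons 180 (.leaf 204 1437 (.cons 179 (.leaf 156 1245 (.cons 154 (.leaf 178 1239 (.cons 155 (.leaf 130 1047 (.cons 252 (.leaf 276 1436 (.leaf 228 1244 .nil)) .nil)) .nil)) .nil)) .nil)) (.cons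 204 (.leaf 180 1437 (.cons 202 (.leaf 178 1431 (.cons 274 (.leaf 298 1622 (.cons 205 (.cons 226 (.leaf 206 1618 (.leaf 225 1610 .nil)) (.cons 181 (.leaf 182 1425 (.cons 229 (.leaf 230 1616 (.cons 201 (.leaf 228 1608 (.cons 176 (.leaf 177 1411 (.cons 200 (.leaf 175 1403 (.cons 224 (.leaf 223 1594 (.leaf 225 1602 .nil)) .nil)) .nil)) .nil)) .nil)) .nil)) (.cons 181 (.leaf 182 1425 (.cons 206 (.leaf 226 1618 (.cons 230 (.leaf 229 1616 (.leaf 231 1624 .nil)) .nil)) .nil)) .nil))) .nil)) .nil)) .nil)) .nil)))))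
noncomputable def t365 : T := .cons 206 (.leaf 207 1625 (.cons 254 (.leaf 255 1816 (.cons 253 (.cons 277 (.leaf 301 1645 (.leaf 205 1447 .nil)) (.cons 182 (.leaf 158 1262 (.cons 181 (.leaf 157 1263 (.cons 205 (.leaf 278 1452 (.cons 183 (.leaf 184 1442 (.leaf 159 1269 .nil)) .nil)) .nil)) .nil)) (.cons 277 (.leaf 301 1645 (.leaf 182 1454 .nil)) .nil))) .nil)) .nil)) (.cons 231 (.cons 205 (.leaf 232 1635 (.cons 255 (.leaf 254 1816 (.leaf 256 1824 .nil)) .nil)) (.cons 232 (.leaf 205 1635 (.cons 209 (.leaf 208 1641 (.cons 233 (.leaf 210 1649 (.cons 257 (.leaf 256 1832 (.leaf 258 1840 .nil)) .nil)) .nil)) .nil)) (.cons 255 (.leaf 254 1816 (.leaf 256 1824 .nil)) (.cons 205 (.leaf 232 1635 (.cons 253 (.leaf 277 1447 (.cons 254 (.leaf 255 1816 (.cons 181 (.leaf 157 1260 (.leaf 278 1452 .nil)) .nil)) .nil)) .nil)) .nil)))) (.cons 207 (.leaf 206 1625 (.cons 231 (.leaf 208 1633 (.cons 232 (.leaf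 205 1635 (.cons 256 (.leaf 255 1824 (.leaf 257 1832 .nil)) .nil)) .nil)) .nil)) (.cons 207 (.leaf 206 1625 (.cons 231 (.leaf 208 1633 (.cons 205 (.leaf 232 1635 (.cons 253 (.leaf 277 1447 (.cons 181 (.cons 157 (.leaf 133 1062 (.leaf 254 1260 .nil)) (.cons 157 (.leaf 133 1062 (.cons 158 (.leaf 134 1069 (.leaf 182 1261 .nil)) .nil)) (.cons 182 (.leaf 158 1261 (.cons 254 (.leaf 278 1452 (.cons 183 (.leaf 184 1442 (.leaf 159 1270 .nil)) .nil)) .nil)) .nil))) .nil)) .nil)) .nil)) .nil)) (.cons 255 (.leaf 254 1816 (.cons 207 (.leaf 206 1625 (.cons 231 (.leaf 208 1633 (.leaf 256 1824 .nil)) .nil)) .nil)) .nil))))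
noncomputable def t366 : T := .cons 230 (.leaf 255 1816 (.cons 206 (.leaf 207 1625 (.cons 253 (.leaf 226 1808 (.cons 182 (.leaf 158 1262 (.leaf 277 1454 .nil)) .nil)) .nil)) .nil)) (.cons 226 (.leaf 253 1808 (.cons 201 (.leaf 202 1611 (.cons 205 (.leaf 206 1617 (.cons 225 (.leaf 200 1603 (.leaf 204 1609 .nil)) .nil)) .nil)) .nil)) (.cons 230 (.leaf 255 1816 (.cons 206 (.leaf 207 1625 (.cons 278 (.cons 205 (.leaf 302 1647 (.leaf 181 1455 .nil)) (.cons 277 (.leaf 301 1646 (.cons 182 (.leaf 253 1454 (.cons 157 (.leaf 181 1263 (.cons 303 (.leaf 279 1652 (.cons 302 (.leaf 276 2200 (.leaf 327 1844 .nil)) .nil)) .nil)) .nil)) .nil)) (.cons 181 (.leaf 205 1455 (.cons 182 (.leaf 157 1263 (.cons 253 (.leaf 158 1262 (.leaf 277 1454 .nil)) .nil)) .nil)) (.cons 302 (.leaf 205 1647 (.cons 301 (.leaf 277 1646 (.leaf 325 1838 .nil)) .nil)) .nil)))) .nil)) .nil)) (.cons 230 (.leaf 255 1816 (.cons 206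 (.leaf 207 1625 (.cons 205 (.leaf 226 1617 (.cons 181 (.leaf 157 1260 (.leaf 278 1455 .nil)) .nil)) .nil)) .nil)) (.cons 253 (.leaf 226 1808 (.cons 255 (.leaf 230 1816 (.leaf 256 1827 .nil)) .nil)) .nil))))
noncomputable def t367 : T := .cons 299 (.leaf 204 1629 (.cons 226 (.leaf 202 1623 (.cons 206 (.leaf 205 1617 (.cons 230 (.leaf 207 1625 (.cons 254 (.leaf 253 1808 (.leaf 255 1816 .nil)) .nil)) .nil)) .nil)) .nil)) (.cons 254 t366 (.cons 226 (.cons 202 (.leaf 299 1623 (.leaf 201 1611 .nil)) (.cons 254 (.leaf 253 1808 (.cons 206 (.leaf 205 1617 (.cons 230 (.leaf 207 1625 (.leaf 255 1816 .nil)) .nil)) .nil)) .nil)) (.cons 204 (.leaf 299 1629 (.cons 180 (.leaf 156 1246 (.cons 230 t365 .nil)) .nil)) (.cons 204 (.leaf 299 1629 (.cons 180 (.leaf 156 1246 (.cons 253 (.cons 254 (.leaf 226 1808 (.cons 255 (.leaf 256 1827 (.cons 277 (.leaf 301 1639 (.leaf 205 1447 .nil)) .nil)) .nil)) (.cons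 226 (.leaf 254 1808 (.cons 201 (.leaf 202 1611 (.cons 225 (.leaf 200 1603 (.leaf 205 1609 .nil)) .nil)) .nil)) (.cons 254 (.leaf 226 1808 (.cons 255 (.leaf 256 1827 (.cons 277 (.leaf 301 1639 (.cons 276 (.leaf 274 2001 (.leaf 278 2009 .nil)) .nil)) .nil)) .nil)) (.cons 277 (.leaf 301 1639 (.leaf 205 1447 .nil)) .nil)))) .nil)) .nil)) (.cons 226 (.cons 202 (.leaf 299 1623 (.leaf 201 1611 .nil)) (.cons 201 (.leaf 202 1611 (.cons 205 (.leaf 206 1617 (.cons 225 (.leaf 200 1603 (.leaf 204 1609 .nil)) .nil)) .nil)) (.cons 204 (.leaf 299 1629 (.cons 205 (.leaf 225 1609 (.leaf 206 1617 .nil)) .nil)) .nil))) (.cons 299 (.leaf 204 1629 (.cons 226 (.leaf 202 1623 (.cons 322 (.leaf 298 1814 (.cons 323 (.leaf 346 2006 (.cons 324 (.leaf 348 2012 (.cons 302 (.cons 254 (.leaf 253 1808 (.cons 230 (.leaf 255 1816 (.cons 207 (.leaf 206 1625 (.cons 231 (.leaf 208 1633 (.leaf 278 1653 .nil)) .nil)) .nil))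 .nil)) (.cons 325 (.leaf 301 2385 (.cons 326 (.leaf 303 2393 (.cons 350 (.leaf 349 2576 (.leaf 351 2584 .nil)) .nil)) .nil)) .nil)) .nil)) .nil)) .nil)) .nil)) .nil)) .nil))))))
noncomputable def t368 : T := .cons 229 (.cons 201 (.leaf 202 1611 (.cons 225 (.leaf 200 1603 (.cons 206 (.leaf 205 1617 (.cons 252 (.leaf 224 1792 (.leaf 253 1800 .nil)) .nil)) .nil)) .nil)) (.cons 253 (.leaf 254 1808 (.cons 205 (.leaf 206 1617 (.cons 252 (.leaf 225 1800 (.cons 181 (.leaf 157 1254 (.leaf 276 1446 .nil)) .nil)) .nil)) .nil)) (.cons 202 (.leaf 299 1623 (.leaf 201 1611 .nil)) .nil))) (.cons 229 (.cons 253 (.leaf 254 1808 (.cons 205 (.leaf 206 1617 (.cons 252 (.leaf 225 1800 (.cons 181 (.leaf 157 1254 (.leaf 276 1446 .nil)) .nil)) .nil)) .nil)) (.cons 202 (.leaf 201 1611 (.cons 154 (.leaf 178 1236 (.cons 206 (.leaf 205 1617 (.cons 230 (.leaf 207 1625 (.cons 231 (.leaf 252 1818 (.cons 255 (.leaf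 254 1816 (.leaf 256 1824 .nil)) .nil)) .nil)) .nil)) .nil)) .nil)) (.cons 202 (.leaf 201 1611 (.cons 154 (.leaf 178 1236 (.cons 206 (.leaf 205 1617 (.cons 230 (.leaf 207 1625 (.cons 252 (.leaf 231 1818 (.cons 225 (.leaf 224 1792 (.leaf 253 1800 .nil)) .nil)) .nil)) .nil)) .nil)) .nil)) (.cons 253 (.leaf 254 1808 (.cons 225 (.leaf 252 1800 (.cons 201 (.leaf 200 1603 (.leaf 202 1611 .nil)) .nil)) .nil)) (.cons 254 (.leaf 253 1808 (.cons 201 (.leaf 202 1611 (.cons 206 (.leaf 205 1617 (.cons 230 (.leaf 207 1625 (.leaf 255 1816 .nil)) .nil)) .nil)) .nil)) .nil))))) (.cons 229 (.cons 253 (.leaf 254 1808 (.cons 205 (.leaf 206 1617 (.cons 252 (.leaf 225 1800 (.cons 181 (.leaf 157 1254 (.leaf 276 1446 .nil)) .nil)) .nil)) .nil)) (.cons 206 (.leaf 205 1617 (.cons 230 (.leaf 207 1625 (.cons 231 (.leaf 252 1818 (.cons 255 (.leaf 254 1816 (.leaf 256 1824 .nil)) .nil)) .nil)) .nil)) (.cons 206 (.leaf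 205 1617 (.cons 230 (.leaf 207 1625 (.cons 252 (.leaf 231 1818 (.cons 225 (.leaf 224 1792 (.leaf 253 1800 .nil)) .nil)) .nil)) .nil)) (.cons 254 (.leaf 253 1808 (.cons 206 (.leaf 205 1617 (.cons 230 (.leaf 207 1625 (.leaf 255 1816 .nil)) .nil)) .nil)) (.cons 253 (.leaf 254 1808 (.cons 225 (.leaf 252 1800 (.cons 200 (.leaf 201 1603 (.cons 224 (.leaf 199 1595 (.cons 248 (.leaf 247 1786 (.leaf 249 1794 .nil)) .nil)) .nil)) .nil)) .nil)) .nil))))) (.cons 202 (.leaf 299 1623 (.cons 154 (.leaf 178 1236 (.cons 201 (.leaf 229 1611 (.cons 200 (.leaf 199 1592 (.leaf 225 1603 .nil)) .nil)) .nil)) .nil)) (.cons 299 (.leaf 202 1623 (.cons 298 (.leaf 322 1814 (.cons 323 (.leaf 252 1821 (.cons 348 (.leaf 324 2012 (.cons 347 (.leaf 372 2204 (.cons 370 (.leaf 346 2198 (.cons 371 (.leaf 274 2199 (.leaf 394 2390 .nil)) .nil)) .nil)) .nil)) .nil)) .nil)) .nil)) .nil))))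
noncomputable def t369 : T := .cons 226 (.leaf 253 1808 (.cons 201 (.leaf 202 1611 (.cons 205 (.leaf 206 1617 (.cons 225 (.leaf 200 1603 (.leaf 204 1609 .nil)) .nil)) .nil)) .nil)) (.cons 230 (.leaf 255 1816 (.cons 206 (.leaf 207 1625 (.cons 278 (.cons 205 (.leaf 302 1647 (.leaf 181 1455 .nil)) (.cons 277 (.leaf 301 1646 (.cons 182 (.leaf 253 1454 (.cons 157 (.leaf 181 1263 (.cons 303 (.leaf 279 1652 (.cons 302 (.leaf 276 2200 (.leaf 327 1844 .nil)) .nil)) .nil)) .nil)) .nil)) (.cons 181 (.leaf 205 1455 (.cons 182 (.leaf 157 1263 (.cons 253 (.leaf 158 1262 (.leaf 277 1454 .nil)) .nil)) .nil)) (.cons 205 (.leaf 302 1647 (.cons 277 (.leaf 301 1646 (.cons 182 (.leaf 253 1453 (.cons 158 (.leaf 134 1070 (.cons 159 (.leaf 183 1269 (.leaf 135 1077 .nil)) .nil)) .nil)) .nil)) .nil)) .nil)))) .nil)) .nil)) (.cons 230 (.leaf 255 1816 (.cons 206 (.leaf 207 1625 (.cons 205 (.leaf 226 1617 (.cons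 181 (.leaf 157 1260 (.leaf 278 1455 .nil)) .nil)) .nil)) .nil)) (.cons 253 (.leaf 226 1808 (.cons 255 (.leaf 230 1816 (.leaf 256 1827 .nil)) .nil)) .nil)))
noncomputable def t370 : T := .cons 230 (.cons 254 (.leaf 255 1816 (.cons 206 (.leaf 207 1625 (.cons 278 (.cons 205 (.leaf 302 1647 (.leaf 181 1455 .nil)) (.cons 277 (.leaf 301 1646 (.cons 182 (.leaf 253 1454 (.cons 157 (.leaf 181 1263 (.cons 303 (.leaf 279 1652 (.cons 302 (.leaf 276 2200 (.leaf 327 1844 .nil)) .nil)) .nil)) .nil)) .nil)) (.cons 181 (.leaf 205 1455 (.cons 182 (.leaf 157 1263 (.cons 253 (.leaf 158 1262 (.leaf 277 1454 .nil)) .nil)) .nil)) (.cons 205 (.leaf 302 1647 (.cons 277 (.leaf 301 1646 (.cons 182 (.leaf 253 1453 (.cons 158 (.leaf 134 1070 (.cons 159 (.leaf 135 1077 (.leaf 183 1269 .nil)) .nil)) .nil)) .nil)) .nil)) .nil)))) .nil)) .nil)) (.cons 231 (.leaf 252 1818 (.cons 207 (.leaf 206 1625 (.leaf 208 1633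 .nil)) .nil)) (.cons 252 (.leaf 231 1818 (.cons 180 (.leaf 204 1438 (.cons 254 (.leaf 255 1816 (.cons 253 (.leaf 274 2002 (.cons 278 (.leaf 279 2008 (.cons 205 (.leaf 181 1452 (.leaf 302 1647 .nil)) .nil)) .nil)) .nil)) .nil)) .nil)) .nil))) (.cons 254 t369 (.cons 226 (.cons 253 (.leaf 254 1808 (.cons 205 (.leaf 206 1617 (.cons 201 (.leaf 202 1611 (.cons 225 (.leaf 200 1603 (.leaf 204 1609 .nil)) .nil)) .nil)) .nil)) (.cons 205 (.leaf 206 1617 (.cons 204 (.leaf 225 1609 (.cons 180 (.leaf 252 1438 (.leaf 156 1246 .nil)) .nil)) .nil)) (.cons 253 (.leaf 254 1808 (.cons 225 (.leaf 252 1800 (.cons 201 (.leaf 200 1603 (.leaf 202 1611 .nil)) .nil)) .nil)) (.cons 253 (.leaf 254 1808 (.cons 205 (.leaf 206 1617 (.cons 202 (.leaf 201 1611 (.cons 178 (.leaf 154 1236 (.cons 180 (.cons 204 (.leaf 252 1438 (.leaf 156 1252 .nil)) (.cons 181 (.leaf 156 1255 (.cons 252 (.leaf 157 1254 (.leaf 276 1446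 .nil)) .nil)) (.cons 204 (.leaf 252 1438 (.leaf 277 1447 .nil)) (.cons 204 (.leaf 156 1252 (.leaf 277 1447 .nil)) .nil)))) .nil)) .nil)) .nil)) .nil)) .nil)))) (.cons 230 (.cons 206 (.leaf 207 1625 (.cons 205 (.leaf 226 1617 (.cons 254 (.leaf 255 1816 (.cons 181 (.leaf 157 1260 (.leaf 278 1455 .nil)) .nil)) .nil)) .nil)) (.cons 231 (.leaf 252 1818 (.cons 255 (.leaf 254 1816 (.leaf 256 1824 .nil)) .nil)) (.cons 206 (.leaf 207 1625 (.cons 205 (.leaf 226 1617 (.cons 231 (.leaf 252 1818 (.cons 232 (.leaf 204 1635 (.leaf 233 1643 .nil)) .nil)) .nil)) .nil)) .nil))) (.cons 226 (.cons 205 (.leaf 206 1617 (.cons 204 (.leaf 225 1609 (.cons 180 (.leaf 252 1438 (.leaf 156 1246 .nil)) .nil)) .nil)) (.cons 201 (.leaf 202 1611 (.cons 225 (.leaf 200 1603 (.cons 252 (.leaf 224 1792 (.leaf 253 1800 .nil)) .nil)) .nil)) (.cons 202 (.leaf 201 1611 (.cons 178 (.leaf 154 1236 (.cons 230 (.cons 231 (.leaf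 252 1818 (.cons 208 (.leaf 207 1633 (.cons 232 (.leaf 209 1641 (.cons 256 (.leaf 255 1824 (.leaf 257 1832 .nil)) .nil)) .nil)) .nil)) (.cons 206 (.leaf 205 1617 (.leaf 207 1625 .nil)) (.cons 205 (.leaf 206 1617 (.cons 231 (.leaf 252 1818 (.cons 232 (.leaf 204 1635 (.cons 256 (.leaf 255 1824 (.leaf 257 1832 .nil)) .nil)) .nil)) .nil)) .nil))) .nil)) .nil)) (.cons 205 (.leaf 206 1617 (.cons 201 (.leaf 202 1611 (.cons 225 (.leaf 200 1603 (.leaf 204 1609 .nil)) .nil)) .nil)) .nil)))) (.cons 230 (.cons 206 (.leaf 207 1625 (.cons 205 (.leaf 226 1617 (.cons 254 (.leaf 255 1816 (.cons 181 (.leaf 157 1260 (.leaf 278 1455 .nil)) .nil)) .nil)) .nil)) (.cons 206 (.leaf 207 1625 (.cons 226 (.leaf 205 1617 (.cons 252 (.leaf 231 1818 (.cons 225 (.leaf 224 1792 (.leaf 253 1800 .nil)) .nil)) .nil)) .nil)) (.cons 231 (.leaf 252 1818 (.cons 255 (.leaf 254 1816 (.leaf 256 1824 .nil)) .nil)) .nil))) (.cons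 204 (.cons 180 (.leaf 252 1438 (.leaf 156 1246 .nil)) (.cons 226 (.cons 201 (.leaf 202 1611 (.cons 225 (.leaf 200 1603 (.leaf 205 1609 .nil)) .nil)) (.cons 201 (.leaf 202 1611 (.cons 254 (.leaf 253 1808 (.cons 230 (.leaf 255 1816 (.cons 231 (.leaf 252 1818 (.cons 232 (.leaf 205 1635 (.cons 208 (.leaf 207 1633 (.leaf 209 1641 .nil)) .nil)) .nil)) .nil)) .nil)) .nil)) (.cons 205 (.leaf 225 1609 (.cons 254 (.leaf 253 1808 (.cons 230 (.leaf 255 1816 (.cons 231 (.leaf 252 1818 (.leaf 232 1635 .nil)) .nil)) .nil)) .nil)) (.cons 253 (.leaf 254 1808 (.cons 201 (.leaf 202 1611 (.cons 225 (.leaf 200 1603 (.leaf 252 1800 .nil)) .nil)) .nil)) .nil)))) (.cons 180 (.leaf 156 1246 (.cons 253 (.cons 254 (.leaf 226 1808 (.cons 255 (.leaf 230 1816 (.leaf 256 1827 .nil)) .nil)) (.cons 277 (.leaf 301 1639 (.leaf 205 1447 .nil)) .nil)) .nil)) .nil))) (.cons 230 (.cons 207 (.leaf 206 1625 (.cons 231 (.leaf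 252 1818 (.leaf 208 1633 .nil)) .nil)) (.cons 206 (.leaf 207 1625 (.cons 254 (.leaf 255 1816 (.cons 226 (.leaf 253 1808 (.cons 201 (.leaf 202 1611 (.cons 225 (.leaf 200 1603 (.cons 224 (.leaf 252 1792 (.cons 248 (.leaf 247 1786 (.leaf 249 1794 .nil)) .nil)) .nil)) .nil)) .nil)) .nil)) .nil)) (.cons 206 (.leaf 207 1625 (.cons 254 (.leaf 255 1816 (.cons 253 (.leaf 226 1808 (.cons 182 (.leaf 158 1262 (.leaf 277 1454 .nil)) .nil)) .nil)) .nil)) (.cons 231 (.leaf 252 1818 (.cons 255 (.leaf 254 1816 (.leaf 256 1824 .nil)) .nil)) .nil)))) .nil)))))))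
noncomputable def t371 : T := .cons 299 (.leaf 204 1629 (.cons 226 (.leaf 202 1623 (.cons 206 (.leaf 205 1617 (.cons 230 (.leaf 207 1625 (.cons 254 (.leaf 253 1808 (.leaf 255 1816 .nil)) .nil)) .nil)) .nil)) .nil)) (.cons 226 (.cons 201 (.leaf 202 1611 (.cons 205 (.leaf 206 1617 (.cons 254 (.leaf 253 1808 (.cons 230 (.leaf 255 1816 (.cons 157 (.leaf 181 1260 (.cons 231 (.leaf 252 1818 (.cons 208 (.leaf 207 1633 (.cons 232 (.leaf 204 1635 (.leaf 209 1641 .nil)) .nil)) .nil)) .nil)) .nil)) .nil)) .nil)) .nil)) (.cons 205 (.leaf 206 1617 (.cons 204 (.leaf 225 1609 (.cons 180 (.leaf 252 1438 (.leaf 156 1246 .nil)) .nil)) .nil)) (.cons 201 (.leaf 202 1611 (.cons 225 (.leaf 200 1603 (.cons 252 (.leaf 224 1792 (.leaf 253 1800 .nil)) .nil)) .nil)) (.cons 205 (.leaf 206 1617 (.cons 201 (.leaf 202 1611 (.cons 225 (.leaf 200 1603 (.leaf 204 1609 .nil)) .nil)) .nil)) .nil)))) (.cons 226 (.cons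 202 (.leaf 299 1623 (.leaf 201 1611 .nil)) (.cons 205 (.leaf 206 1617 (.cons 253 (.leaf 254 1808 (.cons 252 (.leaf 225 1800 (.cons 181 (.leaf 157 1254 (.leaf 276 1446 .nil)) .nil)) .nil)) .nil)) .nil)) (.cons 204 (.leaf 299 1629 (.cons 180 (.leaf 252 1438 (.leaf 156 1246 .nil)) .nil)) .nil)))
noncomputable def t372 : T := .cons 203 (.cons 178 (.leaf 202 1431 (.cons 204 (.leaf 180 1437 (.cons 298 (.leaf 274 1622 (.cons 299 (.leaf 228 1629 (.leaf 322 1814 .nil)) .nil)) .nil)) .nil)) (.cons 202 (.leaf 178 1431 (.cons 298 (.leaf 274 1622 (.cons 299 (.leaf 226 1623 (.leaf 322 1814 .nil)) .nil)) .nil)) (.cons 204 (.leaf 180 1437 (.cons 298 (.leaf 274 1622 (.cons 299 (.leaf 228 1629 (.leaf 322 1814 .nil)) .nil)) .nil)) (.cons 178 (.leaf 202 1431 (.cons 179 (.leaf 154 1239 (.cons 180 (.leaf 204 1437 (.leaf 156 1245 .nil)) .nil)) .nil)) .nil)))) (.cons 228 (.cons 229 t371 (.cons 229 (.cons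 226 (.cons 205 (.leaf 206 1617 (.cons 204 (.leaf 225 1609 (.cons 180 (.leaf 252 1438 (.leaf 156 1246 .nil)) .nil)) .nil)) (.cons 253 (.leaf 254 1808 (.cons 201 (.leaf 202 1611 (.cons 225 (.leaf 200 1603 (.leaf 252 1800 .nil)) .nil)) .nil)) (.cons 205 (.leaf 206 1617 (.cons 201 (.leaf 202 1611 (.cons 225 (.leaf 200 1603 (.leaf 204 1609 .nil)) .nil)) .nil)) (.cons 254 (.leaf 253 1808 (.cons 201 (.leaf 202 1611 (.cons 206 (.leaf 205 1617 (.cons 230 (.leaf 207 1625 (.leaf 255 1816 .nil)) .nil)) .nil)) .nil)) .nil)))) t370) (.cons 226 t368 (.cons 229 t367 (.cons 299 (.leaf 204 1629 (.cons 323 (.leaf 252 1821 (.cons 322 (.leaf 298 1814 (.leaf 346 2006 .nil)) .nil)) .nil)) .nil))))) (.cons 203 t364 (.cons 226 (.cons 252 t363 (.cons 252 t362 (.cons 252 t361 (.cons 202 (.leaf 299 1623 (.cons 178 (.leaf 203 1431 (.leaf 154 1236 .nil)) .nil)) (.cons 299 (.leaf 202 1623 (.cons 322 (.leaf 298 1814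 (.cons 323 (.leaf 346 2006 (.cons 252 (.leaf 228 1821 (.cons 224 (.leaf 225 1792 (.cons 253 (.leaf 254 1811 (.cons 347 (.leaf 276 2013 (.cons 348 (.leaf 324 2012 (.leaf 372 2204 .nil)) .nil)) .nil)) .nil)) .nil)) .nil)) .nil)) .nil)) .nil))))) (.cons 299 t360 (.cons 203 (.cons 178 (.leaf 202 1431 (.cons 179 (.leaf 154 1239 (.cons 180 (.leaf 204 1437 (.leaf 156 1245 .nil)) .nil)) .nil)) (.cons 274 (.leaf 298 1622 (.cons 254 t358 .nil)) (.cons 224 t340 (.cons 202 (.leaf 178 1431 (.cons 298 (.leaf 274 1622 (.cons 299 (.leaf 226 1623 (.leaf 322 1814 .nil)) .nil)) .nil)) .nil)))) (.cons 203 t331 (.cons 203 (.cons 178 (.leaf 202 1431 (.cons 204 (.leaf 180 1437 (.cons 298 (.leaf 274 1622 (.cons 299 (.leaf 228 1629 (.leaf 322 1814 .nil)) .nil)) .nil)) .nil)) (.cons 298 (.leaf 274 1622 (.cons 178 (.leaf 202 1431 (.cons 179 (.leaf 154 1239 (.cons 156 (.leaf 180 1245 (.cons 155 (.leaf 132 1053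 (.cons 252 (.leaf 276 1436 (.leaf 228 1244 .nil)) .nil)) .nil)) .nil)) .nil)) .nil)) (.cons 178 (.leaf 202 1431 (.cons 179 (.leaf 154 1239 (.cons 252 (.leaf 276 1436 (.cons 228 (.leaf 155 1244 (.cons 299 (.leaf 204 1629 (.leaf 323 1821 .nil)) .nil)) .nil)) .nil)) .nil)) (.cons 204 (.leaf 180 1437 (.cons 298 (.leaf 274 1622 (.cons 299 (.leaf 228 1629 (.leaf 322 1814 .nil)) .nil)) .nil)) (.cons 178 (.leaf 202 1431 (.cons 179 (.leaf 154 1239 (.cons 180 (.leaf 204 1437 (.leaf 156 1245 .nil)) .nil)) .nil)) .nil))))) (.cons 299 (.cons 228 (.leaf 204 1629 (.cons 252 (.leaf 323 1821 (.cons 298 (.leaf 322 1814 (.cons 203 (.leaf 274 1622 (.cons 179 (.leaf 276 1436 (.leaf 155 1244 .nil)) .nil)) .nil)) .nil)) .nil)) (.cons 202 (.leaf 226 1623 (.cons 203 (.leaf 178 1431 (.cons 228 (.leaf 204 1629 (.cons 200 (.leaf 201 1600 (.cons 229 (.leaf 230 1619 (.cons 252 (.leaf 323 1821 (.cons 179 (.leaf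 276 1436 (.leaf 155 1244 .nil)) .nil)) .nil)) .nil)) .nil)) .nil)) .nil)) (.cons 298 (.leaf 322 1814 (.cons 202 (.leaf 226 1623 (.cons 203 (.leaf 178 1431 (.leaf 274 1622 .nil)) .nil)) .nil)) (.cons 202 (.leaf 226 1623 (.cons 228 (.leaf 204 1629 (.cons 298 (.leaf 322 1814 (.cons 323 (.leaf 252 1821 (.cons 348 (.leaf 324 2012 (.cons 347 (.leaf 372 2204 (.cons 370 (.leaf 346 2198 (.cons 371 (.leaf 274 2199 (.leaf 394 2390 .nil)) .nil)) .nil)) .nil)) .nil)) .nil)) .nil)) .nil)) .nil)))) .nil))))))))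
noncomputable def t373 : T := .cons 204 (.leaf 228 1629 (.cons 203 (.leaf 180 1437 (.cons 298 (.leaf 274 1622 (.leaf 322 1814 .nil)) .nil)) .nil)) (.cons 202 (.leaf 226 1623 (.cons 203 (.leaf 178 1431 (.cons 298 (.leaf 274 1622 (.leaf 322 1814 .nil)) .nil)) .nil)) (.cons 202 (.leaf 226 1623 (.cons 228 (.leaf 204 1629 (.cons 323 (.leaf 252 1821 (.cons 346 (.leaf 322 2006 (.cons 203 (.leaf 178 1431 (.cons 200 (.leaf 201 1600 (.cons 229 (.leaf 230 1619 (.cons 347 (.leaf 370 2198 (.cons 348 (.leaf 324 2012 (.leaf 372 2204 .nil)) .nil)) .nil)) .nil)) .nil)) .nil)) .nil)) .nil)) .nil)) (.cons 228 (.leaf 204 1629 (.cons 202 (.leaf 226 1623 (.cons 203 (.leaf 178 1431 (.cons 200 (.leaf 201 1600 (.cons 229 (.leaf 230 1619 (.cons 252 (.leaf 323 1821 (.cons 179 (.leaf 276 1436 (.leaf 155 1244 .nil)) .nil)) .nil)) .nil)) .nil)) .nil)) .nil)) (.cons 202 (.leaf 226 1623 (.cons 228 (.leaf 204 1629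 (.cons 323 (.leaf 252 1821 (.cons 346 (.leaf 322 2006 (.cons 347 (.leaf 370 2198 (.cons 348 (.leaf 324 2012 (.leaf 372 2204 .nil)) .nil)) .nil)) .nil)) .nil)) .nil)) .nil))))
noncomputable def t374 : T := .cons 202 (.leaf 226 1623 (.cons 203 (.leaf 178 1431 (.cons 298 (.leaf 274 1622 (.leaf 322 1814 .nil)) .nil)) .nil)) (.cons 202 (.leaf 226 1623 (.cons 203 (.leaf 178 1431 (.cons 204 (.leaf 180 1437 (.leaf 228 1629 .nil)) .nil)) .nil)) (.cons 204 (.leaf 228 1629 (.cons 203 (.leaf 180 1437 (.cons 274 (.leaf 298 1622 (.cons 252 (.cons 253 (.leaf 254 2002 (.cons 273 (.leaf 272 1985 (.leaf 276 1993 .nil)) .nil)) (.cons 179 (.leaf 250 1430 (.leaf 276 1436 .nil)) (.cons 253 (.leaf 254 2002 (.cons 273 (.leaf 272 1985 (.leaf 250 1994 .nil)) .nil)) .nil))) .nil)) .nil)) .nil)) (.cons 226 (.leaf 202 1623 (.cons 228 (.leaf 204 1629 (.cons 298 (.leaf 322 1814 (.cons 229 (.cons 250 (.leaf 230 1810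 (.leaf 249 1802 .nil)) (.cons 206 (.leaf 205 1617 (.cons 230 (.leaf 207 1625 (.cons 254 (.leaf 253 1808 (.leaf 255 1816 .nil)) .nil)) .nil)) (.cons 250 (.leaf 249 1802 (.cons 253 (.leaf 254 1808 (.cons 225 (.leaf 252 1800 (.cons 201 (.leaf 200 1603 (.leaf 274 1615 .nil)) .nil)) .nil)) .nil)) .nil))) .nil)) .nil)) .nil)) .nil)))
noncomputable def t375 : T := .cons 323 (.cons 226 (.leaf 250 1815 (.cons 252 (.leaf 228 1821 (.cons 346 (.leaf 322 2006 (.cons 347 (.leaf 276 2013 (.leaf 370 2198 .nil)) .nil)) .nil)) .nil)) (.cons 252 (.leaf 228 1821 (.cons 347 (.leaf 276 2013 (.cons 348 (.leaf 324 2012 (.leaf 372 2204 .nil)) .nil)) .nil)) (.cons 226 (.leaf 250 1815 (.cons 227 (.leaf 202 1623 (.cons 322 (.leaf 298 1814 (.leaf 346 2006 .nil)) .nil)) .nil)) .nil))) (.cons 227 t374 (.cons 323 t11 (.cons 227 t373 (.cons 227 (.cons 202 (.leaf 226 1623 (.cons 203 (.leaf 178 1431 (.cons 298 (.leaf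 274 1622 (.leaf 322 1814 .nil)) .nil)) .nil)) (.cons 202 (.leaf 226 1623 (.cons 203 (.leaf 178 1431 (.cons 204 (.leaf 180 1437 (.leaf 228 1629 .nil)) .nil)) .nil)) (.cons 298 (.leaf 322 1814 (.cons 203 (.leaf 274 1622 (.cons 204 (.leaf 180 1437 (.leaf 228 1629 .nil)) .nil)) .nil)) (.cons 204 (.leaf 228 1629 (.cons 322 (.leaf 298 1814 (.cons 226 (.leaf 202 1623 (.cons 323 (.leaf 250 1815 (.leaf 346 2006 .nil)) .nil)) .nil)) .nil)) .nil)))) (.cons 323 (.cons 228 (.leaf 252 1821 (.cons 204 (.leaf 227 1629 (.cons 348 (.leaf 324 2012 (.cons 347 (.leaf 372 2204 (.cons 274 (.leaf 250 2007 (.cons 346 (.leaf 322 2006 (.leaf 370 2198 .nil)) .nil)) .nil)) .nil)) .nil)) .nil)) (.cons 252 (.leaf 228 1821 (.cons 347 (.leaf 276 2013 (.cons 348 (.leaf 324 2012 (.leaf 372 2204 .nil)) .nil)) .nil)) (.cons 322 (.leaf 346 2006 (.cons 298 (.leaf 227 1814 (.cons 348 (.leaf 324 2012 (.cons 347 (.leaf 372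 2204 (.cons 274 (.leaf 250 2004 (.leaf 371 2199 .nil)) .nil)) .nil)) .nil)) .nil)) (.cons 252 (.leaf 228 1821 (.cons 276 (.leaf 347 2013 (.cons 322 (.leaf 346 2006 (.cons 298 (.leaf 227 1814 (.cons 277 (.leaf 278 2194 (.cons 297 (.leaf 274 2186 (.leaf 296 2177 .nil)) .nil)) .nil)) .nil)) .nil)) .nil)) (.cons 322 (.leaf 346 2006 (.cons 298 (.leaf 227 1814 (.cons 324 (.leaf 348 2012 (.cons 297 (.leaf 296 2368 (.leaf 325 2379 .nil)) .nil)) .nil)) .nil)) .nil))))) (.cons 323 (.cons 322 (.leaf 346 2006 (.cons 298 (.leaf 227 1814 (.cons 348 (.leaf 324 2012 (.cons 347 (.leaf 372 2204 (.cons 274 (.leaf 250 2004 (.leaf 371 2199 .nil)) .nil)) .nil)) .nil)) .nil)) (.cons 322 (.leaf 346 2006 (.cons 298 (.leaf 227 1814 (.cons 348 (.leaf 324 2012 (.cons 347 (.leaf 372 2204 (.cons 371 (.leaf 274 2199 (.leaf 395 2391 .nil)) .nil)) .nil)) .nil)) .nil)) (.cons 250 (.leaf 226 1815 (.cons 347 (.leaf 274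 2007 (.cons 348 (.leaf 324 2012 (.leaf 372 2204 .nil)) .nil)) .nil)) (.cons 226 (.leaf 250 1815 (.cons 227 (.leaf 202 1623 (.cons 322 (.leaf 298 1814 (.leaf 346 2006 .nil)) .nil)) .nil)) .nil)))) (.cons 323 (.cons 228 (.leaf 252 1821 (.cons 204 (.leaf 227 1629 (.cons 346 (.leaf 322 2006 (.cons 347 (.leaf 370 2198 (.cons 348 (.leaf 324 2012 (.leaf 372 2204 .nil)) .nil)) .nil)) .nil)) .nil)) (.cons 250 (.leaf 226 1815 (.cons 347 (.leaf 274 2007 (.cons 348 (.leaf 324 2012 (.leaf 372 2204 .nil)) .nil)) .nil)) (.cons 226 (.leaf 250 1815 (.cons 227 (.leaf 202 1623 (.cons 228 (.leaf 204 1629 (.leaf 252 1821 .nil)) .nil)) .nil)) .nil))) (.cons 323 (.cons 250 (.leaf 226 1815 (.cons 347 (.leaf 274 2007 (.cons 348 (.leaf 324 2012 (.leaf 372 2204 .nil)) .nil)) .nil)) (.cons 252 (.leaf 228 1821 (.cons 347 (.leaf 276 2013 (.cons 348 (.leaf 324 2012 (.leaf 372 2204 .nil)) .nil)) .nil)) (.cons 226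 (.leaf 250 1815 (.cons 227 (.leaf 202 1623 (.cons 228 (.leaf 204 1629 (.leaf 252 1821 .nil)) .nil)) .nil)) .nil))) .nil))))))))
noncomputable def top : T := .cons 299 t375 (.cons 227 t372 (.cons 299 t330 (.cons 249 t295 (.cons 227 t242 (.cons 252 t229 (.cons 227 t205 (.cons 252 t197 (.cons 299 t123 (.cons 250 t120 (.cons 250 t95 (.cons 227 t81 (.cons 227 t73 (.cons 299 t44 (.cons 250 (t35) (.cons 299 (.cons 323 (.cons 226 (.leaf 250 1815 (.cons 227 (.leaf 202 1623 (.cons 228 (.leaf 204 1629 (.leaf 252 1821 .nil)) .nil)) .nil)) (.cons 226 (.leaf 250 1815 (.cons 227 (.leaf 202 1623 (.cons 322 (.leaf 298 1814 (.leaf 346 2006 .nil)) .nil)) .nil)) (.cons 252 (.leaf 228 1821 (.cons 346 (.leaf 322 2006 (.cons 347 (.leaf 276 2013 (.leaf 370 2198 .nil)) .nil)) .nil)) .nil))) t17) (.cons 299 t16 (.cons 299 t15 (.cons 299 t13 (.cons 299 t10 (.cons 299 t8 (.cons 299 t6 (.cons 299 t5 (.cons 299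 t3 (.cons 299 t2 (.cons 299 (.cons 323 (.cons 252 (.leaf 228 1821 (.cons 347 (.leaf 276 2013 (.cons 348 (.leaf 324 2012 (.leaf 372 2204 .nil)) .nil)) .nil)) (.cons 226 (.leaf 250 1815 (.cons 227 (.leaf 202 1623 (.cons 322 (.leaf 298 1814 (.leaf 346 2006 .nil)) .nil)) .nil)) .nil)) t0) .nil)))))))))))))))))))))))))

end Vale.Agent.P062.Data.D0
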