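import Vale.Agent.P062.Checker

namespace Vale.Agent.P062.Data.D1

open Vale.Agent.P062

noncomputable def t0 : T := .cons 226 (.leaf 202 1623 (.cons 228 (.leaf 204 1629 (.cons 298 (.leaf 322 1814 (.cons 225 (.cons 253 (.leaf 252 1800 (.cons 200 (.leaf 201 1603 (.cons 229 (.leaf 254 1808 (.cons 249 (.leaf 248 1794 (.leaf 250 1802 .nil)) .nil)) .nil)) .nil)) (.cons 274 (.leaf 203 1622 (.cons 201 (.leaf 200 1603 (.leaf 250 1615 .nil)) .nil)) (.cons 224 (.leaf 252 1792 (.cons 200 (.leaf 199 1595 (.leaf 201 1603 .nil)) .nil)) (.cons 252 (.leaf 224 1792 (.leaf 253 1800 .nil)) .nil)))) .nil)) .nil)) .nil)) (.cons 202 (.leaf 226 1623 (.cons 203 (.leaf 178 1431 (.cons 204 (.leaf 180 1437 (.leaf 228 1629 .nil)) .nil)) .nil)) (.cons 298 (.leaf 322 1814 (.cons 203 (.leaf 274 1622 (.cons 204 (.leaf 180 1437 (.leaf 228 1629 .nil)) .nil)) .nil)) (.cons 298 (.leaf 322 1814 (.cons 202 (.leaf 226 1623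 (.cons 203 (.leaf 178 1431 (.leaf 274 1622 .nil)) .nil)) .nil)) (.cons 226 (.leaf 202 1623 (.cons 228 (.leaf 204 1629 (.cons 298 (.leaf 322 1814 (.cons 225 (.cons 224 (.leaf 252 1792 (.cons 200 (.leaf 199 1595 (.leaf 201 1603 .nil)) .nil)) (.cons 249 (.leaf 248 1794 (.cons 200 (.leaf 201 1603 (.cons 199 (.leaf 224 1595 (.cons 229 (.leaf 250 1802 (.cons 206 (.leaf 205 1617 (.cons 230 (.leaf 207 1625 (.cons 254 (.leaf 253 1808 (.leaf 255 1816 .nil)) .nil)) .nil)) .nil)) .nil)) .nil)) .nil)) (.cons 253 (.leaf 252 1800 (.cons 200 (.leaf 201 1603 (.cons 229 (.leaf 254 1808 (.cons 249 (.leaf 248 1794 (.leaf 250 1802 .nil)) .nil)) .nil)) .nil)) (.cons 252 (.leaf 224 1792 (.leaf 253 1800 .nil)) .nil)))) .nil)) .nil)) .nil)) .nil))))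
noncomputable def t1 : T := .cons 323 (.cons 252 (.leaf 228 1821 (.cons 226 (.leaf 250 1815 (.cons 347 (.leaf 276 2013 (.cons 372 (.leaf 348 2204 (.cons 371 (.leaf 396 2396 (.cons 298 (.leaf 274 2199 (.cons 322 (.leaf 227 1814 (.leaf 346 2006 .nil)) .nil)) .nil)) .nil)) .nil)) .nil)) .nil)) (.cons 252 (.leaf 228 1821 (.cons 347 (.leaf 276 2013 (.cons 348 (.leaf 324 2012 (.leaf 372 2204 .nil)) .nil)) .nil)) (.cons 250 (.leaf 226 1815 (.cons 347 (.leaf 274 2007 (.cons 348 (.leaf 324 2012 (.leaf 372 2204 .nil)) .nil)) .nil)) (.cons 226 (.leaf 250 1815 (.cons 252 (.leaf 228 1821 (.cons 346 (.leaf 322 2006 (.cons 347 (.leaf 276 2013 (.leaf 370 2198 .nil)) .nil)) .nil)) .nil)) (.cons 226 (.leaf 250 1815 (.cons 227 (.leaf 202 1623 (.cons 228 (.leaf 204 1629 (.leaf 252 1821 .nil)) .nil)) .nil)) .nil))))) (.cons 227 t0 (.cons 323 (.cons 250 (.leaf 226 1815 (.cons 228 (.leaf 252 1821 (.cons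 346 (.leaf 322 2006 (.cons 347 (.leaf 274 2007 (.leaf 370 2198 .nil)) .nil)) .nil)) .nil)) (.cons 252 (.leaf 228 1821 (.cons 347 (.leaf 276 2013 (.cons 348 (.leaf 324 2012 (.leaf 372 2204 .nil)) .nil)) .nil)) (.cons 250 (.leaf 226 1815 (.cons 347 (.leaf 274 2007 (.cons 348 (.leaf 324 2012 (.leaf 372 2204 .nil)) .nil)) .nil)) (.cons 250 (.leaf 226 1815 (.cons 252 (.leaf 228 1821 (.cons 324 (.leaf 348 2012 (.cons 322 (.leaf 346 2006 (.cons 249 (.cons 276 (.leaf 248 1984 (.leaf 277 1992 .nil)) (.cons 224 (.leaf 225 1795 (.cons 248 (.leaf 223 1787 (.cons 272 (.leaf 271 1978 (.leaf 273 1986 .nil)) .nil)) .nil)) (.cons 225 (.leaf 224 1795 (.cons 273 (.leaf 272 1986 (.cons 277 (.leaf 276 1992 (.cons 253 (.leaf 274 1994 (.leaf 278 2000 .nil)) .nil)) .nil)) .nil)) .nil))) .nil)) .nil)) .nil)) .nil)) .nil)))) (.cons 227 (.cons 204 (.leaf 228 1629 (.cons 203 (.leaf 180 1437 (.cons 298 (.leaf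 274 1622 (.leaf 322 1814 .nil)) .nil)) .nil)) (.cons 298 (.leaf 322 1814 (.cons 202 (.leaf 226 1623 (.cons 203 (.leaf 178 1431 (.leaf 274 1622 .nil)) .nil)) .nil)) (.cons 202 (.leaf 226 1623 (.cons 203 (.leaf 178 1431 (.cons 204 (.leaf 180 1437 (.leaf 228 1629 .nil)) .nil)) .nil)) (.cons 202 (.leaf 226 1623 (.cons 228 (.leaf 204 1629 (.cons 323 (.leaf 252 1821 (.cons 346 (.leaf 322 2006 (.cons 347 (.leaf 370 2198 (.cons 348 (.leaf 324 2012 (.leaf 372 2204 .nil)) .nil)) .nil)) .nil)) .nil)) .nil)) .nil)))) (.cons 227 (.cons 202 (.leaf 226 1623 (.cons 203 (.leaf 178 1431 (.cons 298 (.leaf 274 1622 (.leaf 322 1814 .nil)) .nil)) .nil)) (.cons 202 (.leaf 226 1623 (.cons 203 (.leaf 178 1431 (.cons 204 (.leaf 180 1437 (.leaf 228 1629 .nil)) .nil)) .nil)) (.cons 298 (.leaf 322 1814 (.cons 203 (.leaf 274 1622 (.cons 204 (.leaf 180 1437 (.leaf 228 1629 .nil)) .nil)) .nil)) (.cons 204 (.leaf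 228 1629 (.cons 226 (.leaf 202 1623 (.cons 322 (.leaf 298 1814 (.cons 323 (.leaf 250 1815 (.leaf 346 2006 .nil)) .nil)) .nil)) .nil)) .nil)))) (.cons 323 (.cons 322 (.leaf 346 2006 (.cons 298 (.leaf 227 1814 (.cons 324 (.leaf 348 2012 (.cons 297 (.leaf 296 2368 (.leaf 325 2379 .nil)) .nil)) .nil)) .nil)) (.cons 252 (.leaf 228 1821 (.cons 347 (.leaf 276 2013 (.cons 348 (.leaf 324 2012 (.leaf 372 2204 .nil)) .nil)) .nil)) (.cons 228 (.leaf 252 1821 (.cons 227 (.leaf 204 1629 (.cons 322 (.leaf 298 1814 (.leaf 346 2006 .nil)) .nil)) .nil)) .nil))) (.cons 323 (.cons 250 (.leaf 226 1815 (.cons 347 (.leaf 274 2007 (.cons 348 (.leaf 324 2012 (.leaf 372 2204 .nil)) .nil)) .nil)) (.cons 322 (.leaf 346 2006 (.cons 298 (.leaf 227 1814 (.cons 324 (.leaf 348 2012 (.cons 297 (.leaf 296 2368 (.leaf 325 2379 .nil)) .nil)) .nil)) .nil)) (.cons 226 (.leaf 250 1815 (.cons 227 (.leaf 202 1623 (.cons 322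 (.leaf 298 1814 (.leaf 346 2006 .nil)) .nil)) .nil)) .nil))) (.cons 323 (.cons 252 (.leaf 228 1821 (.cons 226 (.leaf 250 1815 (.cons 347 (.leaf 276 2013 (.cons 370 (.leaf 346 2198 (.cons 371 (.leaf 394 2390 (.cons 372 (.leaf 348 2204 (.leaf 396 2396 .nil)) .nil)) .nil)) .nil)) .nil)) .nil)) (.cons 252 (.leaf 228 1821 (.cons 347 (.leaf 276 2013 (.cons 348 (.leaf 324 2012 (.leaf 372 2204 .nil)) .nil)) .nil)) (.cons 250 (.leaf 226 1815 (.cons 347 (.leaf 274 2007 (.cons 348 (.leaf 324 2012 (.leaf 372 2204 .nil)) .nil)) .nil)) (.cons 226 (.leaf 250 1815 (.cons 227 (.leaf 202 1623 (.cons 228 (.leaf 204 1629 (.leaf 252 1821 .nil)) .nil)) .nil)) .nil)))) .nil)))))))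
noncomputable def t2 : T := .cons 178 (.leaf 202 1431 (.cons 154 (.leaf 179 1239 (.cons 204 (.leaf 180 1437 (.cons 299 (.leaf 228 1629 (.cons 324 (.leaf 300 1820 (.cons 323 (.leaf 348 2012 (.cons 250 (.leaf 226 1815 (.cons 346 (.leaf 322 2006 (.cons 347 (.leaf 274 2007 (.leaf 370 2198 .nil)) .nil)) .nil)) .nil)) .nil)) .nil)) .nil)) .nil)) .nil)) (.cons 202 (.leaf 178 1431 (.cons 226 (.leaf 299 1623 (.cons 276 (.leaf 300 1628 (.cons 179 (.leaf 252 1436 (.cons 155 (.leaf 250 1238 (.leaf 131 1046 .nil)) .nil)) .nil)) .nil)) .nil)) (.cons 204 (.leaf 180 1437 (.cons 228 (.leaf 299 1629 (.cons 276 (.leaf 300 1628 (.cons 252 (.leaf 179 1436 (.cons 205 (.leaf 181 1445 (.cons 206 (.leaf 226 1618 (.leaf 207 1626 .nil)) .nil)) .nil)) .nil)) .nil)) .nil)) (.cons 202 (.leaf 178 1431 (.cons 180 (.leaf 204 1437 (.cons 299 (.leaf 226 1623 (.cons 300 (.leaf 276 1628 (.leaf 324 1820 .nil)) .nil))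 .nil)) .nil)) (.cons 202 (.leaf 178 1431 (.cons 180 (.leaf 204 1437 (.cons 179 (.leaf 156 1245 (.cons 181 (.leaf 182 1426 (.cons 200 (.leaf 201 1409 (.cons 226 (.leaf 299 1623 (.cons 155 (.leaf 250 1238 (.leaf 131 1046 .nil)) .nil)) .nil)) .nil)) .nil)) .nil)) .nil)) (.cons 276 (.leaf 300 1628 (.cons 178 (.leaf 202 1431 (.cons 179 (.leaf 154 1239 (.leaf 252 1436 .nil)) .nil)) .nil)) .nil)))))
noncomputable def t3 : T := .cons 203 (.cons 276 (.leaf 300 1628 (.cons 179 (.leaf 252 1436 (.cons 180 (.leaf 204 1437 (.leaf 156 1245 .nil)) .nil)) .nil)) (.cons 178 (.leaf 202 1431 (.cons 179 (.leaf 154 1239 (.cons 274 (.leaf 298 1622 (.leaf 250 1430 .nil)) .nil)) .nil)) (.cons 202 (.leaf 178 1431 (.cons 204 (.leaf 180 1437 (.cons 274 (.leaf 298 1622 (.cons 276 (.leaf 300 1628 (.cons 205 (.cons 226 (.leaf 206 1618 (.leaf 225 1610 .nil)) (.cons 181 (.leaf 182 1425 (.cons 228 (.leaf 252 1445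 (.cons 229 (.leaf 230 1616 (.leaf 201 1608 .nil)) .nil)) .nil)) .nil)) .nil)) .nil)) .nil)) .nil)) .nil))) (.cons 203 (.cons 178 (.leaf 202 1431 (.cons 180 (.leaf 204 1437 (.cons 179 (.leaf 154 1239 (.leaf 156 1245 .nil)) .nil)) .nil)) (.cons 276 (.leaf 300 1628 (.cons 179 (.leaf 252 1436 (.cons 274 (.leaf 298 1622 (.leaf 250 1430 .nil)) .nil)) .nil)) (.cons 178 (.leaf 202 1431 (.cons 180 (.leaf 204 1437 (.cons 298 (.leaf 274 1622 (.cons 299 (.leaf 322 1814 (.cons 300 (.leaf 276 1628 (.leaf 324 1820 .nil)) .nil)) .nil)) .nil)) .nil)) .nil))) (.cons 203 (.cons 178 (.leaf 202 1431 (.cons 179 (.leaf 154 1239 (.cons 274 (.leaf 298 1622 (.leaf 250 1430 .nil)) .nil)) .nil)) (.cons 276 (.leaf 300 1628 (.cons 179 (.leaf 252 1436 (.cons 274 (.leaf 298 1622 (.leaf 250 1430 .nil)) .nil)) .nil)) (.cons 178 (.leaf 202 1431 (.cons 179 (.leaf 154 1239 (.cons 276 (.leaf 300 1628 (.leaf 252 1436 .nil))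 .nil)) .nil)) (.cons 178 (.leaf 202 1431 (.cons 298 (.leaf 274 1622 (.cons 299 (.leaf 322 1814 (.cons 300 (.leaf 276 1628 (.leaf 324 1820 .nil)) .nil)) .nil)) .nil)) .nil)))) (.cons 203 (.cons 180 (.leaf 204 1437 (.cons 179 (.leaf 156 1245 (.cons 274 (.leaf 298 1622 (.leaf 250 1430 .nil)) .nil)) .nil)) (.cons 276 (.leaf 300 1628 (.cons 179 (.leaf 252 1436 (.cons 274 (.leaf 298 1622 (.leaf 250 1430 .nil)) .nil)) .nil)) (.cons 180 (.leaf 204 1437 (.cons 179 (.leaf 156 1245 (.cons 276 (.leaf 300 1628 (.leaf 252 1436 .nil)) .nil)) .nil)) (.cons 180 (.leaf 204 1437 (.cons 298 (.leaf 274 1622 (.cons 299 (.leaf 322 1814 (.cons 300 (.leaf 276 1628 (.leaf 324 1820 .nil)) .nil)) .nil)) .nil)) .nil)))) (.cons 299 (.cons 202 (.leaf 226 1623 (.cons 178 (.leaf 203 1431 (.cons 228 (.leaf 204 1629 (.cons 322 (.leaf 298 1814 (.cons 323 (.leaf 252 1821 (.leaf 346 2006 .nil)) .nil)) .nil)) .nil)) .nil))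 (.cons 228 (.leaf 204 1629 (.cons 322 (.leaf 298 1814 (.cons 323 (.leaf 252 1821 (.leaf 346 2006 .nil)) .nil)) .nil)) (.cons 202 (.leaf 226 1623 (.cons 203 (.leaf 178 1431 (.cons 298 (.leaf 274 1622 (.leaf 322 1814 .nil)) .nil)) .nil)) (.cons 202 (.leaf 226 1623 (.cons 178 (.leaf 203 1431 (.cons 228 (.leaf 204 1629 (.cons 323 (.leaf 252 1821 (.cons 324 (.leaf 300 1820 (.leaf 348 2012 .nil)) .nil)) .nil)) .nil)) .nil)) .nil)))) (.cons 203 t2 (.cons 203 (.cons 180 (.leaf 204 1437 (.cons 179 (.leaf 156 1245 (.cons 274 (.leaf 298 1622 (.leaf 250 1430 .nil)) .nil)) .nil)) (.cons 178 (.leaf 202 1431 (.cons 154 (.leaf 179 1239 (.cons 298 (.leaf 274 1622 (.cons 299 (.leaf 322 1814 (.cons 300 (.leaf 276 1628 (.leaf 324 1820 .nil)) .nil)) .nil)) .nil)) .nil)) (.cons 202 (.leaf 178 1431 (.cons 180 (.leaf 204 1437 (.cons 179 (.leaf 156 1245 (.cons 181 (.leaf 182 1426 (.cons 200 (.leaf 201 1409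 (.cons 226 (.leaf 299 1623 (.cons 155 (.leaf 250 1238 (.leaf 131 1046 .nil)) .nil)) .nil)) .nil)) .nil)) .nil)) .nil)) (.cons 202 (.leaf 178 1431 (.cons 180 (.leaf 204 1437 (.cons 276 (.leaf 300 1628 (.cons 298 (.leaf 274 1622 (.cons 299 (.leaf 226 1623 (.leaf 322 1814 .nil)) .nil)) .nil)) .nil)) .nil)) .nil)))) (.cons 203 (.cons 178 (.leaf 202 1431 (.cons 179 (.leaf 154 1239 (.cons 274 (.leaf 298 1622 (.leaf 250 1430 .nil)) .nil)) .nil)) (.cons 204 (.leaf 180 1437 (.cons 228 (.leaf 299 1629 (.cons 274 (.leaf 298 1622 (.cons 179 (.leaf 250 1430 (.cons 154 (.leaf 178 1239 (.cons 155 (.leaf 130 1047 (.leaf 252 1244 .nil)) .nil)) .nil)) .nil)) .nil)) .nil)) (.cons 178 (.leaf 202 1431 (.cons 179 (.leaf 154 1239 (.cons 180 (.leaf 204 1437 (.leaf 156 1245 .nil)) .nil)) .nil)) (.cons 204 (.leaf 180 1437 (.cons 228 (.leaf 299 1629 (.cons 274 (.leaf 298 1622 (.cons 250 (.leaf 179 1430 (.cons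 229 (.leaf 230 1810 (.cons 249 (.leaf 248 1793 (.leaf 252 1801 .nil)) .nil)) .nil)) .nil)) .nil)) .nil)) (.cons 178 (.leaf 202 1431 (.cons 204 (.leaf 180 1437 (.cons 298 (.leaf 274 1622 (.cons 299 (.leaf 228 1629 (.leaf 322 1814 .nil)) .nil)) .nil)) .nil)) .nil))))) .nil)))))))
noncomputable def t4 : T := .cons 203 (.cons 178 (.leaf 202 1431 (.cons 179 (.leaf 154 1239 (.cons 274 (.leaf 298 1622 (.leaf 250 1430 .nil)) .nil)) .nil)) (.cons 276 (.leaf 300 1628 (.cons 179 (.leaf 252 1436 (.cons 180 (.leaf 204 1437 (.leaf 156 1245 .nil)) .nil)) .nil)) (.cons 202 (.leaf 178 1431 (.cons 276 (.leaf 300 1628 (.cons 298 (.leaf 274 1622 (.cons 299 (.leaf 226 1623 (.leaf 322 1814 .nil)) .nil)) .nil)) .nil)) .nil))) (.cons 299 (.cons 226 (.leaf 202 1623 (.cons 322 (.leaf 298 1814 (.cons 323 (.leaf 250 1815 (.leaf 346 2006 .nil)) .nil)) .nil)) (.cons 228 (.leaf 204 1629 (.cons 322 (.leaf 298 1814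 (.cons 323 (.leaf 252 1821 (.leaf 346 2006 .nil)) .nil)) .nil)) (.cons 226 (.leaf 202 1623 (.cons 228 (.leaf 204 1629 (.cons 323 (.leaf 250 1815 (.leaf 252 1821 .nil)) .nil)) .nil)) (.cons 226 (.leaf 202 1623 (.cons 228 (.leaf 204 1629 (.cons 300 (.leaf 324 1820 (.cons 229 (.cons 250 (.leaf 230 1810 (.leaf 249 1802 .nil)) (.cons 205 (.leaf 206 1617 (.cons 252 (.leaf 276 1637 (.cons 253 (.leaf 254 1808 (.leaf 225 1800 .nil)) .nil)) .nil)) .nil)) .nil)) .nil)) .nil)) .nil)))) t3)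
noncomputable def t5 : T := .cons 203 (.cons 274 (.leaf 298 1622 (.cons 178 (.leaf 202 1431 (.cons 179 (.leaf 154 1239 (.leaf 250 1430 .nil)) .nil)) .nil)) (.cons 276 (.leaf 300 1628 (.cons 178 (.leaf 202 1431 (.cons 179 (.leaf 154 1239 (.leaf 252 1436 .nil)) .nil)) .nil)) (.cons 274 (.leaf 298 1622 (.cons 179 (.leaf 250 1430 (.cons 180 (.leaf 204 1437 (.leaf 156 1245 .nil)) .nil)) .nil)) (.cons 202 (.leaf 178 1431 (.cons 204 (.leaf 180 1437 (.cons 274 (.leaf 298 1622 (.cons 276 (.leaf 300 1628 (.cons 273 (.cons 248 (.leaf 249 1987 (.cons 272 (.leaf 247 1979 (.leaf 252 1985 .nil)) .nil)) (.cons 249 (.leaf 248 1987 (.cons 250 (.leaf 277 1995 (.cons 297 (.leaf 296 2178 (.leaf 226 1614 .nil)) .nil)) .nil)) (.cons 252 (.leaf 272 1985 (.leaf 253 1993 .nil)) .nil))) .nil)) .nil)) .nil)) .nil)) .nil)))) (.cons 203 (.cons 178 (.leaf 202 1431 (.cons 179 (.leaf 154 1239 (.cons 274 (.leaf 298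 1622 (.leaf 250 1430 .nil)) .nil)) .nil)) (.cons 178 (.leaf 202 1431 (.cons 179 (.leaf 154 1239 (.cons 276 (.leaf 300 1628 (.leaf 252 1436 .nil)) .nil)) .nil)) (.cons 180 (.leaf 204 1437 (.cons 179 (.leaf 156 1245 (.cons 274 (.leaf 298 1622 (.leaf 250 1430 .nil)) .nil)) .nil)) (.cons 178 (.leaf 202 1431 (.cons 204 (.leaf 180 1437 (.cons 298 (.leaf 274 1622 (.cons 299 (.leaf 228 1629 (.leaf 322 1814 .nil)) .nil)) .nil)) .nil)) .nil)))) (.cons 203 (.cons 178 (.leaf 202 1431 (.cons 179 (.leaf 154 1239 (.cons 276 (.leaf 300 1628 (.leaf 252 1436 .nil)) .nil)) .nil)) (.cons 180 (.leaf 204 1437 (.cons 179 (.leaf 156 1245 (.cons 276 (.leaf 300 1628 (.leaf 252 1436 .nil)) .nil)) .nil)) (.cons 178 (.leaf 202 1431 (.cons 179 (.leaf 154 1239 (.cons 180 (.leaf 204 1437 (.leaf 156 1245 .nil)) .nil)) .nil)) (.cons 178 (.leaf 202 1431 (.cons 204 (.leaf 180 1437 (.cons 298 (.leaf 274 1622 (.cons 299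 (.leaf 228 1629 (.leaf 322 1814 .nil)) .nil)) .nil)) .nil)) .nil)))) (.cons 203 (.cons 274 (.leaf 298 1622 (.cons 179 (.leaf 250 1430 (.cons 180 (.leaf 204 1437 (.leaf 156 1245 .nil)) .nil)) .nil)) (.cons 204 (.leaf 180 1437 (.cons 228 (.leaf 299 1629 (.cons 276 (.leaf 300 1628 (.cons 252 (.leaf 179 1436 (.cons 205 (.leaf 181 1445 (.cons 206 (.leaf 226 1618 (.leaf 207 1626 .nil)) .nil)) .nil)) .nil)) .nil)) .nil)) (.cons 274 (.leaf 298 1622 (.cons 179 (.leaf 250 1430 (.cons 276 (.leaf 300 1628 (.leaf 252 1436 .nil)) .nil)) .nil)) (.cons 204 (.leaf 180 1437 (.cons 276 (.leaf 300 1628 (.cons 298 (.leaf 274 1622 (.cons 299 (.leaf 228 1629 (.leaf 322 1814 .nil)) .nil)) .nil)) .nil)) .nil)))) (.cons 203 (.cons 178 (.leaf 202 1431 (.cons 179 (.leaf 154 1239 (.cons 274 (.leaf 298 1622 (.leaf 250 1430 .nil)) .nil)) .nil)) (.cons 178 (.leaf 202 1431 (.cons 179 (.leaf 154 1239 (.cons 276 (.leaf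 300 1628 (.leaf 252 1436 .nil)) .nil)) .nil)) (.cons 274 (.leaf 298 1622 (.cons 179 (.leaf 250 1430 (.cons 276 (.leaf 300 1628 (.leaf 252 1436 .nil)) .nil)) .nil)) (.cons 202 (.leaf 178 1431 (.cons 276 (.leaf 300 1628 (.cons 298 (.leaf 274 1622 (.cons 299 (.leaf 226 1623 (.leaf 322 1814 .nil)) .nil)) .nil)) .nil)) .nil)))) (.cons 203 (.cons 202 (.leaf 178 1431 (.cons 204 (.leaf 180 1437 (.cons 299 (.leaf 226 1623 (.leaf 228 1629 .nil)) .nil)) .nil)) (.cons 180 (.leaf 204 1437 (.cons 179 (.leaf 156 1245 (.cons 276 (.leaf 300 1628 (.leaf 252 1436 .nil)) .nil)) .nil)) (.cons 202 (.leaf 178 1431 (.cons 226 (.leaf 299 1623 (.cons 276 (.leaf 300 1628 (.cons 179 (.leaf 252 1436 (.cons 155 (.leaf 250 1238 (.leaf 131 1046 .nil)) .nil)) .nil)) .nil)) .nil)) .nil))) (.cons 203 (.cons 178 (.leaf 202 1431 (.cons 179 (.leaf 154 1239 (.cons 274 (.leaf 298 1622 (.leaf 250 1430 .nil)) .nil)) .nil))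 (.cons 180 (.leaf 204 1437 (.cons 179 (.leaf 156 1245 (.cons 274 (.leaf 298 1622 (.leaf 250 1430 .nil)) .nil)) .nil)) (.cons 202 (.leaf 178 1431 (.cons 180 (.leaf 204 1437 (.cons 179 (.leaf 156 1245 (.cons 181 (.leaf 182 1426 (.cons 200 (.leaf 201 1409 (.cons 226 (.leaf 299 1623 (.cons 155 (.leaf 250 1238 (.leaf 131 1046 .nil)) .nil)) .nil)) .nil)) .nil)) .nil)) .nil)) (.cons 202 (.leaf 178 1431 (.cons 276 (.leaf 300 1628 (.cons 298 (.leaf 274 1622 (.cons 299 (.leaf 226 1623 (.leaf 322 1814 .nil)) .nil)) .nil)) .nil)) .nil)))) .nil))))))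
noncomputable def t6 : T := .cons 226 (.leaf 202 1623 (.cons 322 (.leaf 298 1814 (.cons 323 (.leaf 250 1815 (.leaf 346 2006 .nil)) .nil)) .nil)) (.cons 228 (.leaf 204 1629 (.cons 322 (.leaf 298 1814 (.cons 323 (.leaf 252 1821 (.leaf 346 2006 .nil)) .nil)) .nil)) (.cons 226 (.leaf 202 1623 (.cons 228 (.leaf 204 1629 (.cons 323 (.leaf 250 1815 (.leaf 252 1821 .nil)) .nil)) .nil)) (.cons 226 (.leaf 202 1623 (.cons 228 (.leaf 204 1629 (.cons 298 (.leaf 322 1814 (.cons 225 (.cons 253 (.leaf 252 1800 (.cons 200 (.leaf 201 1603 (.cons 229 (.leaf 254 1808 (.cons 249 (.leaf 248 1794 (.leaf 250 1802 .nil)) .nil)) .nil)) .nil)) (.cons 249 (.leaf 248 1794 (.cons 200 (.leaf 201 1603 (.cons 199 (.leaf 224 1595 (.cons 229 (.leaf 250 1802 (.cons 206 (.leaf 205 1617 (.cons 230 (.leaf 207 1625 (.cons 254 (.leaf 253 1808 (.leaf 255 1816 .nil)) .nil)) .nil)) .nil)) .nil)) .nil)) .nil)) (.cons 224 (.leaf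 252 1792 (.cons 200 (.leaf 199 1595 (.leaf 201 1603 .nil)) .nil)) (.cons 252 (.leaf 224 1792 (.leaf 253 1800 .nil)) .nil)))) .nil)) .nil)) .nil)) .nil)))
noncomputable def t7 : T := .cons 203 (.cons 202 (.leaf 178 1431 (.cons 204 (.leaf 180 1437 (.cons 274 (.leaf 298 1622 (.cons 276 (.leaf 300 1628 (.cons 252 (.leaf 179 1436 (.cons 253 (.leaf 254 2002 (.leaf 273 1993 .nil)) .nil)) .nil)) .nil)) .nil)) .nil)) (.cons 180 (.leaf 204 1437 (.cons 179 (.leaf 156 1245 (.cons 276 (.leaf 300 1628 (.leaf 252 1436 .nil)) .nil)) .nil)) (.cons 274 (.leaf 298 1622 (.cons 178 (.leaf 202 1431 (.cons 179 (.leaf 154 1239 (.leaf 250 1430 .nil)) .nil)) .nil)) (.cons 202 (.leaf 178 1431 (.cons 204 (.leaf 180 1437 (.cons 274 (.leaf 298 1622 (.cons 276 (.leaf 300 1628 (.cons 205 (.cons 226 (.leaf 206 1618 (.leaf 225 1610 .nil)) (.cons 181 (.leaf 182 1425 (.cons 228 (.leaf 252 1445 (.cons 229 (.leaf 230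 1616 (.leaf 201 1608 .nil)) .nil)) .nil)) .nil)) .nil)) .nil)) .nil)) .nil)) .nil)))) (.cons 203 (.cons 180 (.leaf 204 1437 (.cons 179 (.leaf 156 1245 (.cons 274 (.leaf 298 1622 (.leaf 250 1430 .nil)) .nil)) .nil)) (.cons 274 (.leaf 298 1622 (.cons 179 (.leaf 250 1430 (.cons 276 (.leaf 300 1628 (.leaf 252 1436 .nil)) .nil)) .nil)) (.cons 204 (.leaf 180 1437 (.cons 178 (.leaf 202 1431 (.cons 179 (.leaf 154 1239 (.cons 276 (.leaf 300 1628 (.leaf 252 1436 .nil)) .nil)) .nil)) .nil)) (.cons 204 (.leaf 180 1437 (.cons 274 (.leaf 298 1622 (.cons 299 (.leaf 228 1629 (.cons 300 (.leaf 276 1628 (.leaf 324 1820 .nil)) .nil)) .nil)) .nil)) .nil)))) (.cons 299 (.cons 298 (.leaf 322 1814 (.cons 202 (.leaf 226 1623 (.cons 203 (.leaf 178 1431 (.leaf 274 1622 .nil)) .nil)) .nil)) (.cons 226 (.leaf 202 1623 (.cons 323 (.leaf 250 1815 (.cons 300 (.leaf 324 1820 (.cons 276 (.leaf 203 1628 (.cons 347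 (.leaf 252 2013 (.leaf 371 2205 .nil)) .nil)) .nil)) .nil)) .nil)) (.cons 298 (.leaf 322 1814 (.cons 203 (.leaf 274 1622 (.cons 300 (.leaf 276 1628 (.leaf 324 1820 .nil)) .nil)) .nil)) (.cons 226 (.leaf 202 1623 (.cons 323 (.leaf 250 1815 (.cons 322 (.leaf 298 1814 (.leaf 346 2006 .nil)) .nil)) .nil)) .nil)))) (.cons 299 (.cons 204 (.leaf 228 1629 (.cons 180 (.leaf 203 1437 (.cons 322 (.leaf 298 1814 (.cons 323 (.leaf 346 2006 (.cons 324 (.leaf 300 1820 (.leaf 348 2012 .nil)) .nil)) .nil)) .nil)) .nil)) (.cons 228 (.leaf 204 1629 (.cons 323 (.leaf 252 1821 (.cons 324 (.leaf 300 1820 (.leaf 348 2012 .nil)) .nil)) .nil)) (.cons 298 (.leaf 322 1814 (.cons 203 (.leaf 274 1622 (.cons 300 (.leaf 276 1628 (.leaf 324 1820 .nil)) .nil)) .nil)) (.cons 298 (.leaf 322 1814 (.cons 203 (.leaf 274 1622 (.cons 204 (.leaf 180 1437 (.leaf 228 1629 .nil)) .nil)) .nil)) .nil)))) (.cons 203 (.cons 178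 (.leaf 202 1431 (.cons 204 (.leaf 180 1437 (.cons 179 (.leaf 154 1239 (.cons 276 (.leaf 300 1628 (.leaf 252 1436 .nil)) .nil)) .nil)) .nil)) (.cons 178 (.leaf 202 1431 (.cons 179 (.leaf 154 1239 (.cons 276 (.leaf 300 1628 (.leaf 252 1436 .nil)) .nil)) .nil)) (.cons 180 (.leaf 204 1437 (.cons 179 (.leaf 156 1245 (.cons 276 (.leaf 300 1628 (.leaf 252 1436 .nil)) .nil)) .nil)) (.cons 202 (.leaf 178 1431 (.cons 204 (.leaf 180 1437 (.cons 299 (.leaf 226 1623 (.leaf 228 1629 .nil)) .nil)) .nil)) .nil)))) (.cons 299 (.cons 298 (.leaf 322 1814 (.cons 202 (.leaf 226 1623 (.cons 203 (.leaf 178 1431 (.leaf 274 1622 .nil)) .nil)) .nil)) (.cons 226 (.leaf 202 1623 (.cons 323 (.leaf 250 1815 (.cons 324 (.leaf 300 1820 (.leaf 348 2012 .nil)) .nil)) .nil)) (.cons 298 (.leaf 322 1814 (.cons 203 (.leaf 274 1622 (.cons 300 (.leaf 276 1628 (.leaf 324 1820 .nil)) .nil)) .nil)) .nil))) (.cons 299 (.cons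 298 (.leaf 322 1814 (.cons 202 (.leaf 226 1623 (.cons 203 (.leaf 178 1431 (.leaf 274 1622 .nil)) .nil)) .nil)) (.cons 298 (.leaf 322 1814 (.cons 203 (.leaf 274 1622 (.cons 204 (.leaf 180 1437 (.leaf 228 1629 .nil)) .nil)) .nil)) (.cons 226 (.leaf 202 1623 (.cons 323 (.leaf 250 1815 (.cons 324 (.leaf 300 1820 (.leaf 348 2012 .nil)) .nil)) .nil)) .nil))) (.cons 203 (.cons 180 (.leaf 204 1437 (.cons 179 (.leaf 156 1245 (.cons 274 (.leaf 298 1622 (.leaf 250 1430 .nil)) .nil)) .nil)) (.cons 178 (.leaf 202 1431 (.cons 179 (.leaf 154 1239 (.cons 274 (.leaf 298 1622 (.leaf 250 1430 .nil)) .nil)) .nil)) (.cons 202 (.leaf 178 1431 (.cons 204 (.leaf 180 1437 (.cons 299 (.leaf 226 1623 (.leaf 228 1629 .nil)) .nil)) .nil)) .nil))) .nil)))))))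
noncomputable def t8 : T := .cons 299 (.cons 202 (.leaf 226 1623 (.cons 203 (.leaf 178 1431 (.cons 298 (.leaf 274 1622 (.leaf 322 1814 .nil)) .nil)) .nil)) (.cons 298 (.leaf 322 1814 (.cons 203 (.leaf 274 1622 (.cons 300 (.leaf 276 1628 (.leaf 324 1820 .nil)) .nil)) .nil)) (.cons 226 (.leaf 202 1623 (.cons 323 (.leaf 250 1815 (.cons 300 (.leaf 324 1820 (.cons 276 (.leaf 203 1628 (.cons 347 (.leaf 252 2013 (.leaf 371 2205 .nil)) .nil)) .nil)) .nil)) .nil)) (.cons 226 (.leaf 202 1623 (.cons 228 (.leaf 204 1629 (.cons 323 (.leaf 250 1815 (.leaf 252 1821 .nil)) .nil)) .nil)) .nil)))) (.cons 299 (.cons 226 (.leaf 202 1623 (.cons 228 (.leaf 204 1629 (.cons 323 (.leaf 250 1815 (.leaf 252 1821 .nil)) .nil)) .nil)) (.cons 228 (.leaf 204 1629 (.cons 323 (.leaf 252 1821 (.cons 322 (.leaf 298 1814 (.leaf 346 2006 .nil)) .nil)) .nil)) (.cons 226 (.leaf 202 1623 (.cons 323 (.leaf 250 1815 (.cons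 322 (.leaf 298 1814 (.leaf 346 2006 .nil)) .nil)) .nil)) (.cons 226 (.leaf 202 1623 (.cons 228 (.leaf 204 1629 (.cons 298 (.leaf 322 1814 (.cons 300 (.leaf 324 1820 (.cons 297 (.cons 272 (.leaf 273 2179 (.cons 296 (.leaf 276 2177 (.leaf 271 2171 .nil)) .nil)) (.cons 272 (.leaf 273 2179 (.cons 296 (.leaf 271 2171 (.cons 320 (.leaf 319 2362 (.leaf 321 2370 .nil)) .nil)) .nil)) (.cons 272 (.leaf 273 2179 (.cons 321 (.leaf 320 2370 (.cons 250 (.leaf 274 1806 (.cons 229 (.leaf 230 1810 (.cons 205 (.leaf 206 1617 (.cons 276 (.leaf 277 2185 (.leaf 252 1637 .nil)) .nil)) .nil)) .nil)) .nil)) .nil)) (.cons 276 (.leaf 296 2177 (.leaf 277 2185 .nil)) .nil)))) .nil)) .nil)) .nil)) .nil)) .nil)))) t7)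
noncomputable def t9 : T := .cons 203 (.cons 178 (.leaf 202 1431 (.cons 179 (.leaf 154 1239 (.cons 274 (.leaf 298 1622 (.leaf 250 1430 .nil)) .nil)) .nil)) (.cons 180 (.leaf 204 1437 (.cons 179 (.leaf 156 1245 (.cons 274 (.leaf 298 1622 (.leaf 250 1430 .nil)) .nil)) .nil)) (.cons 202 (.leaf 178 1431 (.cons 204 (.leaf 180 1437 (.cons 299 (.leaf 226 1623 (.leaf 228 1629 .nil)) .nil)) .nil)) .nil))) (.cons 299 (.cons 226 (.leaf 202 1623 (.cons 228 (.leaf 204 1629 (.cons 323 (.leaf 250 1815 (.leaf 252 1821 .nil)) .nil)) .nil)) (.cons 228 (.leaf 204 1629 (.cons 323 (.leaf 252 1821 (.cons 324 (.leaf 300 1820 (.leaf 348 2012 .nil)) .nil)) .nil)) (.cons 226 (.leaf 202 1623 (.cons 323 (.leaf 250 1815 (.cons 324 (.leaf 300 1820 (.leaf 348 2012 .nil)) .nil)) .nil)) (.cons 226 (.leaf 202 1623 (.cons 228 (.leaf 204 1629 (.cons 300 (.leaf 324 1820 (.cons 229 (.cons 250 (.leaf 230 1810 (.leaf 249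 1802 .nil)) (.cons 205 (.leaf 206 1617 (.cons 252 (.leaf 276 1637 (.cons 253 (.leaf 254 1808 (.leaf 225 1800 .nil)) .nil)) .nil)) .nil)) .nil)) .nil)) .nil)) .nil)))) (.cons 203 (.cons 180 (.leaf 204 1437 (.cons 179 (.leaf 156 1245 (.cons 274 (.leaf 298 1622 (.leaf 250 1430 .nil)) .nil)) .nil)) (.cons 180 (.leaf 204 1437 (.cons 179 (.leaf 156 1245 (.cons 276 (.leaf 300 1628 (.leaf 252 1436 .nil)) .nil)) .nil)) (.cons 276 (.leaf 300 1628 (.cons 178 (.leaf 202 1431 (.cons 179 (.leaf 154 1239 (.leaf 252 1436 .nil)) .nil)) .nil)) (.cons 202 (.leaf 178 1431 (.cons 204 (.leaf 180 1437 (.cons 274 (.leaf 298 1622 (.cons 276 (.leaf 300 1628 (.cons 273 (.cons 248 (.leaf 249 1987 (.cons 272 (.leaf 247 1979 (.leaf 252 1985 .nil)) .nil)) (.cons 249 (.leaf 248 1987 (.cons 250 (.leaf 277 1995 (.cons 297 (.leaf 296 2178 (.leaf 226 1614 .nil)) .nil)) .nil)) (.cons 252 (.leaf 272 1985 (.leaf 253 1993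 .nil)) .nil))) .nil)) .nil)) .nil)) .nil)) .nil)))) (.cons 203 (.cons 276 (.leaf 300 1628 (.cons 178 (.leaf 202 1431 (.cons 179 (.leaf 154 1239 (.leaf 252 1436 .nil)) .nil)) .nil)) (.cons 204 (.leaf 180 1437 (.cons 178 (.leaf 202 1431 (.cons 179 (.leaf 154 1239 (.cons 176 (.leaf 177 1408 (.cons 205 (.leaf 206 1427 (.cons 274 (.leaf 298 1622 (.leaf 250 1430 .nil)) .nil)) .nil)) .nil)) .nil)) .nil)) (.cons 180 (.leaf 204 1437 (.cons 179 (.leaf 156 1245 (.cons 274 (.leaf 298 1622 (.leaf 250 1430 .nil)) .nil)) .nil)) (.cons 178 (.leaf 202 1431 (.cons 204 (.leaf 180 1437 (.cons 299 (.leaf 228 1629 (.cons 300 (.leaf 276 1628 (.leaf 324 1820 .nil)) .nil)) .nil)) .nil)) .nil)))) (.cons 203 (.cons 204 (.leaf 180 1437 (.cons 274 (.leaf 298 1622 (.cons 299 (.leaf 228 1629 (.cons 250 (.leaf 179 1430 (.cons 323 (.leaf 226 1815 (.leaf 347 2007 .nil)) .nil)) .nil)) .nil)) .nil)) (.cons 274 (.leaf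 298 1622 (.cons 179 (.leaf 250 1430 (.cons 276 (.leaf 300 1628 (.leaf 252 1436 .nil)) .nil)) .nil)) (.cons 204 (.leaf 180 1437 (.cons 228 (.leaf 299 1629 (.cons 276 (.leaf 300 1628 (.cons 252 (.leaf 179 1436 (.cons 205 (.leaf 181 1445 (.cons 206 (.leaf 226 1618 (.leaf 207 1626 .nil)) .nil)) .nil)) .nil)) .nil)) .nil)) (.cons 204 (.leaf 180 1437 (.cons 274 (.leaf 298 1622 (.cons 299 (.leaf 228 1629 (.cons 300 (.leaf 276 1628 (.leaf 324 1820 .nil)) .nil)) .nil)) .nil)) .nil)))) (.cons 203 (.cons 178 (.leaf 202 1431 (.cons 179 (.leaf 154 1239 (.cons 274 (.leaf 298 1622 (.leaf 250 1430 .nil)) .nil)) .nil)) (.cons 276 (.leaf 300 1628 (.cons 179 (.leaf 252 1436 (.cons 274 (.leaf 298 1622 (.leaf 250 1430 .nil)) .nil)) .nil)) (.cons 178 (.leaf 202 1431 (.cons 179 (.leaf 154 1239 (.cons 276 (.leaf 300 1628 (.leaf 252 1436 .nil)) .nil)) .nil)) (.cons 202 (.leaf 178 1431 (.cons 274 (.leaf 298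 1622 (.cons 299 (.leaf 226 1623 (.cons 300 (.leaf 276 1628 (.leaf 324 1820 .nil)) .nil)) .nil)) .nil)) .nil)))) (.cons 203 (.cons 178 (.leaf 202 1431 (.cons 179 (.leaf 154 1239 (.cons 276 (.leaf 300 1628 (.leaf 252 1436 .nil)) .nil)) .nil)) (.cons 204 (.leaf 180 1437 (.cons 274 (.leaf 298 1622 (.cons 299 (.leaf 228 1629 (.cons 300 (.leaf 276 1628 (.leaf 324 1820 .nil)) .nil)) .nil)) .nil)) (.cons 204 (.leaf 180 1437 (.cons 178 (.leaf 202 1431 (.cons 179 (.leaf 154 1239 (.cons 176 (.leaf 177 1408 (.cons 205 (.leaf 206 1427 (.cons 228 (.leaf 299 1629 (.cons 155 (.leaf 252 1244 (.leaf 131 1052 .nil)) .nil)) .nil)) .nil)) .nil)) .nil)) .nil)) .nil))) .nil))))))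
noncomputable def t10 : T := .cons 226 (.leaf 250 1815 (.cons 227 (.leaf 202 1623 (.cons 300 (.leaf 324 1820 (.cons 276 (.leaf 203 1628 (.cons 347 (.leaf 252 2013 (.leaf 371 2205 .nil)) .nil)) .nil)) .nil)) .nil)) (.cons 324 (.leaf 348 2012 (.cons 227 (.leaf 300 1820 (.cons 252 (.leaf 228 1821 (.cons 276 (.leaf 347 2013 (.cons 202 (.leaf 226 1623 (.cons 203 (.leaf 178 1431 (.leaf 179 1436 .nil)) .nil)) .nil)) .nil)) .nil)) .nil)) (.cons 250 (.leaf 226 1815 (.cons 274 (.leaf 347 2007 (.cons 324 (.leaf 348 2012 (.cons 227 (.leaf 300 1820 (.cons 203 (.leaf 298 1622 (.leaf 179 1430 .nil)) .nil)) .nil)) .nil)) .nil)) (.cons 250 (.leaf 226 1815 (.cons 228 (.leaf 252 1821 (.cons 347 (.leaf 274 2007 (.cons 370 (.leaf 346 2198 (.cons 371 (.leaf 394 2390 (.cons 372 (.leaf 348 2204 (.leaf 396 2396 .nil)) .nil)) .nil)) .nil)) .nil)) .nil)) (.cons 324 (.leaf 348 2012 (.cons 227 (.leaf 300 1820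 (.cons 252 (.leaf 228 1821 (.cons 276 (.leaf 347 2013 (.cons 203 (.leaf 179 1436 (.cons 178 (.leaf 202 1431 (.cons 274 (.leaf 298 1622 (.cons 253 (.leaf 254 2002 (.leaf 273 1993 .nil)) .nil)) .nil)) .nil)) .nil)) .nil)) .nil)) .nil)) (.cons 324 (.leaf 348 2012 (.cons 226 (.leaf 250 1815 (.cons 227 (.leaf 202 1623 (.leaf 300 1820 .nil)) .nil)) .nil)) .nil)))))
noncomputable def t11 : T := .cons 226 (.leaf 250 1815 (.cons 202 (.leaf 227 1623 (.cons 252 (.leaf 228 1821 (.cons 347 (.leaf 276 2013 (.cons 370 (.leaf 346 2198 (.cons 371 (.leaf 394 2390 (.cons 372 (.leaf 348 2204 (.leaf 396 2396 .nil)) .nil)) .nil)) .nil)) .nil)) .nil)) .nil)) (.cons 322 (.leaf 346 2006 (.cons 227 (.leaf 298 1814 (.cons 252 (.leaf 228 1821 (.cons 276 (.leaf 347 2013 (.cons 203 (.leaf 300 1628 (.leaf 179 1436 .nil)) .nil)) .nil)) .nil)) .nil)) (.cons 250 (.leaf 226 1815 (.cons 274 (.leaf 347 2007 (.cons 322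 (.leaf 346 2006 (.cons 298 (.leaf 227 1813 (.cons 225 (.leaf 249 1807 (.cons 321 (.leaf 345 1998 (.cons 320 (.leaf 319 2361 (.leaf 300 2369 .nil)) .nil)) .nil)) .nil)) .nil)) .nil)) .nil)) (.cons 226 (.leaf 250 1815 (.cons 202 (.leaf 227 1623 (.cons 252 (.leaf 228 1821 (.cons 347 (.leaf 276 2013 (.cons 372 (.leaf 348 2204 (.cons 371 (.leaf 396 2396 (.cons 298 (.leaf 274 2199 (.cons 395 (.leaf 322 2391 (.cons 394 (.leaf 370 2390 (.leaf 418 2582 .nil)) .nil)) .nil)) .nil)) .nil)) .nil)) .nil)) .nil)) .nil)) (.cons 322 (.leaf 346 2006 (.cons 226 (.leaf 250 1815 (.cons 227 (.leaf 202 1623 (.leaf 298 1814 .nil)) .nil)) .nil)) (.cons 250 (.leaf 226 1815 (.cons 228 (.leaf 252 1821 (.cons 346 (.leaf 322 2006 (.cons 347 (.leaf 274 2007 (.leaf 370 2198 .nil)) .nil)) .nil)) .nil)) .nil)))))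
noncomputable def t12 : T := .cons 228 (.leaf 252 1821 (.cons 324 (.leaf 348 2012 (.cons 300 (.leaf 227 1820 (.cons 346 (.leaf 322 2006 (.cons 347 (.leaf 370 2198 (.cons 371 (.leaf 276 2205 (.leaf 395 2397 .nil)) .nil)) .nil)) .nil)) .nil)) .nil)) (.cons 322 (.leaf 346 2006 (.cons 227 (.leaf 298 1814 (.cons 252 (.leaf 228 1821 (.cons 276 (.leaf 347 2013 (.cons 203 (.leaf 300 1628 (.leaf 179 1436 .nil)) .nil)) .nil)) .nil)) .nil)) (.cons 324 (.leaf 348 2012 (.cons 227 (.leaf 300 1820 (.cons 252 (.leaf 228 1821 (.cons 276 (.leaf 347 2013 (.cons 203 (.leaf 179 1436 (.cons 178 (.leaf 202 1431 (.cons 274 (.leaf 298 1622 (.cons 253 (.leaf 254 2002 (.leaf 273 1993 .nil)) .nil)) .nil)) .nil)) .nil)) .nil)) .nil)) .nil)) (.cons 324 (.leaf 348 2012 (.cons 227 (.leaf 300 1820 (.cons 322 (.leaf 298 1814 (.leaf 346 2006 .nil)) .nil)) .nil)) (.cons 322 (.leaf 346 2006 (.cons 227 (.leaf 298 1814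 (.cons 252 (.leaf 228 1821 (.cons 347 (.leaf 276 2013 (.cons 348 (.leaf 324 2012 (.leaf 372 2204 .nil)) .nil)) .nil)) .nil)) .nil)) (.cons 252 (.leaf 228 1821 (.cons 322 (.leaf 346 2006 (.cons 347 (.leaf 276 2013 (.cons 348 (.leaf 324 2012 (.leaf 372 2204 .nil)) .nil)) .nil)) .nil)) .nil)))))
noncomputable def t13 : T := .cons 250 (.leaf 226 1815 (.cons 252 (.leaf 228 1821 (.cons 324 (.leaf 348 2012 (.cons 322 (.leaf 346 2006 (.cons 249 (.cons 276 (.leaf 248 1984 (.leaf 347 2013 .nil)) (.cons 224 (.leaf 225 1795 (.cons 248 (.leaf 223 1787 (.cons 272 (.leaf 271 1978 (.leaf 273 1986 .nil)) .nil)) .nil)) (.cons 225 (.leaf 224 1795 (.cons 273 (.leaf 272 1986 (.cons 277 (.leaf 276 1992 (.cons 253 (.leaf 274 1994 (.leaf 278 2000 .nil)) .nil)) .nil)) .nil)) .nil))) .nil)) .nil)) .nil)) .nil)) (.cons 252 (.leaf 228 1821 (.cons 322 (.leaf 346 2006 (.cons 347 (.leaf 276 2013 (.cons 348 (.leaf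 324 2012 (.leaf 372 2204 .nil)) .nil)) .nil)) .nil)) (.cons 250 (.leaf 226 1815 (.cons 322 (.leaf 346 2006 (.cons 347 (.leaf 274 2007 (.cons 348 (.leaf 324 2012 (.leaf 372 2204 .nil)) .nil)) .nil)) .nil)) (.cons 250 (.leaf 226 1815 (.cons 228 (.leaf 252 1821 (.cons 347 (.leaf 274 2007 (.cons 348 (.leaf 324 2012 (.leaf 372 2204 .nil)) .nil)) .nil)) .nil)) (.cons 250 (.leaf 226 1815 (.cons 228 (.leaf 252 1821 (.cons 346 (.leaf 322 2006 (.cons 347 (.leaf 274 2007 (.leaf 370 2198 .nil)) .nil)) .nil)) .nil)) (.cons 250 (.leaf 226 1815 (.cons 252 (.leaf 228 1821 (.cons 324 (.leaf 348 2012 (.cons 322 (.leaf 346 2006 (.cons 249 (.cons 276 (.leaf 248 1984 (.leaf 277 1992 .nil)) (.cons 224 (.leaf 225 1795 (.cons 248 (.leaf 223 1787 (.cons 272 (.leaf 271 1978 (.leaf 273 1986 .nil)) .nil)) .nil)) (.cons 225 (.leaf 224 1795 (.cons 273 (.leaf 272 1986 (.cons 277 (.leaf 276 1992 (.cons 253 (.leaf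 274 1994 (.leaf 278 2000 .nil)) .nil)) .nil)) .nil)) .nil))) .nil)) .nil)) .nil)) .nil)) .nil)))))
noncomputable def t14 : T := .cons 323 (.cons 226 (.leaf 250 1815 (.cons 227 (.leaf 202 1623 (.cons 300 (.leaf 324 1820 (.cons 276 (.leaf 203 1628 (.cons 347 (.leaf 252 2013 (.leaf 371 2205 .nil)) .nil)) .nil)) .nil)) .nil)) (.cons 228 (.leaf 252 1821 (.cons 324 (.leaf 348 2012 (.cons 300 (.leaf 227 1820 (.cons 346 (.leaf 322 2006 (.cons 347 (.leaf 370 2198 (.cons 371 (.leaf 276 2205 (.leaf 395 2397 .nil)) .nil)) .nil)) .nil)) .nil)) .nil)) (.cons 226 (.leaf 250 1815 (.cons 227 (.leaf 202 1623 (.cons 322 (.leaf 298 1814 (.leaf 346 2006 .nil)) .nil)) .nil)) (.cons 250 (.leaf 226 1815 (.cons 252 (.leaf 228 1821 (.cons 324 (.leaf 348 2012 (.cons 322 (.leaf 346 2006 (.cons 249 (.cons 276 (.leaf 248 1984 (.leaf 347 2013 .nil)) (.cons 224 (.leaf 225 1795 (.cons 248 (.leaf 223 1787 (.cons 272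 (.leaf 271 1978 (.leaf 273 1986 .nil)) .nil)) .nil)) (.cons 225 (.leaf 224 1795 (.cons 273 (.leaf 272 1986 (.cons 277 (.leaf 276 1992 (.cons 253 (.leaf 274 1994 (.leaf 278 2000 .nil)) .nil)) .nil)) .nil)) .nil))) .nil)) .nil)) .nil)) .nil)) .nil)))) (.cons 227 (.cons 298 (.leaf 322 1814 (.cons 202 (.leaf 226 1623 (.cons 203 (.leaf 178 1431 (.leaf 274 1622 .nil)) .nil)) .nil)) (.cons 300 (.leaf 324 1820 (.cons 202 (.leaf 226 1623 (.cons 203 (.leaf 178 1431 (.leaf 276 1628 .nil)) .nil)) .nil)) (.cons 298 (.leaf 322 1814 (.cons 203 (.leaf 274 1622 (.cons 300 (.leaf 276 1628 (.leaf 324 1820 .nil)) .nil)) .nil)) (.cons 226 (.leaf 202 1623 (.cons 298 (.leaf 322 1814 (.cons 300 (.leaf 324 1820 (.cons 297 (.cons 276 (.leaf 296 2177 (.leaf 277 2185 .nil)) (.cons 272 (.leaf 273 2179 (.cons 296 (.leaf 271 2171 (.cons 320 (.leaf 319 2362 (.leaf 321 2370 .nil)) .nil)) .nil)) (.cons 273 (.leaf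 272 2179 (.cons 276 (.leaf 277 2185 (.cons 321 (.leaf 320 2370 (.cons 250 (.leaf 249 1805 (.leaf 274 1806 .nil)) .nil)) .nil)) .nil)) .nil))) .nil)) .nil)) .nil)) .nil)))) (.cons 323 t13 (.cons 323 (.cons 252 (.leaf 228 1821 (.cons 276 (.leaf 347 2013 (.cons 324 (.leaf 348 2012 (.cons 227 (.leaf 300 1820 (.cons 202 (.leaf 226 1623 (.cons 203 (.leaf 178 1431 (.leaf 179 1436 .nil)) .nil)) .nil)) .nil)) .nil)) .nil)) (.cons 252 (.leaf 228 1821 (.cons 276 (.leaf 347 2013 (.cons 322 (.leaf 346 2006 (.cons 227 (.leaf 298 1814 (.cons 203 (.leaf 300 1628 (.leaf 179 1436 .nil)) .nil)) .nil)) .nil)) .nil)) (.cons 322 (.leaf 346 2006 (.cons 227 (.leaf 298 1814 (.cons 324 (.leaf 300 1820 (.leaf 348 2012 .nil)) .nil)) .nil)) (.cons 252 (.leaf 228 1821 (.cons 322 (.leaf 346 2006 (.cons 347 (.leaf 276 2013 (.cons 348 (.leaf 324 2012 (.leaf 372 2204 .nil)) .nil)) .nil)) .nil)) .nil)))) (.cons 323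 t12 (.cons 323 t11 (.cons 323 t10 (.cons 323 (.cons 324 (.leaf 348 2012 (.cons 226 (.leaf 250 1815 (.cons 227 (.leaf 202 1623 (.leaf 300 1820 .nil)) .nil)) .nil)) (.cons 228 (.leaf 252 1821 (.cons 322 (.leaf 346 2006 (.cons 227 (.leaf 298 1814 (.cons 324 (.leaf 300 1820 (.leaf 348 2012 .nil)) .nil)) .nil)) .nil)) (.cons 226 (.leaf 250 1815 (.cons 227 (.leaf 202 1623 (.cons 322 (.leaf 298 1814 (.leaf 346 2006 .nil)) .nil)) .nil)) (.cons 250 (.leaf 226 1815 (.cons 228 (.leaf 252 1821 (.cons 347 (.leaf 274 2007 (.cons 348 (.leaf 324 2012 (.leaf 372 2204 .nil)) .nil)) .nil)) .nil)) .nil)))) .nil)))))))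
noncomputable def t15 : T := .cons 322 (.leaf 346 2006 (.cons 226 (.leaf 250 1815 (.cons 348 (.leaf 324 2012 (.cons 347 (.leaf 372 2204 (.cons 276 (.leaf 252 2013 (.cons 320 (.leaf 321 2560 (.cons 349 (.leaf 350 2579 (.cons 371 (.leaf 300 2205 (.cons 394 (.leaf 370 2390 (.cons 395 (.leaf 298 2391 (.leaf 418 2582 .nil)) .nil)) .nil)) .nil)) .nil)) .nil)) .nil)) .nil)) .nil)) .nil)) (.cons 252 (.leaf 228 1821 (.cons 226 (.leaf 250 1815 (.cons 347 (.leaf 276 2013 (.cons 370 (.leaf 346 2198 (.cons 371 (.leaf 394 2390 (.cons 372 (.leaf 348 2204 (.leaf 396 2396 .nil)) .nil)) .nil)) .nil)) .nil)) .nil)) (.cons 324 (.leaf 348 2012 (.cons 300 (.leaf 227 1820 (.cons 346 (.leaf 322 2006 (.cons 347 (.leaf 370 2198 (.cons 371 (.leaf 276 2205 (.leaf 395 2397 .nil)) .nil)) .nil)) .nil)) .nil)) (.cons 252 (.leaf 228 1821 (.cons 226 (.leaf 250 1815 (.cons 276 (.leaf 347 2013 (.cons 322 (.leaf 346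 2006 (.cons 227 (.leaf 298 1814 (.cons 300 (.leaf 203 1628 (.leaf 324 1820 .nil)) .nil)) .nil)) .nil)) .nil)) .nil)) (.cons 324 (.leaf 348 2012 (.cons 226 (.leaf 250 1815 (.cons 227 (.leaf 300 1820 (.cons 228 (.leaf 204 1629 (.leaf 252 1821 .nil)) .nil)) .nil)) .nil)) .nil))))
noncomputable def t16 : T := .cons 226 (.leaf 250 1815 (.cons 252 (.leaf 228 1821 (.cons 347 (.leaf 276 2013 (.cons 370 (.leaf 346 2198 (.cons 371 (.leaf 394 2390 (.cons 372 (.leaf 348 2204 (.leaf 396 2396 .nil)) .nil)) .nil)) .nil)) .nil)) .nil)) (.cons 322 (.leaf 346 2006 (.cons 227 (.leaf 298 1814 (.cons 204 (.leaf 228 1629 (.cons 203 (.leaf 180 1437 (.cons 250 (.leaf 226 1815 (.cons 274 (.leaf 347 2007 (.leaf 179 1430 .nil)) .nil)) .nil)) .nil)) .nil)) .nil)) (.cons 252 (.leaf 228 1821 (.cons 346 (.leaf 322 2006 (.cons 347 (.leaf 276 2013 (.leaf 370 2198 .nil)) .nil)) .nil)) (.cons 322 (.leaf 346 2006 (.cons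 227 (.leaf 298 1814 (.cons 250 (.leaf 226 1815 (.cons 274 (.leaf 347 2007 (.cons 203 (.leaf 179 1430 (.cons 180 (.leaf 204 1437 (.cons 276 (.leaf 300 1628 (.cons 249 (.leaf 248 1984 (.leaf 277 1995 .nil)) .nil)) .nil)) .nil)) .nil)) .nil)) .nil)) .nil)) (.cons 252 (.leaf 228 1821 (.cons 226 (.leaf 250 1815 (.cons 347 (.leaf 276 2013 (.cons 372 (.leaf 348 2204 (.cons 371 (.leaf 396 2396 (.cons 298 (.leaf 274 2199 (.cons 322 (.leaf 227 1814 (.leaf 395 2391 .nil)) .nil)) .nil)) .nil)) .nil)) .nil)) .nil)) (.cons 322 (.leaf 346 2006 (.cons 226 (.leaf 250 1815 (.cons 227 (.leaf 298 1814 (.cons 228 (.leaf 204 1629 (.leaf 252 1821 .nil)) .nil)) .nil)) .nil)) .nil)))))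
noncomputable def t17 : T := .cons 228 (.leaf 204 1629 (.cons 298 (.leaf 322 1814 (.cons 300 (.leaf 324 1820 (.cons 297 (.cons 276 (.leaf 203 1628 (.leaf 296 2177 .nil)) (.cons 272 (.leaf 273 2179 (.cons 296 (.leaf 271 2171 (.cons 320 (.leaf 319 2362 (.leaf 321 2370 .nil)) .nil)) .nil)) (.cons 276 (.leaf 203 1628 (.leaf 277 2185 .nil)) .nil))) .nil)) .nil)) .nil)) (.cons 204 (.leaf 228 1629 (.cons 203 (.leaf 180 1437 (.cons 300 (.leaf 276 1628 (.leaf 324 1820 .nil)) .nil)) .nil)) (.cons 298 (.leaf 322 1814 (.cons 203 (.leaf 274 1622 (.cons 300 (.leaf 276 1628 (.leaf 324 1820 .nil)) .nil)) .nil)) (.cons 228 (.leaf 204 1629 (.cons 252 (.leaf 323 1821 (.cons 298 (.leaf 322 1814 (.cons 274 (.leaf 203 1622 (.cons 253 (.leaf 254 2002 (.cons 273 (.leaf 272 1985 (.leaf 276 1993 .nil)) .nil)) .nil)) .nil)) .nil)) .nil)) (.cons 228 (.leaf 204 1629 (.cons 298 (.leaf 322 1814 (.cons 300 (.leaf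 324 1820 (.cons 297 (.cons 276 (.leaf 296 2177 (.leaf 277 2185 .nil)) (.cons 272 (.leaf 273 2179 (.cons 296 (.leaf 271 2171 (.cons 320 (.leaf 319 2362 (.leaf 321 2370 .nil)) .nil)) .nil)) (.cons 276 (.leaf 277 2185 (.cons 273 (.leaf 272 2179 (.cons 321 (.leaf 320 2370 (.cons 250 (.cons 274 (.leaf 226 1806 (.leaf 345 1997 .nil)) (.cons 274 (.leaf 345 1997 (.cons 249 (.leaf 248 1984 (.cons 252 (.leaf 323 1821 (.leaf 253 1993 .nil)) .nil)) .nil)) (.cons 249 (.leaf 248 1984 (.leaf 226 1805 .nil)) .nil))) .nil)) .nil)) .nil)) .nil))) .nil)) .nil)) .nil)) (.cons 228 (.leaf 204 1629 (.cons 252 (.leaf 323 1821 (.cons 298 (.leaf 322 1814 (.cons 274 (.leaf 203 1622 (.cons 253 (.leaf 254 2002 (.cons 273 (.leaf 272 1985 (.leaf 250 1994 .nil)) .nil)) .nil)) .nil)) .nil)) .nil)) .nil)))))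
noncomputable def t18 : T := .cons 227 t17 (.cons 227 (.cons 298 (.leaf 322 1814 (.cons 203 (.leaf 274 1622 (.cons 300 (.leaf 276 1628 (.leaf 324 1820 .nil)) .nil)) .nil)) (.cons 300 (.leaf 324 1820 (.cons 203 (.leaf 276 1628 (.cons 204 (.leaf 180 1437 (.leaf 228 1629 .nil)) .nil)) .nil)) (.cons 298 (.leaf 322 1814 (.cons 203 (.leaf 274 1622 (.cons 204 (.leaf 180 1437 (.leaf 228 1629 .nil)) .nil)) .nil)) (.cons 228 (.leaf 204 1629 (.cons 298 (.leaf 322 1814 (.cons 300 (.leaf 324 1820 (.cons 297 (.cons 276 (.leaf 296 2177 (.leaf 277 2185 .nil)) (.cons 272 (.leaf 273 2179 (.cons 296 (.leaf 271 2171 (.cons 320 (.leaf 319 2362 (.leaf 321 2370 .nil)) .nil)) .nil)) (.cons 276 (.leaf 277 2185 (.cons 273 (.leaf 272 2179 (.cons 321 (.leaf 320 2370 (.cons 250 (.cons 274 (.leaf 226 1806 (.leaf 345 1997 .nil)) (.cons 249 (.leaf 248 1984 (.leaf 226 1805 .nil)) (.cons 274 (.leaf 345 1997 (.cons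 249 (.leaf 248 1984 (.cons 252 (.leaf 253 1993 (.leaf 229 1801 .nil)) .nil)) .nil)) .nil))) .nil)) .nil)) .nil)) .nil))) .nil)) .nil)) .nil)) .nil)))) (.cons 323 (.cons 226 (.leaf 250 1815 (.cons 346 (.leaf 322 2006 (.cons 347 (.leaf 370 2198 (.cons 348 (.leaf 324 2012 (.leaf 372 2204 .nil)) .nil)) .nil)) .nil)) (.cons 252 (.leaf 228 1821 (.cons 346 (.leaf 322 2006 (.cons 347 (.leaf 276 2013 (.leaf 370 2198 .nil)) .nil)) .nil)) (.cons 252 (.leaf 228 1821 (.cons 226 (.leaf 250 1815 (.cons 347 (.leaf 276 2013 (.cons 348 (.leaf 324 2012 (.leaf 372 2204 .nil)) .nil)) .nil)) .nil)) (.cons 252 (.leaf 228 1821 (.cons 250 (.leaf 226 1815 (.cons 324 (.leaf 348 2012 (.cons 322 (.leaf 346 2006 (.cons 249 (.cons 276 (.leaf 248 1984 (.leaf 277 1992 .nil)) (.cons 224 (.leaf 225 1795 (.cons 248 (.leaf 223 1787 (.cons 272 (.leaf 271 1978 (.leaf 273 1986 .nil)) .nil)) .nil)) (.cons 225 (.leaf 224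 1795 (.cons 273 (.leaf 272 1986 (.cons 277 (.leaf 276 1992 (.cons 253 (.leaf 274 1994 (.leaf 278 2000 .nil)) .nil)) .nil)) .nil)) .nil))) .nil)) .nil)) .nil)) .nil)) .nil)))) (.cons 323 (.cons 250 (.leaf 226 1815 (.cons 346 (.leaf 322 2006 (.cons 347 (.leaf 274 2007 (.leaf 370 2198 .nil)) .nil)) .nil)) (.cons 250 (.leaf 226 1815 (.cons 274 (.leaf 347 2007 (.cons 324 (.leaf 348 2012 (.cons 227 (.leaf 300 1820 (.cons 203 (.leaf 298 1622 (.leaf 179 1430 .nil)) .nil)) .nil)) .nil)) .nil)) (.cons 322 (.leaf 346 2006 (.cons 227 (.leaf 298 1814 (.cons 324 (.leaf 300 1820 (.leaf 348 2012 .nil)) .nil)) .nil)) .nil))) (.cons 323 t16 (.cons 323 (.cons 228 (.leaf 252 1821 (.cons 227 (.leaf 204 1629 (.cons 324 (.leaf 300 1820 (.leaf 348 2012 .nil)) .nil)) .nil)) (.cons 250 (.leaf 226 1815 (.cons 274 (.leaf 347 2007 (.cons 324 (.leaf 348 2012 (.cons 227 (.leaf 300 1820 (.cons 203 (.leaf 298 1622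 (.leaf 179 1430 .nil)) .nil)) .nil)) .nil)) .nil)) (.cons 252 (.leaf 228 1821 (.cons 226 (.leaf 250 1815 (.cons 347 (.leaf 276 2013 (.cons 370 (.leaf 346 2198 (.cons 371 (.leaf 394 2390 (.cons 372 (.leaf 348 2204 (.leaf 396 2396 .nil)) .nil)) .nil)) .nil)) .nil)) .nil)) (.cons 228 (.leaf 252 1821 (.cons 204 (.leaf 227 1629 (.cons 250 (.leaf 226 1815 (.cons 347 (.leaf 274 2007 (.cons 370 (.leaf 346 2198 (.cons 371 (.leaf 394 2390 (.cons 300 (.leaf 276 2205 (.cons 395 (.leaf 324 2397 (.cons 396 (.leaf 372 2396 (.leaf 420 2588 .nil)) .nil)) .nil)) .nil)) .nil)) .nil)) .nil)) .nil)) .nil)) .nil)))) (.cons 323 (.cons 228 (.leaf 252 1821 (.cons 346 (.leaf 322 2006 (.cons 347 (.leaf 370 2198 (.cons 348 (.leaf 324 2012 (.leaf 372 2204 .nil)) .nil)) .nil)) .nil)) (.cons 228 (.leaf 252 1821 (.cons 227 (.leaf 204 1629 (.cons 322 (.leaf 298 1814 (.leaf 346 2006 .nil)) .nil)) .nil)) (.cons 322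 (.leaf 346 2006 (.cons 227 (.leaf 298 1814 (.cons 324 (.leaf 300 1820 (.leaf 348 2012 .nil)) .nil)) .nil)) (.cons 252 (.leaf 228 1821 (.cons 276 (.leaf 347 2013 (.cons 324 (.leaf 348 2012 (.cons 227 (.leaf 300 1820 (.cons 203 (.leaf 179 1436 (.cons 180 (.leaf 204 1437 (.cons 274 (.leaf 298 1622 (.cons 253 (.leaf 254 2002 (.leaf 273 1993 .nil)) .nil)) .nil)) .nil)) .nil)) .nil)) .nil)) .nil)) .nil)))) (.cons 323 t15 .nil)))))))
noncomputable def t19 : T := .cons 202 (.leaf 226 1623 (.cons 203 (.leaf 178 1431 (.cons 300 (.leaf 276 1628 (.leaf 324 1820 .nil)) .nil)) .nil)) (.cons 300 (.leaf 324 1820 (.cons 203 (.leaf 276 1628 (.cons 204 (.leaf 180 1437 (.leaf 228 1629 .nil)) .nil)) .nil)) (.cons 226 (.leaf 202 1623 (.cons 204 (.leaf 228 1629 (.cons 180 (.leaf 203 1437 (.cons 323 (.leaf 250 1815 (.cons 346 (.leaf 322 2006 (.cons 347 (.leaf 370 2198 (.cons 348 (.leaf 324 2012 (.leaf 372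 2204 .nil)) .nil)) .nil)) .nil)) .nil)) .nil)) .nil)) (.cons 226 (.leaf 202 1623 (.cons 204 (.leaf 228 1629 (.cons 203 (.leaf 180 1437 (.cons 205 (.leaf 206 1618 (.cons 224 (.leaf 225 1601 (.cons 250 (.leaf 323 1815 (.cons 179 (.leaf 274 1430 (.leaf 155 1238 .nil)) .nil)) .nil)) .nil)) .nil)) .nil)) .nil)) (.cons 226 (.leaf 202 1623 (.cons 204 (.leaf 228 1629 (.cons 300 (.leaf 324 1820 (.cons 323 (.leaf 250 1815 (.cons 346 (.leaf 322 2006 (.cons 347 (.leaf 370 2198 (.cons 371 (.leaf 276 2205 (.cons 372 (.leaf 348 2204 (.leaf 396 2396 .nil)) .nil)) .nil)) .nil)) .nil)) .nil)) .nil)) .nil)) .nil))))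
noncomputable def t20 : T := .cons 323 (.cons 226 (.leaf 250 1815 (.cons 227 (.leaf 202 1623 (.cons 300 (.leaf 324 1820 (.cons 276 (.leaf 203 1628 (.cons 347 (.leaf 252 2013 (.leaf 371 2205 .nil)) .nil)) .nil)) .nil)) .nil)) (.cons 250 (.leaf 226 1815 (.cons 346 (.leaf 322 2006 (.cons 347 (.leaf 274 2007 (.leaf 370 2198 .nil)) .nil)) .nil)) (.cons 228 (.leaf 252 1821 (.cons 346 (.leaf 322 2006 (.cons 347 (.leaf 370 2198 (.cons 348 (.leaf 324 2012 (.leaf 372 2204 .nil)) .nil)) .nil)) .nil)) (.cons 226 (.leaf 250 1815 (.cons 227 (.leaf 202 1623 (.cons 324 (.leaf 300 1820 (.leaf 348 2012 .nil)) .nil)) .nil)) .nil)))) (.cons 227 (.cons 300 (.leaf 324 1820 (.cons 202 (.leaf 226 1623 (.cons 203 (.leaf 178 1431 (.leaf 276 1628 .nil)) .nil)) .nil)) (.cons 300 (.leaf 324 1820 (.cons 203 (.leaf 276 1628 (.cons 204 (.leaf 180 1437 (.leaf 228 1629 .nil)) .nil)) .nil)) (.cons 202 (.leaf 226 1623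 (.cons 203 (.leaf 178 1431 (.cons 204 (.leaf 180 1437 (.leaf 228 1629 .nil)) .nil)) .nil)) (.cons 226 (.leaf 202 1623 (.cons 228 (.leaf 204 1629 (.cons 300 (.leaf 324 1820 (.cons 229 (.cons 250 (.leaf 230 1810 (.leaf 249 1802 .nil)) (.cons 205 (.leaf 206 1617 (.cons 252 (.leaf 276 1637 (.cons 253 (.leaf 254 1808 (.leaf 225 1800 .nil)) .nil)) .nil)) .nil)) .nil)) .nil)) .nil)) .nil)))) (.cons 323 (.cons 250 (.leaf 226 1815 (.cons 346 (.leaf 322 2006 (.cons 347 (.leaf 274 2007 (.leaf 370 2198 .nil)) .nil)) .nil)) (.cons 252 (.leaf 228 1821 (.cons 346 (.leaf 322 2006 (.cons 347 (.leaf 276 2013 (.leaf 370 2198 .nil)) .nil)) .nil)) (.cons 252 (.leaf 228 1821 (.cons 226 (.leaf 250 1815 (.cons 347 (.leaf 276 2013 (.cons 348 (.leaf 324 2012 (.leaf 372 2204 .nil)) .nil)) .nil)) .nil)) (.cons 252 (.leaf 228 1821 (.cons 250 (.leaf 226 1815 (.cons 324 (.leaf 348 2012 (.cons 322 (.leaf 346 2006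 (.cons 253 (.cons 229 (.leaf 230 1809 (.cons 276 (.leaf 300 1829 (.cons 277 (.leaf 278 2000 (.leaf 249 1992 .nil)) .nil)) .nil)) (.cons 274 (.leaf 254 2002 (.leaf 273 1994 .nil)) .nil)) .nil)) .nil)) .nil)) .nil)) .nil)))) (.cons 227 t19 (.cons 227 (.cons 202 (.leaf 226 1623 (.cons 203 (.leaf 178 1431 (.cons 300 (.leaf 276 1628 (.leaf 324 1820 .nil)) .nil)) .nil)) (.cons 202 (.leaf 226 1623 (.cons 203 (.leaf 178 1431 (.cons 204 (.leaf 180 1437 (.leaf 228 1629 .nil)) .nil)) .nil)) (.cons 204 (.leaf 228 1629 (.cons 203 (.leaf 180 1437 (.cons 300 (.leaf 276 1628 (.leaf 324 1820 .nil)) .nil)) .nil)) (.cons 202 (.leaf 226 1623 (.cons 228 (.leaf 204 1629 (.cons 323 (.leaf 252 1821 (.cons 324 (.leaf 300 1820 (.leaf 348 2012 .nil)) .nil)) .nil)) .nil)) .nil)))) (.cons 323 (.cons 226 (.leaf 250 1815 (.cons 202 (.leaf 227 1623 (.cons 346 (.leaf 322 2006 (.cons 347 (.leaf 370 2198 (.cons 348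 (.leaf 324 2012 (.leaf 372 2204 .nil)) .nil)) .nil)) .nil)) .nil)) (.cons 324 (.leaf 348 2012 (.cons 300 (.leaf 227 1820 (.cons 346 (.leaf 322 2006 (.cons 347 (.leaf 370 2198 (.cons 276 (.leaf 252 2013 (.leaf 371 2205 .nil)) .nil)) .nil)) .nil)) .nil)) (.cons 250 (.leaf 226 1815 (.cons 346 (.leaf 322 2006 (.cons 347 (.leaf 274 2007 (.leaf 370 2198 .nil)) .nil)) .nil)) (.cons 250 (.leaf 226 1815 (.cons 324 (.leaf 348 2012 (.cons 300 (.leaf 227 1820 (.cons 347 (.leaf 274 2007 (.cons 276 (.leaf 252 2013 (.leaf 371 2205 .nil)) .nil)) .nil)) .nil)) .nil)) (.cons 324 (.leaf 348 2012 (.cons 226 (.leaf 250 1815 (.cons 227 (.leaf 202 1623 (.leaf 300 1820 .nil)) .nil)) .nil)) .nil))))) (.cons 323 (.cons 252 (.leaf 228 1821 (.cons 346 (.leaf 322 2006 (.cons 347 (.leaf 276 2013 (.leaf 370 2198 .nil)) .nil)) .nil)) (.cons 324 (.leaf 348 2012 (.cons 300 (.leaf 227 1820 (.cons 346 (.leaf 322 2006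 (.cons 347 (.leaf 370 2198 (.cons 371 (.leaf 276 2205 (.leaf 395 2397 .nil)) .nil)) .nil)) .nil)) .nil)) (.cons 228 (.leaf 252 1821 (.cons 227 (.leaf 204 1629 (.cons 324 (.leaf 300 1820 (.leaf 348 2012 .nil)) .nil)) .nil)) .nil))) (.cons 323 (.cons 226 (.leaf 250 1815 (.cons 227 (.leaf 202 1623 (.cons 228 (.leaf 204 1629 (.leaf 252 1821 .nil)) .nil)) .nil)) (.cons 250 (.leaf 226 1815 (.cons 346 (.leaf 322 2006 (.cons 347 (.leaf 274 2007 (.leaf 370 2198 .nil)) .nil)) .nil)) (.cons 252 (.leaf 228 1821 (.cons 346 (.leaf 322 2006 (.cons 347 (.leaf 276 2013 (.leaf 370 2198 .nil)) .nil)) .nil)) .nil))) (.cons 323 (.cons 226 (.leaf 250 1815 (.cons 227 (.leaf 202 1623 (.cons 324 (.leaf 300 1820 (.leaf 348 2012 .nil)) .nil)) .nil)) (.cons 228 (.leaf 252 1821 (.cons 346 (.leaf 322 2006 (.cons 347 (.leaf 370 2198 (.cons 348 (.leaf 324 2012 (.leaf 372 2204 .nil)) .nil)) .nil)) .nil)) (.cons 250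 (.leaf 226 1815 (.cons 346 (.leaf 322 2006 (.cons 347 (.leaf 274 2007 (.leaf 370 2198 .nil)) .nil)) .nil)) .nil))) .nil))))))))
noncomputable def t21 : T := .cons 203 (.cons 274 (.leaf 298 1622 (.cons 179 (.leaf 250 1430 (.cons 180 (.leaf 204 1437 (.leaf 156 1245 .nil)) .nil)) .nil)) (.cons 276 (.leaf 300 1628 (.cons 178 (.leaf 202 1431 (.cons 179 (.leaf 154 1239 (.leaf 252 1436 .nil)) .nil)) .nil)) (.cons 274 (.leaf 298 1622 (.cons 276 (.leaf 300 1628 (.cons 202 (.leaf 178 1431 (.cons 204 (.leaf 180 1437 (.cons 273 (.cons 248 (.leaf 249 1987 (.cons 272 (.leaf 247 1979 (.leaf 252 1985 .nil)) .nil)) (.cons 248 (.leaf 249 1987 (.cons 272 (.leaf 247 1979 (.cons 296 (.leaf 295 2170 (.leaf 297 2178 .nil)) .nil)) .nil)) (.cons 248 (.leaf 249 1987 (.cons 253 (.leaf 252 1993 (.cons 277 (.leaf 254 2001 (.cons 278 (.leaf 250 2003 (.cons 302 (.leaf 303 2200 (.cons 205 (.leaf 229 1644 (.cons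 226 (.leaf 206 1618 (.leaf 225 1610 .nil)) .nil)) .nil)) .nil)) .nil)) .nil)) .nil)) (.cons 252 (.leaf 272 1985 (.leaf 253 1993 .nil)) .nil)))) .nil)) .nil)) .nil)) .nil)) .nil))) (.cons 203 (.cons 180 (.leaf 204 1437 (.cons 202 (.leaf 178 1431 (.cons 299 (.leaf 226 1623 (.cons 179 (.leaf 156 1245 (.cons 276 (.leaf 300 1628 (.leaf 252 1436 .nil)) .nil)) .nil)) .nil)) .nil)) (.cons 180 (.leaf 204 1437 (.cons 179 (.leaf 156 1245 (.cons 276 (.leaf 300 1628 (.leaf 252 1436 .nil)) .nil)) .nil)) (.cons 178 (.leaf 202 1431 (.cons 179 (.leaf 154 1239 (.cons 180 (.leaf 204 1437 (.leaf 156 1245 .nil)) .nil)) .nil)) (.cons 276 (.leaf 300 1628 (.cons 178 (.leaf 202 1431 (.cons 179 (.leaf 154 1239 (.leaf 252 1436 .nil)) .nil)) .nil)) (.cons 180 (.leaf 204 1437 (.cons 202 (.leaf 178 1431 (.cons 299 (.leaf 226 1623 (.cons 300 (.leaf 276 1628 (.leaf 324 1820 .nil)) .nil)) .nil)) .nil)) .nil)))))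 (.cons 203 (.cons 178 (.leaf 202 1431 (.cons 179 (.leaf 154 1239 (.cons 274 (.leaf 298 1622 (.leaf 250 1430 .nil)) .nil)) .nil)) (.cons 202 (.leaf 178 1431 (.cons 180 (.leaf 204 1437 (.cons 156 (.leaf 179 1245 (.cons 299 (.leaf 226 1623 (.cons 322 (.leaf 298 1814 (.cons 323 (.leaf 346 2006 (.cons 324 (.leaf 300 1820 (.leaf 348 2012 .nil)) .nil)) .nil)) .nil)) .nil)) .nil)) .nil)) (.cons 274 (.leaf 298 1622 (.cons 179 (.leaf 250 1430 (.cons 180 (.leaf 204 1437 (.leaf 156 1245 .nil)) .nil)) .nil)) (.cons 202 (.leaf 178 1431 (.cons 180 (.leaf 204 1437 (.cons 179 (.leaf 156 1245 (.cons 181 (.leaf 182 1426 (.cons 200 (.leaf 201 1409 (.cons 226 (.leaf 299 1623 (.cons 155 (.leaf 250 1238 (.leaf 131 1046 .nil)) .nil)) .nil)) .nil)) .nil)) .nil)) .nil)) (.cons 202 (.leaf 178 1431 (.cons 180 (.leaf 204 1437 (.cons 298 (.leaf 274 1622 (.cons 299 (.leaf 226 1623 (.leaf 322 1814 .nil)) .nil))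 .nil)) .nil)) .nil))))) (.cons 203 (.cons 178 (.leaf 202 1431 (.cons 180 (.leaf 204 1437 (.cons 179 (.leaf 154 1239 (.leaf 156 1245 .nil)) .nil)) .nil)) (.cons 274 (.leaf 298 1622 (.cons 179 (.leaf 250 1430 (.cons 180 (.leaf 204 1437 (.leaf 156 1245 .nil)) .nil)) .nil)) (.cons 178 (.leaf 202 1431 (.cons 179 (.leaf 154 1239 (.cons 274 (.leaf 298 1622 (.leaf 250 1430 .nil)) .nil)) .nil)) (.cons 178 (.leaf 202 1431 (.cons 180 (.leaf 204 1437 (.cons 298 (.leaf 274 1622 (.cons 299 (.leaf 322 1814 (.cons 300 (.leaf 276 1628 (.leaf 324 1820 .nil)) .nil)) .nil)) .nil)) .nil)) .nil)))) (.cons 203 (.cons 180 (.leaf 204 1437 (.cons 179 (.leaf 156 1245 (.cons 274 (.leaf 298 1622 (.leaf 250 1430 .nil)) .nil)) .nil)) (.cons 180 (.leaf 204 1437 (.cons 179 (.leaf 156 1245 (.cons 276 (.leaf 300 1628 (.leaf 252 1436 .nil)) .nil)) .nil)) (.cons 274 (.leaf 298 1622 (.cons 179 (.leaf 250 1430 (.cons 276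 (.leaf 300 1628 (.leaf 252 1436 .nil)) .nil)) .nil)) (.cons 180 (.leaf 204 1437 (.cons 298 (.leaf 274 1622 (.cons 299 (.leaf 322 1814 (.cons 300 (.leaf 276 1628 (.leaf 324 1820 .nil)) .nil)) .nil)) .nil)) .nil)))) (.cons 203 (.cons 180 (.leaf 204 1437 (.cons 202 (.leaf 178 1431 (.cons 298 (.leaf 274 1622 (.cons 299 (.leaf 226 1623 (.leaf 322 1814 .nil)) .nil)) .nil)) .nil)) (.cons 202 (.leaf 178 1431 (.cons 180 (.leaf 204 1437 (.cons 179 (.leaf 156 1245 (.cons 181 (.leaf 182 1426 (.cons 200 (.leaf 201 1409 (.cons 226 (.leaf 299 1623 (.cons 155 (.leaf 250 1238 (.leaf 131 1046 .nil)) .nil)) .nil)) .nil)) .nil)) .nil)) .nil)) (.cons 274 (.leaf 298 1622 (.cons 179 (.leaf 250 1430 (.cons 180 (.leaf 204 1437 (.leaf 156 1245 .nil)) .nil)) .nil)) (.cons 274 (.leaf 298 1622 (.cons 178 (.leaf 202 1431 (.cons 179 (.leaf 154 1239 (.leaf 250 1430 .nil)) .nil)) .nil)) .nil)))) .nil)))))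
noncomputable def t22 : T := .cons 203 (.cons 178 (.leaf 202 1431 (.cons 179 (.leaf 154 1239 (.cons 274 (.leaf 298 1622 (.leaf 250 1430 .nil)) .nil)) .nil)) (.cons 178 (.leaf 202 1431 (.cons 179 (.leaf 154 1239 (.cons 276 (.leaf 300 1628 (.leaf 252 1436 .nil)) .nil)) .nil)) (.cons 180 (.leaf 204 1437 (.cons 179 (.leaf 156 1245 (.cons 274 (.leaf 298 1622 (.leaf 250 1430 .nil)) .nil)) .nil)) (.cons 180 (.leaf 204 1437 (.cons 202 (.leaf 178 1431 (.cons 298 (.leaf 274 1622 (.cons 299 (.leaf 226 1623 (.leaf 322 1814 .nil)) .nil)) .nil)) .nil)) .nil)))) (.cons 299 (.cons 226 (.leaf 202 1623 (.cons 322 (.leaf 298 1814 (.cons 323 (.leaf 250 1815 (.leaf 346 2006 .nil)) .nil)) .nil)) (.cons 324 (.leaf 300 1820 (.cons 322 (.leaf 298 1814 (.cons 323 (.leaf 346 2006 (.leaf 348 2012 .nil)) .nil)) .nil)) (.cons 226 (.leaf 202 1623 (.cons 323 (.leaf 250 1815 (.cons 324 (.leaf 300 1820 (.leaf 348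 2012 .nil)) .nil)) .nil)) (.cons 298 (.leaf 322 1814 (.cons 300 (.leaf 324 1820 (.cons 226 (.leaf 202 1623 (.cons 297 (.cons 276 (.leaf 296 2177 (.leaf 277 2185 .nil)) (.cons 272 (.leaf 273 2179 (.cons 296 (.leaf 271 2171 (.cons 320 (.leaf 319 2362 (.leaf 321 2370 .nil)) .nil)) .nil)) (.cons 273 (.leaf 272 2179 (.cons 276 (.leaf 277 2185 (.cons 321 (.leaf 320 2370 (.cons 250 (.leaf 274 1806 (.leaf 249 1805 .nil)) .nil)) .nil)) .nil)) .nil))) .nil)) .nil)) .nil)) .nil)))) t21)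
noncomputable def t23 : T := .cons 178 (.leaf 202 1431 (.cons 179 (.leaf 154 1239 (.cons 276 (.leaf 300 1628 (.leaf 252 1436 .nil)) .nil)) .nil)) (.cons 204 (.leaf 180 1437 (.cons 178 (.leaf 202 1431 (.cons 179 (.leaf 154 1239 (.cons 176 (.leaf 177 1408 (.cons 205 (.leaf 206 1427 (.cons 228 (.leaf 299 1629 (.cons 155 (.leaf 252 1244 (.leaf 131 1052 .nil)) .nil)) .nil)) .nil)) .nil)) .nil)) .nil)) (.cons 180 (.leaf 204 1437 (.cons 179 (.leaf 156 1245 (.cons 276 (.leaf 300 1628 (.leaf 252 1436 .nil)) .nil)) .nil)) (.cons 178 (.leaf 202 1431 (.cons 204 (.leaf 180 1437 (.cons 276 (.leaf 300 1628 (.cons 299 (.leaf 228 1629 (.cons 322 (.leaf 298 1814 (.cons 323 (.leaf 346 2006 (.cons 347 (.leaf 252 2013 (.cons 348 (.leaf 324 2012 (.leaf 372 2204 .nil)) .nil)) .nil)) .nil)) .nil)) .nil)) .nil)) .nil)) (.cons 204 (.leaf 180 1437 (.cons 178 (.leaf 202 1431 (.cons 179 (.leaf 154 1239 (.cons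 176 (.leaf 177 1408 (.cons 205 (.leaf 206 1427 (.cons 299 (.leaf 228 1629 (.cons 300 (.leaf 276 1628 (.leaf 324 1820 .nil)) .nil)) .nil)) .nil)) .nil)) .nil)) .nil)) .nil))))
noncomputable def t24 : T := .cons 180 (.leaf 204 1437 (.cons 179 (.leaf 156 1245 (.cons 274 (.leaf 298 1622 (.leaf 250 1430 .nil)) .nil)) .nil)) (.cons 274 (.leaf 298 1622 (.cons 178 (.leaf 202 1431 (.cons 179 (.leaf 154 1239 (.leaf 250 1430 .nil)) .nil)) .nil)) (.cons 204 (.leaf 180 1437 (.cons 178 (.leaf 202 1431 (.cons 154 (.leaf 179 1239 (.cons 299 (.leaf 228 1629 (.cons 322 (.leaf 298 1814 (.cons 323 (.leaf 346 2006 (.cons 324 (.leaf 300 1820 (.leaf 348 2012 .nil)) .nil)) .nil)) .nil)) .nil)) .nil)) .nil)) (.cons 204 (.leaf 180 1437 (.cons 178 (.leaf 202 1431 (.cons 179 (.leaf 154 1239 (.cons 176 (.leaf 177 1408 (.cons 205 (.leaf 206 1427 (.cons 228 (.leaf 299 1629 (.cons 155 (.leaf 252 1244 (.leaf 131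 1052 .nil)) .nil)) .nil)) .nil)) .nil)) .nil)) .nil)) (.cons 204 (.leaf 180 1437 (.cons 178 (.leaf 202 1431 (.cons 274 (.leaf 298 1622 (.cons 299 (.leaf 228 1629 (.cons 324 (.leaf 300 1820 (.cons 323 (.leaf 348 2012 (.cons 346 (.leaf 322 2006 (.cons 347 (.leaf 250 2007 (.leaf 370 2198 .nil)) .nil)) .nil)) .nil)) .nil)) .nil)) .nil)) .nil)) .nil))))
noncomputable def t25 : T := .cons 228 (.leaf 204 1629 (.cons 323 (.leaf 252 1821 (.cons 322 (.leaf 298 1814 (.leaf 346 2006 .nil)) .nil)) .nil)) (.cons 324 (.leaf 300 1820 (.cons 322 (.leaf 298 1814 (.cons 323 (.leaf 346 2006 (.leaf 348 2012 .nil)) .nil)) .nil)) (.cons 228 (.leaf 204 1629 (.cons 323 (.leaf 252 1821 (.cons 324 (.leaf 300 1820 (.leaf 348 2012 .nil)) .nil)) .nil)) (.cons 298 (.leaf 322 1814 (.cons 300 (.leaf 324 1820 (.cons 228 (.leaf 204 1629 (.cons 297 (.cons 276 (.leaf 296 2177 (.leaf 277 2185 .nil)) (.cons 272 (.leaf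 273 2179 (.cons 296 (.leaf 271 2171 (.cons 320 (.leaf 319 2362 (.leaf 321 2370 .nil)) .nil)) .nil)) (.cons 276 (.leaf 277 2185 (.cons 273 (.leaf 272 2179 (.cons 321 (.leaf 320 2370 (.cons 250 (.cons 274 (.leaf 345 1997 (.cons 249 (.leaf 248 1984 (.cons 252 (.leaf 253 1993 (.leaf 229 1801 .nil)) .nil)) .nil)) (.cons 345 (.leaf 274 1997 (.cons 368 (.leaf 344 2182 (.cons 369 (.leaf 392 2374 (.cons 370 (.leaf 346 2188 (.leaf 394 2380 .nil)) .nil)) .nil)) .nil)) (.cons 249 (.leaf 248 1984 (.cons 229 (.leaf 230 1810 (.leaf 252 1801 .nil)) .nil)) .nil))) .nil)) .nil)) .nil)) .nil))) .nil)) .nil)) .nil)) .nil)))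
noncomputable def t26 : T := .cons 203 (.cons 274 (.leaf 298 1622 (.cons 179 (.leaf 250 1430 (.cons 180 (.leaf 204 1437 (.leaf 156 1245 .nil)) .nil)) .nil)) (.cons 274 (.leaf 298 1622 (.cons 179 (.leaf 250 1430 (.cons 276 (.leaf 300 1628 (.leaf 252 1436 .nil)) .nil)) .nil)) (.cons 178 (.leaf 202 1431 (.cons 179 (.leaf 154 1239 (.cons 276 (.leaf 300 1628 (.leaf 252 1436 .nil)) .nil)) .nil)) (.cons 178 (.leaf 202 1431 (.cons 298 (.leaf 274 1622 (.cons 299 (.leaf 322 1814 (.cons 300 (.leaf 276 1628 (.leaf 324 1820 .nil)) .nil)) .nil)) .nil)) .nil)))) (.cons 299 t25 (.cons 203 (.cons 178 (.leaf 202 1431 (.cons 179 (.leaf 154 1239 (.cons 274 (.leaf 298 1622 (.leaf 250 1430 .nil)) .nil)) .nil)) (.cons 178 (.leaf 202 1431 (.cons 179 (.leaf 154 1239 (.cons 276 (.leaf 300 1628 (.leaf 252 1436 .nil)) .nil)) .nil)) (.cons 276 (.leaf 300 1628 (.cons 179 (.leaf 252 1436 (.cons 180 (.leaf 204 1437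 (.leaf 156 1245 .nil)) .nil)) .nil)) (.cons 276 (.leaf 300 1628 (.cons 274 (.leaf 298 1622 (.cons 204 (.leaf 180 1437 (.cons 202 (.leaf 178 1431 (.cons 273 (.cons 252 (.leaf 272 1985 (.leaf 253 1993 .nil)) (.cons 248 (.leaf 249 1987 (.cons 272 (.leaf 247 1979 (.cons 296 (.leaf 295 2170 (.leaf 297 2178 .nil)) .nil)) .nil)) (.cons 248 (.leaf 249 1987 (.cons 253 (.leaf 252 1993 (.cons 277 (.leaf 254 2001 (.cons 278 (.leaf 250 2003 (.cons 302 (.leaf 303 2200 (.cons 229 (.leaf 205 1644 (.cons 228 (.leaf 230 1619 (.leaf 201 1608 .nil)) .nil)) .nil)) .nil)) .nil)) .nil)) .nil)) .nil))) .nil)) .nil)) .nil)) .nil)) .nil)))) (.cons 203 t24 (.cons 203 t23 (.cons 203 (.cons 178 (.leaf 202 1431 (.cons 179 (.leaf 154 1239 (.cons 276 (.leaf 300 1628 (.leaf 252 1436 .nil)) .nil)) .nil)) (.cons 178 (.leaf 202 1431 (.cons 179 (.leaf 154 1239 (.cons 180 (.leaf 204 1437 (.leaf 156 1245 .nil)) .nil))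 .nil)) (.cons 276 (.leaf 300 1628 (.cons 179 (.leaf 252 1436 (.cons 180 (.leaf 204 1437 (.leaf 156 1245 .nil)) .nil)) .nil)) (.cons 178 (.leaf 202 1431 (.cons 204 (.leaf 180 1437 (.cons 299 (.leaf 228 1629 (.cons 300 (.leaf 276 1628 (.leaf 324 1820 .nil)) .nil)) .nil)) .nil)) .nil)))) (.cons 203 (.cons 274 (.leaf 298 1622 (.cons 179 (.leaf 250 1430 (.cons 276 (.leaf 300 1628 (.leaf 252 1436 .nil)) .nil)) .nil)) (.cons 178 (.leaf 202 1431 (.cons 179 (.leaf 154 1239 (.cons 274 (.leaf 298 1622 (.leaf 250 1430 .nil)) .nil)) .nil)) (.cons 276 (.leaf 300 1628 (.cons 178 (.leaf 202 1431 (.cons 179 (.leaf 154 1239 (.leaf 252 1436 .nil)) .nil)) .nil)) (.cons 178 (.leaf 202 1431 (.cons 298 (.leaf 274 1622 (.cons 299 (.leaf 322 1814 (.cons 300 (.leaf 276 1628 (.leaf 324 1820 .nil)) .nil)) .nil)) .nil)) .nil)))) (.cons 203 (.cons 178 (.leaf 202 1431 (.cons 179 (.leaf 154 1239 (.cons 274 (.leaf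 298 1622 (.leaf 250 1430 .nil)) .nil)) .nil)) (.cons 178 (.leaf 202 1431 (.cons 179 (.leaf 154 1239 (.cons 180 (.leaf 204 1437 (.leaf 156 1245 .nil)) .nil)) .nil)) (.cons 180 (.leaf 204 1437 (.cons 179 (.leaf 156 1245 (.cons 274 (.leaf 298 1622 (.leaf 250 1430 .nil)) .nil)) .nil)) (.cons 178 (.leaf 202 1431 (.cons 204 (.leaf 180 1437 (.cons 298 (.leaf 274 1622 (.cons 299 (.leaf 228 1629 (.leaf 322 1814 .nil)) .nil)) .nil)) .nil)) .nil)))) .nil)))))))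
noncomputable def t27 : T := .cons 226 (.leaf 202 1623 (.cons 228 (.leaf 204 1629 (.cons 300 (.leaf 324 1820 (.cons 229 (.cons 250 (.leaf 230 1810 (.leaf 249 1802 .nil)) (.cons 205 (.leaf 206 1617 (.cons 252 (.leaf 276 1637 (.cons 253 (.leaf 254 1808 (.leaf 225 1800 .nil)) .nil)) .nil)) .nil)) .nil)) .nil)) .nil)) (.cons 298 (.leaf 322 1814 (.cons 300 (.leaf 324 1820 (.cons 228 (.leaf 204 1629 (.cons 297 (.cons 276 (.leaf 296 2177 (.leaf 277 2185 .nil)) (.cons 272 (.leaf 273 2179 (.cons 296 (.leaf 271 2171 (.cons 320 (.leaf 319 2362 (.leaf 321 2370 .nil)) .nil)) .nil)) (.cons 276 (.leaf 277 2185 (.cons 273 (.leaf 272 2179 (.cons 321 (.leaf 320 2370 (.cons 250 (.cons 274 (.leaf 345 1997 (.cons 249 (.leaf 248 1984 (.cons 252 (.leaf 253 1993 (.leaf 229 1801 .nil)) .nil)) .nil)) (.cons 345 (.leaf 274 1997 (.cons 368 (.leaf 344 2182 (.cons 369 (.leaf 392 2374 (.cons 370 (.leaf 346 2188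 (.leaf 394 2380 .nil)) .nil)) .nil)) .nil)) (.cons 249 (.leaf 248 1984 (.cons 229 (.leaf 230 1810 (.leaf 252 1801 .nil)) .nil)) .nil))) .nil)) .nil)) .nil)) .nil))) .nil)) .nil)) .nil)) (.cons 298 (.leaf 322 1814 (.cons 300 (.leaf 324 1820 (.cons 226 (.leaf 202 1623 (.cons 297 (.cons 276 (.leaf 296 2177 (.leaf 277 2185 .nil)) (.cons 272 (.leaf 273 2179 (.cons 296 (.leaf 271 2171 (.cons 320 (.leaf 319 2362 (.leaf 321 2370 .nil)) .nil)) .nil)) (.cons 273 (.leaf 272 2179 (.cons 276 (.leaf 277 2185 (.cons 321 (.leaf 320 2370 (.cons 250 (.leaf 274 1806 (.leaf 249 1805 .nil)) .nil)) .nil)) .nil)) .nil))) .nil)) .nil)) .nil)) (.cons 226 (.leaf 202 1623 (.cons 228 (.leaf 204 1629 (.cons 298 (.leaf 322 1814 (.cons 225 (.cons 253 (.leaf 252 1800 (.cons 200 (.leaf 201 1603 (.cons 229 (.leaf 254 1808 (.cons 249 (.leaf 248 1794 (.leaf 250 1802 .nil)) .nil)) .nil)) .nil)) (.cons 249 (.leaf 248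 1794 (.cons 200 (.leaf 201 1603 (.cons 199 (.leaf 224 1595 (.cons 229 (.leaf 250 1802 (.cons 206 (.leaf 205 1617 (.cons 230 (.leaf 207 1625 (.cons 254 (.leaf 253 1808 (.leaf 255 1816 .nil)) .nil)) .nil)) .nil)) .nil)) .nil)) .nil)) (.cons 252 (.leaf 224 1792 (.leaf 253 1800 .nil)) (.cons 224 (.leaf 252 1792 (.cons 200 (.leaf 199 1595 (.leaf 201 1603 .nil)) .nil)) .nil)))) .nil)) .nil)) .nil)) (.cons 298 (.leaf 322 1814 (.cons 300 (.leaf 324 1820 (.cons 228 (.leaf 204 1629 (.cons 226 (.leaf 202 1623 (.cons 225 (.cons 252 (.leaf 224 1792 (.leaf 253 1800 .nil)) (.cons 200 (.leaf 201 1603 (.cons 224 (.leaf 199 1595 (.cons 248 (.leaf 247 1786 (.leaf 249 1794 .nil)) .nil)) .nil)) (.cons 201 (.leaf 200 1603 (.cons 249 (.leaf 248 1794 (.cons 253 (.leaf 252 1800 (.cons 229 (.leaf 254 1808 (.cons 205 (.leaf 206 1617 (.cons 273 (.leaf 274 1612 (.cons 272 (.leaf 297 2179 (.leaf 296 1606 .nil))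 .nil)) .nil)) .nil)) .nil)) .nil)) .nil)) .nil))) .nil)) .nil)) .nil)) .nil)) (.cons 226 (.leaf 202 1623 (.cons 228 (.leaf 204 1629 (.cons 298 (.leaf 322 1814 (.cons 300 (.leaf 324 1820 (.cons 297 (.cons 272 (.leaf 273 2179 (.cons 296 (.leaf 276 2177 (.leaf 271 2171 .nil)) .nil)) (.cons 272 (.leaf 273 2179 (.cons 296 (.leaf 271 2171 (.cons 320 (.leaf 319 2362 (.leaf 321 2370 .nil)) .nil)) .nil)) (.cons 272 (.leaf 273 2179 (.cons 321 (.leaf 320 2370 (.cons 250 (.leaf 274 1806 (.cons 229 (.leaf 230 1810 (.cons 205 (.leaf 206 1617 (.cons 276 (.leaf 277 2185 (.leaf 252 1637 .nil)) .nil)) .nil)) .nil)) .nil)) .nil)) (.cons 276 (.leaf 296 2177 (.leaf 277 2185 .nil)) .nil)))) .nil)) .nil)) .nil)) .nil)) .nil)))))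
noncomputable def t28 : T := .cons 203 (.cons 178 (.leaf 202 1431 (.cons 204 (.leaf 180 1437 (.cons 179 (.leaf 154 1239 (.cons 276 (.leaf 300 1628 (.leaf 252 1436 .nil)) .nil)) .nil)) .nil)) (.cons 276 (.leaf 300 1628 (.cons 179 (.leaf 252 1436 (.cons 180 (.leaf 204 1437 (.leaf 156 1245 .nil)) .nil)) .nil)) (.cons 178 (.leaf 202 1431 (.cons 179 (.leaf 154 1239 (.cons 274 (.leaf 298 1622 (.leaf 250 1430 .nil)) .nil)) .nil)) (.cons 178 (.leaf 202 1431 (.cons 204 (.leaf 180 1437 (.cons 298 (.leaf 274 1622 (.cons 299 (.leaf 228 1629 (.leaf 322 1814 .nil)) .nil)) .nil)) .nil)) .nil)))) (.cons 299 t27 (.cons 203 (.cons 276 (.leaf 300 1628 (.cons 178 (.leaf 202 1431 (.cons 179 (.leaf 154 1239 (.leaf 252 1436 .nil)) .nil)) .nil)) (.cons 274 (.leaf 298 1622 (.cons 178 (.leaf 202 1431 (.cons 179 (.leaf 154 1239 (.leaf 250 1430 .nil)) .nil)) .nil)) (.cons 276 (.leaf 300 1628 (.cons 179 (.leaf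 252 1436 (.cons 180 (.leaf 204 1437 (.leaf 156 1245 .nil)) .nil)) .nil)) (.cons 202 (.leaf 178 1431 (.cons 204 (.leaf 180 1437 (.cons 274 (.leaf 298 1622 (.cons 276 (.leaf 300 1628 (.cons 201 (.cons 228 (.leaf 200 1600 (.leaf 229 1608 .nil)) (.cons 176 (.leaf 177 1411 (.cons 200 (.leaf 175 1403 (.cons 224 (.leaf 223 1594 (.leaf 225 1602 .nil)) .nil)) .nil)) (.cons 176 (.leaf 177 1411 (.cons 225 (.leaf 224 1602 (.cons 205 (.leaf 226 1610 (.cons 229 (.leaf 228 1608 (.leaf 230 1616 .nil)) .nil)) .nil)) .nil)) .nil))) .nil)) .nil)) .nil)) .nil)) .nil)))) (.cons 203 (.cons 178 (.leaf 202 1431 (.cons 179 (.leaf 154 1239 (.cons 276 (.leaf 300 1628 (.leaf 252 1436 .nil)) .nil)) .nil)) (.cons 204 (.leaf 180 1437 (.cons 228 (.leaf 299 1629 (.cons 276 (.leaf 300 1628 (.cons 252 (.leaf 179 1436 (.cons 205 (.leaf 181 1445 (.cons 206 (.leaf 226 1618 (.leaf 207 1626 .nil)) .nil)) .nil)) .nil)) .nil))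 .nil)) (.cons 178 (.leaf 202 1431 (.cons 179 (.leaf 154 1239 (.cons 180 (.leaf 204 1437 (.leaf 156 1245 .nil)) .nil)) .nil)) (.cons 178 (.leaf 202 1431 (.cons 204 (.leaf 180 1437 (.cons 299 (.leaf 228 1629 (.cons 300 (.leaf 276 1628 (.leaf 324 1820 .nil)) .nil)) .nil)) .nil)) .nil)))) (.cons 203 (.cons 180 (.leaf 204 1437 (.cons 179 (.leaf 156 1245 (.cons 274 (.leaf 298 1622 (.leaf 250 1430 .nil)) .nil)) .nil)) (.cons 204 (.leaf 180 1437 (.cons 228 (.leaf 299 1629 (.cons 276 (.leaf 300 1628 (.cons 252 (.leaf 179 1436 (.cons 205 (.leaf 181 1445 (.cons 206 (.leaf 226 1618 (.leaf 207 1626 .nil)) .nil)) .nil)) .nil)) .nil)) .nil)) (.cons 274 (.leaf 298 1622 (.cons 179 (.leaf 250 1430 (.cons 276 (.leaf 300 1628 (.leaf 252 1436 .nil)) .nil)) .nil)) (.cons 180 (.leaf 204 1437 (.cons 298 (.leaf 274 1622 (.cons 299 (.leaf 322 1814 (.cons 300 (.leaf 276 1628 (.leaf 324 1820 .nil)) .nil)) .nil))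 .nil)) .nil)))) (.cons 203 (.cons 178 (.leaf 202 1431 (.cons 179 (.leaf 154 1239 (.cons 274 (.leaf 298 1622 (.leaf 250 1430 .nil)) .nil)) .nil)) (.cons 178 (.leaf 202 1431 (.cons 179 (.leaf 154 1239 (.cons 276 (.leaf 300 1628 (.leaf 252 1436 .nil)) .nil)) .nil)) (.cons 274 (.leaf 298 1622 (.cons 179 (.leaf 250 1430 (.cons 180 (.leaf 204 1437 (.leaf 156 1245 .nil)) .nil)) .nil)) (.cons 202 (.leaf 178 1431 (.cons 180 (.leaf 204 1437 (.cons 298 (.leaf 274 1622 (.cons 299 (.leaf 226 1623 (.leaf 322 1814 .nil)) .nil)) .nil)) .nil)) .nil)))) (.cons 203 (.cons 178 (.leaf 202 1431 (.cons 179 (.leaf 154 1239 (.cons 274 (.leaf 298 1622 (.leaf 250 1430 .nil)) .nil)) .nil)) (.cons 178 (.leaf 202 1431 (.cons 179 (.leaf 154 1239 (.cons 276 (.leaf 300 1628 (.leaf 252 1436 .nil)) .nil)) .nil)) (.cons 274 (.leaf 298 1622 (.cons 179 (.leaf 250 1430 (.cons 276 (.leaf 300 1628 (.leaf 252 1436 .nil))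 .nil)) .nil)) (.cons 178 (.leaf 202 1431 (.cons 298 (.leaf 274 1622 (.cons 299 (.leaf 322 1814 (.cons 300 (.leaf 276 1628 (.leaf 324 1820 .nil)) .nil)) .nil)) .nil)) .nil)))) (.cons 203 (.cons 178 (.leaf 202 1431 (.cons 179 (.leaf 154 1239 (.cons 274 (.leaf 298 1622 (.leaf 250 1430 .nil)) .nil)) .nil)) (.cons 180 (.leaf 204 1437 (.cons 179 (.leaf 156 1245 (.cons 274 (.leaf 298 1622 (.leaf 250 1430 .nil)) .nil)) .nil)) (.cons 178 (.leaf 202 1431 (.cons 179 (.leaf 154 1239 (.cons 180 (.leaf 204 1437 (.leaf 156 1245 .nil)) .nil)) .nil)) (.cons 178 (.leaf 202 1431 (.cons 204 (.leaf 180 1437 (.cons 298 (.leaf 274 1622 (.cons 299 (.leaf 228 1629 (.leaf 322 1814 .nil)) .nil)) .nil)) .nil)) .nil)))) .nil)))))))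
noncomputable def t29 : T := .cons 250 (.leaf 226 1815 (.cons 252 (.leaf 228 1821 (.cons 324 (.leaf 348 2012 (.cons 322 (.leaf 346 2006 (.cons 249 (.cons 276 (.leaf 248 1984 (.leaf 347 2013 .nil)) (.cons 224 (.leaf 225 1795 (.cons 248 (.leaf 223 1787 (.cons 272 (.leaf 271 1978 (.leaf 273 1986 .nil)) .nil)) .nil)) (.cons 225 (.leaf 224 1795 (.cons 273 (.leaf 272 1986 (.cons 277 (.leaf 276 1992 (.cons 253 (.leaf 274 1994 (.leaf 278 2000 .nil)) .nil)) .nil)) .nil)) .nil))) .nil)) .nil)) .nil)) .nil)) (.cons 252 (.leaf 228 1821 (.cons 347 (.leaf 276 2013 (.cons 348 (.leaf 324 2012 (.leaf 372 2204 .nil)) .nil)) .nil)) (.cons 250 (.leaf 226 1815 (.cons 322 (.leaf 346 2006 (.cons 347 (.leaf 274 2007 (.cons 348 (.leaf 324 2012 (.leaf 372 2204 .nil)) .nil)) .nil)) .nil)) (.cons 250 (.leaf 226 1815 (.cons 228 (.leaf 252 1821 (.cons 346 (.leaf 322 2006 (.cons 347 (.leaf 274 2007 (.leaf 370 2198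 .nil)) .nil)) .nil)) .nil)) (.cons 250 (.leaf 226 1815 (.cons 252 (.leaf 228 1821 (.cons 324 (.leaf 348 2012 (.cons 322 (.leaf 346 2006 (.cons 249 (.cons 276 (.leaf 248 1984 (.leaf 277 1992 .nil)) (.cons 224 (.leaf 225 1795 (.cons 248 (.leaf 223 1787 (.cons 272 (.leaf 271 1978 (.leaf 273 1986 .nil)) .nil)) .nil)) (.cons 225 (.leaf 224 1795 (.cons 273 (.leaf 272 1986 (.cons 277 (.leaf 276 1992 (.cons 253 (.leaf 274 1994 (.leaf 278 2000 .nil)) .nil)) .nil)) .nil)) .nil))) .nil)) .nil)) .nil)) .nil)) .nil))))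
noncomputable def t30 : T := .cons 226 (.leaf 202 1623 (.cons 228 (.leaf 204 1629 (.cons 300 (.leaf 324 1820 (.cons 229 (.cons 250 (.leaf 230 1810 (.leaf 249 1802 .nil)) (.cons 205 (.leaf 206 1617 (.cons 252 (.leaf 276 1637 (.cons 253 (.leaf 254 1808 (.leaf 225 1800 .nil)) .nil)) .nil)) .nil)) .nil)) .nil)) .nil)) (.cons 298 (.leaf 322 1814 (.cons 300 (.leaf 324 1820 (.cons 228 (.leaf 204 1629 (.cons 297 (.cons 276 (.leaf 296 2177 (.leaf 277 2185 .nil)) (.cons 272 (.leaf 273 2179 (.cons 296 (.leaf 271 2171 (.cons 320 (.leaf 319 2362 (.leaf 321 2370 .nil)) .nil)) .nil)) (.cons 276 (.leaf 277 2185 (.cons 273 (.leaf 272 2179 (.cons 321 (.leaf 320 2370 (.cons 250 (.cons 274 (.leaf 345 1997 (.cons 249 (.leaf 248 1984 (.cons 252 (.leaf 253 1993 (.leaf 229 1801 .nil)) .nil)) .nil)) (.cons 345 (.leaf 274 1997 (.cons 368 (.leaf 344 2182 (.cons 369 (.leaf 392 2374 (.cons 370 (.leaf 346 2188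 (.leaf 394 2380 .nil)) .nil)) .nil)) .nil)) (.cons 249 (.leaf 248 1984 (.cons 229 (.leaf 230 1810 (.leaf 252 1801 .nil)) .nil)) .nil))) .nil)) .nil)) .nil)) .nil))) .nil)) .nil)) .nil)) (.cons 298 (.leaf 322 1814 (.cons 300 (.leaf 324 1820 (.cons 226 (.leaf 202 1623 (.cons 297 (.cons 276 (.leaf 296 2177 (.leaf 277 2185 .nil)) (.cons 272 (.leaf 273 2179 (.cons 296 (.leaf 271 2171 (.cons 320 (.leaf 319 2362 (.leaf 321 2370 .nil)) .nil)) .nil)) (.cons 273 (.leaf 272 2179 (.cons 276 (.leaf 277 2185 (.cons 321 (.leaf 320 2370 (.cons 250 (.leaf 274 1806 (.leaf 249 1805 .nil)) .nil)) .nil)) .nil)) .nil))) .nil)) .nil)) .nil)) (.cons 226 (.leaf 202 1623 (.cons 228 (.leaf 204 1629 (.cons 298 (.leaf 322 1814 (.cons 225 (.cons 200 (.leaf 201 1603 (.cons 224 (.leaf 252 1792 (.leaf 199 1595 .nil)) .nil)) (.cons 249 (.leaf 248 1794 (.cons 200 (.leaf 201 1603 (.cons 199 (.leaf 224 1595 (.cons 229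 (.leaf 250 1802 (.cons 206 (.leaf 205 1617 (.cons 230 (.leaf 207 1625 (.cons 254 (.leaf 253 1808 (.leaf 255 1816 .nil)) .nil)) .nil)) .nil)) .nil)) .nil)) .nil)) (.cons 253 (.leaf 252 1800 (.cons 200 (.leaf 201 1603 (.cons 229 (.leaf 254 1808 (.cons 249 (.leaf 248 1794 (.leaf 250 1802 .nil)) .nil)) .nil)) .nil)) (.cons 252 (.leaf 224 1792 (.leaf 253 1800 .nil)) .nil)))) .nil)) .nil)) .nil)) (.cons 298 (.leaf 322 1814 (.cons 300 (.leaf 324 1820 (.cons 228 (.leaf 204 1629 (.cons 226 (.leaf 202 1623 (.cons 225 (.cons 252 (.leaf 224 1792 (.leaf 253 1800 .nil)) (.cons 200 (.leaf 201 1603 (.cons 224 (.leaf 199 1595 (.cons 248 (.leaf 247 1786 (.leaf 249 1794 .nil)) .nil)) .nil)) (.cons 201 (.leaf 200 1603 (.cons 249 (.leaf 248 1794 (.cons 253 (.leaf 252 1800 (.cons 229 (.leaf 254 1808 (.cons 205 (.leaf 206 1617 (.cons 273 (.leaf 274 1612 (.cons 272 (.leaf 297 2179 (.leaf 296 1606 .nil))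 .nil)) .nil)) .nil)) .nil)) .nil)) .nil)) .nil))) .nil)) .nil)) .nil)) .nil)) (.cons 226 (.leaf 202 1623 (.cons 228 (.leaf 204 1629 (.cons 298 (.leaf 322 1814 (.cons 300 (.leaf 324 1820 (.cons 297 (.cons 272 (.leaf 273 2179 (.cons 296 (.leaf 276 2177 (.leaf 271 2171 .nil)) .nil)) (.cons 272 (.leaf 273 2179 (.cons 296 (.leaf 271 2171 (.cons 320 (.leaf 319 2362 (.leaf 321 2370 .nil)) .nil)) .nil)) (.cons 272 (.leaf 273 2179 (.cons 321 (.leaf 320 2370 (.cons 250 (.leaf 274 1806 (.cons 229 (.leaf 230 1810 (.cons 205 (.leaf 206 1617 (.cons 276 (.leaf 277 2185 (.leaf 252 1637 .nil)) .nil)) .nil)) .nil)) .nil)) .nil)) (.cons 276 (.leaf 296 2177 (.leaf 277 2185 .nil)) .nil)))) .nil)) .nil)) .nil)) .nil)) .nil)))))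
noncomputable def t31 : T := .cons 323 (.cons 226 (.leaf 250 1815 (.cons 227 (.leaf 202 1623 (.cons 322 (.leaf 298 1814 (.leaf 346 2006 .nil)) .nil)) .nil)) (.cons 324 (.leaf 348 2012 (.cons 227 (.leaf 300 1820 (.cons 322 (.leaf 298 1814 (.leaf 346 2006 .nil)) .nil)) .nil)) (.cons 226 (.leaf 250 1815 (.cons 227 (.leaf 202 1623 (.cons 324 (.leaf 300 1820 (.leaf 348 2012 .nil)) .nil)) .nil)) (.cons 226 (.leaf 250 1815 (.cons 252 (.leaf 228 1821 (.cons 346 (.leaf 322 2006 (.cons 347 (.leaf 276 2013 (.leaf 370 2198 .nil)) .nil)) .nil)) .nil)) .nil)))) (.cons 227 t30 (.cons 323 t29 (.cons 323 (.cons 228 (.leaf 252 1821 (.cons 346 (.leaf 322 2006 (.cons 347 (.leaf 370 2198 (.cons 348 (.leaf 324 2012 (.leaf 372 2204 .nil)) .nil)) .nil)) .nil)) (.cons 228 (.leaf 252 1821 (.cons 227 (.leaf 204 1629 (.cons 322 (.leaf 298 1814 (.leaf 346 2006 .nil)) .nil)) .nil)) (.cons 228 (.leaf 252 1821 (.cons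 227 (.leaf 204 1629 (.cons 324 (.leaf 300 1820 (.leaf 348 2012 .nil)) .nil)) .nil)) (.cons 322 (.leaf 346 2006 (.cons 227 (.leaf 298 1814 (.cons 324 (.leaf 300 1820 (.leaf 348 2012 .nil)) .nil)) .nil)) .nil)))) (.cons 323 (.cons 226 (.leaf 250 1815 (.cons 227 (.leaf 202 1623 (.cons 322 (.leaf 298 1814 (.leaf 346 2006 .nil)) .nil)) .nil)) (.cons 226 (.leaf 250 1815 (.cons 227 (.leaf 202 1623 (.cons 324 (.leaf 300 1820 (.leaf 348 2012 .nil)) .nil)) .nil)) (.cons 324 (.leaf 348 2012 (.cons 227 (.leaf 300 1820 (.cons 322 (.leaf 298 1814 (.leaf 346 2006 .nil)) .nil)) .nil)) (.cons 226 (.leaf 250 1815 (.cons 346 (.leaf 322 2006 (.cons 347 (.leaf 370 2198 (.cons 348 (.leaf 324 2012 (.leaf 372 2204 .nil)) .nil)) .nil)) .nil)) .nil)))) (.cons 323 (.cons 226 (.leaf 250 1815 (.cons 202 (.leaf 227 1623 (.cons 252 (.leaf 228 1821 (.cons 347 (.leaf 276 2013 (.cons 370 (.leaf 346 2198 (.cons 371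 (.leaf 394 2390 (.cons 372 (.leaf 348 2204 (.leaf 396 2396 .nil)) .nil)) .nil)) .nil)) .nil)) .nil)) .nil)) (.cons 252 (.leaf 228 1821 (.cons 346 (.leaf 322 2006 (.cons 347 (.leaf 276 2013 (.leaf 370 2198 .nil)) .nil)) .nil)) (.cons 250 (.leaf 226 1815 (.cons 274 (.leaf 347 2007 (.cons 322 (.leaf 346 2006 (.cons 298 (.leaf 227 1813 (.cons 225 (.leaf 249 1807 (.cons 321 (.leaf 345 1998 (.cons 320 (.leaf 319 2361 (.leaf 300 2369 .nil)) .nil)) .nil)) .nil)) .nil)) .nil)) .nil)) (.cons 250 (.leaf 226 1815 (.cons 252 (.leaf 228 1821 (.cons 347 (.leaf 274 2007 (.leaf 276 2013 .nil)) .nil)) .nil)) (.cons 322 (.leaf 346 2006 (.cons 226 (.leaf 250 1815 (.cons 227 (.leaf 202 1623 (.leaf 298 1814 .nil)) .nil)) .nil)) .nil))))) (.cons 323 (.cons 226 (.leaf 250 1815 (.cons 227 (.leaf 202 1623 (.cons 324 (.leaf 300 1820 (.leaf 348 2012 .nil)) .nil)) .nil)) (.cons 228 (.leaf 252 1821 (.cons 227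 (.leaf 204 1629 (.cons 324 (.leaf 300 1820 (.leaf 348 2012 .nil)) .nil)) .nil)) (.cons 250 (.leaf 226 1815 (.cons 252 (.leaf 228 1821 (.cons 347 (.leaf 274 2007 (.leaf 276 2013 .nil)) .nil)) .nil)) .nil))) .nil))))))
noncomputable def t32 : T := .cons 227 (.cons 202 (.leaf 226 1623 (.cons 203 (.leaf 178 1431 (.cons 204 (.leaf 180 1437 (.leaf 228 1629 .nil)) .nil)) .nil)) (.cons 298 (.leaf 322 1814 (.cons 203 (.leaf 274 1622 (.cons 204 (.leaf 180 1437 (.leaf 228 1629 .nil)) .nil)) .nil)) (.cons 298 (.leaf 322 1814 (.cons 202 (.leaf 226 1623 (.cons 203 (.leaf 178 1431 (.leaf 274 1622 .nil)) .nil)) .nil)) (.cons 226 (.leaf 202 1623 (.cons 228 (.leaf 204 1629 (.cons 298 (.leaf 322 1814 (.cons 300 (.leaf 324 1820 (.cons 225 (.cons 252 (.leaf 224 1792 (.leaf 253 1800 .nil)) (.cons 200 (.leaf 201 1603 (.cons 224 (.leaf 199 1595 (.cons 248 (.leaf 247 1786 (.leaf 249 1794 .nil)) .nil)) .nil))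 (.cons 201 (.leaf 200 1603 (.cons 249 (.leaf 248 1794 (.cons 253 (.leaf 252 1800 (.cons 229 (.leaf 250 1802 (.leaf 254 1808 .nil)) .nil)) .nil)) .nil)) .nil))) .nil)) .nil)) .nil)) .nil)) .nil)))) (.cons 323 (.cons 228 (.leaf 252 1821 (.cons 204 (.leaf 227 1629 (.cons 346 (.leaf 322 2006 (.cons 347 (.leaf 370 2198 (.cons 274 (.leaf 250 2007 (.cons 371 (.leaf 298 2199 (.cons 372 (.leaf 348 2204 (.leaf 396 2396 .nil)) .nil)) .nil)) .nil)) .nil)) .nil)) .nil)) (.cons 228 (.leaf 252 1821 (.cons 227 (.leaf 204 1629 (.cons 324 (.leaf 300 1820 (.leaf 348 2012 .nil)) .nil)) .nil)) (.cons 228 (.leaf 252 1821 (.cons 227 (.leaf 204 1629 (.cons 322 (.leaf 298 1814 (.leaf 346 2006 .nil)) .nil)) .nil)) (.cons 322 (.leaf 346 2006 (.cons 227 (.leaf 298 1814 (.cons 324 (.leaf 300 1820 (.leaf 348 2012 .nil)) .nil)) .nil)) (.cons 346 (.leaf 322 2006 (.cons 347 (.leaf 370 2198 (.cons 348 (.leaf 324 2012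 (.leaf 372 2204 .nil)) .nil)) .nil)) .nil))))) (.cons 227 (.cons 202 (.leaf 226 1623 (.cons 228 (.leaf 204 1629 (.cons 323 (.leaf 252 1821 (.cons 324 (.leaf 300 1820 (.leaf 348 2012 .nil)) .nil)) .nil)) .nil)) (.cons 228 (.leaf 204 1629 (.cons 323 (.leaf 252 1821 (.cons 324 (.leaf 300 1820 (.leaf 348 2012 .nil)) .nil)) .nil)) (.cons 226 (.leaf 202 1623 (.cons 323 (.leaf 250 1815 (.cons 324 (.leaf 300 1820 (.leaf 348 2012 .nil)) .nil)) .nil)) (.cons 226 (.leaf 202 1623 (.cons 204 (.leaf 228 1629 (.cons 203 (.leaf 180 1437 (.cons 205 (.leaf 206 1618 (.cons 224 (.leaf 225 1601 (.cons 250 (.leaf 323 1815 (.cons 274 (.leaf 298 1621 (.leaf 179 1430 .nil)) .nil)) .nil)) .nil)) .nil)) .nil)) .nil)) (.cons 202 (.leaf 226 1623 (.cons 203 (.leaf 178 1431 (.cons 180 (.leaf 204 1437 (.cons 179 (.leaf 156 1245 (.cons 274 (.leaf 298 1622 (.leaf 250 1430 .nil)) .nil)) .nil)) .nil)) .nil)) .nil)))))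 (.cons 227 (.cons 202 (.leaf 226 1623 (.cons 228 (.leaf 204 1629 (.cons 323 (.leaf 252 1821 (.cons 324 (.leaf 300 1820 (.leaf 348 2012 .nil)) .nil)) .nil)) .nil)) (.cons 202 (.leaf 226 1623 (.cons 178 (.leaf 203 1431 (.cons 322 (.leaf 298 1814 (.cons 323 (.leaf 346 2006 (.cons 324 (.leaf 300 1820 (.leaf 348 2012 .nil)) .nil)) .nil)) .nil)) .nil)) (.cons 204 (.leaf 228 1629 (.cons 203 (.leaf 180 1437 (.cons 298 (.leaf 274 1622 (.leaf 322 1814 .nil)) .nil)) .nil)) .nil))) (.cons 323 (.cons 226 (.leaf 250 1815 (.cons 227 (.leaf 202 1623 (.cons 322 (.leaf 298 1814 (.leaf 346 2006 .nil)) .nil)) .nil)) (.cons 226 (.leaf 250 1815 (.cons 227 (.leaf 202 1623 (.cons 324 (.leaf 300 1820 (.leaf 348 2012 .nil)) .nil)) .nil)) (.cons 346 (.leaf 322 2006 (.cons 347 (.leaf 370 2198 (.cons 348 (.leaf 324 2012 (.leaf 372 2204 .nil)) .nil)) .nil)) .nil))) (.cons 227 (.cons 202 (.leaf 226 1623 (.cons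 203 (.leaf 178 1431 (.cons 298 (.leaf 274 1622 (.leaf 322 1814 .nil)) .nil)) .nil)) (.cons 228 (.leaf 204 1629 (.cons 252 (.leaf 323 1821 (.cons 298 (.leaf 322 1814 (.cons 203 (.leaf 274 1622 (.cons 178 (.leaf 202 1431 (.cons 179 (.leaf 154 1239 (.leaf 155 1244 .nil)) .nil)) .nil)) .nil)) .nil)) .nil)) (.cons 226 (.leaf 202 1623 (.cons 204 (.leaf 228 1629 (.cons 203 (.leaf 180 1437 (.cons 205 (.leaf 206 1618 (.cons 224 (.leaf 225 1601 (.cons 250 (.leaf 323 1815 (.cons 179 (.leaf 274 1430 (.leaf 155 1238 .nil)) .nil)) .nil)) .nil)) .nil)) .nil)) .nil)) (.cons 228 (.leaf 204 1629 (.cons 252 (.leaf 323 1821 (.cons 298 (.leaf 322 1814 (.cons 274 (.leaf 203 1622 (.cons 253 (.leaf 254 2002 (.cons 273 (.leaf 272 1985 (.leaf 250 1994 .nil)) .nil)) .nil)) .nil)) .nil)) .nil)) (.cons 226 (.leaf 202 1623 (.cons 204 (.leaf 228 1629 (.cons 322 (.leaf 298 1814 (.cons 323 (.leaf 250 1815 (.leaf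 346 2006 .nil)) .nil)) .nil)) .nil)) .nil))))) (.cons 323 (.cons 226 (.leaf 250 1815 (.cons 227 (.leaf 202 1623 (.cons 324 (.leaf 300 1820 (.leaf 348 2012 .nil)) .nil)) .nil)) (.cons 324 (.leaf 348 2012 (.cons 227 (.leaf 300 1820 (.cons 228 (.leaf 204 1629 (.leaf 252 1821 .nil)) .nil)) .nil)) (.cons 226 (.leaf 250 1815 (.cons 227 (.leaf 202 1623 (.cons 228 (.leaf 204 1629 (.leaf 252 1821 .nil)) .nil)) .nil)) (.cons 250 (.leaf 226 1815 (.cons 347 (.leaf 274 2007 (.cons 348 (.leaf 324 2012 (.leaf 372 2204 .nil)) .nil)) .nil)) .nil)))) .nil))))))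
noncomputable def t33 : T := .cons 227 (.cons 202 (.leaf 226 1623 (.cons 228 (.leaf 204 1629 (.cons 203 (.leaf 178 1431 (.cons 298 (.leaf 274 1622 (.leaf 322 1814 .nil)) .nil)) .nil)) .nil)) (.cons 228 (.leaf 204 1629 (.cons 252 (.leaf 323 1821 (.cons 298 (.leaf 322 1814 (.cons 203 (.leaf 274 1622 (.cons 178 (.leaf 202 1431 (.cons 179 (.leaf 154 1239 (.leaf 155 1244 .nil)) .nil)) .nil)) .nil)) .nil)) .nil)) (.cons 202 (.leaf 226 1623 (.cons 203 (.leaf 178 1431 (.cons 298 (.leaf 274 1622 (.leaf 322 1814 .nil)) .nil)) .nil)) (.cons 226 (.leaf 202 1623 (.cons 204 (.leaf 228 1629 (.cons 323 (.leaf 250 1815 (.cons 324 (.leaf 300 1820 (.leaf 348 2012 .nil)) .nil)) .nil)) .nil)) (.cons 228 (.leaf 204 1629 (.cons 252 (.leaf 323 1821 (.cons 298 (.leaf 322 1814 (.cons 274 (.leaf 203 1622 (.cons 253 (.leaf 254 2002 (.cons 273 (.leaf 272 1985 (.leaf 250 1994 .nil)) .nil)) .nil)) .nil)) .nil))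 .nil)) .nil))))) (.cons 323 (.cons 250 (.leaf 226 1815 (.cons 347 (.leaf 274 2007 (.cons 348 (.leaf 324 2012 (.leaf 372 2204 .nil)) .nil)) .nil)) (.cons 346 (.leaf 322 2006 (.cons 347 (.leaf 370 2198 (.cons 348 (.leaf 324 2012 (.leaf 372 2204 .nil)) .nil)) .nil)) (.cons 250 (.leaf 226 1815 (.cons 346 (.leaf 322 2006 (.cons 347 (.leaf 274 2007 (.leaf 370 2198 .nil)) .nil)) .nil)) (.cons 322 (.leaf 346 2006 (.cons 324 (.leaf 348 2012 (.cons 250 (.leaf 226 1815 (.cons 252 (.leaf 228 1821 (.cons 253 (.cons 274 (.leaf 254 2002 (.leaf 273 1994 .nil)) (.cons 229 (.leaf 230 1809 (.cons 278 (.leaf 277 2000 (.cons 254 (.leaf 279 2008 (.cons 326 (.leaf 302 1839 (.cons 325 (.leaf 298 2387 (.cons 350 (.leaf 349 2576 (.leaf 351 2584 .nil)) .nil)) .nil)) .nil)) .nil)) .nil)) (.cons 229 (.leaf 230 1809 (.cons 273 (.leaf 274 1994 (.cons 249 (.leaf 272 1986 (.cons 225 (.leaf 224 1795 (.cons 297 (.leaf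 298 1804 (.cons 296 (.leaf 321 2371 (.leaf 320 1798 .nil)) .nil)) .nil)) .nil)) .nil)) .nil)) .nil))) .nil)) .nil)) .nil)) .nil)) .nil)))) t32)
noncomputable def t34 : T := .cons 323 (.cons 252 (.leaf 228 1821 (.cons 347 (.leaf 276 2013 (.cons 348 (.leaf 324 2012 (.leaf 372 2204 .nil)) .nil)) .nil)) (.cons 348 (.leaf 324 2012 (.cons 226 (.leaf 250 1815 (.cons 346 (.leaf 322 2006 (.cons 347 (.leaf 370 2198 (.leaf 372 2204 .nil)) .nil)) .nil)) .nil)) (.cons 252 (.leaf 228 1821 (.cons 346 (.leaf 322 2006 (.cons 347 (.leaf 276 2013 (.leaf 370 2198 .nil)) .nil)) .nil)) (.cons 324 (.leaf 348 2012 (.cons 322 (.leaf 346 2006 (.cons 252 (.leaf 228 1821 (.cons 250 (.leaf 226 1815 (.cons 249 (.cons 276 (.leaf 248 1984 (.leaf 277 1992 .nil)) (.cons 224 (.leaf 225 1795 (.cons 248 (.leaf 223 1787 (.cons 272 (.leaf 271 1978 (.leaf 273 1986 .nil)) .nil)) .nil)) (.cons 225 (.leaf 224 1795 (.cons 273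 (.leaf 272 1986 (.cons 277 (.leaf 276 1992 (.cons 253 (.leaf 278 2000 (.cons 297 (.leaf 298 1804 (.cons 296 (.leaf 321 2371 (.leaf 320 1798 .nil)) .nil)) .nil)) .nil)) .nil)) .nil)) .nil))) .nil)) .nil)) .nil)) .nil)) .nil)))) (.cons 227 (.cons 228 (.leaf 204 1629 (.cons 226 (.leaf 202 1623 (.cons 298 (.leaf 322 1814 (.cons 300 (.leaf 324 1820 (.cons 229 (.cons 250 (.leaf 230 1810 (.leaf 249 1802 .nil)) (.cons 205 (.leaf 206 1617 (.cons 252 (.leaf 276 1637 (.cons 253 (.leaf 254 1808 (.leaf 225 1800 .nil)) .nil)) .nil)) .nil)) .nil)) .nil)) .nil)) .nil)) (.cons 300 (.leaf 324 1820 (.cons 202 (.leaf 226 1623 (.cons 203 (.leaf 178 1431 (.leaf 276 1628 .nil)) .nil)) .nil)) (.cons 300 (.leaf 324 1820 (.cons 203 (.leaf 276 1628 (.cons 204 (.leaf 180 1437 (.leaf 228 1629 .nil)) .nil)) .nil)) (.cons 204 (.leaf 228 1629 (.cons 202 (.leaf 226 1623 (.cons 203 (.leaf 178 1431 (.leaf 180 1437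 .nil)) .nil)) .nil)) .nil)))) (.cons 323 (.cons 226 (.leaf 250 1815 (.cons 322 (.leaf 346 2006 (.cons 348 (.leaf 324 2012 (.cons 347 (.leaf 372 2204 (.cons 276 (.leaf 252 2013 (.cons 320 (.leaf 321 2560 (.cons 349 (.leaf 350 2579 (.cons 371 (.leaf 300 2205 (.cons 394 (.leaf 370 2390 (.cons 395 (.leaf 298 2391 (.leaf 418 2582 .nil)) .nil)) .nil)) .nil)) .nil)) .nil)) .nil)) .nil)) .nil)) .nil)) (.cons 226 (.leaf 250 1815 (.cons 202 (.leaf 227 1623 (.cons 346 (.leaf 322 2006 (.cons 347 (.leaf 370 2198 (.cons 276 (.leaf 252 2013 (.cons 371 (.leaf 300 2205 (.cons 372 (.leaf 348 2204 (.leaf 396 2396 .nil)) .nil)) .nil)) .nil)) .nil)) .nil)) .nil)) (.cons 226 (.leaf 250 1815 (.cons 227 (.leaf 202 1623 (.cons 324 (.leaf 300 1820 (.leaf 348 2012 .nil)) .nil)) .nil)) (.cons 226 (.leaf 250 1815 (.cons 227 (.leaf 202 1623 (.cons 322 (.leaf 298 1814 (.leaf 346 2006 .nil)) .nil)) .nil)) (.cons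 322 (.leaf 346 2006 (.cons 298 (.leaf 227 1814 (.cons 324 (.leaf 348 2012 (.cons 297 (.leaf 296 2368 (.leaf 325 2379 .nil)) .nil)) .nil)) .nil)) .nil))))) (.cons 227 (.cons 204 (.leaf 228 1629 (.cons 202 (.leaf 226 1623 (.cons 203 (.leaf 178 1431 (.leaf 180 1437 .nil)) .nil)) .nil)) (.cons 226 (.leaf 202 1623 (.cons 322 (.leaf 298 1814 (.cons 323 (.leaf 250 1815 (.leaf 346 2006 .nil)) .nil)) .nil)) (.cons 228 (.leaf 204 1629 (.cons 322 (.leaf 298 1814 (.cons 323 (.leaf 252 1821 (.leaf 346 2006 .nil)) .nil)) .nil)) .nil))) (.cons 227 (.cons 204 (.leaf 228 1629 (.cons 180 (.leaf 203 1437 (.cons 322 (.leaf 298 1814 (.cons 323 (.leaf 346 2006 (.cons 324 (.leaf 300 1820 (.leaf 348 2012 .nil)) .nil)) .nil)) .nil)) .nil)) (.cons 226 (.leaf 202 1623 (.cons 322 (.leaf 298 1814 (.cons 323 (.leaf 250 1815 (.leaf 346 2006 .nil)) .nil)) .nil)) (.cons 202 (.leaf 226 1623 (.cons 203 (.leaf 178 1431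 (.cons 300 (.leaf 276 1628 (.leaf 324 1820 .nil)) .nil)) .nil)) .nil))) (.cons 323 (.cons 228 (.leaf 252 1821 (.cons 227 (.leaf 204 1629 (.cons 322 (.leaf 298 1814 (.leaf 346 2006 .nil)) .nil)) .nil)) (.cons 324 (.leaf 348 2012 (.cons 227 (.leaf 300 1820 (.cons 322 (.leaf 298 1814 (.leaf 346 2006 .nil)) .nil)) .nil)) (.cons 228 (.leaf 252 1821 (.cons 227 (.leaf 204 1629 (.cons 324 (.leaf 300 1820 (.leaf 348 2012 .nil)) .nil)) .nil)) (.cons 228 (.leaf 252 1821 (.cons 346 (.leaf 322 2006 (.cons 347 (.leaf 370 2198 (.cons 348 (.leaf 324 2012 (.leaf 372 2204 .nil)) .nil)) .nil)) .nil)) .nil)))) (.cons 227 (.cons 204 (.leaf 228 1629 (.cons 203 (.leaf 180 1437 (.cons 300 (.leaf 276 1628 (.leaf 324 1820 .nil)) .nil)) .nil)) (.cons 226 (.leaf 202 1623 (.cons 250 (.leaf 323 1815 (.cons 300 (.leaf 324 1820 (.cons 203 (.leaf 276 1628 (.cons 179 (.leaf 155 1238 (.cons 180 (.leaf 204 1437 (.leaf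 156 1245 .nil)) .nil)) .nil)) .nil)) .nil)) .nil)) (.cons 226 (.leaf 202 1623 (.cons 250 (.leaf 323 1815 (.cons 300 (.leaf 324 1820 (.cons 276 (.leaf 203 1628 (.cons 249 (.leaf 248 1984 (.cons 277 (.leaf 278 2003 (.leaf 252 1992 .nil)) .nil)) .nil)) .nil)) .nil)) .nil)) (.cons 228 (.leaf 204 1629 (.cons 202 (.leaf 226 1623 (.cons 203 (.leaf 178 1431 (.cons 200 (.leaf 201 1600 (.cons 229 (.leaf 230 1619 (.cons 252 (.leaf 323 1821 (.cons 179 (.leaf 276 1436 (.leaf 155 1244 .nil)) .nil)) .nil)) .nil)) .nil)) .nil)) .nil)) (.cons 228 (.leaf 204 1629 (.cons 202 (.leaf 226 1623 (.cons 323 (.leaf 252 1821 (.cons 324 (.leaf 300 1820 (.leaf 348 2012 .nil)) .nil)) .nil)) .nil)) .nil))))) .nil))))))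
noncomputable def t35 : T := .cons 204 (.leaf 228 1629 (.cons 203 (.leaf 180 1437 (.cons 276 (.leaf 300 1628 (.cons 252 (.leaf 179 1436 (.cons 298 (.leaf 322 1814 (.cons 277 (.leaf 278 2194 (.cons 250 (.leaf 249 1992 (.cons 226 (.leaf 202 1623 (.leaf 323 1815 .nil)) .nil)) .nil)) .nil)) .nil)) .nil)) .nil)) .nil)) (.cons 226 (.leaf 202 1623 (.cons 250 (.leaf 323 1815 (.cons 298 (.leaf 322 1814 (.cons 300 (.leaf 324 1820 (.cons 276 (.leaf 203 1628 (.cons 277 (.leaf 278 2194 (.leaf 297 2185 .nil)) .nil)) .nil)) .nil)) .nil)) .nil)) (.cons 204 (.leaf 228 1629 (.cons 180 (.leaf 203 1437 (.cons 322 (.leaf 298 1814 (.cons 323 (.leaf 346 2006 (.cons 324 (.leaf 300 1820 (.leaf 348 2012 .nil)) .nil)) .nil)) .nil)) .nil)) (.cons 228 (.leaf 204 1629 (.cons 202 (.leaf 226 1623 (.cons 322 (.leaf 298 1814 (.cons 323 (.leaf 252 1821 (.leaf 346 2006 .nil)) .nil)) .nil)) .nil)) (.cons 202 (.leaf 226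 1623 (.cons 228 (.leaf 204 1629 (.cons 323 (.leaf 252 1821 (.cons 324 (.leaf 300 1820 (.leaf 348 2012 .nil)) .nil)) .nil)) .nil)) (.cons 300 (.leaf 324 1820 (.cons 203 (.leaf 276 1628 (.cons 204 (.leaf 180 1437 (.leaf 228 1629 .nil)) .nil)) .nil)) .nil)))))
noncomputable def t36 : T := .cons 203 (.cons 178 (.leaf 202 1431 (.cons 179 (.leaf 154 1239 (.cons 180 (.leaf 204 1437 (.leaf 156 1245 .nil)) .nil)) .nil)) (.cons 274 (.leaf 298 1622 (.cons 179 (.leaf 250 1430 (.cons 180 (.leaf 204 1437 (.leaf 156 1245 .nil)) .nil)) .nil)) (.cons 274 (.leaf 298 1622 (.cons 178 (.leaf 202 1431 (.cons 179 (.leaf 154 1239 (.leaf 250 1430 .nil)) .nil)) .nil)) (.cons 202 (.leaf 178 1431 (.cons 204 (.leaf 180 1437 (.cons 274 (.leaf 298 1622 (.cons 276 (.leaf 300 1628 (.cons 201 (.cons 228 (.leaf 200 1600 (.leaf 229 1608 .nil)) (.cons 176 (.leaf 177 1411 (.cons 200 (.leaf 175 1403 (.cons 224 (.leaf 223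 1594 (.leaf 225 1602 .nil)) .nil)) .nil)) (.cons 176 (.leaf 177 1411 (.cons 225 (.leaf 224 1602 (.cons 205 (.leaf 226 1610 (.cons 229 (.leaf 228 1608 (.leaf 230 1616 .nil)) .nil)) .nil)) .nil)) .nil))) .nil)) .nil)) .nil)) .nil)) .nil)))) (.cons 299 (.cons 204 (.leaf 228 1629 (.cons 180 (.leaf 203 1437 (.cons 322 (.leaf 298 1814 (.cons 323 (.leaf 346 2006 (.cons 324 (.leaf 300 1820 (.leaf 348 2012 .nil)) .nil)) .nil)) .nil)) .nil)) (.cons 300 (.leaf 324 1820 (.cons 203 (.leaf 276 1628 (.cons 204 (.leaf 180 1437 (.leaf 228 1629 .nil)) .nil)) .nil)) (.cons 298 (.leaf 322 1814 (.cons 203 (.leaf 274 1622 (.cons 204 (.leaf 180 1437 (.leaf 228 1629 .nil)) .nil)) .nil)) (.cons 298 (.leaf 322 1814 (.cons 203 (.leaf 274 1622 (.cons 300 (.leaf 276 1628 (.leaf 324 1820 .nil)) .nil)) .nil)) (.cons 322 (.leaf 298 1814 (.cons 323 (.leaf 346 2006 (.cons 324 (.leaf 300 1820 (.leaf 348 2012 .nil))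 .nil)) .nil)) .nil))))) (.cons 203 (.cons 178 (.leaf 202 1431 (.cons 179 (.leaf 154 1239 (.cons 156 (.leaf 180 1245 (.cons 155 (.leaf 132 1053 (.cons 250 (.leaf 274 1430 (.leaf 226 1238 .nil)) .nil)) .nil)) .nil)) .nil)) (.cons 204 (.leaf 180 1437 (.cons 299 (.leaf 228 1629 (.cons 300 (.leaf 276 1628 (.leaf 324 1820 .nil)) .nil)) .nil)) (.cons 178 (.leaf 202 1431 (.cons 179 (.leaf 154 1239 (.cons 250 (.leaf 274 1430 (.cons 226 (.leaf 155 1238 (.cons 276 (.leaf 300 1628 (.cons 249 (.leaf 248 1984 (.cons 228 (.leaf 229 1802 (.cons 299 (.leaf 204 1629 (.leaf 323 1815 .nil)) .nil)) .nil)) .nil)) .nil)) .nil)) .nil)) .nil)) .nil))) (.cons 299 (.cons 322 (.leaf 298 1814 (.cons 323 (.leaf 346 2006 (.cons 324 (.leaf 300 1820 (.leaf 348 2012 .nil)) .nil)) .nil)) (.cons 202 (.leaf 226 1623 (.cons 203 (.leaf 178 1431 (.cons 300 (.leaf 276 1628 (.leaf 324 1820 .nil)) .nil)) .nil)) (.cons 202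 (.leaf 226 1623 (.cons 203 (.leaf 178 1431 (.cons 298 (.leaf 274 1622 (.leaf 322 1814 .nil)) .nil)) .nil)) .nil))) (.cons 299 (.cons 202 (.leaf 226 1623 (.cons 203 (.leaf 178 1431 (.cons 204 (.leaf 180 1437 (.leaf 228 1629 .nil)) .nil)) .nil)) (.cons 300 (.leaf 324 1820 (.cons 203 (.leaf 276 1628 (.cons 204 (.leaf 180 1437 (.leaf 228 1629 .nil)) .nil)) .nil)) (.cons 226 (.leaf 202 1623 (.cons 250 (.leaf 323 1815 (.cons 298 (.leaf 322 1814 (.cons 300 (.leaf 324 1820 (.cons 276 (.leaf 203 1628 (.cons 277 (.leaf 278 2194 (.leaf 297 2185 .nil)) .nil)) .nil)) .nil)) .nil)) .nil)) (.cons 226 (.leaf 202 1623 (.cons 204 (.leaf 228 1629 (.cons 322 (.leaf 298 1814 (.cons 323 (.leaf 250 1815 (.leaf 346 2006 .nil)) .nil)) .nil)) .nil)) .nil)))) (.cons 203 (.cons 178 (.leaf 202 1431 (.cons 179 (.leaf 154 1239 (.cons 274 (.leaf 298 1622 (.leaf 250 1430 .nil)) .nil)) .nil)) (.cons 204 (.leaf 180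 1437 (.cons 228 (.leaf 299 1629 (.cons 274 (.leaf 298 1622 (.cons 179 (.leaf 250 1430 (.cons 154 (.leaf 178 1239 (.cons 155 (.leaf 130 1047 (.leaf 131 1052 .nil)) .nil)) .nil)) .nil)) .nil)) .nil)) (.cons 202 (.leaf 178 1431 (.cons 180 (.leaf 204 1437 (.cons 179 (.leaf 156 1245 (.cons 181 (.leaf 182 1426 (.cons 200 (.leaf 201 1409 (.cons 226 (.leaf 299 1623 (.cons 155 (.leaf 250 1238 (.leaf 131 1046 .nil)) .nil)) .nil)) .nil)) .nil)) .nil)) .nil)) (.cons 204 (.leaf 180 1437 (.cons 228 (.leaf 299 1629 (.cons 274 (.leaf 298 1622 (.cons 250 (.leaf 179 1430 (.cons 229 (.leaf 230 1810 (.cons 249 (.leaf 248 1793 (.leaf 226 1802 .nil)) .nil)) .nil)) .nil)) .nil)) .nil)) (.cons 202 (.leaf 178 1431 (.cons 180 (.leaf 204 1437 (.cons 298 (.leaf 274 1622 (.cons 299 (.leaf 226 1623 (.leaf 322 1814 .nil)) .nil)) .nil)) .nil)) .nil))))) .nil)))))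
noncomputable def t37 : T := .cons 298 (.leaf 322 1814 (.cons 204 (.leaf 228 1629 (.cons 226 (.leaf 202 1623 (.cons 323 (.leaf 250 1815 (.cons 324 (.leaf 300 1820 (.leaf 348 2012 .nil)) .nil)) .nil)) .nil)) .nil)) (.cons 322 (.leaf 298 1814 (.cons 323 (.leaf 346 2006 (.cons 324 (.leaf 300 1820 (.leaf 348 2012 .nil)) .nil)) .nil)) (.cons 226 (.leaf 202 1623 (.cons 204 (.leaf 228 1629 (.cons 323 (.leaf 250 1815 (.cons 324 (.leaf 300 1820 (.leaf 348 2012 .nil)) .nil)) .nil)) .nil)) (.cons 226 (.leaf 202 1623 (.cons 204 (.leaf 228 1629 (.cons 322 (.leaf 298 1814 (.cons 323 (.leaf 250 1815 (.leaf 346 2006 .nil)) .nil)) .nil)) .nil)) (.cons 298 (.leaf 322 1814 (.cons 300 (.leaf 324 1820 (.cons 226 (.leaf 202 1623 (.cons 228 (.leaf 204 1629 (.cons 297 (.cons 276 (.leaf 296 2177 (.leaf 277 2185 .nil)) (.cons 272 (.leaf 273 2179 (.cons 296 (.leaf 271 2171 (.cons 320 (.leaf 319 2362 (.leaf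 321 2370 .nil)) .nil)) .nil)) (.cons 272 (.leaf 273 2179 (.cons 321 (.leaf 320 2370 (.cons 250 (.leaf 274 1806 (.cons 229 (.leaf 230 1810 (.leaf 249 1802 .nil)) .nil)) .nil)) .nil)) .nil))) .nil)) .nil)) .nil)) .nil)) .nil))))
noncomputable def t38 : T := .cons 178 (.leaf 202 1431 (.cons 179 (.leaf 154 1239 (.cons 180 (.leaf 204 1437 (.leaf 156 1245 .nil)) .nil)) .nil)) (.cons 202 (.leaf 178 1431 (.cons 226 (.leaf 299 1623 (.cons 276 (.leaf 300 1628 (.cons 179 (.leaf 252 1436 (.cons 155 (.leaf 131 1046 (.cons 156 (.leaf 180 1245 (.leaf 132 1053 .nil)) .nil)) .nil)) .nil)) .nil)) .nil)) (.cons 180 (.leaf 204 1437 (.cons 179 (.leaf 156 1245 (.cons 154 (.leaf 178 1239 (.cons 155 (.leaf 130 1047 (.cons 252 (.leaf 276 1436 (.leaf 228 1244 .nil)) .nil)) .nil)) .nil)) .nil)) (.cons 202 (.leaf 178 1431 (.cons 226 (.leaf 299 1623 (.cons 276 (.leaf 300 1628 (.cons 252 (.leaf 179 1436 (.cons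 225 (.leaf 224 1792 (.cons 253 (.leaf 254 1811 (.leaf 228 1800 .nil)) .nil)) .nil)) .nil)) .nil)) .nil)) (.cons 204 (.leaf 180 1437 (.cons 228 (.leaf 299 1629 (.cons 276 (.leaf 300 1628 (.cons 252 (.leaf 179 1436 (.cons 205 (.leaf 181 1445 (.cons 206 (.leaf 226 1618 (.leaf 207 1626 .nil)) .nil)) .nil)) .nil)) .nil)) .nil)) (.cons 204 (.leaf 180 1437 (.cons 178 (.leaf 202 1431 (.cons 299 (.leaf 228 1629 (.cons 300 (.leaf 276 1628 (.leaf 324 1820 .nil)) .nil)) .nil)) .nil)) .nil)))))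
noncomputable def t39 : T := .cons 204 (.leaf 180 1437 (.cons 202 (.leaf 178 1431 (.cons 274 (.leaf 298 1622 (.cons 276 (.leaf 300 1628 (.cons 201 (.cons 228 (.leaf 200 1600 (.leaf 229 1608 .nil)) (.cons 176 (.leaf 177 1411 (.cons 200 (.leaf 175 1403 (.cons 224 (.leaf 223 1594 (.leaf 225 1602 .nil)) .nil)) .nil)) (.cons 176 (.leaf 177 1411 (.cons 225 (.leaf 224 1602 (.cons 228 (.leaf 229 1608 (.cons 179 (.leaf 252 1436 (.cons 205 (.leaf 226 1609 (.cons 182 (.leaf 181 1425 (.cons 206 (.leaf 207 1626 (.leaf 183 1433 .nil)) .nil)) .nil)) .nil)) .nil)) .nil)) .nil)) .nil))) .nil)) .nil)) .nil)) .nil)) (.cons 276 (.leaf 300 1628 (.cons 178 (.leaf 202 1431 (.cons 179 (.leaf 154 1239 (.leaf 252 1436 .nil)) .nil)) .nil)) (.cons 180 (.leaf 204 1437 (.cons 178 (.leaf 202 1431 (.cons 179 (.leaf 154 1239 (.leaf 156 1245 .nil)) .nil)) .nil)) (.cons 276 (.leaf 300 1628 (.cons 179 (.leaf 252 1436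 (.cons 180 (.leaf 204 1437 (.leaf 156 1245 .nil)) .nil)) .nil)) (.cons 204 (.leaf 180 1437 (.cons 202 (.leaf 178 1431 (.cons 274 (.leaf 298 1622 (.cons 276 (.leaf 300 1628 (.cons 201 (.cons 228 (.leaf 200 1600 (.leaf 229 1608 .nil)) (.cons 176 (.leaf 177 1411 (.cons 200 (.leaf 175 1403 (.cons 224 (.leaf 223 1594 (.leaf 225 1602 .nil)) .nil)) .nil)) (.cons 176 (.leaf 177 1411 (.cons 225 (.leaf 224 1602 (.cons 205 (.leaf 226 1610 (.cons 229 (.leaf 228 1608 (.leaf 230 1616 .nil)) .nil)) .nil)) .nil)) .nil))) .nil)) .nil)) .nil)) .nil)) .nil))))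
noncomputable def t40 : T := .cons 298 (.leaf 322 1814 (.cons 202 (.leaf 226 1623 (.cons 228 (.leaf 204 1629 (.cons 323 (.leaf 252 1821 (.cons 324 (.leaf 300 1820 (.leaf 348 2012 .nil)) .nil)) .nil)) .nil)) .nil)) (.cons 324 (.leaf 300 1820 (.cons 202 (.leaf 226 1623 (.cons 322 (.leaf 298 1814 (.cons 323 (.leaf 346 2006 (.leaf 348 2012 .nil)) .nil)) .nil)) .nil)) (.cons 228 (.leaf 204 1629 (.cons 202 (.leaf 226 1623 (.cons 322 (.leaf 298 1814 (.cons 323 (.leaf 252 1821 (.leaf 346 2006 .nil)) .nil)) .nil)) .nil)) (.cons 228 (.leaf 204 1629 (.cons 202 (.leaf 226 1623 (.cons 323 (.leaf 252 1821 (.cons 324 (.leaf 300 1820 (.leaf 348 2012 .nil)) .nil)) .nil)) .nil)) (.cons 228 (.leaf 204 1629 (.cons 298 (.leaf 322 1814 (.cons 323 (.leaf 252 1821 (.cons 324 (.leaf 300 1820 (.leaf 348 2012 .nil)) .nil)) .nil)) .nil)) (.cons 298 (.leaf 322 1814 (.cons 300 (.leaf 324 1820 (.cons 228 (.leaf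 204 1629 (.cons 226 (.leaf 202 1623 (.cons 225 (.cons 252 (.leaf 224 1792 (.leaf 253 1800 .nil)) (.cons 200 (.leaf 201 1603 (.cons 224 (.leaf 199 1595 (.cons 248 (.leaf 247 1786 (.leaf 249 1794 .nil)) .nil)) .nil)) (.cons 201 (.leaf 200 1603 (.cons 249 (.leaf 248 1794 (.cons 253 (.leaf 252 1800 (.cons 229 (.leaf 254 1808 (.cons 205 (.leaf 206 1617 (.cons 273 (.leaf 274 1612 (.cons 272 (.leaf 297 2179 (.leaf 296 1606 .nil)) .nil)) .nil)) .nil)) .nil)) .nil)) .nil)) .nil))) .nil)) .nil)) .nil)) .nil)) .nil)))))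
noncomputable def t41 : T := .cons 178 (.leaf 202 1431 (.cons 179 (.leaf 154 1239 (.cons 156 (.leaf 180 1245 (.cons 155 (.leaf 132 1053 (.cons 252 (.leaf 276 1436 (.leaf 228 1244 .nil)) .nil)) .nil)) .nil)) .nil)) (.cons 180 (.leaf 204 1437 (.cons 179 (.leaf 156 1245 (.cons 154 (.leaf 178 1239 (.cons 155 (.leaf 130 1047 (.cons 252 (.leaf 276 1436 (.leaf 228 1244 .nil)) .nil)) .nil)) .nil)) .nil)) (.cons 178 (.leaf 202 1431 (.cons 179 (.leaf 154 1239 (.cons 180 (.leaf 204 1437 (.leaf 156 1245 .nil)) .nil)) .nil)) (.cons 202 (.leaf 178 1431 (.cons 226 (.leaf 299 1623 (.cons 274 (.leaf 298 1622 (.cons 276 (.leaf 300 1628 (.cons 252 (.leaf 179 1436 (.cons 253 (.leaf 254 2002 (.leaf 273 1993 .nil)) .nil)) .nil)) .nil)) .nil)) .nil)) (.cons 204 (.leaf 180 1437 (.cons 228 (.leaf 299 1629 (.cons 274 (.leaf 298 1622 (.cons 276 (.leaf 300 1628 (.cons 252 (.leaf 179 1436 (.cons 253 (.leaf 254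 2002 (.leaf 273 1993 .nil)) .nil)) .nil)) .nil)) .nil)) .nil)) (.cons 178 (.leaf 202 1431 (.cons 204 (.leaf 180 1437 (.cons 298 (.leaf 274 1622 (.cons 299 (.leaf 228 1629 (.leaf 322 1814 .nil)) .nil)) .nil)) .nil)) .nil)))))
noncomputable def t42 : T := .cons 203 t41 (.cons 299 t40 (.cons 203 t39 (.cons 299 (.cons 202 (.leaf 226 1623 (.cons 203 (.leaf 178 1431 (.cons 298 (.leaf 274 1622 (.leaf 322 1814 .nil)) .nil)) .nil)) (.cons 300 (.leaf 324 1820 (.cons 202 (.leaf 226 1623 (.cons 203 (.leaf 178 1431 (.leaf 276 1628 .nil)) .nil)) .nil)) (.cons 298 (.leaf 322 1814 (.cons 203 (.leaf 274 1622 (.cons 300 (.leaf 276 1628 (.leaf 324 1820 .nil)) .nil)) .nil)) (.cons 202 (.leaf 226 1623 (.cons 298 (.leaf 322 1814 (.cons 324 (.leaf 300 1820 (.cons 323 (.leaf 348 2012 (.cons 252 (.leaf 228 1821 (.cons 276 (.leaf 347 2013 (.cons 297 (.leaf 296 2368 (.cons 277 (.leaf 274 2186 (.leaf 278 2194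 .nil)) .nil)) .nil)) .nil)) .nil)) .nil)) .nil)) .nil)) .nil)))) (.cons 203 (.cons 178 (.leaf 202 1431 (.cons 179 (.leaf 154 1239 (.cons 276 (.leaf 300 1628 (.leaf 252 1436 .nil)) .nil)) .nil)) (.cons 276 (.leaf 300 1628 (.cons 179 (.leaf 252 1436 (.cons 180 (.leaf 204 1437 (.leaf 156 1245 .nil)) .nil)) .nil)) (.cons 178 (.leaf 202 1431 (.cons 179 (.leaf 154 1239 (.cons 180 (.leaf 204 1437 (.leaf 156 1245 .nil)) .nil)) .nil)) (.cons 178 (.leaf 202 1431 (.cons 180 (.leaf 204 1437 (.cons 298 (.leaf 274 1622 (.cons 299 (.leaf 322 1814 (.cons 300 (.leaf 276 1628 (.leaf 324 1820 .nil)) .nil)) .nil)) .nil)) .nil)) .nil)))) (.cons 299 (.cons 204 (.leaf 228 1629 (.cons 203 (.leaf 180 1437 (.cons 298 (.leaf 274 1622 (.leaf 322 1814 .nil)) .nil)) .nil)) (.cons 204 (.leaf 228 1629 (.cons 203 (.leaf 180 1437 (.cons 300 (.leaf 276 1628 (.leaf 324 1820 .nil)) .nil)) .nil)) (.cons 298 (.leaf 322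 1814 (.cons 203 (.leaf 274 1622 (.cons 300 (.leaf 276 1628 (.leaf 324 1820 .nil)) .nil)) .nil)) (.cons 204 (.leaf 228 1629 (.cons 322 (.leaf 298 1814 (.cons 323 (.leaf 346 2006 (.cons 324 (.leaf 300 1820 (.leaf 348 2012 .nil)) .nil)) .nil)) .nil)) .nil)))) (.cons 203 (.cons 178 (.leaf 202 1431 (.cons 179 (.leaf 154 1239 (.cons 156 (.leaf 180 1245 (.cons 155 (.leaf 132 1053 (.cons 252 (.leaf 276 1436 (.leaf 228 1244 .nil)) .nil)) .nil)) .nil)) .nil)) (.cons 204 (.leaf 180 1437 (.cons 298 (.leaf 274 1622 (.cons 299 (.leaf 228 1629 (.leaf 322 1814 .nil)) .nil)) .nil)) (.cons 202 (.leaf 178 1431 (.cons 274 (.leaf 298 1622 (.cons 299 (.leaf 226 1623 (.cons 228 (.leaf 204 1629 (.cons 200 (.leaf 201 1600 (.cons 229 (.leaf 230 1619 (.cons 252 (.leaf 323 1821 (.cons 179 (.leaf 276 1436 (.leaf 155 1244 .nil)) .nil)) .nil)) .nil)) .nil)) .nil)) .nil)) .nil)) (.cons 202 (.leaf 178 1431 (.cons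 180 (.leaf 204 1437 (.cons 156 (.leaf 179 1245 (.cons 298 (.leaf 274 1622 (.cons 299 (.leaf 226 1623 (.leaf 322 1814 .nil)) .nil)) .nil)) .nil)) .nil)) .nil)))) (.cons 203 t38 .nil)))))))
noncomputable def t43 : T := .cons 249 (.leaf 248 1984 (.cons 277 (.leaf 274 1995 (.leaf 278 2003 .nil)) .nil)) (.cons 277 (.leaf 278 2003 (.cons 274 (.cons 298 (.leaf 297 2186 (.cons 227 (.leaf 203 1622 (.leaf 322 1813 .nil)) .nil)) (.cons 253 (.leaf 254 2001 (.cons 252 (.leaf 273 1993 (.cons 226 (.leaf 225 1803 (.cons 202 (.leaf 178 1428 (.cons 203 (.leaf 179 1429 (.cons 227 (.leaf 300 1628 (.cons 201 (.leaf 177 1423 (.cons 200 (.leaf 199 1592 (.leaf 228 1600 .nil)) .nil)) .nil)) .nil)) .nil)) .nil)) .nil)) .nil)) (.cons 253 (.leaf 254 2001 (.cons 273 (.leaf 252 1993 (.cons 297 (.leaf 296 2178 (.leaf 298 2186 .nil)) .nil)) .nil)) .nil))) .nil)) (.cons 249 (.leaf 248 1984 (.cons 252 (.cons 225 (.leaf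 224 1795 (.cons 226 (.leaf 253 1803 (.cons 202 (.leaf 178 1428 (.cons 273 (.leaf 272 1986 (.leaf 297 1613 .nil)) .nil)) .nil)) .nil)) (.cons 225 (.leaf 224 1795 (.cons 253 (.leaf 226 1803 (.cons 254 (.leaf 274 2002 (.leaf 255 2010 .nil)) .nil)) .nil)) (.cons 273 (.leaf 272 1986 (.cons 253 (.leaf 274 1993 (.cons 254 (.leaf 255 2010 (.cons 227 (.leaf 226 1811 (.cons 203 (.leaf 300 1628 (.leaf 179 1436 .nil)) .nil)) .nil)) .nil)) .nil)) (.cons 273 (.leaf 272 1986 (.cons 225 (.leaf 224 1795 (.cons 297 (.cons 226 (.leaf 321 1805 (.leaf 202 1613 .nil)) (.cons 296 (.leaf 274 2178 (.leaf 320 1798 .nil)) .nil)) .nil)) .nil)) (.cons 273 (.leaf 272 1986 (.cons 274 (.leaf 253 1993 (.cons 224 (.leaf 225 1795 (.cons 297 (.leaf 296 2178 (.cons 321 (.leaf 345 1997 (.cons 322 (.leaf 346 1996 (.cons 227 (.leaf 298 1813 (.cons 203 (.leaf 300 1628 (.leaf 179 1436 .nil)) .nil)) .nil)) .nil)) .nil)) .nil))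 .nil)) .nil)) .nil))))) .nil)) (.cons 249 (.leaf 248 1984 (.cons 277 (.leaf 278 2003 (.leaf 252 1992 .nil)) .nil)) .nil)))
noncomputable def t44 : T := .leaf 248 1984 (.cons 252 (.cons 225 (.leaf 224 1795 (.cons 226 (.leaf 253 1803 (.cons 202 (.leaf 178 1428 (.cons 273 (.leaf 272 1986 (.leaf 297 1613 .nil)) .nil)) .nil)) .nil)) (.cons 225 (.leaf 224 1795 (.cons 253 (.leaf 226 1803 (.cons 254 (.leaf 274 2002 (.leaf 255 2010 .nil)) .nil)) .nil)) (.cons 273 (.leaf 272 1986 (.cons 225 (.leaf 224 1795 (.cons 297 (.cons 226 (.leaf 321 1805 (.leaf 202 1613 .nil)) (.cons 296 (.leaf 274 2178 (.leaf 320 1798 .nil)) .nil)) .nil)) .nil)) (.cons 273 (.leaf 272 1986 (.cons 253 (.leaf 274 1993 (.cons 229 (.leaf 230 1809 (.cons 300 (.leaf 324 1829 (.cons 181 (.leaf 205 1446 (.cons 227 (.leaf 203 1628 (.cons 254 (.leaf 255 2010 (.leaf 226 1811 .nil)) .nil)) .nil)) .nil)) .nil)) .nil)) .nil)) (.cons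 273 (.leaf 272 1986 (.cons 274 (.leaf 253 1993 (.cons 224 (.leaf 225 1795 (.cons 297 (.leaf 296 2178 (.cons 321 (.leaf 345 1997 (.cons 322 (.leaf 346 1996 (.cons 227 (.leaf 298 1813 (.cons 203 (.leaf 300 1628 (.leaf 179 1436 .nil)) .nil)) .nil)) .nil)) .nil)) .nil)) .nil)) .nil)) .nil))))) .nil)
noncomputable def t45 : T := .cons 228 (.leaf 229 1801 (.cons 180 (.leaf 204 1438 (.cons 273 (.leaf 272 1986 (.cons 274 (.leaf 253 1993 (.cons 297 (.leaf 296 2178 (.cons 226 (.leaf 202 1614 (.leaf 321 1805 .nil)) .nil)) .nil)) .nil)) .nil)) .nil)) (.cons 228 (.leaf 229 1801 (.cons 204 (.leaf 180 1438 (.cons 181 (.leaf 205 1445 (.cons 203 (.leaf 179 1439 (.cons 227 (.leaf 300 1628 (.cons 202 (.leaf 178 1431 (.cons 274 (.leaf 298 1622 (.cons 201 (.leaf 200 1600 (.cons 177 (.leaf 226 1423 (.leaf 176 1411 .nil)) .nil)) .nil)) .nil)) .nil)) .nil)) .nil)) .nil)) .nil)) (.cons 273 (.leaf 272 1986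 (.cons 253 (.leaf 274 1993 (.cons 229 (.leaf 230 1809 (.cons 300 (.leaf 324 1829 (.cons 181 (.leaf 205 1446 (.cons 227 (.leaf 203 1628 (.cons 254 (.leaf 255 2010 (.leaf 226 1811 .nil)) .nil)) .nil)) .nil)) .nil)) .nil)) .nil)) (.cons 273 (.leaf 272 1986 (.cons 253 (.leaf 274 1993 (.cons 254 (.leaf 255 2010 (.cons 227 (.leaf 226 1811 (.cons 203 (.leaf 300 1628 (.leaf 179 1436 .nil)) .nil)) .nil)) .nil)) .nil)) (.cons 228 (.leaf 229 1801 (.cons 204 (.leaf 180 1438 (.cons 203 (.leaf 179 1439 (.cons 227 (.leaf 300 1628 (.cons 178 (.leaf 202 1431 (.cons 205 (.leaf 181 1445 (.cons 206 (.leaf 207 1626 (.leaf 226 1618 .nil)) .nil)) .nil)) .nil)) .nil)) .nil)) .nil)) (.cons 228 (.leaf 229 1801 (.cons 180 (.leaf 204 1438 (.cons 273 (.leaf 272 1986 (.cons 274 (.leaf 253 1993 (.cons 297 (.leaf 296 2178 (.cons 321 (.leaf 345 1997 (.cons 322 (.leaf 346 1996 (.cons 227 (.leaf 298 1813 (.cons 203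 (.leaf 300 1628 (.leaf 179 1436 .nil)) .nil)) .nil)) .nil)) .nil)) .nil)) .nil)) .nil)) .nil)) .nil)))))
noncomputable def t46 : T := .leaf 248 1984 (.cons 252 (.cons 228 (.leaf 229 1801 (.cons 204 (.leaf 180 1438 (.cons 181 (.leaf 205 1445 (.cons 203 (.leaf 179 1439 (.cons 227 (.leaf 300 1628 (.cons 202 (.leaf 178 1431 (.cons 225 (.leaf 224 1795 (.cons 201 (.leaf 200 1600 (.cons 177 (.leaf 274 1420 (.leaf 176 1411 .nil)) .nil)) .nil)) .nil)) .nil)) .nil)) .nil)) .nil)) .nil)) (.cons 225 (.leaf 224 1795 (.cons 253 (.leaf 226 1803 (.cons 274 (.leaf 254 2002 (.leaf 273 1993 .nil)) .nil)) .nil)) (.cons 228 (.leaf 229 1801 (.cons 204 (.leaf 180 1438 (.cons 181 (.leaf 205 1445 (.cons 203 (.leaf 179 1439 (.cons 227 (.leaf 300 1628 (.cons 202 (.leaf 178 1431 (.cons 274 (.leaf 298 1622 (.cons 253 (.leaf 254 2002 (.leaf 273 1993 .nil)) .nil)) .nil)) .nil)) .nil)) .nil)) .nil)) .nil)) (.cons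 228 (.leaf 229 1801 (.cons 204 (.leaf 180 1438 (.cons 203 (.leaf 179 1439 (.cons 227 (.leaf 300 1628 (.cons 178 (.leaf 202 1431 (.cons 205 (.leaf 181 1445 (.cons 206 (.leaf 207 1626 (.leaf 226 1618 .nil)) .nil)) .nil)) .nil)) .nil)) .nil)) .nil)) .nil)))) .nil)
noncomputable def t47 : T := .cons 224 (.leaf 225 1795 (.cons 277 (.leaf 276 1992 (.cons 253 (.leaf 278 2000 (.cons 254 (.leaf 274 2002 (.cons 230 (.leaf 229 1809 (.leaf 231 1817 .nil)) .nil)) .nil)) .nil)) .nil)) (.cons 225 (.leaf 224 1795 (.cons 226 (.leaf 253 1803 (.cons 178 (.leaf 202 1428 (.cons 228 (.leaf 229 1801 (.cons 204 (.leaf 180 1438 (.cons 227 (.leaf 205 1609 (.cons 201 (.leaf 200 1603 (.cons 177 (.leaf 153 1228 (.leaf 274 1420 .nil)) .nil)) .nil)) .nil)) .nil)) .nil)) .nil)) .nil)) (.cons 277 (.leaf 276 1992 (.cons 228 (.leaf 229 1801 (.cons 180 (.leaf 204 1438 (.cons 253 (.leaf 278 2000 (.cons 254 (.leaf 274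 2002 (.cons 227 (.leaf 226 1811 (.leaf 255 1819 .nil)) .nil)) .nil)) .nil)) .nil)) .nil)) (.cons 277 (.leaf 276 1992 (.cons 224 (.leaf 225 1795 (.cons 253 (.leaf 278 2000 (.cons 254 (.leaf 274 2002 (.cons 227 (.leaf 226 1811 (.cons 231 (.leaf 230 1817 (.cons 255 (.leaf 228 1819 (.leaf 232 1825 .nil)) .nil)) .nil)) .nil)) .nil)) .nil)) .nil)) (.cons 276 (.leaf 277 1992 (.cons 224 (.leaf 225 1795 (.cons 228 (.leaf 229 1801 (.cons 204 (.leaf 180 1438 (.cons 203 (.leaf 179 1439 (.cons 227 (.leaf 300 1628 (.cons 178 (.leaf 202 1431 (.cons 205 (.leaf 181 1445 (.cons 206 (.leaf 207 1626 (.leaf 226 1618 .nil)) .nil)) .nil)) .nil)) .nil)) .nil)) .nil)) .nil)) .nil)) .nil))))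
noncomputable def t48 : T := .cons 224 (.leaf 225 1795 (.cons 229 (.leaf 228 1801 (.cons 253 (.leaf 230 1809 (.cons 254 (.leaf 274 2002 (.cons 278 (.leaf 277 2000 (.leaf 279 2008 .nil)) .nil)) .nil)) .nil)) .nil)) (.cons 224 (.leaf 225 1795 (.cons 229 (.leaf 228 1801 (.cons 253 (.leaf 230 1809 (.cons 254 (.leaf 274 2002 (.cons 226 (.leaf 227 1811 (.cons 178 (.leaf 202 1428 (.cons 255 (.leaf 276 2010 (.cons 279 (.leaf 278 2008 (.leaf 280 2016 .nil)) .nil)) .nil)) .nil)) .nil)) .nil)) .nil)) .nil)) (.cons 277 (.leaf 276 1992 (.cons 228 (.leaf 229 1801 (.cons 180 (.leaf 204 1438 (.cons 253 (.leaf 278 2000 (.cons 254 (.leaf 274 2002 (.cons 227 (.leaf 226 1811 (.leaf 255 1819 .nil)) .nil)) .nil)) .nil)) .nil)) .nil)) (.cons 225 (.leaf 224 1795 (.cons 228 (.leaf 229 1801 (.cons 204 (.leaf 180 1438 (.cons 273 (.leaf 272 1986 (.cons 276 (.leaf 277 1992 (.cons 205 (.leaf 181 1445 (.cons 226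 (.leaf 227 1609 (.cons 202 (.leaf 178 1428 (.leaf 297 1613 .nil)) .nil)) .nil)) .nil)) .nil)) .nil)) .nil)) .nil)) (.cons 224 (.leaf 225 1795 (.cons 273 (.leaf 272 1986 (.cons 253 (.leaf 274 1994 (.cons 230 (.leaf 229 1809 (.cons 254 (.leaf 231 1817 (.cons 278 (.leaf 277 2000 (.leaf 279 2008 .nil)) .nil)) .nil)) .nil)) .nil)) .nil)) (.cons 224 (.leaf 225 1795 (.cons 273 (.leaf 272 1986 (.cons 253 (.leaf 274 1994 (.cons 277 (.leaf 276 1992 (.leaf 278 2000 .nil)) .nil)) .nil)) .nil)) .nil)))))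
noncomputable def t49 : T := .cons 249 (.cons 248 (.leaf 276 1984 (.cons 223 (.leaf 224 1787 (.cons 247 (.leaf 274 1976 (.leaf 222 1779 .nil)) .nil)) .nil)) (.cons 252 t48 (.cons 248 (.cons 223 (.leaf 224 1787 (.cons 247 (.leaf 274 1976 (.leaf 222 1779 .nil)) .nil)) (.cons 223 (.leaf 224 1787 (.cons 228 (.leaf 227 1793 (.cons 252 (.leaf 229 1801 (.cons 272 (.leaf 271 1978 (.leaf 273 1986 .nil)) .nil)) .nil)) .nil)) (.cons 227 (.leaf 228 1793 (.cons 247 (.leaf 274 1976 (.leaf 226 1785 .nil)) .nil)) .nil))) (.cons 248 (.leaf 276 1984 (.cons 223 (.leaf 224 1787 (.cons 247 (.leaf 222 1779 (.cons 271 (.leaf 272 1978 (.leaf 270 1970 .nil)) .nil)) .nil)) .nil)) (.cons 248 (.leaf 276 1984 (.cons 227 (.leaf 228 1793 (.cons 247 (.leaf 274 1976 (.leaf 226 1785 .nil)) .nil)) .nil)) .nil))))) (.cons 249 (.cons 248 (.leaf 276 1984 (.cons 223 (.leaf 224 1787 (.cons 247 (.leaf 274 1976 (.leaf 222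 1779 .nil)) .nil)) .nil)) (.cons 252 t47 (.cons 248 (.cons 223 (.leaf 224 1787 (.cons 247 (.leaf 274 1976 (.leaf 222 1779 .nil)) .nil)) (.cons 224 (.leaf 223 1787 (.cons 225 (.leaf 252 1795 (.cons 227 (.leaf 228 1793 (.cons 272 (.leaf 271 1978 (.cons 201 (.leaf 177 1414 (.leaf 296 1605 .nil)) .nil)) .nil)) .nil)) .nil)) (.cons 247 (.leaf 274 1976 (.cons 227 (.leaf 228 1793 (.leaf 226 1785 .nil)) .nil)) .nil))) (.cons 248 (.leaf 276 1984 (.cons 223 (.leaf 224 1787 (.cons 247 (.leaf 222 1779 (.cons 271 (.leaf 272 1978 (.leaf 270 1970 .nil)) .nil)) .nil)) .nil)) (.cons 248 (.leaf 276 1984 (.cons 247 (.leaf 274 1976 (.cons 227 (.leaf 228 1793 (.leaf 226 1785 .nil)) .nil)) .nil)) .nil))))) (.cons 276 (.cons 249 (.leaf 248 1984 (.cons 252 (.leaf 277 1992 (.cons 228 (.leaf 229 1801 (.cons 204 (.leaf 180 1438 (.cons 181 (.leaf 205 1445 (.cons 203 (.leaf 179 1439 (.cons 227 (.leaf 300 1628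 (.cons 202 (.leaf 178 1431 (.cons 225 (.leaf 224 1795 (.cons 201 (.leaf 200 1600 (.cons 177 (.leaf 274 1420 (.leaf 176 1411 .nil)) .nil)) .nil)) .nil)) .nil)) .nil)) .nil)) .nil)) .nil)) .nil)) .nil)) (.cons 277 (.leaf 278 2003 (.cons 274 (.cons 298 (.leaf 297 2186 (.cons 253 (.leaf 254 2001 (.cons 227 (.leaf 203 1622 (.leaf 322 1813 .nil)) .nil)) .nil)) (.cons 298 (.leaf 297 2186 (.cons 227 (.leaf 203 1622 (.leaf 322 1813 .nil)) .nil)) (.cons 253 (.leaf 254 2001 (.cons 252 (.leaf 273 1993 (.cons 229 (.leaf 230 1809 (.cons 205 (.leaf 181 1446 (.leaf 300 1638 .nil)) .nil)) .nil)) .nil)) .nil))) .nil)) (.cons 249 t46 (.cons 249 (.leaf 248 1984 (.cons 277 (.leaf 274 1995 (.leaf 278 2003 .nil)) .nil)) (.cons 249 (.leaf 248 1984 (.cons 277 (.leaf 278 2003 (.leaf 252 1992 .nil)) .nil)) .nil))))) (.cons 276 (.cons 249 (.leaf 248 1984 (.cons 252 (.leaf 277 1992 (.cons 228 (.leaf 229 1801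 (.cons 180 (.leaf 204 1438 (.cons 273 (.leaf 272 1986 (.cons 274 (.leaf 253 1993 (.cons 297 (.leaf 296 2178 (.cons 226 (.leaf 202 1614 (.leaf 321 1805 .nil)) .nil)) .nil)) .nil)) .nil)) .nil)) .nil)) .nil)) (.cons 277 (.leaf 278 2003 (.cons 274 (.cons 298 (.leaf 297 2186 (.cons 227 (.leaf 203 1622 (.leaf 322 1813 .nil)) .nil)) (.cons 253 (.leaf 254 2001 (.cons 252 (.leaf 273 1993 (.cons 229 (.leaf 230 1809 (.cons 205 (.leaf 181 1446 (.leaf 300 1638 .nil)) .nil)) .nil)) .nil)) .nil)) .nil)) (.cons 249 (.leaf 248 1984 (.cons 252 t45 .nil)) (.cons 249 (.leaf 248 1984 (.cons 277 (.leaf 278 2003 (.leaf 252 1992 .nil)) .nil)) (.cons 249 (.leaf 248 1984 (.cons 277 (.leaf 274 1995 (.leaf 278 2003 .nil)) .nil)) .nil))))) (.cons 276 (.cons 249 (.leaf 248 1984 (.cons 252 (.leaf 277 1992 (.cons 225 (.leaf 224 1795 (.cons 226 (.leaf 253 1803 (.cons 202 (.leaf 178 1428 (.cons 273 (.leaf 272 1986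 (.leaf 297 1613 .nil)) .nil)) .nil)) .nil)) .nil)) .nil)) (.cons 277 (.leaf 278 2003 (.cons 274 (.cons 298 (.leaf 297 2186 (.cons 253 (.leaf 254 2001 (.cons 227 (.leaf 203 1622 (.leaf 322 1813 .nil)) .nil)) .nil)) (.cons 298 (.leaf 297 2186 (.cons 227 (.leaf 203 1622 (.leaf 322 1813 .nil)) .nil)) (.cons 253 (.leaf 254 2001 (.cons 252 (.leaf 273 1993 (.cons 229 (.leaf 230 1809 (.cons 205 (.leaf 181 1446 (.leaf 300 1638 .nil)) .nil)) .nil)) .nil)) .nil))) .nil)) (.cons 249 t44 (.cons 249 (.leaf 248 1984 (.cons 277 (.leaf 274 1995 (.leaf 278 2003 .nil)) .nil)) .nil)))) (.cons 276 t43 .nil)))))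
noncomputable def t50 : T := .cons 249 (.leaf 248 1984 (.cons 277 (.leaf 274 1995 (.leaf 278 2003 .nil)) .nil)) (.cons 277 (.leaf 278 2003 (.cons 274 (.cons 297 (.leaf 298 2186 (.cons 273 (.leaf 296 2178 (.cons 272 (.leaf 252 1985 (.leaf 271 1977 .nil)) .nil)) .nil)) (.cons 253 (.leaf 254 2001 (.cons 252 (.leaf 273 1993 (.cons 229 (.leaf 230 1809 (.cons 205 (.leaf 181 1446 (.leaf 300 1638 .nil)) .nil)) .nil)) .nil)) (.cons 298 (.leaf 297 2186 (.cons 227 (.leaf 203 1622 (.leaf 322 1813 .nil)) .nil)) .nil))) .nil)) (.cons 249 (.leaf 248 1984 (.cons 252 (.cons 228 (.leaf 229 1801 (.cons 180 (.leaf 204 1438 (.cons 273 (.leaf 272 1986 (.cons 274 (.leaf 253 1993 (.cons 297 (.leaf 296 2178 (.cons 321 (.leaf 226 1805 (.leaf 345 1997 .nil)) .nil)) .nil)) .nil)) .nil)) .nil)) (.cons 224 (.leaf 225 1795 (.cons 228 (.leaf 229 1801 (.cons 204 (.leaf 180 1438 (.cons 203 (.leaf 179 1439 (.cons 227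 (.leaf 300 1628 (.cons 205 (.leaf 181 1445 (.cons 206 (.leaf 207 1626 (.leaf 226 1618 .nil)) .nil)) .nil)) .nil)) .nil)) .nil)) .nil)) (.cons 224 (.leaf 225 1795 (.cons 273 (.leaf 272 1986 (.cons 253 (.leaf 274 1993 (.cons 230 (.leaf 229 1809 (.cons 254 (.leaf 255 2010 (.leaf 231 1817 .nil)) .nil)) .nil)) .nil)) .nil)) (.cons 224 (.leaf 225 1795 (.cons 273 (.leaf 272 1986 (.cons 274 (.leaf 253 1993 (.cons 297 (.leaf 296 2178 (.cons 321 (.leaf 226 1805 (.leaf 345 1997 .nil)) .nil)) .nil)) .nil)) .nil)) .nil)))) .nil)) (.cons 249 (.leaf 248 1984 (.cons 277 (.leaf 278 2003 (.leaf 252 1992 .nil)) .nil)) .nil)))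
noncomputable def t51 : T := .cons 273 (.leaf 272 1986 (.cons 225 (.leaf 224 1795 (.cons 228 (.leaf 229 1801 (.cons 204 (.leaf 180 1438 (.cons 226 (.leaf 253 1803 (.cons 202 (.leaf 178 1428 (.leaf 297 1613 .nil)) .nil)) .nil)) .nil)) .nil)) .nil)) (.cons 225 (.leaf 224 1795 (.cons 226 (.leaf 253 1803 (.cons 178 (.leaf 202 1428 (.cons 228 (.leaf 229 1801 (.cons 204 (.leaf 180 1438 (.cons 227 (.leaf 205 1609 (.cons 201 (.leaf 200 1603 (.cons 177 (.leaf 153 1228 (.leaf 274 1420 .nil)) .nil)) .nil)) .nil)) .nil)) .nil)) .nil)) .nil)) (.cons 273 (.leaf 272 1986 (.cons 229 (.leaf 228 1801 (.cons 253 (.leaf 230 1809 (.leaf 274 1994 .nil)) .nil)) .nil)) (.cons 273 (.leaf 272 1986 (.cons 225 (.leaf 224 1795 (.cons 253 (.leaf 226 1803 (.leaf 274 1994 .nil)) .nil)) .nil)) (.cons 273 (.leaf 272 1986 (.cons 225 (.leaf 224 1795 (.cons 228 (.leaf 229 1801 (.cons 204 (.leaf 180 1438 (.cons 226 (.cons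 202 (.leaf 178 1428 (.leaf 297 1613 .nil)) (.cons 205 (.leaf 227 1609 (.cons 297 (.leaf 321 1805 (.cons 298 (.leaf 322 1804 (.cons 201 (.leaf 274 1612 (.cons 177 (.leaf 153 1228 (.cons 176 (.leaf 152 1223 (.leaf 200 1415 .nil)) .nil)) .nil)) .nil)) .nil)) .nil)) (.cons 202 (.leaf 178 1428 (.cons 205 (.leaf 203 1610 (.leaf 227 1609 .nil)) .nil)) .nil))) .nil)) .nil)) .nil)) .nil)) .nil))))
noncomputable def t52 : T := .cons 276 (.leaf 277 1992 (.cons 225 (.leaf 224 1795 (.cons 228 (.leaf 229 1801 (.cons 204 (.leaf 180 1438 (.cons 203 (.leaf 179 1439 (.cons 205 (.leaf 181 1445 (.cons 202 (.leaf 226 1610 (.cons 177 (.leaf 178 1419 (.cons 201 (.leaf 274 1420 (.leaf 176 1411 .nil)) .nil)) .nil)) .nil)) .nil)) .nil)) .nil)) .nil)) .nil)) (.cons 273 (.leaf 272 1986 (.cons 225 (.leaf 224 1795 (.cons 228 (.leaf 229 1801 (.cons 204 (.leaf 180 1438 (.cons 226 (.cons 202 (.leaf 178 1428 (.leaf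 297 1613 .nil)) (.cons 205 (.leaf 227 1609 (.cons 297 (.leaf 321 1805 (.cons 298 (.leaf 322 1804 (.cons 201 (.leaf 274 1612 (.cons 177 (.leaf 153 1228 (.cons 176 (.leaf 152 1223 (.leaf 200 1415 .nil)) .nil)) .nil)) .nil)) .nil)) .nil)) (.cons 202 (.leaf 178 1428 (.cons 205 (.leaf 203 1610 (.leaf 227 1609 .nil)) .nil)) .nil))) .nil)) .nil)) .nil)) .nil)) (.cons 276 (.leaf 277 1992 (.cons 273 (.leaf 272 1986 (.cons 225 (.leaf 224 1795 (.cons 297 (.cons 226 (.leaf 321 1805 (.leaf 202 1613 .nil)) (.cons 296 (.leaf 274 2178 (.leaf 320 1798 .nil)) .nil)) .nil)) .nil)) .nil)) (.cons 276 (.leaf 277 1992 (.cons 228 (.leaf 229 1801 (.cons 204 (.leaf 180 1438 (.cons 181 (.leaf 205 1445 (.cons 203 (.leaf 179 1439 (.cons 227 (.leaf 300 1628 (.cons 178 (.leaf 202 1431 (.cons 274 (.leaf 298 1622 (.cons 273 (.leaf 272 1985 (.cons 297 (.leaf 296 2178 (.cons 321 (.leaf 226 1805 (.leaf 345 1997 .nil))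 .nil)) .nil)) .nil)) .nil)) .nil)) .nil)) .nil)) .nil)) .nil)) .nil)) (.cons 276 (.leaf 277 1992 (.cons 228 (.leaf 229 1801 (.cons 204 (.leaf 180 1438 (.cons 203 (.leaf 179 1439 (.cons 227 (.leaf 300 1628 (.cons 178 (.leaf 202 1431 (.cons 205 (.leaf 181 1445 (.cons 206 (.leaf 207 1626 (.leaf 226 1618 .nil)) .nil)) .nil)) .nil)) .nil)) .nil)) .nil)) .nil)) (.cons 276 (.leaf 277 1992 (.cons 225 (.leaf 224 1795 (.cons 228 (.leaf 229 1801 (.cons 204 (.leaf 180 1438 (.cons 181 (.leaf 205 1445 (.cons 203 (.leaf 179 1439 (.cons 227 (.leaf 300 1628 (.cons 202 (.leaf 178 1431 (.cons 201 (.leaf 200 1600 (.cons 177 (.leaf 274 1420 (.leaf 176 1411 .nil)) .nil)) .nil)) .nil)) .nil)) .nil)) .nil)) .nil)) .nil)) .nil)) (.cons 276 (.leaf 277 1992 (.cons 224 (.leaf 225 1795 (.cons 228 (.leaf 229 1801 (.cons 204 (.leaf 180 1438 (.cons 203 (.leaf 179 1439 (.cons 227 (.leaf 300 1628 (.cons 205 (.leaf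 181 1445 (.cons 206 (.leaf 207 1626 (.leaf 226 1618 .nil)) .nil)) .nil)) .nil)) .nil)) .nil)) .nil)) .nil)) .nil))))))
noncomputable def t53 : T := .cons 253 (.cons 225 (.leaf 226 1803 (.cons 224 (.leaf 249 1795 (.cons 230 (.leaf 229 1809 (.cons 254 (.leaf 274 2002 (.leaf 231 1817 .nil)) .nil)) .nil)) .nil)) (.cons 225 (.leaf 226 1803 (.cons 224 (.leaf 249 1795 (.cons 230 (.leaf 229 1809 (.cons 254 (.leaf 231 1817 (.cons 278 (.leaf 277 2000 (.leaf 279 2008 .nil)) .nil)) .nil)) .nil)) .nil)) (.cons 225 (.leaf 226 1803 (.cons 249 (.leaf 224 1795 (.cons 273 (.leaf 272 1986 (.leaf 274 1994 .nil)) .nil)) .nil)) (.cons 274 (.leaf 254 2002 (.leaf 273 1994 .nil)) .nil)))) (.cons 249 t52 (.cons 249 (.cons 228 (.leaf 229 1801 (.cons 204 (.leaf 180 1438 (.cons 272 (.leaf 273 1986 (.cons 276 (.leaf 277 1992 (.cons 203 (.leaf 179 1439 (.cons 227 (.leaf 300 1628 (.cons 178 (.leaf 202 1431 (.cons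 205 (.leaf 181 1445 (.cons 206 (.leaf 207 1626 (.leaf 226 1618 .nil)) .nil)) .nil)) .nil)) .nil)) .nil)) .nil)) .nil)) .nil)) (.cons 225 (.leaf 224 1795 (.cons 226 (.leaf 253 1803 (.cons 178 (.leaf 202 1428 (.cons 228 (.leaf 229 1801 (.cons 204 (.leaf 180 1438 (.cons 227 (.leaf 205 1609 (.cons 201 (.leaf 200 1603 (.cons 177 (.leaf 153 1228 (.leaf 154 1229 .nil)) .nil)) .nil)) .nil)) .nil)) .nil)) .nil)) .nil)) (.cons 225 (.leaf 224 1795 (.cons 226 (.leaf 253 1803 (.cons 202 (.leaf 178 1428 (.cons 273 (.leaf 272 1986 (.leaf 297 1613 .nil)) .nil)) .nil)) .nil)) (.cons 224 (.leaf 225 1795 (.cons 229 (.leaf 228 1801 (.cons 253 (.leaf 230 1809 (.cons 277 (.leaf 276 1992 (.leaf 278 2000 .nil)) .nil)) .nil)) .nil)) .nil)))) (.cons 253 (.cons 226 (.leaf 225 1803 (.cons 202 (.leaf 178 1428 (.cons 278 (.leaf 277 2000 (.cons 229 (.leaf 230 1809 (.cons 254 (.leaf 274 2002 (.leaf 227 1811 .nil))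 .nil)) .nil)) .nil)) .nil)) (.cons 225 (.leaf 226 1803 (.cons 229 (.leaf 230 1809 (.cons 278 (.leaf 277 2000 (.cons 254 (.leaf 279 2008 (.cons 255 (.leaf 276 2010 (.cons 228 (.leaf 227 1819 (.leaf 256 1827 .nil)) .nil)) .nil)) .nil)) .nil)) .nil)) (.cons 226 (.leaf 225 1803 (.cons 202 (.leaf 178 1428 (.cons 274 (.leaf 273 1994 (.cons 229 (.leaf 230 1809 (.cons 201 (.leaf 177 1423 (.cons 203 (.leaf 179 1429 (.cons 204 (.leaf 228 1608 (.cons 180 (.leaf 227 1437 (.leaf 181 1417 .nil)) .nil)) .nil)) .nil)) .nil)) .nil)) .nil)) .nil)) (.cons 274 (.leaf 254 2002 (.leaf 273 1994 .nil)) .nil)))) (.cons 253 (.cons 229 (.leaf 230 1809 (.cons 228 (.leaf 249 1801 (.cons 180 (.leaf 204 1438 (.cons 278 (.leaf 277 2000 (.cons 225 (.leaf 226 1803 (.cons 254 (.leaf 274 2002 (.leaf 279 2008 .nil)) .nil)) .nil)) .nil)) .nil)) .nil)) (.cons 277 (.leaf 278 2000 (.cons 225 (.leaf 226 1803 (.cons 229 (.leaf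 230 1809 (.cons 249 (.leaf 224 1795 (.leaf 228 1801 .nil)) .nil)) .nil)) .nil)) (.cons 254 (.leaf 274 2002 (.cons 226 (.leaf 225 1803 (.leaf 227 1811 .nil)) .nil)) (.cons 254 (.leaf 274 2002 (.cons 278 (.leaf 277 2000 (.leaf 279 2008 .nil)) .nil)) .nil)))) (.cons 253 (.cons 225 (.leaf 226 1803 (.cons 229 (.leaf 230 1809 (.cons 249 (.leaf 224 1795 (.leaf 228 1801 .nil)) .nil)) .nil)) (.cons 274 (.leaf 254 2002 (.leaf 273 1994 .nil)) .nil)) (.cons 253 (.cons 229 (.leaf 230 1809 (.cons 228 (.leaf 249 1801 (.cons 180 (.leaf 204 1438 (.cons 278 (.leaf 277 2000 (.cons 254 (.leaf 274 2002 (.leaf 279 2008 .nil)) .nil)) .nil)) .nil)) .nil)) (.cons 229 (.leaf 230 1809 (.cons 228 (.leaf 249 1801 (.cons 180 (.leaf 204 1438 (.cons 278 (.leaf 277 2000 (.cons 254 (.leaf 279 2008 (.cons 255 (.leaf 276 2010 (.leaf 227 1819 .nil)) .nil)) .nil)) .nil)) .nil)) .nil)) (.cons 229 (.leaf 230 1809 (.cons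 249 (.leaf 228 1801 (.cons 273 (.leaf 272 1986 (.leaf 274 1994 .nil)) .nil)) .nil)) (.cons 274 (.leaf 254 2002 (.leaf 273 1994 .nil)) .nil)))) (.cons 253 (.cons 225 (.leaf 226 1803 (.cons 224 (.leaf 249 1795 (.cons 254 (.leaf 274 2002 (.cons 278 (.leaf 277 2000 (.leaf 279 2008 .nil)) .nil)) .nil)) .nil)) (.cons 225 (.leaf 226 1803 (.cons 224 (.leaf 249 1795 (.cons 278 (.leaf 277 2000 (.cons 254 (.leaf 279 2008 (.cons 231 (.leaf 230 1817 (.cons 255 (.leaf 276 2010 (.leaf 232 1825 .nil)) .nil)) .nil)) .nil)) .nil)) .nil)) (.cons 225 (.leaf 226 1803 (.cons 249 (.leaf 224 1795 (.cons 273 (.leaf 272 1986 (.leaf 274 1994 .nil)) .nil)) .nil)) (.cons 274 (.leaf 254 2002 (.leaf 273 1994 .nil)) .nil)))) .nil)))))))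
noncomputable def t54 : T := .cons 224 (.leaf 225 1795 (.cons 229 (.leaf 228 1801 (.cons 253 (.leaf 230 1809 (.cons 254 (.leaf 274 2002 (.cons 278 (.leaf 277 2000 (.leaf 279 2008 .nil)) .nil)) .nil)) .nil)) .nil)) (.cons 273 (.leaf 272 1986 (.cons 229 (.leaf 228 1801 (.cons 253 (.leaf 230 1809 (.leaf 274 1994 .nil)) .nil)) .nil)) (.cons 277 (.leaf 276 1992 (.cons 224 (.leaf 225 1795 (.cons 229 (.leaf 228 1801 (.cons 253 (.leaf 230 1809 (.leaf 278 2000 .nil)) .nil)) .nil)) .nil)) (.cons 276 (.leaf 277 1992 (.cons 224 (.leaf 225 1795 (.cons 273 (.leaf 272 1986 (.cons 253 (.leaf 274 1993 (.cons 230 (.leaf 229 1809 (.cons 254 (.leaf 255 2010 (.leaf 231 1817 .nil)) .nil)) .nil)) .nil)) .nil)) .nil)) (.cons 276 (.leaf 277 1992 (.cons 224 (.leaf 225 1795 (.cons 273 (.leaf 272 1986 (.cons 274 (.leaf 253 1993 (.cons 297 (.leaf 296 2178 (.cons 321 (.leaf 345 1997 (.cons 322 (.leaf 346 1996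 (.cons 227 (.leaf 298 1813 (.cons 203 (.leaf 300 1628 (.leaf 179 1436 .nil)) .nil)) .nil)) .nil)) .nil)) .nil)) .nil)) .nil)) .nil)) (.cons 276 (.leaf 277 1992 (.cons 225 (.leaf 224 1795 (.cons 228 (.leaf 229 1801 (.cons 204 (.leaf 180 1438 (.cons 181 (.leaf 205 1445 (.cons 203 (.leaf 179 1439 (.cons 227 (.leaf 300 1628 (.cons 202 (.leaf 178 1431 (.cons 201 (.leaf 200 1600 (.cons 177 (.leaf 274 1420 (.leaf 176 1411 .nil)) .nil)) .nil)) .nil)) .nil)) .nil)) .nil)) .nil)) .nil)) .nil)) .nil)))))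
noncomputable def t55 : T := .cons 276 (.leaf 248 1984 (.cons 277 (.leaf 274 1995 (.leaf 278 2003 .nil)) .nil)) (.cons 252 (.cons 229 (.leaf 228 1801 (.cons 253 (.leaf 230 1809 (.cons 225 (.leaf 224 1795 (.leaf 226 1803 .nil)) .nil)) .nil)) (.cons 229 (.leaf 228 1801 (.cons 253 (.leaf 230 1809 (.cons 273 (.leaf 272 1986 (.leaf 274 1994 .nil)) .nil)) .nil)) (.cons 276 (.leaf 277 1992 (.cons 225 (.leaf 224 1795 (.cons 228 (.leaf 229 1801 (.cons 204 (.leaf 180 1438 (.cons 203 (.leaf 179 1439 (.cons 205 (.leaf 181 1445 (.cons 202 (.leaf 226 1610 (.cons 177 (.leaf 178 1419 (.cons 201 (.leaf 274 1420 (.leaf 176 1411 .nil)) .nil)) .nil)) .nil)) .nil)) .nil)) .nil)) .nil)) .nil)) (.cons 277 (.leaf 276 1992 (.cons 224 (.leaf 225 1795 (.cons 253 (.leaf 278 2000 (.cons 273 (.leaf 272 1986 (.leaf 274 1994 .nil)) .nil)) .nil)) .nil)) .nil)))) (.cons 252 (.cons 224 (.leaf 225 1795 (.cons 228 (.leaf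 229 1801 (.cons 180 (.leaf 204 1438 (.cons 248 (.leaf 223 1787 (.cons 272 (.leaf 271 1978 (.leaf 273 1986 .nil)) .nil)) .nil)) .nil)) .nil)) (.cons 225 (.leaf 224 1795 (.cons 226 (.leaf 253 1803 (.cons 202 (.leaf 178 1428 (.cons 228 (.leaf 229 1801 (.cons 204 (.leaf 180 1438 (.cons 203 (.leaf 205 1610 (.cons 274 (.leaf 179 1429 (.cons 201 (.leaf 177 1420 (.leaf 298 1615 .nil)) .nil)) .nil)) .nil)) .nil)) .nil)) .nil)) .nil)) (.cons 273 (.leaf 272 1986 (.cons 229 (.leaf 228 1801 (.cons 253 (.leaf 230 1809 (.leaf 274 1994 .nil)) .nil)) .nil)) (.cons 273 (.leaf 272 1986 (.cons 224 (.leaf 225 1795 (.cons 248 (.leaf 223 1787 (.cons 274 (.leaf 247 1976 (.leaf 253 1994 .nil)) .nil)) .nil)) .nil)) .nil)))) (.cons 276 (.leaf 248 1984 (.cons 277 (.leaf 278 2003 (.leaf 252 1992 .nil)) .nil)) .nil)))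
noncomputable def t56 : T := .cons 297 (.cons 276 (.leaf 277 2186 (.cons 296 (.leaf 273 2178 (.leaf 295 2169 .nil)) .nil)) (.cons 226 (.leaf 321 1806 (.cons 202 (.leaf 178 1428 (.leaf 273 1614 .nil)) .nil)) (.cons 276 (.leaf 277 2186 (.cons 248 (.leaf 249 1984 (.cons 296 (.leaf 295 2169 (.cons 321 (.leaf 226 1806 (.cons 272 (.leaf 224 1796 (.cons 345 (.leaf 322 1998 (.leaf 369 2189 .nil)) .nil)) .nil)) .nil)) .nil)) .nil)) .nil))) (.cons 297 (.cons 276 (.leaf 277 2186 (.cons 296 (.leaf 273 2178 (.leaf 295 2169 .nil)) .nil)) (.cons 226 (.leaf 321 1806 (.cons 202 (.leaf 178 1428 (.leaf 273 1614 .nil)) .nil)) (.cons 276 (.leaf 277 2186 (.cons 248 (.leaf 249 1984 (.cons 296 (.leaf 295 2169 (.cons 321 (.leaf 226 1806 (.cons 272 (.leaf 224 1796 (.cons 345 (.leaf 369 2189 (.leaf 320 1988 .nil)) .nil)) .nil)) .nil)) .nil)) .nil)) .nil))) (.cons 322 (.leaf 346 2005 (.cons 321 (.leaf 345 1998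 (.cons 297 (.leaf 226 1806 (.cons 276 (.leaf 277 2186 (.cons 323 (.leaf 347 2004 (.cons 324 (.leaf 325 2379 (.leaf 296 2371 .nil)) .nil)) .nil)) .nil)) .nil)) .nil)) (.cons 322 (.leaf 346 2005 (.cons 225 (.leaf 249 1807 (.cons 226 (.leaf 201 1615 (.cons 321 (.leaf 297 1806 (.leaf 345 1998 .nil)) .nil)) .nil)) .nil)) (.cons 322 (.leaf 346 2005 (.cons 249 (.leaf 225 1807 (.cons 248 (.leaf 247 1976 (.leaf 276 1984 .nil)) .nil)) .nil)) .nil))))
noncomputable def t57 : T := .cons 272 (.leaf 271 1977 (.cons 248 (.leaf 247 1979 (.cons 296 (.leaf 295 2170 (.cons 297 (.leaf 276 2178 (.cons 321 (.leaf 345 1997 (.leaf 224 1796 .nil)) .nil)) .nil)) .nil)) .nil)) (.cons 249 (.cons 248 (.leaf 247 1976 (.leaf 276 1984 .nil)) (.cons 276 (.leaf 277 1995 (.cons 297 (.leaf 296 2178 (.cons 226 (.leaf 202 1614 (.leaf 321 1805 .nil)) .nil)) .nil)) (.cons 248 (.leaf 247 1976 (.cons 224 (.leaf 223 1787 (.cons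 297 (.leaf 321 1799 (.cons 200 (.leaf 176 1412 (.leaf 225 1607 .nil)) .nil)) .nil)) .nil)) .nil))) (.cons 272 (.leaf 271 1977 (.cons 296 (.leaf 295 2170 (.cons 276 (.leaf 297 2178 (.cons 277 (.leaf 249 1995 (.leaf 278 2003 .nil)) .nil)) .nil)) .nil)) (.cons 272 (.leaf 271 1977 (.cons 248 (.leaf 247 1979 (.cons 296 (.leaf 295 2170 (.cons 249 (.cons 225 (.leaf 201 1606 (.leaf 320 1797 .nil)) (.cons 224 (.leaf 223 1787 (.cons 297 (.leaf 200 1604 (.leaf 321 1796 .nil)) .nil)) .nil)) .nil)) .nil)) .nil)) (.cons 272 (.leaf 271 1977 (.cons 248 (.leaf 247 1979 (.cons 249 (.leaf 276 1984 (.cons 223 (.leaf 224 1787 (.cons 227 (.leaf 228 1793 (.cons 296 (.leaf 295 2170 (.cons 225 (.leaf 201 1606 (.leaf 320 1797 .nil)) .nil)) .nil)) .nil)) .nil)) .nil)) .nil)) (.cons 272 (.leaf 271 1977 (.cons 248 (.leaf 247 1979 (.cons 249 (.leaf 276 1984 (.cons 223 (.leaf 224 1787 (.cons 227 (.leaf 228 1793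 (.cons 203 (.leaf 179 1430 (.cons 202 (.leaf 178 1431 (.cons 226 (.leaf 297 1614 (.cons 201 (.leaf 177 1423 (.cons 200 (.leaf 199 1592 (.cons 176 (.leaf 225 1415 (.leaf 175 1403 .nil)) .nil)) .nil)) .nil)) .nil)) .nil)) .nil)) .nil)) .nil)) .nil)) .nil)) .nil)))))
noncomputable def t58 : T := .cons 276 (.cons 277 (.leaf 249 1995 (.leaf 278 2003 .nil)) (.cons 277 (.leaf 278 2003 (.cons 298 (.leaf 297 2186 (.cons 227 (.leaf 203 1622 (.leaf 322 1813 .nil)) .nil)) .nil)) (.cons 273 (.cons 249 (.leaf 248 1984 (.cons 297 (.leaf 296 2178 (.cons 321 (.leaf 226 1805 (.leaf 345 1997 .nil)) .nil)) .nil)) (.cons 297 (.leaf 296 2178 (.cons 226 (.leaf 202 1614 (.cons 321 (.leaf 298 1806 (.leaf 345 1997 .nil)) .nil)) .nil)) (.cons 248 (.leaf 249 1984 (.cons 272 (.leaf 247 1979 (.leaf 271 1977 .nil)) .nil)) .nil))) .nil))) (.cons 298 (.cons 322 (.leaf 346 2005 (.leaf 227 1813 .nil)) (.cons 322 (.leaf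 346 2005 (.cons 321 (.leaf 345 1998 (.cons 297 (.leaf 226 1806 (.cons 276 (.leaf 277 2186 (.cons 323 (.leaf 347 2004 (.cons 324 (.leaf 325 2379 (.leaf 296 2371 .nil)) .nil)) .nil)) .nil)) .nil)) .nil)) (.cons 227 (.leaf 203 1622 (.cons 226 (.cons 201 (.leaf 225 1615 (.cons 297 (.leaf 321 1806 (.cons 276 (.leaf 277 2186 (.cons 296 (.leaf 273 2178 (.leaf 295 2169 .nil)) .nil)) .nil)) .nil)) (.cons 201 (.leaf 225 1615 (.cons 202 (.leaf 178 1428 (.leaf 177 1423 .nil)) .nil)) (.cons 202 (.leaf 178 1428 (.cons 297 (.leaf 273 1614 (.leaf 321 1806 .nil)) .nil)) .nil))) .nil)) .nil))) (.cons 273 t57 (.cons 298 t56 (.cons 298 (.cons 227 (.leaf 203 1622 (.leaf 322 1813 .nil)) (.cons 227 (.leaf 203 1622 (.cons 226 (.cons 202 (.leaf 178 1428 (.cons 297 (.leaf 273 1614 (.leaf 321 1806 .nil)) .nil)) (.cons 225 (.leaf 201 1615 (.cons 224 (.leaf 223 1784 (.cons 199 (.leaf 200 1595 (.cons 248 (.leaf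 247 1786 (.cons 228 (.leaf 249 1793 (.cons 205 (.leaf 204 1609 (.cons 229 (.leaf 230 1810 (.leaf 206 1617 .nil)) .nil)) .nil)) .nil)) .nil)) .nil)) .nil)) .nil)) .nil)) (.cons 322 (.leaf 346 2005 (.cons 225 (.leaf 249 1807 (.cons 226 (.leaf 201 1615 (.cons 321 (.leaf 297 1806 (.leaf 345 1998 .nil)) .nil)) .nil)) .nil)) .nil))) (.cons 276 (.cons 277 (.leaf 249 1995 (.leaf 278 2003 .nil)) (.cons 277 (.leaf 278 2003 (.cons 298 (.leaf 297 2186 (.cons 227 (.leaf 203 1622 (.leaf 322 1813 .nil)) .nil)) .nil)) (.cons 273 (.cons 248 (.leaf 249 1984 (.cons 272 (.leaf 247 1979 (.leaf 271 1977 .nil)) .nil)) (.cons 272 (.leaf 271 1977 (.cons 296 (.leaf 295 2170 (.leaf 297 2178 .nil)) .nil)) (.cons 249 (.leaf 248 1984 (.cons 297 (.leaf 296 2178 (.cons 321 (.leaf 345 1997 (.cons 320 (.leaf 344 1990 (.cons 322 (.leaf 346 1996 (.cons 225 (.leaf 298 1804 (.cons 200 (.leaf 224 1607 (.cons 201 (.leaf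 177 1420 (.leaf 176 1415 .nil)) .nil)) .nil)) .nil)) .nil)) .nil)) .nil)) .nil)) .nil))) .nil))) (.cons 298 (.cons 322 (.leaf 346 2005 (.leaf 227 1813 .nil)) (.cons 226 (.cons 227 (.leaf 203 1621 (.cons 225 (.leaf 201 1615 (.cons 224 (.leaf 223 1784 (.cons 199 (.leaf 200 1595 (.cons 248 (.leaf 247 1786 (.cons 228 (.leaf 249 1793 (.cons 205 (.leaf 204 1609 (.cons 229 (.leaf 230 1810 (.leaf 206 1617 .nil)) .nil)) .nil)) .nil)) .nil)) .nil)) .nil)) .nil)) (.cons 201 (.leaf 225 1615 (.cons 202 (.leaf 178 1428 (.leaf 177 1423 .nil)) .nil)) (.cons 203 (.leaf 227 1621 (.cons 202 (.leaf 178 1428 (.leaf 179 1429 .nil)) .nil)) .nil))) (.cons 322 (.leaf 346 2005 (.cons 225 (.leaf 249 1807 (.cons 226 (.leaf 201 1615 (.cons 321 (.leaf 297 1806 (.leaf 345 1998 .nil)) .nil)) .nil)) .nil)) .nil))) (.cons 298 (.cons 322 (.leaf 346 2005 (.leaf 227 1813 .nil)) (.cons 226 (.cons 227 (.leaf 203 1621 (.cons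 225 (.leaf 201 1615 (.cons 224 (.leaf 223 1784 (.cons 199 (.leaf 200 1595 (.cons 248 (.leaf 247 1786 (.cons 228 (.leaf 249 1793 (.cons 205 (.leaf 204 1609 (.cons 229 (.leaf 230 1810 (.leaf 206 1617 .nil)) .nil)) .nil)) .nil)) .nil)) .nil)) .nil)) .nil)) (.cons 201 (.leaf 225 1615 (.cons 202 (.leaf 178 1428 (.leaf 177 1423 .nil)) .nil)) (.cons 203 (.leaf 227 1621 (.cons 202 (.leaf 178 1428 (.leaf 179 1429 .nil)) .nil)) .nil))) (.cons 322 (.leaf 346 2005 (.cons 249 (.leaf 225 1807 (.cons 248 (.leaf 247 1976 (.leaf 276 1984 .nil)) .nil)) .nil)) .nil))) .nil)))))))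
noncomputable def t59 : T := .cons 248 (.leaf 276 1984 (.cons 223 (.leaf 224 1787 (.cons 247 (.leaf 222 1779 (.cons 271 (.leaf 272 1978 (.leaf 270 1970 .nil)) .nil)) .nil)) .nil)) (.cons 252 (.cons 228 (.leaf 229 1801 (.cons 204 (.leaf 180 1438 (.cons 272 (.leaf 273 1986 (.cons 276 (.leaf 277 1992 (.cons 203 (.leaf 179 1439 (.cons 227 (.leaf 300 1628 (.cons 178 (.leaf 202 1431 (.cons 205 (.leaf 181 1445 (.cons 206 (.leaf 207 1626 (.leaf 226 1618 .nil)) .nil)) .nil)) .nil)) .nil)) .nil)) .nil)) .nil)) .nil)) (.cons 225 (.leaf 224 1795 (.cons 226 (.leaf 253 1803 (.cons 178 (.leaf 202 1428 (.cons 228 (.leaf 229 1801 (.cons 204 (.leaf 180 1438 (.cons 227 (.leaf 205 1609 (.cons 201 (.leaf 200 1603 (.cons 177 (.leaf 153 1228 (.leaf 154 1229 .nil)) .nil)) .nil)) .nil)) .nil)) .nil)) .nil)) .nil)) (.cons 225 (.leaf 224 1795 (.cons 226 (.leaf 253 1803 (.cons 202 (.leaf 178 1428 (.cons 273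 (.leaf 272 1986 (.leaf 297 1613 .nil)) .nil)) .nil)) .nil)) (.cons 224 (.leaf 225 1795 (.cons 229 (.leaf 228 1801 (.cons 253 (.leaf 230 1809 (.cons 277 (.leaf 276 1992 (.leaf 278 2000 .nil)) .nil)) .nil)) .nil)) .nil)))) (.cons 252 (.cons 224 (.leaf 225 1795 (.cons 228 (.leaf 229 1801 (.cons 248 (.leaf 223 1787 (.leaf 227 1793 .nil)) .nil)) .nil)) (.cons 225 (.leaf 224 1795 (.cons 226 (.leaf 253 1803 (.cons 202 (.leaf 178 1428 (.cons 273 (.leaf 272 1986 (.leaf 297 1613 .nil)) .nil)) .nil)) .nil)) (.cons 228 (.leaf 229 1801 (.cons 180 (.leaf 204 1438 (.cons 248 (.leaf 227 1793 (.cons 272 (.leaf 271 1978 (.leaf 273 1986 .nil)) .nil)) .nil)) .nil)) .nil))) (.cons 248 (.leaf 276 1984 (.cons 227 (.leaf 228 1793 (.cons 226 (.leaf 247 1785 (.cons 178 (.leaf 202 1428 (.cons 272 (.leaf 271 1978 (.cons 252 (.leaf 273 1986 (.cons 253 (.leaf 225 1803 (.leaf 254 1811 .nil)) .nil)) .nil)) .nil))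 .nil)) .nil)) .nil)) (.cons 248 (.leaf 276 1984 (.cons 223 (.leaf 224 1787 (.cons 227 (.leaf 228 1793 (.cons 247 (.leaf 222 1779 (.leaf 226 1785 .nil)) .nil)) .nil)) .nil)) .nil))))
noncomputable def t60 : T := .cons 253 (.cons 225 (.leaf 226 1803 (.cons 224 (.leaf 249 1795 (.cons 230 (.leaf 229 1809 (.cons 254 (.leaf 274 2002 (.leaf 231 1817 .nil)) .nil)) .nil)) .nil)) (.cons 225 (.leaf 226 1803 (.cons 229 (.leaf 230 1809 (.cons 249 (.leaf 224 1795 (.leaf 228 1801 .nil)) .nil)) .nil)) (.cons 274 (.leaf 254 2002 (.leaf 273 1994 .nil)) .nil))) (.cons 249 (.cons 272 (.leaf 273 1986 (.cons 224 (.leaf 225 1795 (.cons 248 (.leaf 223 1787 (.leaf 271 1978 .nil)) .nil)) .nil)) (.cons 228 (.leaf 229 1801 (.cons 180 (.leaf 204 1438 (.cons 224 (.leaf 225 1795 (.cons 248 (.leaf 223 1787 (.leaf 227 1793 .nil)) .nil)) .nil)) .nil)) (.cons 228 (.leaf 229 1801 (.cons 180 (.leaf 204 1438 (.cons 248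 (.leaf 227 1793 (.cons 272 (.leaf 271 1978 (.leaf 273 1986 .nil)) .nil)) .nil)) .nil)) (.cons 273 (.leaf 272 1986 (.cons 225 (.leaf 224 1795 (.cons 228 (.leaf 229 1801 (.cons 204 (.leaf 180 1438 (.cons 226 (.cons 202 (.leaf 178 1428 (.leaf 297 1613 .nil)) (.cons 205 (.leaf 227 1609 (.cons 297 (.leaf 321 1805 (.cons 298 (.leaf 322 1804 (.cons 201 (.leaf 274 1612 (.cons 177 (.leaf 153 1228 (.cons 176 (.leaf 152 1223 (.leaf 200 1415 .nil)) .nil)) .nil)) .nil)) .nil)) .nil)) (.cons 202 (.leaf 178 1428 (.cons 205 (.leaf 203 1610 (.leaf 227 1609 .nil)) .nil)) .nil))) .nil)) .nil)) .nil)) .nil)) .nil)))) (.cons 249 (.cons 228 (.leaf 229 1801 (.cons 180 (.leaf 204 1438 (.cons 224 (.leaf 225 1795 (.cons 248 (.leaf 223 1787 (.leaf 227 1793 .nil)) .nil)) .nil)) .nil)) (.cons 225 (.leaf 224 1795 (.cons 226 (.leaf 253 1803 (.cons 202 (.leaf 178 1428 (.cons 273 (.leaf 272 1986 (.leaf 297 1613 .nil))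 .nil)) .nil)) .nil)) (.cons 228 (.leaf 229 1801 (.cons 180 (.leaf 204 1438 (.cons 248 (.leaf 227 1793 (.cons 272 (.leaf 271 1978 (.leaf 273 1986 .nil)) .nil)) .nil)) .nil)) .nil))) (.cons 253 (.cons 274 (.leaf 254 2002 (.leaf 273 1994 .nil)) (.cons 226 (.leaf 225 1803 (.cons 178 (.leaf 202 1428 (.cons 254 (.leaf 227 1811 (.cons 278 (.leaf 277 2000 (.leaf 279 2008 .nil)) .nil)) .nil)) .nil)) (.cons 226 (.leaf 225 1803 (.cons 202 (.leaf 178 1428 (.cons 274 (.leaf 273 1994 (.cons 229 (.leaf 230 1809 (.cons 201 (.leaf 177 1423 (.cons 203 (.leaf 179 1429 (.cons 204 (.leaf 228 1608 (.cons 180 (.leaf 227 1437 (.leaf 181 1417 .nil)) .nil)) .nil)) .nil)) .nil)) .nil)) .nil)) .nil)) .nil))) (.cons 253 (.cons 225 (.leaf 226 1803 (.cons 224 (.leaf 249 1795 (.cons 230 (.leaf 229 1809 (.cons 254 (.leaf 274 2002 (.leaf 231 1817 .nil)) .nil)) .nil)) .nil)) (.cons 225 (.leaf 226 1803 (.cons 229 (.leaf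 230 1809 (.cons 249 (.leaf 224 1795 (.leaf 228 1801 .nil)) .nil)) .nil)) (.cons 229 (.leaf 230 1809 (.cons 228 (.leaf 249 1801 (.cons 180 (.leaf 204 1438 (.cons 278 (.leaf 277 2000 (.cons 254 (.leaf 274 2002 (.leaf 279 2008 .nil)) .nil)) .nil)) .nil)) .nil)) (.cons 226 (.leaf 225 1803 (.cons 178 (.leaf 202 1428 (.cons 254 (.leaf 274 2002 (.leaf 227 1811 .nil)) .nil)) .nil)) .nil)))) (.cons 253 (.cons 274 (.leaf 254 2002 (.leaf 273 1994 .nil)) (.cons 229 (.leaf 230 1809 (.cons 228 (.leaf 249 1801 (.cons 180 (.leaf 204 1438 (.cons 278 (.leaf 277 2000 (.cons 254 (.leaf 279 2008 (.cons 255 (.leaf 227 1819 (.leaf 256 1827 .nil)) .nil)) .nil)) .nil)) .nil)) .nil)) (.cons 229 (.leaf 230 1809 (.cons 249 (.leaf 228 1801 (.cons 273 (.leaf 272 1986 (.leaf 274 1994 .nil)) .nil)) .nil)) .nil))) (.cons 253 (.cons 274 (.leaf 254 2002 (.leaf 273 1994 .nil)) (.cons 226 (.leaf 225 1803 (.cons 178 (.leaf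 202 1428 (.cons 254 (.leaf 227 1811 (.cons 278 (.leaf 277 2000 (.leaf 279 2008 .nil)) .nil)) .nil)) .nil)) (.cons 273 (.leaf 274 1994 (.cons 225 (.leaf 226 1803 (.cons 249 (.leaf 224 1795 (.leaf 272 1986 .nil)) .nil)) .nil)) .nil))) .nil))))))
noncomputable def t61 : T := .cons 180 (.leaf 228 1438 (.cons 203 (.leaf 227 1437 (.cons 181 (.leaf 201 1417 (.cons 182 (.leaf 179 1426 (.leaf 205 1425 .nil)) .nil)) .nil)) .nil)) (.cons 203 (.cons 180 (.leaf 227 1437 (.cons 181 (.leaf 201 1417 (.cons 182 (.leaf 179 1426 (.leaf 205 1425 .nil)) .nil)) .nil)) (.cons 225 (.leaf 205 1610 (.cons 224 (.leaf 223 1784 (.leaf 201 1602 .nil)) .nil)) (.cons 180 (.leaf 227 1437 (.cons 181 (.leaf 201 1417 (.cons 182 (.leaf 179 1426 (.leaf 183 1434 .nil)) .nil)) .nil)) (.cons 227 (.leaf 180 1437 (.cons 225 (.leaf 224 1792 (.leaf 205 1610 .nil)) .nil)) .nil)))) (.cons 225 (.cons 224 (.leaf 223 1784 (.leaf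 227 1792 .nil)) (.cons 205 (.leaf 203 1610 (.cons 228 (.leaf 227 1609 (.cons 181 (.leaf 276 1445 (.cons 157 (.leaf 229 1254 (.leaf 133 1062 .nil)) .nil)) .nil)) .nil)) (.cons 203 (.leaf 205 1610 (.cons 224 (.leaf 223 1784 (.leaf 201 1602 .nil)) .nil)) .nil))) (.cons 228 (.leaf 180 1438 (.cons 227 (.cons 229 (.leaf 230 1810 (.leaf 201 1611 .nil)) (.cons 225 (.leaf 224 1792 (.leaf 205 1609 .nil)) .nil)) .nil)) (.cons 228 (.leaf 180 1438 (.cons 203 (.cons 205 (.leaf 225 1610 (.cons 181 (.leaf 182 1425 (.leaf 276 1445 .nil)) .nil)) (.cons 201 (.leaf 229 1608 (.cons 176 (.leaf 177 1411 (.cons 179 (.leaf 276 1439 (.cons 131 (.leaf 155 1052 (.cons 200 (.leaf 175 1403 (.cons 224 (.leaf 223 1594 (.leaf 225 1602 .nil)) .nil)) .nil)) .nil)) .nil)) .nil)) (.cons 229 (.leaf 201 1608 (.cons 230 (.leaf 231 1818 (.leaf 205 1616 .nil)) .nil)) .nil))) .nil)) (.cons 180 (.leaf 228 1438 (.cons 203 (.leaf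 227 1437 (.cons 181 (.leaf 201 1417 (.cons 182 (.leaf 179 1426 (.leaf 183 1434 .nil)) .nil)) .nil)) .nil)) (.cons 180 (.leaf 228 1438 (.cons 203 (.leaf 227 1437 (.cons 205 (.leaf 225 1610 (.cons 230 (.leaf 229 1616 (.cons 206 (.leaf 231 1624 (.cons 183 (.leaf 182 1433 (.cons 207 (.leaf 179 1435 (.leaf 184 1441 .nil)) .nil)) .nil)) .nil)) .nil)) .nil)) .nil)) .nil))))))
noncomputable def t62 : T := .cons 253 (.leaf 225 1803 (.cons 278 (.leaf 277 2000 (.cons 229 (.leaf 230 1809 (.cons 254 (.leaf 227 1811 (.leaf 279 2008 .nil)) .nil)) .nil)) .nil)) (.cons 204 t61 (.cons 253 (.cons 278 (.leaf 277 2000 (.cons 229 (.leaf 230 1809 (.cons 254 (.leaf 227 1811 (.leaf 279 2008 .nil)) .nil)) .nil)) (.cons 277 (.leaf 278 2000 (.cons 229 (.leaf 230 1809 (.cons 205 (.cons 180 (.leaf 204 1447 (.cons 181 (.leaf 276 1446 (.leaf 156 1255 .nil)) .nil)) (.cons 180 (.leaf 204 1447 (.cons 181 (.leaf 156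 1255 (.cons 182 (.leaf 158 1261 (.leaf 206 1453 .nil)) .nil)) .nil)) (.cons 204 (.leaf 180 1447 (.cons 206 (.leaf 182 1453 (.cons 227 (.leaf 203 1618 (.leaf 228 1617 .nil)) .nil)) .nil)) (.cons 276 (.leaf 181 1446 (.leaf 300 1638 .nil)) .nil)))) .nil)) .nil)) (.cons 254 (.leaf 227 1811 (.cons 230 (.leaf 229 1809 (.leaf 231 1817 .nil)) .nil)) (.cons 278 (.leaf 277 2000 (.cons 229 (.leaf 230 1809 (.cons 254 (.leaf 279 2008 (.cons 181 (.leaf 205 1452 (.cons 255 (.leaf 276 2010 (.cons 232 (.leaf 231 1825 (.cons 256 (.leaf 228 1827 (.leaf 233 1833 .nil)) .nil)) .nil)) .nil)) .nil)) .nil)) .nil)) (.cons 254 (.leaf 227 1811 (.cons 278 (.leaf 277 2000 (.leaf 279 2008 .nil)) .nil)) .nil))))) (.cons 253 (.leaf 225 1803 (.cons 278 (.leaf 277 2000 (.cons 229 (.leaf 230 1809 (.cons 254 (.leaf 279 2008 (.cons 181 (.leaf 205 1452 (.cons 255 (.leaf 276 2010 (.cons 232 (.leaf 231 1825 (.cons 256 (.leaf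 228 1827 (.leaf 233 1833 .nil)) .nil)) .nil)) .nil)) .nil)) .nil)) .nil)) .nil)) (.cons 225 (.leaf 253 1803 (.cons 224 (.leaf 223 1784 (.leaf 227 1792 .nil)) .nil)) .nil))))
noncomputable def t63 : T := .cons 203 (.cons 274 (.leaf 298 1621 (.leaf 179 1430 .nil)) (.cons 179 (.leaf 155 1238 (.cons 276 (.leaf 300 1628 (.leaf 252 1436 .nil)) .nil)) (.cons 274 (.leaf 298 1621 (.cons 180 (.leaf 204 1437 (.cons 276 (.leaf 300 1628 (.cons 277 (.leaf 278 2003 (.cons 253 (.leaf 254 2001 (.cons 252 (.leaf 273 1993 (.leaf 225 1803 .nil)) .nil)) .nil)) .nil)) .nil)) .nil)) .nil))) (.cons 225 (.cons 224 (.leaf 223 1784 (.leaf 252 1792 .nil)) (.cons 224 (.leaf 223 1784 (.cons 200 (.leaf 199 1595 (.cons 201 (.leaf 228 1603 (.cons 177 (.leaf 153 1228 (.cons 248 (.leaf 247 1786 (.leaf 272 1413 .nil)) .nil)) .nil)) .nil)) .nil)) (.cons 228 (.cons 253 (.leaf 252 1800 (.cons 229 (.leaf 230 1810 (.leaf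 254 1808 .nil)) .nil)) (.cons 200 (.leaf 201 1603 (.cons 205 (.leaf 204 1609 (.cons 229 (.leaf 230 1810 (.leaf 206 1617 .nil)) .nil)) .nil)) (.cons 252 (.leaf 253 1800 (.cons 204 (.leaf 180 1438 (.leaf 205 1609 .nil)) .nil)) .nil))) .nil))) (.cons 203 (.cons 274 (.leaf 298 1621 (.leaf 179 1430 .nil)) (.cons 155 (.leaf 179 1238 (.cons 204 (.leaf 180 1437 (.cons 205 (.leaf 206 1618 (.cons 225 (.leaf 224 1601 (.leaf 228 1609 .nil)) .nil)) .nil)) .nil)) (.cons 274 (.leaf 298 1621 (.cons 204 (.leaf 180 1437 (.cons 205 (.leaf 206 1618 (.cons 225 (.leaf 224 1601 (.leaf 228 1609 .nil)) .nil)) .nil)) .nil)) .nil))) (.cons 203 (.cons 179 (.leaf 274 1430 (.leaf 155 1238 .nil)) (.cons 179 (.leaf 155 1238 (.cons 276 (.leaf 300 1628 (.leaf 252 1436 .nil)) .nil)) (.cons 274 (.leaf 298 1621 (.cons 180 (.leaf 204 1437 (.cons 276 (.leaf 300 1628 (.cons 277 (.leaf 278 2003 (.cons 253 (.leaf 254 2001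 (.cons 273 (.leaf 252 1993 (.cons 272 (.leaf 271 1977 (.cons 296 (.leaf 295 2170 (.leaf 297 2178 .nil)) .nil)) .nil)) .nil)) .nil)) .nil)) .nil)) .nil)) .nil))) (.cons 203 (.cons 274 (.leaf 298 1621 (.leaf 179 1430 .nil)) (.cons 179 (.leaf 155 1238 (.cons 276 (.leaf 300 1628 (.leaf 252 1436 .nil)) .nil)) (.cons 274 (.leaf 298 1621 (.cons 276 (.leaf 300 1628 (.cons 277 (.leaf 278 2003 (.cons 253 (.leaf 254 2001 (.cons 252 (.leaf 273 1993 (.leaf 225 1803 .nil)) .nil)) .nil)) .nil)) .nil)) .nil))) .nil))))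
noncomputable def t64 : T := .cons 202 (.leaf 178 1428 (.cons 274 (.cons 201 (.leaf 177 1423 (.cons 273 (.leaf 297 1614 (.cons 272 (.leaf 252 1985 (.leaf 271 1977 .nil)) .nil)) .nil)) (.cons 201 (.leaf 177 1423 (.cons 225 (.leaf 298 1615 (.cons 224 (.leaf 223 1784 (.cons 252 (.leaf 227 1792 (.leaf 253 1803 .nil)) .nil)) .nil)) .nil)) (.cons 273 (.leaf 297 1614 (.cons 252 (.leaf 272 1985 (.leaf 253 1994 .nil)) .nil)) (.cons 177 (.leaf 201 1423 (.cons 297 (.leaf 273 1614 (.cons 298 (.leaf 321 1806 (.cons 322 (.leaf 346 2005 (.leaf 227 1813 .nil)) .nil)) .nil)) .nil)) .nil)))) .nil)) (.cons 227 t63 (.cons 202 (.leaf 178 1428 (.cons 252 t62 .nil)) (.cons 202 (.leaf 178 1428 (.cons 274 (.cons 179 (.leaf 203 1429 (.cons 201 (.leaf 177 1423 (.cons 298 (.leaf 225 1615 (.cons 321 (.leaf 297 1806 (.cons 322 (.leaf 346 2005 (.leaf 345 1998 .nil)) .nil)) .nil)) .nil)) .nil)) (.cons 201 (.leaf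 177 1423 (.cons 203 (.leaf 179 1429 (.cons 225 (.leaf 298 1615 (.cons 224 (.leaf 223 1784 (.leaf 204 1602 .nil)) .nil)) .nil)) .nil)) (.cons 273 (.leaf 297 1614 (.cons 252 (.leaf 272 1985 (.leaf 253 1994 .nil)) .nil)) .nil))) .nil)) (.cons 202 (.leaf 178 1428 (.cons 274 (.cons 177 (.leaf 201 1423 (.cons 203 (.leaf 179 1429 (.cons 227 (.leaf 298 1621 (.cons 204 (.leaf 180 1437 (.cons 205 (.leaf 225 1610 (.leaf 206 1618 .nil)) .nil)) .nil)) .nil)) .nil)) (.cons 201 (.leaf 177 1423 (.cons 273 (.leaf 297 1614 (.cons 272 (.leaf 271 1977 (.cons 248 (.leaf 247 1979 (.cons 296 (.leaf 295 2170 (.cons 224 (.leaf 225 1605 (.cons 199 (.leaf 223 1599 (.cons 200 (.leaf 227 1592 (.leaf 175 1407 .nil)) .nil)) .nil)) .nil)) .nil)) .nil)) .nil)) .nil)) (.cons 179 (.leaf 203 1429 (.cons 297 (.leaf 273 1614 (.cons 298 (.leaf 321 1806 (.cons 322 (.leaf 346 2005 (.leaf 227 1813 .nil)) .nil)) .nil)) .nil))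 (.cons 273 (.leaf 297 1614 (.cons 179 (.leaf 203 1429 (.cons 201 (.leaf 177 1423 (.cons 225 (.leaf 298 1615 (.cons 224 (.leaf 223 1784 (.cons 272 (.leaf 271 1977 (.cons 248 (.leaf 247 1979 (.leaf 296 1605 .nil)) .nil)) .nil)) .nil)) .nil)) .nil)) .nil)) .nil)))) .nil)) (.cons 202 (.leaf 178 1428 (.cons 274 (.cons 177 (.leaf 201 1423 (.cons 179 (.leaf 203 1429 (.cons 273 (.leaf 297 1614 (.cons 252 (.leaf 272 1985 (.leaf 253 1994 .nil)) .nil)) .nil)) .nil)) (.cons 177 (.leaf 201 1423 (.cons 273 (.leaf 297 1614 (.cons 252 (.leaf 272 1985 (.leaf 253 1994 .nil)) .nil)) .nil)) (.cons 177 (.leaf 201 1423 (.cons 203 (.leaf 179 1429 (.cons 227 (.leaf 298 1621 (.cons 204 (.leaf 180 1437 (.cons 205 (.leaf 206 1618 (.cons 181 (.leaf 182 1425 (.cons 276 (.leaf 300 1628 (.cons 229 (.leaf 230 1616 (.cons 252 (.leaf 228 1445 (.leaf 253 1446 .nil)) .nil)) .nil)) .nil)) .nil)) .nil)) .nil)) .nil))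 .nil)) (.cons 273 (.leaf 297 1614 (.cons 252 (.leaf 272 1985 (.leaf 253 1994 .nil)) .nil)) (.cons 203 (.leaf 179 1429 (.cons 227 (.leaf 298 1621 (.cons 180 (.leaf 204 1437 (.cons 201 (.leaf 177 1423 (.cons 200 (.leaf 199 1592 (.leaf 228 1600 .nil)) .nil)) .nil)) .nil)) .nil)) .nil))))) .nil)) (.cons 202 (.leaf 178 1428 (.cons 274 (.cons 203 (.leaf 179 1429 (.cons 227 (.leaf 298 1621 (.cons 204 (.leaf 180 1437 (.cons 205 (.leaf 225 1610 (.leaf 206 1618 .nil)) .nil)) .nil)) .nil)) (.cons 273 (.leaf 297 1614 (.cons 252 (.leaf 272 1985 (.leaf 253 1994 .nil)) .nil)) .nil)) .nil)) .nil))))))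
noncomputable def t65 : T := .leaf 248 1984 (.cons 252 (.cons 273 (.leaf 272 1986 (.cons 253 (.leaf 274 1993 (.cons 229 (.leaf 228 1801 (.leaf 230 1809 .nil)) .nil)) .nil)) (.cons 228 (.leaf 229 1801 (.cons 204 (.leaf 180 1438 (.cons 181 (.leaf 205 1445 (.cons 203 (.leaf 179 1439 (.cons 227 (.leaf 300 1628 (.cons 202 (.leaf 178 1431 (.cons 225 (.leaf 224 1795 (.cons 201 (.leaf 200 1600 (.cons 177 (.leaf 274 1420 (.leaf 176 1411 .nil)) .nil)) .nil)) .nil)) .nil)) .nil)) .nil)) .nil)) .nil)) (.cons 273 (.leaf 272 1986 (.cons 253 (.leaf 274 1993 (.cons 229 (.leaf 230 1809 (.cons 225 (.leaf 224 1795 (.leaf 226 1803 .nil)) .nil)) .nil)) .nil)) (.cons 273 (.leaf 272 1986 (.cons 253 (.leaf 274 1993 (.cons 254 (.leaf 255 2010 (.cons 226 (.leaf 225 1803 (.leaf 227 1811 .nil)) .nil)) .nil)) .nil)) (.cons 228 (.leaf 229 1801 (.cons 204 (.leaf 180 1438 (.cons 203 (.leaf 179 1439 (.cons 227 (.leaf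 300 1628 (.cons 178 (.leaf 202 1431 (.cons 205 (.leaf 181 1445 (.cons 206 (.leaf 207 1626 (.leaf 226 1618 .nil)) .nil)) .nil)) .nil)) .nil)) .nil)) .nil)) .nil))))) .nil)
noncomputable def t66 : T := .cons 276 (.cons 249 (.leaf 248 1984 (.cons 277 (.leaf 274 1995 (.leaf 278 2003 .nil)) .nil)) (.cons 277 (.leaf 278 2003 (.cons 274 (.cons 253 (.leaf 254 2001 (.cons 252 (.leaf 273 1993 (.cons 229 (.leaf 230 1809 (.cons 205 (.leaf 181 1446 (.leaf 300 1638 .nil)) .nil)) .nil)) .nil)) (.cons 298 (.leaf 297 2186 (.cons 227 (.leaf 203 1622 (.leaf 322 1813 .nil)) .nil)) .nil)) .nil)) (.cons 249 t65 (.cons 249 (.leaf 248 1984 (.cons 277 (.leaf 278 2003 (.leaf 252 1992 .nil)) .nil)) .nil)))) (.cons 226 t64 (.cons 252 t60 (.cons 249 t59 (.cons 274 t58 (.cons 249 t55 (.cons 249 (.cons 276 (.leaf 248 1984 (.cons 277 (.leaf 274 1995 (.leaf 278 2003 .nil)) .nil)) (.cons 252 t54 (.cons 248 (.cons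 223 (.leaf 224 1787 (.cons 247 (.leaf 274 1976 (.leaf 222 1779 .nil)) .nil)) (.cons 223 (.leaf 224 1787 (.cons 228 (.leaf 227 1793 (.cons 252 (.leaf 229 1801 (.cons 272 (.leaf 271 1978 (.leaf 273 1986 .nil)) .nil)) .nil)) .nil)) (.cons 227 (.leaf 228 1793 (.cons 247 (.leaf 274 1976 (.cons 271 (.leaf 272 1978 (.leaf 270 1970 .nil)) .nil)) .nil)) .nil))) (.cons 248 (.leaf 276 1984 (.cons 223 (.leaf 224 1787 (.cons 247 (.leaf 222 1779 (.cons 271 (.leaf 272 1978 (.leaf 270 1970 .nil)) .nil)) .nil)) .nil)) .nil)))) (.cons 252 (t53) (.cons 249 (.cons 248 (.leaf 276 1984 (.cons 223 (.leaf 224 1787 (.cons 247 (.leaf 274 1976 (.leaf 222 1779 .nil)) .nil)) .nil)) (.cons 252 t51 (.cons 248 (.leaf 276 1984 (.cons 223 (.leaf 224 1787 (.cons 247 (.leaf 222 1779 (.cons 271 (.leaf 272 1978 (.leaf 270 1970 .nil)) .nil)) .nil)) .nil)) (.cons 248 (.leaf 276 1984 (.cons 227 (.leaf 228 1793 (.cons 247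 (.leaf 274 1976 (.leaf 226 1785 .nil)) .nil)) .nil)) .nil)))) (.cons 276 t50 t49)))))))))
noncomputable def t67 : T := .cons 273 (.leaf 272 1985 (.cons 276 (.leaf 253 1993 (.cons 249 (.leaf 248 1987 (.cons 297 (.leaf 296 2178 (.cons 298 (.leaf 277 2186 (.cons 322 (.leaf 346 2005 (.leaf 225 1804 .nil)) .nil)) .nil)) .nil)) .nil)) .nil)) (.cons 253 (.leaf 254 2002 (.cons 250 (.cons 226 (.leaf 225 1803 (.cons 178 (.leaf 202 1428 (.cons 229 (.leaf 230 1809 (.cons 249 (.leaf 228 1801 (.cons 248 (.leaf 247 1976 (.leaf 276 1984 .nil)) .nil)) .nil)) .nil)) .nil)) (.cons 277 (.leaf 278 2000 (.cons 276 (.leaf 249 1992 (.cons 229 (.leaf 230 1809 (.cons 205 (.leaf 181 1446 (.leaf 300 1638 .nil)) .nil)) .nil)) .nil)) (.cons 226 (.leaf 225 1803 (.cons 202 (.leaf 178 1428 (.leaf 299 1620 .nil)) .nil)) .nil))) .nil)) (.cons 273 (.leaf 272 1985 (.cons 276 (.cons 249 (.leaf 248 1987 (.cons 297 (.leaf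 296 2178 (.cons 298 (.leaf 277 2186 (.cons 322 (.leaf 346 2005 (.leaf 225 1804 .nil)) .nil)) .nil)) .nil)) (.cons 297 (.leaf 296 2178 (.cons 277 (.leaf 298 2186 (.cons 278 (.leaf 250 2003 (.leaf 279 2011 .nil)) .nil)) .nil)) (.cons 249 (.leaf 248 1987 (.cons 228 (.cons 229 (.leaf 250 1801 (.cons 230 (.leaf 231 1818 (.cons 300 (.leaf 205 1637 (.cons 323 (.leaf 299 1821 (.cons 324 (.leaf 348 2015 (.leaf 347 2014 .nil)) .nil)) .nil)) .nil)) .nil)) (.cons 204 (.leaf 180 1438 (.leaf 299 1630 .nil)) (.cons 204 (.leaf 180 1438 (.cons 203 (.leaf 179 1439 (.cons 205 (.leaf 181 1445 (.cons 229 (.leaf 250 1801 (.leaf 300 1637 .nil)) .nil)) .nil)) .nil)) .nil))) .nil)) .nil))) .nil)) (.cons 273 (.leaf 272 1985 (.cons 253 (.leaf 254 2002 (.leaf 250 1994 .nil)) .nil)) .nil)))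
noncomputable def t68 : T := .cons 249 (.leaf 248 1987 (.cons 228 (.cons 229 (.leaf 250 1801 (.cons 230 (.leaf 231 1818 (.cons 300 (.leaf 205 1637 (.cons 323 (.leaf 299 1821 (.cons 324 (.leaf 348 2015 (.leaf 347 2014 .nil)) .nil)) .nil)) .nil)) .nil)) (.cons 204 (.leaf 180 1438 (.leaf 299 1630 .nil)) (.cons 204 (.leaf 180 1438 (.cons 203 (.leaf 179 1439 (.cons 205 (.leaf 181 1445 (.cons 229 (.leaf 250 1801 (.leaf 300 1637 .nil)) .nil)) .nil)) .nil)) .nil))) .nil)) (.cons 297 (.leaf 296 2178 (.cons 277 (.leaf 298 2186 (.cons 278 (.leaf 250 2003 (.leaf 279 2011 .nil)) .nil)) .nil)) (.cons 297 (.leaf 296 2178 (.cons 298 (.leaf 277 2186 (.cons 322 (.leaf 346 2005 (.cons 323 (.cons 299 (.leaf 228 1821 (.leaf 347 2013 .nil)) (.cons 324 (.leaf 325 2379 (.cons 300 (.leaf 348 2015 (.leaf 347 2014 .nil)) .nil)) (.cons 228 (.leaf 299 1821 (.cons 204 (.leaf 180 1438 (.cons 179 (.leaf 203 1439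 (.cons 324 (.leaf 325 2379 (.cons 205 (.leaf 181 1445 (.cons 300 (.leaf 348 2015 (.leaf 229 1637 .nil)) .nil)) .nil)) .nil)) .nil)) .nil)) .nil))) .nil)) .nil)) .nil)) .nil))
noncomputable def t69 : T := .cons 277 (.leaf 278 2000 (.cons 276 (.leaf 249 1992 (.cons 298 (.leaf 297 2186 (.cons 322 (.leaf 346 2005 (.cons 321 (.leaf 345 1998 (.cons 323 (.leaf 347 2004 (.cons 299 (.leaf 226 1812 (.leaf 228 1821 .nil)) .nil)) .nil)) .nil)) .nil)) .nil)) .nil)) (.cons 229 (.leaf 230 1809 (.cons 228 (.leaf 249 1801 (.cons 204 (.leaf 180 1438 (.cons 299 (.leaf 276 1630 (.leaf 323 1821 .nil)) .nil)) .nil)) .nil)) (.cons 229 (.leaf 230 1809 (.cons 228 (.leaf 249 1801 (.cons 299 (.leaf 323 1821 (.cons 277 (.leaf 278 2000 (.cons 202 (.leaf 226 1620 (.cons 205 (.cons 180 (.leaf 204 1444 (.cons 181 (.leaf 157 1254 (.leaf 156 1255 .nil)) .nil)) (.cons 181 (.leaf 157 1254 (.cons 182 (.leaf 158 1261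 (.leaf 206 1453 .nil)) .nil)) (.cons 204 (.leaf 180 1444 (.cons 206 (.leaf 182 1453 (.cons 203 (.leaf 201 1608 (.cons 178 (.leaf 177 1419 (.leaf 179 1427 .nil)) .nil)) .nil)) .nil)) .nil))) .nil)) .nil)) .nil)) .nil)) .nil)) (.cons 277 (.leaf 278 2000 (.cons 276 (.leaf 249 1992 (.cons 229 (.leaf 230 1809 (.cons 205 (.leaf 181 1446 (.leaf 300 1638 .nil)) .nil)) .nil)) .nil)) (.cons 277 (.leaf 278 2000 (.cons 229 (.leaf 230 1809 (.cons 298 (.cons 297 (.leaf 276 2186 (.cons 295 (.leaf 296 2169 (.cons 226 (.leaf 321 1806 (.cons 299 (.leaf 202 1620 (.leaf 323 1812 .nil)) .nil)) .nil)) .nil)) (.cons 322 (.leaf 346 2005 (.cons 323 (.leaf 347 2004 (.cons 299 (.leaf 226 1812 (.leaf 228 1821 .nil)) .nil)) .nil)) (.cons 276 (.leaf 297 2186 (.cons 205 (.leaf 181 1446 (.leaf 300 1638 .nil)) .nil)) .nil))) .nil)) .nil)) .nil))))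
noncomputable def t70 : T := .cons 277 (.leaf 278 2000 (.cons 276 (.leaf 249 1992 (.cons 229 (.leaf 230 1809 (.cons 205 (.leaf 181 1446 (.leaf 300 1638 .nil)) .nil)) .nil)) .nil)) (.cons 229 (.leaf 230 1809 (.cons 228 (.leaf 249 1801 (.cons 204 (.leaf 180 1438 (.cons 299 (.leaf 276 1630 (.leaf 323 1821 .nil)) .nil)) .nil)) .nil)) (.cons 277 (.leaf 278 2000 (.cons 229 (.leaf 230 1809 (.cons 298 (.cons 297 (.leaf 276 2186 (.cons 295 (.leaf 296 2169 (.cons 322 (.leaf 346 2005 (.cons 323 (.leaf 347 2004 (.cons 299 (.leaf 228 1821 (.cons 324 (.leaf 348 2012 (.leaf 325 2379 .nil)) .nil)) .nil)) .nil)) .nil)) .nil)) (.cons 322 (.leaf 346 2005 (.cons 323 (.leaf 347 2004 (.cons 299 (.leaf 228 1821 (.cons 321 (.leaf 345 1998 (.cons 320 (.leaf 319 2361 (.leaf 300 2369 .nil)) .nil)) .nil)) .nil)) .nil)) (.cons 276 (.leaf 297 2186 (.cons 205 (.leaf 181 1446 (.leaf 300 1638 .nil)) .nil)) .nil)))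 .nil)) .nil)) (.cons 277 (.leaf 278 2000 (.cons 249 (.leaf 276 1992 (.cons 224 (.leaf 225 1795 (.cons 248 (.leaf 247 1976 (.leaf 223 1787 .nil)) .nil)) .nil)) .nil)) (.cons 229 (.leaf 230 1809 (.cons 249 (.leaf 228 1801 (.cons 224 (.leaf 225 1795 (.cons 248 (.leaf 247 1976 (.leaf 223 1787 .nil)) .nil)) .nil)) .nil)) .nil))))
noncomputable def t71 : T := .cons 253 (.leaf 254 2002 (.cons 273 (.leaf 272 1985 (.leaf 276 1993 .nil)) .nil)) (.cons 253 (.leaf 254 2002 (.cons 250 t70 .nil)) (.cons 273 (.leaf 272 1985 (.cons 276 (.cons 249 (.leaf 248 1987 (.cons 250 (.leaf 277 1992 (.cons 225 (.leaf 224 1795 (.cons 201 (.leaf 177 1420 (.leaf 298 1612 .nil)) .nil)) .nil)) .nil)) (.cons 297 (.leaf 296 2178 (.cons 277 (.leaf 298 2186 (.cons 278 (.leaf 250 2003 (.leaf 279 2011 .nil)) .nil)) .nil)) (.cons 249 (.leaf 248 1987 (.cons 228 (.cons 229 (.leaf 250 1801 (.cons 230 (.leaf 231 1818 (.cons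 300 (.leaf 205 1637 (.cons 323 (.leaf 299 1821 (.cons 324 (.leaf 348 2015 (.leaf 347 2014 .nil)) .nil)) .nil)) .nil)) .nil)) (.cons 204 (.leaf 180 1438 (.cons 203 (.leaf 179 1439 (.cons 205 (.leaf 181 1445 (.cons 229 (.leaf 250 1801 (.leaf 300 1637 .nil)) .nil)) .nil)) .nil)) (.cons 204 (.leaf 180 1438 (.leaf 299 1630 .nil)) .nil))) .nil)) (.cons 297 (.leaf 296 2178 (.cons 249 (.leaf 248 1987 (.cons 298 (.leaf 277 2186 (.cons 322 (.leaf 346 2005 (.leaf 225 1804 .nil)) .nil)) .nil)) .nil)) .nil)))) .nil)) (.cons 273 (.leaf 272 1985 (.cons 253 (.leaf 254 2002 (.leaf 250 1994 .nil)) .nil)) .nil)))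
noncomputable def t72 : T := .cons 253 (.leaf 252 1993 (.cons 277 (.leaf 254 2001 (.cons 278 (.leaf 250 2003 (.cons 299 (.leaf 298 2194 (.cons 248 (.leaf 249 1987 (.cons 279 (.leaf 300 2202 (.cons 256 (.leaf 255 2017 (.cons 280 (.leaf 257 2025 (.cons 303 (.leaf 302 2200 (.leaf 304 2208 .nil)) .nil)) .nil)) .nil)) .nil)) .nil)) .nil)) .nil)) .nil)) (.cons 249 (.leaf 248 1987 (.cons 277 (.leaf 250 1995 (.cons 254 (.leaf 253 2001 (.cons 278 (.leaf 255 2009 (.cons 299 (.leaf 298 2194 (.cons 279 (.leaf 300 2202 (.cons 303 (.leaf 302 2200 (.leaf 304 2208 .nil)) .nil)) .nil)) .nil)) .nil)) .nil)) .nil)) (.cons 253 (.leaf 252 1993 (.cons 277 (.leaf 254 2001 (.cons 278 (.leaf 250 2003 (.cons 299 (.leaf 298 2194 (.cons 279 (.leaf 300 2202 (.cons 303 (.leaf 302 2200 (.leaf 304 2208 .nil)) .nil)) .nil)) .nil)) .nil)) .nil)) (.cons 249 (.leaf 248 1987 (.cons 277 (.leaf 250 1995 (.cons 298 (.leaf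 297 2186 (.cons 201 (.leaf 225 1612 (.cons 278 (.leaf 299 2194 (.cons 322 (.leaf 346 2005 (.cons 254 (.leaf 255 2009 (.cons 279 (.leaf 252 2011 (.cons 303 (.leaf 302 2200 (.leaf 304 2208 .nil)) .nil)) .nil)) .nil)) .nil)) .nil)) .nil)) .nil)) .nil)) (.cons 249 (.leaf 248 1987 (.cons 277 (.cons 298 (.leaf 297 2186 (.cons 201 (.leaf 225 1612 (.cons 278 (.leaf 299 2194 (.cons 322 (.leaf 346 2005 (.cons 254 (.leaf 253 2001 (.leaf 255 2009 .nil)) .nil)) .nil)) .nil)) .nil)) (.cons 298 (.leaf 297 2186 (.cons 201 (.leaf 225 1612 (.cons 278 (.leaf 299 2194 (.cons 322 (.leaf 346 2005 (.cons 254 (.leaf 255 2009 (.cons 279 (.leaf 252 2011 (.cons 303 (.leaf 302 2200 (.leaf 304 2208 .nil)) .nil)) .nil)) .nil)) .nil)) .nil)) .nil)) (.cons 253 (.leaf 252 1993 (.leaf 254 2001 .nil)) (.cons 252 (.leaf 253 1993 (.cons 278 (.leaf 279 2011 (.cons 298 (.leaf 297 2186 (.leaf 299 2194 .nil)) .nil)) .nil))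 .nil)))) .nil)) (.cons 252 (.leaf 253 1993 (.cons 249 (.leaf 248 1987 (.cons 228 (.cons 229 (.leaf 250 1801 (.cons 230 (.leaf 231 1818 (.cons 300 (.leaf 205 1637 (.cons 323 (.leaf 299 1821 (.cons 324 (.leaf 348 2015 (.leaf 347 2014 .nil)) .nil)) .nil)) .nil)) .nil)) (.cons 204 (.leaf 180 1438 (.cons 203 (.leaf 179 1439 (.cons 205 (.leaf 181 1445 (.cons 229 (.leaf 250 1801 (.leaf 300 1637 .nil)) .nil)) .nil)) .nil)) (.cons 204 (.leaf 180 1438 (.leaf 299 1630 .nil)) .nil))) .nil)) .nil)) (.cons 253 (.leaf 252 1993 (.cons 249 (.leaf 248 1987 (.cons 277 (.leaf 250 1995 (.leaf 254 2001 .nil)) .nil)) .nil)) .nil))))))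
noncomputable def t73 : T := .cons 248 (.leaf 247 1979 (.cons 249 (.leaf 276 1987 (.cons 299 (.leaf 300 2176 (.cons 250 (.leaf 271 1977 (.cons 226 (.leaf 202 1620 (.leaf 323 1815 .nil)) .nil)) .nil)) .nil)) .nil)) (.cons 248 (.leaf 247 1979 (.cons 249 (.leaf 276 1987 (.cons 299 (.leaf 300 2176 (.cons 250 (.cons 226 (.leaf 202 1620 (.leaf 323 1815 .nil)) (.cons 223 (.leaf 224 1787 (.cons 323 (.leaf 347 2007 (.cons 322 (.leaf 346 2006 (.cons 298 (.leaf 225 1807 (.cons 321 (.leaf 345 1998 (.cons 320 (.leaf 319 2361 (.cons 344 (.leaf 297 1990 (.leaf 343 2554 .nil)) .nil)) .nil)) .nil)) .nil)) .nil)) .nil)) (.cons 202 (.leaf 226 1620 (.cons 224 (.leaf 223 1787 (.cons 200 (.leaf 176 1412 (.leaf 297 1604 .nil)) .nil)) .nil)) .nil))) .nil)) .nil)) .nil)) (.cons 248 (.leaf 247 1979 (.cons 249 (.leaf 276 1987 (.cons 299 (.leaf 300 2176 (.cons 271 (.leaf 298 2168 (.cons 270 (.leaf 269 1961 (.cons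 294 (.leaf 295 2162 (.leaf 293 2154 .nil)) .nil)) .nil)) .nil)) .nil)) .nil)) (.cons 271 (.leaf 250 1977 (.cons 299 (.leaf 300 2176 (.leaf 298 2168 .nil)) .nil)) (.cons 271 (.leaf 250 1977 (.cons 247 (.leaf 248 1979 (.leaf 246 1971 .nil)) .nil)) .nil))))
noncomputable def t74 : T := .cons 248 (.leaf 249 1987 (.cons 253 (.leaf 252 1993 (.cons 277 (.leaf 254 2001 (.cons 278 (.leaf 250 2003 (.leaf 298 2194 .nil)) .nil)) .nil)) .nil)) (.cons 249 (.leaf 248 1987 (.cons 277 (.leaf 250 1995 (.cons 278 (.leaf 298 2194 (.cons 279 (.leaf 300 2202 (.cons 255 (.leaf 254 2009 (.leaf 256 2017 .nil)) .nil)) .nil)) .nil)) .nil)) (.cons 253 (.leaf 252 1993 (.cons 277 (.leaf 254 2001 (.cons 278 (.leaf 250 2003 (.leaf 298 2194 .nil)) .nil)) .nil)) (.cons 253 (.leaf 252 1993 (.cons 248 (.leaf 249 1987 (.cons 277 (.leaf 254 2001 (.cons 278 (.leaf 298 2194 (.cons 279 (.leaf 300 2202 (.cons 256 (.leaf 255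 2017 (.cons 280 (.leaf 257 2025 (.cons 303 (.leaf 302 2200 (.leaf 304 2208 .nil)) .nil)) .nil)) .nil)) .nil)) .nil)) .nil)) .nil)) (.cons 252 (.leaf 253 1993 (.cons 228 (.leaf 204 1630 (.cons 249 (.leaf 248 1987 (.cons 250 (.leaf 229 1801 (.cons 202 (.leaf 226 1620 (.cons 225 (.leaf 224 1795 (.cons 201 (.leaf 177 1420 (.leaf 298 1612 .nil)) .nil)) .nil)) .nil)) .nil)) .nil)) .nil)) (.cons 252 (.leaf 253 1993 (.cons 204 (.leaf 228 1630 (.cons 249 (.leaf 248 1987 (.cons 250 (.leaf 277 1992 (.cons 202 (.leaf 226 1620 (.cons 225 (.leaf 224 1795 (.cons 201 (.leaf 177 1420 (.leaf 178 1421 .nil)) .nil)) .nil)) .nil)) .nil)) .nil)) .nil)) .nil)))))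
noncomputable def t75 : T := .cons 323 (.cons 250 (.leaf 226 1815 (.leaf 347 2007 .nil)) (.cons 228 (.leaf 252 1821 (.cons 346 (.leaf 322 2006 (.cons 347 (.leaf 370 2198 (.cons 348 (.leaf 324 2012 (.leaf 372 2204 .nil)) .nil)) .nil)) .nil)) (.cons 250 (.leaf 226 1815 (.cons 252 (.leaf 228 1821 (.cons 253 (.leaf 254 2002 (.leaf 273 1994 .nil)) .nil)) .nil)) .nil))) (.cons 273 (.cons 272 (.leaf 252 1985 (.leaf 300 2176 .nil)) (.cons 276 t74 (.cons 272 (.leaf 300 2176 (.cons 271 (.leaf 250 1977 (.leaf 298 2168 .nil)) .nil)) (.cons 272 (.leaf 252 1985 (.cons 271 (.leaf 250 1977 (.leaf 298 2168 .nil)) .nil)) .nil)))) (.cons 323 (.cons 324 (.leaf 348 2012 (.cons 346 (.leaf 322 2006 (.cons 347 (.leaf 370 2198 (.cons 325 (.leaf 326 2578 (.cons 344 (.leaf 345 2561 (.cons 371 (.leaf 298 2199 (.cons 252 (.leaf 228 1821 (.leaf 276 2013 .nil)) .nil)) .nil)) .nil)) .nil)) .nil)) .nil)) (.cons 324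 (.leaf 348 2012 (.cons 346 (.leaf 322 2006 (.cons 347 (.leaf 370 2198 (.cons 325 (.leaf 326 2578 (.cons 344 (.leaf 345 2561 (.cons 371 (.leaf 298 2199 (.cons 300 (.leaf 276 2205 (.leaf 395 2397 .nil)) .nil)) .nil)) .nil)) .nil)) .nil)) .nil)) (.cons 252 (.leaf 228 1821 (.cons 253 (.leaf 254 2002 (.cons 273 (.leaf 272 1985 (.leaf 276 1993 .nil)) .nil)) .nil)) (.cons 346 (.leaf 322 2006 (.cons 228 (.leaf 252 1821 (.cons 347 (.leaf 370 2198 (.cons 348 (.leaf 324 2012 (.leaf 372 2204 .nil)) .nil)) .nil)) .nil)) .nil)))) (.cons 323 (.cons 250 (.leaf 226 1815 (.leaf 347 2007 .nil)) (.cons 346 (.leaf 322 2006 (.cons 324 (.leaf 348 2012 (.cons 347 (.leaf 370 2198 (.cons 325 (.leaf 326 2578 (.cons 344 (.leaf 345 2561 (.cons 371 (.leaf 298 2199 (.cons 300 (.leaf 276 2205 (.leaf 395 2397 .nil)) .nil)) .nil)) .nil)) .nil)) .nil)) .nil)) (.cons 250 (.leaf 226 1815 (.cons 322 (.leaf 346 2006 (.cons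 324 (.leaf 348 2012 (.cons 249 (.cons 248 (.leaf 247 1976 (.leaf 276 1984 .nil)) (.cons 276 (.leaf 277 1995 (.cons 298 (.leaf 225 1807 (.cons 321 (.leaf 345 1998 (.cons 320 (.leaf 319 2361 (.leaf 300 2369 .nil)) .nil)) .nil)) .nil)) (.cons 225 (.leaf 298 1807 (.cons 177 (.leaf 201 1420 (.cons 248 (.leaf 247 1976 (.cons 272 (.leaf 271 1978 (.cons 223 (.leaf 224 1787 (.cons 273 (.leaf 300 2176 (.cons 296 (.leaf 295 2170 (.leaf 320 1797 .nil)) .nil)) .nil)) .nil)) .nil)) .nil)) .nil)) .nil))) .nil)) .nil)) .nil)) .nil))) (.cons 323 (.cons 346 (.leaf 322 2006 (.cons 324 (.leaf 348 2012 (.cons 347 (.leaf 250 2007 (.leaf 370 2198 .nil)) .nil)) .nil)) (.cons 346 (.leaf 322 2006 (.cons 324 (.leaf 348 2012 (.cons 347 (.leaf 370 2198 (.cons 325 (.leaf 326 2578 (.cons 344 (.leaf 345 2561 (.cons 371 (.leaf 298 2199 (.cons 252 (.leaf 228 1821 (.leaf 276 2013 .nil)) .nil)) .nil)) .nil)) .nil))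 .nil)) .nil)) (.cons 250 (.leaf 226 1815 (.cons 252 (.leaf 228 1821 (.cons 253 (.leaf 254 2002 (.cons 229 (.leaf 230 1809 (.cons 277 (.leaf 278 2000 (.cons 249 (.leaf 276 1992 (.cons 224 (.leaf 225 1795 (.cons 248 (.leaf 247 1976 (.leaf 223 1787 .nil)) .nil)) .nil)) .nil)) .nil)) .nil)) .nil)) .nil)) .nil))) .nil))))
noncomputable def t76 : T := .cons 226 (.cons 299 (.leaf 202 1620 (.leaf 323 1815 .nil)) (.cons 202 (.leaf 178 1428 (.cons 179 (.leaf 203 1429 (.cons 201 (.leaf 177 1423 (.cons 225 (.leaf 298 1615 (.cons 224 (.leaf 223 1784 (.cons 252 (.leaf 249 1795 (.leaf 253 1803 .nil)) .nil)) .nil)) .nil)) .nil)) .nil)) (.cons 299 (.leaf 323 1815 (.cons 298 (.cons 322 (.leaf 346 2005 (.cons 225 (.leaf 201 1615 (.leaf 249 1807 .nil)) .nil)) (.cons 297 (.leaf 321 1806 (.cons 276 (.leaf 277 2186 (.leaf 296 2177 .nil)) .nil)) .nil)) .nil)) .nil))) (.cons 252 (.cons 273 (.leaf 272 1985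 (.leaf 253 1994 .nil)) (.cons 273 (.leaf 272 1985 (.cons 249 (.cons 225 (.leaf 224 1795 (.cons 201 (.leaf 177 1420 (.leaf 298 1612 .nil)) .nil)) (.cons 276 (.leaf 277 1992 (.cons 228 (.leaf 229 1801 (.cons 299 (.leaf 204 1630 (.leaf 323 1821 .nil)) .nil)) .nil)) .nil)) .nil)) (.cons 253 (.leaf 254 2002 (.cons 229 (.leaf 230 1809 (.cons 228 (.leaf 249 1801 (.cons 204 (.leaf 180 1438 (.cons 299 (.leaf 276 1630 (.leaf 323 1821 .nil)) .nil)) .nil)) .nil)) .nil)) .nil))) (.cons 252 (.cons 253 (.leaf 254 2002 (.leaf 273 1994 .nil)) (.cons 273 (.leaf 272 1985 (.cons 276 (.cons 297 (.leaf 296 2178 (.cons 277 (.leaf 249 1992 (.leaf 278 2003 .nil)) .nil)) (.cons 297 (.leaf 296 2178 (.cons 226 (.leaf 202 1614 (.cons 321 (.leaf 298 1806 (.leaf 345 1997 .nil)) .nil)) .nil)) (.cons 277 (.leaf 249 1992 (.leaf 278 2003 .nil)) .nil))) .nil)) (.cons 253 (.leaf 254 2002 (.cons 226 (.leaf 225 1803 (.cons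 202 (.leaf 178 1428 (.cons 229 (.leaf 230 1809 (.cons 201 (.leaf 177 1423 (.cons 203 (.leaf 179 1429 (.cons 204 (.leaf 228 1608 (.cons 180 (.leaf 181 1417 (.cons 277 (.leaf 278 2000 (.leaf 205 1447 .nil)) .nil)) .nil)) .nil)) .nil)) .nil)) .nil)) .nil)) .nil)) .nil))) (.cons 226 (.cons 202 (.leaf 178 1428 (.leaf 299 1620 .nil)) (.cons 299 (.leaf 323 1815 (.cons 298 (.cons 297 (.leaf 321 1806 (.cons 296 (.leaf 295 2169 (.cons 272 (.leaf 271 2171 (.cons 273 (.leaf 252 1985 (.leaf 300 2176 .nil)) .nil)) .nil)) .nil)) (.cons 322 (.leaf 346 2005 (.cons 225 (.leaf 201 1615 (.leaf 249 1807 .nil)) .nil)) .nil)) .nil)) (.cons 202 (.leaf 178 1428 (.cons 179 (.leaf 203 1429 (.cons 297 (.leaf 273 1614 (.cons 201 (.leaf 177 1423 (.cons 298 (.leaf 225 1615 (.leaf 321 1806 .nil)) .nil)) .nil)) .nil)) .nil)) .nil))) (.cons 252 (.cons 253 (.leaf 254 2002 (.leaf 273 1994 .nil)) (.cons 273 (.leaf 272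 1985 (.cons 249 (.cons 276 (.leaf 277 1992 (.cons 228 (.leaf 229 1801 (.cons 297 (.leaf 296 2178 (.cons 299 (.leaf 204 1630 (.leaf 323 1821 .nil)) .nil)) .nil)) .nil)) (.cons 225 (.leaf 224 1795 (.cons 201 (.leaf 177 1420 (.cons 176 (.leaf 200 1415 (.cons 202 (.leaf 178 1421 (.cons 226 (.leaf 299 1620 (.leaf 297 1613 .nil)) .nil)) .nil)) .nil)) .nil)) (.cons 276 (.leaf 277 1992 (.cons 228 (.leaf 229 1801 (.cons 299 (.leaf 204 1630 (.leaf 323 1821 .nil)) .nil)) .nil)) (.cons 276 (.leaf 277 1992 (.cons 228 (.leaf 229 1801 (.cons 297 (.leaf 296 2178 (.cons 226 (.leaf 202 1614 (.leaf 321 1805 .nil)) .nil)) .nil)) .nil)) .nil)))) .nil)) (.cons 253 (.leaf 254 2002 (.cons 226 (.leaf 225 1803 (.cons 202 (.leaf 178 1428 (.leaf 299 1620 .nil)) .nil)) .nil)) .nil))) (.cons 226 (.cons 202 (.leaf 178 1428 (.leaf 299 1620 .nil)) (.cons 323 (.leaf 299 1815 (.cons 298 (.cons 322 (.leaf 346 2005 (.leaf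 347 2004 .nil)) (.cons 201 (.leaf 225 1615 (.cons 297 (.leaf 321 1806 (.cons 276 (.leaf 277 2186 (.cons 296 (.leaf 273 2178 (.leaf 295 2169 .nil)) .nil)) .nil)) .nil)) .nil)) .nil)) (.cons 202 (.leaf 178 1428 (.cons 179 (.leaf 203 1429 (.cons 297 (.leaf 273 1614 (.cons 201 (.leaf 177 1423 (.cons 298 (.leaf 225 1615 (.leaf 321 1806 .nil)) .nil)) .nil)) .nil)) .nil)) .nil))) (.cons 252 (.cons 253 (.leaf 254 2002 (.leaf 273 1994 .nil)) (.cons 253 (.leaf 254 2002 (.cons 229 (.leaf 230 1809 (.cons 228 (.leaf 249 1801 (.cons 299 (.leaf 323 1821 (.cons 277 (.leaf 278 2000 (.cons 202 (.leaf 226 1620 (.cons 205 (.cons 180 (.leaf 204 1444 (.cons 181 (.leaf 157 1254 (.leaf 276 1446 .nil)) .nil)) (.cons 181 (.leaf 157 1254 (.leaf 276 1446 .nil)) (.cons 180 (.leaf 204 1444 (.cons 181 (.leaf 157 1254 (.leaf 156 1255 .nil)) .nil)) (.cons 204 (.leaf 180 1444 (.leaf 276 1630 .nil)) .nil)))) .nil))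 .nil)) .nil)) .nil)) .nil)) .nil)) (.cons 273 (.leaf 272 1985 (.cons 276 (.cons 297 (.leaf 296 2178 (.cons 277 (.leaf 249 1992 (.leaf 278 2003 .nil)) .nil)) (.cons 297 (.leaf 296 2178 (.cons 226 (.leaf 202 1614 (.cons 321 (.leaf 298 1806 (.leaf 345 1997 .nil)) .nil)) .nil)) (.cons 277 (.leaf 249 1992 (.leaf 278 2003 .nil)) .nil))) .nil)) .nil))) .nil))))))
noncomputable def t77 : T := .cons 249 (.leaf 248 1987 (.cons 252 (.leaf 253 1993 (.cons 250 (.leaf 277 1992 (.cons 228 (.leaf 229 1801 (.cons 297 (.leaf 296 2178 (.cons 299 (.leaf 204 1630 (.leaf 323 1821 .nil)) .nil)) .nil)) .nil)) .nil)) .nil)) (.cons 252 (.leaf 253 1993 (.cons 297 (.leaf 296 2178 (.cons 277 (.leaf 298 2186 (.cons 278 (.leaf 250 2003 (.leaf 279 2011 .nil)) .nil)) .nil)) .nil)) (.cons 249 (.leaf 248 1987 (.cons 297 (.leaf 296 2178 (.cons 225 (.cons 200 (.leaf 224 1607 (.cons 201 (.leaf 298 1612 (.leaf 176 1415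 .nil)) .nil)) (.cons 200 (.leaf 224 1607 (.cons 201 (.leaf 176 1415 (.cons 202 (.leaf 178 1421 (.leaf 226 1613 .nil)) .nil)) .nil)) (.cons 200 (.leaf 224 1607 (.cons 322 (.leaf 298 1804 (.cons 202 (.leaf 226 1613 (.cons 321 (.leaf 346 1996 (.cons 345 (.leaf 250 1997 (.cons 344 (.leaf 320 1990 (.leaf 368 2182 .nil)) .nil)) .nil)) .nil)) .nil)) .nil)) (.cons 298 (.leaf 277 2186 (.leaf 201 1612 .nil)) .nil)))) .nil)) .nil)) (.cons 249 (.leaf 248 1987 (.cons 250 (.leaf 277 1995 (.cons 252 (.leaf 253 1993 (.cons 225 (.leaf 224 1795 (.cons 201 (.leaf 177 1420 (.leaf 298 1612 .nil)) .nil)) .nil)) .nil)) .nil)) (.cons 249 (.leaf 248 1987 (.cons 297 (.leaf 296 2178 (.cons 298 (.leaf 277 2186 (.cons 225 (.leaf 201 1612 (.leaf 322 1804 .nil)) .nil)) .nil)) .nil)) (.cons 249 (.leaf 248 1987 (.cons 252 (.leaf 253 1993 (.cons 297 (.leaf 296 2178 (.cons 250 (.cons 226 (.leaf 202 1614 (.leaf 321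 1805 .nil)) (.cons 228 (.leaf 229 1801 (.cons 299 (.leaf 204 1630 (.leaf 323 1821 .nil)) .nil)) .nil)) .nil)) .nil)) .nil)) .nil)))))
noncomputable def t78 : T := .cons 276 (.cons 249 (.leaf 248 1987 (.cons 252 (.leaf 272 1985 (.leaf 253 1993 .nil)) .nil)) (.cons 249 (.leaf 248 1987 (.cons 297 (.leaf 296 2178 (.cons 225 (.cons 200 (.leaf 224 1607 (.cons 201 (.leaf 298 1612 (.leaf 176 1415 .nil)) .nil)) (.cons 200 (.leaf 224 1607 (.cons 201 (.leaf 176 1415 (.cons 202 (.leaf 178 1421 (.leaf 226 1613 .nil)) .nil)) .nil)) (.cons 200 (.leaf 224 1607 (.cons 322 (.leaf 298 1804 (.cons 202 (.leaf 226 1613 (.cons 321 (.leaf 346 1996 (.cons 345 (.leaf 250 1997 (.cons 344 (.leaf 320 1990 (.leaf 368 2182 .nil)) .nil)) .nil)) .nil)) .nil)) .nil)) (.cons 298 (.leaf 277 2186 (.leaf 201 1612 .nil)) .nil)))) .nil)) .nil)) (.cons 252 (.leaf 272 1985 (.leaf 253 1993 .nil)) .nil))) (.cons 276 t77 (.cons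 272 (.cons 247 (.leaf 248 1979 (.cons 271 (.leaf 250 1977 (.leaf 246 1971 .nil)) .nil)) (.cons 248 (.leaf 247 1979 (.cons 249 (.leaf 276 1987 (.cons 296 (.leaf 295 2170 (.cons 225 (.leaf 201 1606 (.leaf 320 1797 .nil)) .nil)) .nil)) .nil)) (.cons 250 (.leaf 271 1977 (.cons 295 (.leaf 296 2170 (.cons 299 (.leaf 300 2176 (.cons 226 (.leaf 202 1620 (.leaf 323 1815 .nil)) .nil)) .nil)) .nil)) .nil))) (.cons 272 (.leaf 252 1985 (.cons 247 (.leaf 248 1979 (.cons 271 (.leaf 246 1971 (.cons 299 (.leaf 300 2176 (.leaf 298 2168 .nil)) .nil)) .nil)) .nil)) (.cons 272 (.leaf 252 1985 (.cons 250 (.leaf 271 1977 (.cons 295 (.leaf 296 2170 (.cons 299 (.leaf 300 2176 (.cons 226 (.leaf 202 1620 (.leaf 323 1815 .nil)) .nil)) .nil)) .nil)) .nil)) .nil))))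
noncomputable def t79 : T := .cons 277 (.leaf 278 2000 (.cons 229 (.leaf 230 1809 (.cons 298 (.cons 297 (.leaf 276 2186 (.cons 295 (.leaf 296 2169 (.cons 226 (.leaf 225 1803 (.leaf 321 1806 .nil)) .nil)) .nil)) (.cons 297 (.leaf 276 2186 (.cons 295 (.leaf 296 2169 (.cons 322 (.leaf 346 2005 (.cons 323 (.leaf 347 2004 (.cons 299 (.leaf 228 1821 (.cons 324 (.leaf 348 2012 (.leaf 325 2379 .nil)) .nil)) .nil)) .nil)) .nil)) .nil)) (.cons 322 (.leaf 346 2005 (.cons 323 (.leaf 347 2004 (.cons 299 (.leaf 226 1812 (.leaf 228 1821 .nil)) .nil)) .nil)) .nil))) .nil)) .nil)) (.cons 277 (.leaf 278 2000 (.cons 229 (.leaf 230 1809 (.cons 298 (.cons 297 (.leaf 276 2186 (.cons 295 (.leaf 296 2169 (.cons 322 (.leaf 346 2005 (.cons 323 (.leaf 347 2004 (.cons 299 (.leaf 228 1821 (.cons 324 (.leaf 348 2012 (.leaf 325 2379 .nil)) .nil)) .nil)) .nil)) .nil)) .nil)) (.cons 322 (.leaf 346 2005 (.cons 323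 (.leaf 347 2004 (.cons 299 (.leaf 228 1821 (.cons 321 (.leaf 345 1998 (.cons 320 (.leaf 319 2361 (.leaf 300 2369 .nil)) .nil)) .nil)) .nil)) .nil)) (.cons 276 (.leaf 297 2186 (.cons 205 (.leaf 181 1446 (.leaf 300 1638 .nil)) .nil)) .nil))) .nil)) .nil)) (.cons 226 (.leaf 225 1803 (.cons 202 (.leaf 178 1428 (.leaf 299 1620 .nil)) .nil)) (.cons 226 (.leaf 225 1803 (.cons 202 (.leaf 178 1428 (.cons 229 (.leaf 230 1809 (.cons 201 (.leaf 177 1423 (.cons 203 (.leaf 179 1429 (.cons 204 (.leaf 228 1608 (.cons 180 (.leaf 181 1417 (.cons 277 (.leaf 278 2000 (.leaf 205 1447 .nil)) .nil)) .nil)) .nil)) .nil)) .nil)) .nil)) .nil)) .nil)))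
noncomputable def t80 : T := .cons 299 (.cons 319 (.leaf 320 2361 (.cons 228 (.leaf 323 1821 (.cons 204 (.leaf 180 1438 (.leaf 276 1630 .nil)) .nil)) .nil)) (.cons 320 (.leaf 319 2361 (.cons 297 (.leaf 300 2370 (.cons 276 (.leaf 296 2177 (.leaf 277 2186 .nil)) .nil)) .nil)) (.cons 228 (.leaf 323 1821 (.cons 180 (.leaf 204 1438 (.cons 250 (.leaf 345 1998 (.cons 226 (.leaf 202 1620 (.leaf 297 1806 .nil)) .nil)) .nil)) .nil)) .nil))) (.cons 345 (.leaf 250 1998 (.cons 323 (.cons 299 (.leaf 228 1821 (.cons 320 (.leaf 319 2361 (.leaf 300 2369 .nil)) .nil)) (.cons 344 (.leaf 324 2562 (.cons 343 (.leaf 320 2554 (.leaf 342 2545 .nil)) .nil)) (.cons 299 (.leaf 228 1821 (.cons 324 (.leaf 348 2012 (.leaf 344 2562 .nil)) .nil)) .nil))) .nil)) (.cons 299 (.cons 319 (.leaf 320 2361 (.cons 228 (.leaf 323 1821 (.cons 204 (.leaf 180 1438 (.leaf 276 1630 .nil)) .nil)) .nil)) (.cons 320 (.leaf 319 2361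 (.cons 297 (.leaf 300 2370 (.cons 276 (.leaf 296 2177 (.leaf 277 2186 .nil)) .nil)) .nil)) (.cons 228 (.leaf 323 1821 (.cons 204 (.leaf 180 1438 (.leaf 276 1630 .nil)) .nil)) (.cons 319 (.leaf 320 2361 (.cons 323 (.leaf 228 1821 (.cons 324 (.leaf 348 2012 (.cons 297 (.leaf 296 2368 (.leaf 325 2379 .nil)) .nil)) .nil)) .nil)) .nil)))) (.cons 345 (.leaf 250 1998 (.cons 369 (.leaf 297 2189 (.leaf 393 2381 .nil)) .nil)) .nil)))
noncomputable def t81 : T := .cons 224 (.leaf 319 1790 (.cons 199 (.leaf 223 1599 (.cons 200 (.leaf 175 1407 (.leaf 271 1598 .nil)) .nil)) .nil)) (.cons 224 (.cons 199 (.leaf 223 1599 (.cons 200 (.leaf 175 1407 (.leaf 271 1598 .nil)) .nil)) (.cons 223 (.leaf 199 1599 (.cons 225 (.leaf 201 1605 (.cons 226 (.leaf 250 1784 (.cons 247 (.leaf 320 1791 (.leaf 246 1778 .nil)) .nil)) .nil)) .nil)) (.cons 200 (.leaf 271 1598 (.cons 201 (.leaf 177 1413 (.leaf 225 1605 .nil))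 .nil)) .nil))) (.cons 320 (.cons 319 (.leaf 343 1982 (.cons 321 (.leaf 345 1988 (.leaf 294 2355 .nil)) .nil)) (.cons 247 (.leaf 223 1791 (.cons 344 (.leaf 271 1983 (.cons 345 (.leaf 321 1988 (.leaf 369 2180 .nil)) .nil)) .nil)) (.cons 247 (.leaf 223 1791 (.cons 319 (.leaf 343 1982 (.cons 344 (.leaf 271 1980 (.cons 368 (.leaf 392 2367 (.cons 369 (.leaf 345 2180 (.leaf 393 2372 .nil)) .nil)) .nil)) .nil)) .nil)) (.cons 247 (.leaf 223 1791 (.cons 343 (.leaf 319 1982 (.cons 344 (.leaf 271 1983 (.leaf 367 2174 .nil)) .nil)) .nil)) .nil)))) (.cons 319 (.leaf 224 1790 (.cons 343 (.leaf 320 1982 (.leaf 367 2173 .nil)) .nil)) .nil)))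
noncomputable def t82 : T := .cons 346 (.leaf 322 2005 (.cons 344 (.cons 247 (.leaf 271 1983 (.cons 223 (.leaf 248 1791 (.cons 345 (.leaf 369 2180 (.cons 319 (.leaf 347 2555 (.cons 318 (.leaf 317 2536 (.leaf 321 2544 .nil)) .nil)) .nil)) .nil)) .nil)) (.cons 247 (.leaf 271 1983 (.cons 248 (.leaf 223 1791 (.cons 343 (.leaf 319 1982 (.leaf 367 2174 .nil)) .nil)) .nil)) (.cons 343 (.leaf 367 2174 (.cons 248 (.leaf 319 1982 (.cons 345 (.leaf 321 1988 (.leaf 369 2180 .nil)) .nil)) .nil)) (.cons 247 (.leaf 271 1983 (.cons 223 (.leaf 248 1791 (.cons 367 (.leaf 343 2174 (.cons 345 (.leaf 369 2180 (.cons 368 (.leaf 391 2366 (.leaf 347 2746 .nil)) .nil)) .nil)) .nil)) .nil)) (.cons 247 (.leaf 271 1983 (.cons 345 (.leaf 369 2180 (.cons 319 (.leaf 347 2555 (.cons 318 (.leaf 317 2536 (.leaf 321 2544 .nil)) .nil)) .nil)) .nil)) .nil))))) .nil)) (.cons 248 (.cons 319 (.leaf 343 1982 (.cons 247 (.leaf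 223 1791 (.cons 344 (.leaf 271 1983 (.cons 345 (.leaf 321 1988 (.leaf 369 2180 .nil)) .nil)) .nil)) .nil)) (.cons 247 (.leaf 223 1791 (.cons 343 (.leaf 319 1982 (.cons 344 (.leaf 271 1983 (.leaf 367 2174 .nil)) .nil)) .nil)) (.cons 223 (.leaf 247 1791 (.cons 224 (.leaf 199 1599 (.cons 321 (.leaf 297 1796 (.leaf 345 1988 .nil)) .nil)) .nil)) (.cons 319 (.leaf 343 1982 (.cons 297 (.leaf 299 2362 (.cons 321 (.leaf 318 2353 (.leaf 224 1796 .nil)) .nil)) .nil)) .nil)))) (.cons 322 (.leaf 346 2005 (.cons 299 (.cons 297 (.leaf 276 2177 (.leaf 271 2171 .nil)) (.cons 321 (.leaf 319 2361 (.cons 345 (.leaf 250 1998 (.leaf 248 1988 .nil)) .nil)) .nil)) .nil)) (.cons 322 (.leaf 346 2005 (.cons 299 (.cons 297 (.leaf 276 2177 (.leaf 271 2171 .nil)) (.cons 321 (.leaf 319 2361 (.cons 345 (.leaf 250 1998 (.cons 369 (.leaf 393 2381 (.leaf 344 2180 .nil)) .nil)) .nil)) .nil)) .nil)) (.cons 322 (.leaf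 346 2005 (.cons 299 (.cons 319 (.leaf 297 2362 (.leaf 321 2361 .nil)) (.cons 319 (.leaf 321 2361 (.cons 343 (.leaf 248 1982 (.cons 367 (.leaf 344 2174 (.leaf 391 2365 .nil)) .nil)) .nil)) (.cons 297 (.leaf 276 2177 (.leaf 271 2171 .nil)) .nil))) .nil)) (.cons 346 (.leaf 322 2005 (.cons 344 (.cons 247 (.leaf 271 1983 (.cons 248 (.leaf 223 1791 (.cons 343 (.leaf 319 1982 (.leaf 367 2174 .nil)) .nil)) .nil)) (.cons 345 (.leaf 369 2180 (.cons 347 (.leaf 319 2555 (.cons 372 (.leaf 371 2752 (.cons 348 (.leaf 373 2760 (.cons 324 (.leaf 325 2569 (.cons 300 (.leaf 276 2015 (.leaf 299 2207 .nil)) .nil)) .nil)) .nil)) .nil)) .nil)) (.cons 247 (.leaf 271 1983 (.cons 223 (.leaf 248 1791 (.cons 367 (.leaf 343 2174 (.cons 345 (.leaf 369 2180 (.cons 368 (.leaf 391 2366 (.leaf 347 2746 .nil)) .nil)) .nil)) .nil)) .nil)) .nil))) .nil)) (.cons 322 (.leaf 346 2005 (.cons 344 (.cons 247 (.leaf 271 1983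 (.cons 345 (.leaf 369 2180 (.cons 321 (.leaf 250 1998 (.leaf 248 1988 .nil)) .nil)) .nil)) (.cons 271 (.leaf 247 1983 (.cons 297 (.leaf 299 2171 (.cons 367 (.leaf 343 2174 (.cons 368 (.leaf 391 2366 (.cons 392 (.leaf 321 2373 (.cons 393 (.leaf 369 2372 (.leaf 417 2564 .nil)) .nil)) .nil)) .nil)) .nil)) .nil)) (.cons 247 (.leaf 271 1983 (.cons 248 (.leaf 223 1791 (.cons 321 (.leaf 345 1988 (.cons 297 (.leaf 224 1796 (.cons 367 (.leaf 343 2174 (.cons 368 (.leaf 391 2366 (.leaf 392 2373 .nil)) .nil)) .nil)) .nil)) .nil)) .nil)) (.cons 343 (.leaf 367 2174 (.cons 345 (.leaf 369 2180 (.cons 321 (.leaf 250 1998 (.leaf 248 1988 .nil)) .nil)) .nil)) (.cons 247 (.leaf 271 1983 (.cons 223 (.leaf 248 1791 (.cons 367 (.leaf 343 2174 (.cons 368 (.leaf 391 2366 (.cons 369 (.leaf 345 2180 (.leaf 393 2372 .nil)) .nil)) .nil)) .nil)) .nil)) .nil))))) .nil)) (.cons 322 (.leaf 346 2005 (.cons 321 (.cons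 319 (.leaf 299 2361 (.cons 343 (.leaf 248 1982 (.leaf 342 2546 .nil)) .nil)) (.cons 345 (.leaf 250 1998 (.leaf 248 1988 .nil)) (.cons 250 (.leaf 345 1998 (.cons 226 (.leaf 297 1806 (.cons 202 (.leaf 178 1428 (.leaf 299 1620 .nil)) .nil)) .nil)) .nil))) .nil)) .nil)))))))
noncomputable def t83 : T := .cons 322 (.leaf 346 2005 (.cons 321 (.cons 345 (.leaf 250 1998 (.leaf 248 1988 .nil)) (.cons 319 (.leaf 299 2361 (.cons 343 (.leaf 248 1982 (.leaf 342 2546 .nil)) .nil)) (.cons 250 (.leaf 345 1998 (.cons 319 (.leaf 299 2361 (.cons 294 (.leaf 295 2355 (.cons 318 (.leaf 293 2347 (.cons 342 (.leaf 341 2538 (.leaf 343 2546 .nil)) .nil)) .nil)) .nil)) .nil)) .nil))) .nil)) (.cons 344 (.cons 247 (.leaf 271 1983 (.cons 248 (.leaf 223 1791 (.cons 345 (.leaf 321 1988 (.leaf 369 2180 .nil)) .nil)) .nil)) (.cons 247 (.leaf 271 1983 (.cons 248 (.leaf 223 1791 (.cons 343 (.leaf 319 1982 (.leaf 367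 2174 .nil)) .nil)) .nil)) (.cons 343 (.leaf 367 2174 (.cons 248 (.leaf 319 1982 (.cons 345 (.leaf 321 1988 (.leaf 369 2180 .nil)) .nil)) .nil)) (.cons 247 (.leaf 271 1983 (.cons 367 (.leaf 343 2174 (.cons 368 (.leaf 391 2366 (.cons 369 (.leaf 345 2180 (.leaf 393 2372 .nil)) .nil)) .nil)) .nil)) .nil)))) (.cons 322 (.leaf 346 2005 (.cons 344 (.cons 271 (.leaf 247 1983 (.cons 367 (.leaf 343 2174 (.cons 368 (.leaf 295 2175 (.leaf 391 2366 .nil)) .nil)) .nil)) (.cons 271 (.leaf 247 1983 (.cons 368 (.leaf 295 2175 (.cons 369 (.leaf 345 2180 (.leaf 393 2372 .nil)) .nil)) .nil)) (.cons 343 (.leaf 367 2174 (.cons 345 (.leaf 369 2180 (.cons 321 (.leaf 250 1998 (.leaf 342 2545 .nil)) .nil)) .nil)) .nil))) .nil)) (.cons 344 (.cons 322 (.leaf 346 2005 (.cons 343 (.leaf 367 2174 (.cons 319 (.leaf 248 1982 (.cons 321 (.leaf 299 2361 (.leaf 342 2546 .nil)) .nil)) .nil)) .nil)) (.cons 271 (.leaf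 247 1983 (.cons 322 (.leaf 346 2005 (.cons 368 (.leaf 295 2175 (.cons 391 (.leaf 367 2366 (.cons 392 (.leaf 415 2558 (.cons 393 (.leaf 369 2372 (.leaf 417 2564 .nil)) .nil)) .nil)) .nil)) .nil)) .nil)) (.cons 247 (.leaf 271 1983 (.cons 248 (.leaf 223 1791 (.cons 319 (.leaf 343 1982 (.cons 295 (.leaf 224 1790 (.cons 322 (.leaf 346 2005 (.cons 321 (.leaf 299 2361 (.leaf 294 2355 .nil)) .nil)) .nil)) .nil)) .nil)) .nil)) (.cons 247 (.leaf 271 1983 (.cons 248 (.leaf 223 1791 (.cons 343 (.leaf 319 1982 (.leaf 367 2174 .nil)) .nil)) .nil)) .nil)))) (.cons 322 (.leaf 346 2005 (.cons 248 (.cons 247 (.leaf 223 1791 (.cons 344 (.leaf 271 1983 (.cons 345 (.leaf 321 1988 (.leaf 369 2180 .nil)) .nil)) .nil)) (.cons 223 (.leaf 247 1791 (.cons 224 (.leaf 199 1599 (.cons 201 (.leaf 225 1605 (.cons 200 (.leaf 177 1413 (.cons 295 (.leaf 271 1598 (.leaf 319 1790 .nil)) .nil)) .nil)) .nil)) .nil)) (.cons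 321 (.leaf 345 1988 (.cons 319 (.leaf 299 2361 (.cons 295 (.leaf 224 1790 (.leaf 294 2355 .nil)) .nil)) .nil)) .nil))) .nil)) (.cons 346 (.leaf 322 2005 (.cons 344 (.cons 247 (.leaf 271 1983 (.cons 223 (.leaf 248 1791 (.cons 345 (.leaf 369 2180 (.cons 319 (.leaf 347 2555 (.cons 318 (.leaf 317 2536 (.leaf 343 2547 .nil)) .nil)) .nil)) .nil)) .nil)) (.cons 271 (.leaf 247 1983 (.cons 368 (.leaf 295 2175 (.cons 391 (.leaf 367 2366 (.cons 392 (.leaf 415 2558 (.cons 393 (.leaf 369 2372 (.leaf 417 2564 .nil)) .nil)) .nil)) .nil)) .nil)) (.cons 345 (.leaf 369 2180 (.cons 319 (.leaf 347 2555 (.cons 343 (.leaf 248 1982 (.leaf 367 2174 .nil)) .nil)) .nil)) (.cons 247 (.leaf 271 1983 (.cons 248 (.leaf 223 1791 (.cons 343 (.leaf 319 1982 (.leaf 367 2174 .nil)) .nil)) .nil)) .nil)))) .nil)) .nil)))))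
noncomputable def t84 : T := .cons 322 (.leaf 346 2005 (.cons 321 (.cons 248 (.leaf 345 1988 (.cons 223 (.leaf 247 1791 (.cons 224 (.leaf 199 1599 (.leaf 297 1796 .nil)) .nil)) .nil)) (.cons 248 (.leaf 345 1988 (.cons 223 (.leaf 247 1791 (.cons 224 (.leaf 199 1599 (.cons 319 (.leaf 299 2361 (.leaf 295 1790 .nil)) .nil)) .nil)) .nil)) (.cons 295 (.leaf 297 2169 (.cons 294 (.leaf 293 2344 (.leaf 319 2355 .nil)) .nil)) .nil))) .nil)) (.cons 322 (.leaf 346 2005 (.cons 321 (.cons 345 (.leaf 250 1998 (.leaf 248 1988 .nil)) (.cons 319 (.leaf 299 2361 (.cons 343 (.leaf 248 1982 (.leaf 342 2546 .nil)) .nil)) (.cons 250 (.leaf 345 1998 (.cons 319 (.leaf 299 2361 (.cons 294 (.leaf 295 2355 (.cons 318 (.leaf 293 2347 (.cons 342 (.leaf 341 2538 (.leaf 343 2546 .nil)) .nil)) .nil)) .nil)) .nil)) .nil))) .nil)) (.cons 322 (.leaf 346 2005 (.cons 321 (.cons 345 (.leaf 250 1998 (.leaf 248 1988 .nil))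 (.cons 319 (.leaf 299 2361 (.cons 343 (.leaf 248 1982 (.leaf 342 2546 .nil)) .nil)) (.cons 250 (.leaf 345 1998 (.cons 226 (.leaf 297 1806 (.cons 202 (.leaf 178 1428 (.leaf 299 1620 .nil)) .nil)) .nil)) .nil))) .nil)) (.cons 297 (.leaf 295 2169 (.cons 299 (.leaf 276 2177 (.leaf 271 2171 .nil)) .nil)) (.cons 297 (.leaf 295 2169 (.cons 321 (.cons 224 (.leaf 248 1796 (.cons 226 (.leaf 250 1806 (.cons 319 (.leaf 318 2353 (.cons 322 (.leaf 346 2005 (.cons 343 (.leaf 342 2546 (.cons 367 (.leaf 344 2174 (.leaf 391 2365 .nil)) .nil)) .nil)) .nil)) .nil)) .nil)) (.cons 345 (.leaf 369 2189 (.cons 250 (.leaf 226 1806 (.leaf 322 1998 .nil)) .nil)) (.cons 226 (.leaf 250 1806 (.cons 248 (.leaf 224 1796 (.leaf 345 1988 .nil)) .nil)) (.cons 345 (.leaf 369 2189 (.leaf 248 1988 .nil)) .nil)))) .nil)) .nil))))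
noncomputable def t85 : T := .cons 345 (.leaf 250 1998 (.cons 296 (.leaf 248 1988 (.cons 369 (.leaf 393 2381 (.leaf 344 2180 .nil)) .nil)) .nil)) (.cons 323 (.cons 347 (.leaf 250 2004 (.leaf 348 2560 .nil)) (.cons 295 (.leaf 296 2363 (.cons 319 (.leaf 294 2355 (.cons 343 (.leaf 342 2546 (.leaf 344 2554 .nil)) .nil)) .nil)) .nil)) (.cons 296 (.cons 295 (.leaf 323 2363 (.cons 294 (.leaf 319 2355 (.leaf 293 2344 .nil)) .nil)) (.cons 248 (.leaf 345 1988 (.cons 223 (.leaf 247 1791 (.cons 224 (.leaf 199 1599 (.cons 201 (.leaf 225 1605 (.cons 343 (.leaf 319 1982 (.cons 344 (.leaf 323 2554 (.leaf 367 2174 .nil)) .nil)) .nil)) .nil)) .nil)) .nil)) (.cons 248 (.leaf 345 1988 (.cons 223 (.leaf 247 1791 (.cons 224 (.leaf 199 1599 (.cons 319 (.leaf 295 1790 (.leaf 343 1982 .nil)) .nil)) .nil)) .nil)) (.cons 248 (.leaf 345 1988 (.cons 223 (.leaf 247 1791 (.cons 224 (.leaf 199 1599 (.cons 201 (.leaf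 225 1605 (.cons 200 (.leaf 177 1413 (.cons 295 (.leaf 323 2363 (.leaf 271 1598 .nil)) .nil)) .nil)) .nil)) .nil)) .nil)) .nil)))) (.cons 323 (.cons 344 (.leaf 343 2554 (.cons 324 (.leaf 345 2562 (.cons 348 (.leaf 347 2560 (.leaf 349 2568 .nil)) .nil)) .nil)) (.cons 344 (.leaf 343 2554 (.cons 345 (.leaf 250 1998 (.leaf 324 2562 .nil)) .nil)) (.cons 347 (.leaf 250 2004 (.leaf 348 2560 .nil)) .nil))) (.cons 345 (.leaf 250 1998 (.cons 296 (.leaf 248 1988 (.cons 295 (.leaf 323 2363 (.cons 294 (.leaf 319 2355 (.leaf 293 2344 .nil)) .nil)) .nil)) .nil)) .nil))))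
noncomputable def t86 : T := .cons 299 (.leaf 319 2361 (.cons 323 (.leaf 228 1821 (.leaf 300 2369 .nil)) .nil)) (.cons 323 (.cons 344 (.leaf 343 2554 (.cons 324 (.leaf 345 2562 (.cons 348 (.leaf 299 2012 (.leaf 347 2560 .nil)) .nil)) .nil)) (.cons 344 (.leaf 343 2554 (.cons 324 (.leaf 345 2562 (.cons 348 (.leaf 347 2560 (.leaf 349 2568 .nil)) .nil)) .nil)) (.cons 299 (.leaf 228 1821 (.leaf 300 2369 .nil)) .nil))) (.cons 296 (.cons 248 (.leaf 345 1988 (.cons 223 (.leaf 247 1791 (.cons 224 (.leaf 199 1599 (.cons 201 (.leaf 225 1605 (.cons 343 (.leaf 319 1982 (.cons 344 (.leaf 323 2554 (.leaf 367 2174 .nil)) .nil)) .nil)) .nil)) .nil)) .nil)) (.cons 295 (.leaf 323 2363 (.cons 294 (.leaf 319 2355 (.leaf 293 2344 .nil)) .nil)) (.cons 248 (.leaf 345 1988 (.cons 223 (.leaf 247 1791 (.cons 224 (.leaf 199 1599 (.cons 319 (.leaf 295 1790 (.leaf 343 1982 .nil)) .nil)) .nil)) .nil)) (.cons 248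 (.leaf 345 1988 (.cons 223 (.leaf 247 1791 (.cons 224 (.leaf 199 1599 (.cons 201 (.leaf 225 1605 (.cons 200 (.leaf 177 1413 (.cons 295 (.leaf 323 2363 (.leaf 271 1598 .nil)) .nil)) .nil)) .nil)) .nil)) .nil)) .nil)))) (.cons 319 (.leaf 299 2361 (.cons 294 (.leaf 295 2355 (.cons 318 (.leaf 293 2347 (.cons 342 (.leaf 343 2546 (.leaf 341 2538 .nil)) .nil)) .nil)) .nil)) .nil)))
noncomputable def t87 : T := .cons 273 (.leaf 272 1985 (.cons 322 (.leaf 346 2005 (.cons 297 (.cons 276 (.leaf 296 2178 (.leaf 277 2186 .nil)) (.cons 276 (.leaf 277 2186 (.cons 321 (.cons 345 (.leaf 250 1997 (.leaf 369 2189 .nil)) (.cons 250 (.leaf 226 1806 (.cons 323 (.leaf 347 2004 (.cons 324 (.leaf 325 2379 (.cons 348 (.leaf 300 2015 (.leaf 349 2568 .nil)) .nil)) .nil)) .nil)) (.cons 345 (.leaf 369 2189 (.cons 344 (.leaf 368 2182 (.cons 323 (.leaf 324 2562 (.cons 343 (.leaf 320 2554 (.leaf 342 2545 .nil)) .nil))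 .nil)) .nil)) .nil))) .nil)) (.cons 296 (.leaf 295 2169 (.cons 321 (.cons 345 (.leaf 250 1997 (.leaf 369 2189 .nil)) (.cons 323 (.leaf 324 2371 (.cons 250 (.leaf 226 1806 (.leaf 347 2004 .nil)) .nil)) (.cons 345 (.leaf 369 2189 (.cons 344 (.leaf 368 2182 (.cons 323 (.leaf 324 2562 (.cons 343 (.leaf 320 2554 (.leaf 342 2545 .nil)) .nil)) .nil)) .nil)) .nil))) .nil)) .nil))) .nil)) .nil)) (.cons 322 (.leaf 346 2005 (.cons 272 (.leaf 273 1985 (.cons 321 (.cons 250 (.leaf 345 1998 (.cons 323 (.leaf 347 2004 (.cons 299 (.leaf 226 1812 (.leaf 228 1821 .nil)) .nil)) .nil)) (.cons 320 t86 (.cons 323 (.cons 250 (.leaf 347 2004 (.cons 299 (.leaf 226 1812 (.leaf 228 1821 .nil)) .nil)) (.cons 347 (.leaf 250 2004 (.cons 320 (.leaf 348 2560 (.cons 295 (.leaf 296 2363 (.cons 319 (.leaf 294 2355 (.cons 343 (.leaf 342 2546 (.leaf 344 2554 .nil)) .nil)) .nil)) .nil)) .nil)) (.cons 299 (.leaf 228 1821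 (.cons 320 (.leaf 319 2361 (.leaf 300 2369 .nil)) .nil)) .nil))) (.cons 345 (.leaf 250 1998 (.cons 369 (.leaf 393 2381 (.cons 320 (.cons 296 (.leaf 248 1988 (.leaf 344 2180 .nil)) (.cons 319 (.leaf 299 2361 (.cons 294 (.leaf 295 2355 (.cons 318 (.leaf 293 2347 (.cons 342 (.leaf 343 2546 (.leaf 341 2538 .nil)) .nil)) .nil)) .nil)) .nil)) .nil)) .nil)) (.cons 320 t85 .nil))))) .nil)) .nil)) (.cons 272 (.leaf 273 1985 (.cons 296 (.cons 320 t84 (.cons 320 t83 (.cons 320 t82 (.cons 297 (.leaf 295 2169 (.cons 276 (.leaf 277 2186 (.leaf 299 2177 .nil)) .nil)) (.cons 295 (.leaf 297 2169 (.cons 322 (.leaf 346 2005 (.cons 248 t81 .nil)) .nil)) .nil))))) .nil)) (.cons 273 (.leaf 272 1985 (.cons 322 (.leaf 346 2005 (.cons 297 (.cons 276 (.leaf 296 2178 (.leaf 277 2186 .nil)) (.cons 276 (.leaf 277 2186 (.cons 323 (.cons 299 (.leaf 228 1821 (.leaf 347 2013 .nil)) (.cons 324 (.leaf 325 2379 (.cons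 300 (.leaf 348 2015 (.leaf 347 2014 .nil)) .nil)) (.cons 228 (.leaf 299 1821 (.cons 204 (.leaf 180 1438 (.cons 179 (.leaf 203 1439 (.cons 324 (.leaf 325 2379 (.cons 205 (.leaf 181 1445 (.cons 300 (.leaf 348 2015 (.leaf 229 1637 .nil)) .nil)) .nil)) .nil)) .nil)) .nil)) .nil))) .nil)) (.cons 296 (.leaf 295 2169 (.cons 323 (.cons 299 (.leaf 228 1821 (.leaf 324 2368 .nil)) (.cons 299 (.leaf 228 1821 (.cons 320 (.leaf 319 2362 (.cons 321 (.leaf 300 2369 (.cons 344 (.leaf 368 2181 (.leaf 343 2554 .nil)) .nil)) .nil)) .nil)) (.cons 324 (.leaf 325 2379 (.leaf 321 2371 .nil)) .nil))) .nil)) .nil))) .nil)) .nil)) (.cons 273 (.leaf 272 1985 (.cons 322 (.leaf 346 2005 (.cons 321 t80 .nil)) .nil)) (.cons 322 (.leaf 346 2005 (.cons 297 (.cons 273 (.leaf 272 1985 (.cons 276 (.leaf 296 2178 (.leaf 277 2186 .nil)) .nil)) (.cons 276 (.leaf 277 2186 (.cons 323 (.cons 324 (.leaf 325 2379 (.cons 300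 (.leaf 348 2015 (.leaf 347 2014 .nil)) .nil)) (.cons 299 (.leaf 228 1821 (.cons 324 (.leaf 348 2012 (.leaf 325 2379 .nil)) .nil)) (.cons 299 (.leaf 228 1821 (.leaf 347 2013 .nil)) .nil))) .nil)) (.cons 296 (.leaf 295 2169 (.cons 272 (.leaf 273 1985 (.cons 299 (.leaf 271 2171 (.cons 323 (.leaf 228 1821 (.leaf 324 2368 .nil)) .nil)) .nil)) .nil)) .nil))) .nil)) (.cons 322 (.leaf 346 2005 (.cons 323 (.cons 299 (.leaf 228 1821 (.cons 347 (.leaf 250 2004 (.leaf 276 2013 .nil)) .nil)) (.cons 250 (.leaf 347 2004 (.cons 321 (.leaf 345 1998 (.cons 226 (.leaf 297 1806 (.cons 201 (.leaf 225 1615 (.cons 202 (.leaf 178 1428 (.leaf 177 1423 .nil)) .nil)) .nil)) .nil)) .nil)) (.cons 299 (.leaf 228 1821 (.cons 347 (.leaf 276 2013 (.leaf 371 2199 .nil)) .nil)) (.cons 299 (.leaf 228 1821 (.cons 250 (.leaf 226 1812 (.cons 272 (.leaf 273 1985 (.cons 321 (.leaf 345 1998 (.cons 320 (.leaf 319 2361 (.cons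 295 (.leaf 296 2363 (.cons 324 (.leaf 348 2012 (.cons 325 (.leaf 297 2379 (.leaf 326 2387 .nil)) .nil)) .nil)) .nil)) .nil)) .nil)) .nil)) .nil)) .nil)))) .nil)) .nil))))))
noncomputable def t88 : T := .cons 273 (.leaf 272 1985 (.cons 322 (.leaf 346 2005 (.cons 250 (.cons 321 (.leaf 345 1998 (.cons 323 (.leaf 347 2004 (.cons 226 (.leaf 299 1812 (.leaf 297 1806 .nil)) .nil)) .nil)) (.cons 321 (.leaf 345 1998 (.cons 226 (.leaf 297 1806 (.cons 201 (.leaf 225 1615 (.cons 202 (.leaf 178 1428 (.leaf 299 1620 .nil)) .nil)) .nil)) .nil)) (.cons 321 (.leaf 345 1998 (.cons 323 (.leaf 347 2004 (.cons 299 (.leaf 226 1812 (.leaf 228 1821 .nil)) .nil)) .nil)) (.cons 321 (.leaf 345 1998 (.cons 323 (.leaf 347 2004 (.cons 299 (.leaf 228 1821 (.cons 320 (.leaf 319 2361 (.leaf 300 2369 .nil)) .nil)) .nil)) .nil)) (.cons 323 (.leaf 347 2004 (.cons 299 (.leaf 226 1812 (.leaf 228 1821 .nil)) .nil)) (.cons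 321 (.leaf 345 1998 (.cons 323 (.leaf 347 2004 (.cons 226 (.leaf 297 1806 (.cons 201 (.leaf 225 1615 (.cons 202 (.leaf 178 1428 (.leaf 177 1423 .nil)) .nil)) .nil)) .nil)) .nil)) .nil)))))) .nil)) .nil)) (.cons 273 (.leaf 272 1985 (.cons 297 (.cons 276 (.leaf 296 2178 (.leaf 277 2186 .nil)) (.cons 276 (.leaf 277 2186 (.cons 299 (.cons 323 (.leaf 228 1821 (.leaf 347 2013 .nil)) (.cons 228 (.leaf 204 1630 (.cons 321 (.cons 250 (.leaf 226 1806 (.leaf 345 1997 .nil)) (.cons 300 (.leaf 320 2370 (.cons 324 (.leaf 348 2015 (.leaf 325 2376 .nil)) .nil)) .nil)) .nil)) (.cons 323 (.leaf 347 2013 (.cons 226 (.leaf 250 1812 (.cons 324 (.leaf 348 2012 (.cons 325 (.leaf 300 2376 (.leaf 326 2387 .nil)) .nil)) .nil)) .nil)) .nil))) .nil)) (.cons 296 (.leaf 295 2169 (.cons 299 (.cons 323 (.leaf 228 1821 (.leaf 324 2368 .nil)) (.cons 320 (.leaf 319 2362 (.cons 321 (.leaf 300 2370 (.cons 345 (.leaf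 250 1997 (.leaf 369 2189 .nil)) .nil)) .nil)) .nil)) .nil)) .nil))) .nil)) (.cons 322 (.leaf 346 2005 (.cons 323 (.cons 299 (.leaf 228 1821 (.cons 347 (.leaf 250 2004 (.leaf 276 2013 .nil)) .nil)) (.cons 250 (.leaf 347 2004 (.cons 321 (.leaf 345 1998 (.cons 226 (.leaf 297 1806 (.cons 201 (.leaf 225 1615 (.cons 202 (.leaf 178 1428 (.leaf 177 1423 .nil)) .nil)) .nil)) .nil)) .nil)) (.cons 299 (.leaf 228 1821 (.cons 250 (.leaf 226 1812 (.cons 321 (.leaf 345 1998 (.cons 320 (.leaf 319 2361 (.leaf 300 2369 .nil)) .nil)) .nil)) .nil)) (.cons 299 (.leaf 228 1821 (.cons 347 (.leaf 276 2013 (.leaf 371 2199 .nil)) .nil)) .nil)))) .nil)) t87))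
noncomputable def t89 : T := .cons 272 (.leaf 252 1985 (.cons 247 (.leaf 248 1979 (.cons 271 (.leaf 250 1977 (.leaf 246 1971 .nil)) .nil)) .nil)) (.cons 276 (.cons 252 (.leaf 253 1993 (.cons 249 (.leaf 248 1987 (.cons 250 (.leaf 277 1992 (.cons 228 (.leaf 229 1801 (.cons 297 (.leaf 296 2178 (.cons 299 (.leaf 204 1630 (.leaf 323 1821 .nil)) .nil)) .nil)) .nil)) .nil)) .nil)) (.cons 249 (.leaf 248 1987 (.cons 250 (.leaf 277 1995 (.cons 297 (.leaf 296 2178 (.cons 226 (.leaf 202 1614 (.leaf 321 1805 .nil)) .nil)) .nil)) .nil)) (.cons 253 (.leaf 252 1993 (.cons 277 (.leaf 254 2001 (.cons 297 (.leaf 296 2178 (.leaf 298 2186 .nil)) .nil)) .nil)) (.cons 252 (.leaf 253 1993 (.cons 249 (.leaf 248 1987 (.cons 250 (.leaf 277 1992 (.cons 225 (.leaf 224 1795 (.cons 201 (.leaf 177 1420 (.leaf 298 1612 .nil)) .nil)) .nil)) .nil)) .nil)) (.cons 252 (.leaf 253 1993 (.cons 249 (.leaf 248 1987 (.cons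 297 (.leaf 296 2178 (.cons 250 (.cons 226 (.leaf 202 1614 (.leaf 321 1805 .nil)) (.cons 228 (.leaf 229 1801 (.cons 299 (.leaf 204 1630 (.leaf 323 1821 .nil)) .nil)) .nil)) .nil)) .nil)) .nil)) .nil))))) (.cons 272 (.cons 247 (.leaf 248 1979 (.cons 271 (.leaf 250 1977 (.leaf 246 1971 .nil)) .nil)) (.cons 248 (.leaf 247 1979 (.cons 249 (.leaf 276 1987 (.cons 296 (.leaf 295 2170 (.cons 225 (.leaf 201 1606 (.leaf 320 1797 .nil)) .nil)) .nil)) .nil)) (.cons 250 (.leaf 271 1977 (.cons 295 (.leaf 296 2170 (.cons 299 (.leaf 300 2176 (.cons 226 (.leaf 202 1620 (.leaf 323 1815 .nil)) .nil)) .nil)) .nil)) .nil))) (.cons 272 (.leaf 252 1985 (.cons 247 (.leaf 248 1979 (.cons 271 (.leaf 246 1971 (.cons 299 (.leaf 300 2176 (.leaf 298 2168 .nil)) .nil)) .nil)) .nil)) (.cons 272 (.leaf 252 1985 (.cons 250 (.leaf 271 1977 (.cons 295 (.leaf 296 2170 (.cons 299 (.leaf 300 2176 (.cons 226 (.leaf 202 1620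 (.leaf 323 1815 .nil)) .nil)) .nil)) .nil)) .nil)) .nil))))
noncomputable def t90 : T := .cons 249 (.leaf 248 1987 (.cons 250 (.leaf 277 1995 (.cons 297 (.leaf 296 2178 (.cons 321 (.leaf 345 1997 (.leaf 226 1805 .nil)) .nil)) .nil)) .nil)) (.cons 297 (.leaf 296 2178 (.cons 277 (.leaf 298 2186 (.cons 278 (.leaf 250 2003 (.cons 254 (.leaf 255 2009 (.cons 279 (.leaf 252 2011 (.cons 303 (.leaf 302 2200 (.leaf 304 2208 .nil)) .nil)) .nil)) .nil)) .nil)) .nil)) (.cons 249 (.leaf 248 1987 (.cons 250 (.leaf 277 1995 (.cons 225 (.cons 201 (.leaf 177 1420 (.leaf 298 1612 .nil)) (.cons 224 (.leaf 252 1795 (.cons 223 (.leaf 226 1784 (.leaf 222 1776 .nil)) .nil)) .nil)) .nil)) .nil)) (.cons 297 (.leaf 296 2178 (.cons 249 (.leaf 248 1987 (.cons 298 (.leaf 277 2186 (.cons 225 (.leaf 201 1612 (.leaf 322 1804 .nil)) .nil)) .nil)) .nil)) (.cons 249 (.leaf 248 1987 (.cons 297 (.leaf 296 2178 (.cons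 225 (.cons 200 (.leaf 224 1607 (.cons 201 (.leaf 298 1612 (.leaf 176 1415 .nil)) .nil)) (.cons 200 (.leaf 224 1607 (.cons 201 (.leaf 176 1415 (.cons 202 (.leaf 178 1421 (.leaf 226 1613 .nil)) .nil)) .nil)) (.cons 200 (.leaf 224 1607 (.cons 322 (.leaf 298 1804 (.cons 202 (.leaf 226 1613 (.cons 321 (.leaf 346 1996 (.cons 345 (.leaf 250 1997 (.cons 344 (.leaf 320 1990 (.leaf 368 2182 .nil)) .nil)) .nil)) .nil)) .nil)) .nil)) (.cons 298 (.leaf 201 1612 (.leaf 322 1804 .nil)) .nil)))) .nil)) .nil)) .nil))))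
noncomputable def t91 : T := .cons 253 (.leaf 254 2002 (.cons 273 (.leaf 272 1985 (.leaf 276 1993 .nil)) .nil)) (.cons 273 (.leaf 272 1985 (.cons 276 (.cons 297 (.leaf 296 2178 (.cons 277 (.leaf 298 2186 (.cons 278 (.leaf 250 2003 (.leaf 279 2011 .nil)) .nil)) .nil)) (.cons 249 (.leaf 248 1987 (.cons 250 (.leaf 277 1992 (.cons 225 (.leaf 224 1795 (.cons 201 (.leaf 177 1420 (.leaf 298 1612 .nil)) .nil)) .nil)) .nil)) (.cons 297 (.leaf 296 2178 (.cons 249 (.leaf 248 1987 (.cons 298 (.leaf 277 2186 (.cons 322 (.leaf 346 2005 (.leaf 225 1804 .nil)) .nil)) .nil)) .nil)) (.cons 249 (.leaf 248 1987 (.cons 297 (.leaf 296 2178 (.cons 250 (.cons 226 (.leaf 202 1614 (.leaf 321 1805 .nil)) (.cons 225 (.leaf 224 1795 (.cons 298 (.leaf 201 1612 (.leaf 322 1804 .nil)) .nil)) .nil)) .nil)) .nil)) (.cons 249 (.leaf 248 1987 (.cons 250 (.leaf 277 1992 (.cons 228 (.leaf 229 1801 (.cons 297 (.leaf 296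 2178 (.cons 226 (.leaf 202 1614 (.leaf 321 1805 .nil)) .nil)) .nil)) .nil)) .nil)) .nil))))) .nil)) (.cons 253 (.leaf 254 2002 (.cons 250 (.cons 229 (.leaf 230 1809 (.cons 249 (.leaf 228 1801 (.cons 276 (.leaf 248 1984 (.leaf 277 1992 .nil)) .nil)) .nil)) (.cons 226 (.leaf 225 1803 (.cons 178 (.leaf 202 1428 (.cons 229 (.leaf 230 1809 (.cons 249 (.leaf 228 1801 (.cons 248 (.leaf 247 1976 (.leaf 276 1984 .nil)) .nil)) .nil)) .nil)) .nil)) (.cons 226 (.leaf 225 1803 (.cons 202 (.leaf 178 1428 (.cons 229 (.leaf 230 1809 (.cons 201 (.leaf 177 1423 (.cons 203 (.leaf 179 1429 (.cons 204 (.leaf 228 1608 (.cons 180 (.leaf 181 1417 (.cons 277 (.leaf 278 2000 (.leaf 205 1447 .nil)) .nil)) .nil)) .nil)) .nil)) .nil)) .nil)) .nil)) (.cons 277 (.leaf 278 2000 (.cons 249 (.leaf 276 1992 (.cons 224 (.leaf 225 1795 (.cons 248 (.leaf 247 1976 (.leaf 223 1787 .nil)) .nil)) .nil)) .nil)) .nil)))) .nil))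 (.cons 253 (.leaf 254 2002 (.cons 273 (.leaf 272 1985 (.leaf 250 1994 .nil)) .nil)) .nil)))
noncomputable def t92 : T := .cons 323 (.cons 228 (.leaf 299 1821 (.cons 204 (.leaf 180 1438 (.cons 276 (.leaf 296 2178 (.cons 205 (.leaf 181 1445 (.cons 229 (.leaf 300 1637 (.cons 203 (.leaf 179 1439 (.cons 230 (.leaf 231 1818 (.leaf 202 1616 .nil)) .nil)) .nil)) .nil)) .nil)) .nil)) .nil)) (.cons 296 (.leaf 276 2178 (.cons 294 (.leaf 295 2161 (.cons 322 (.leaf 324 2371 (.cons 249 (.leaf 346 1996 (.cons 320 (.leaf 225 1798 (.leaf 344 1990 .nil)) .nil)) .nil)) .nil)) .nil)) (.cons 299 (.leaf 228 1821 (.cons 322 (.leaf 346 2006 (.cons 324 (.leaf 348 2012 (.leaf 296 2371 .nil)) .nil)) .nil)) (.cons 299 (.leaf 228 1821 (.cons 322 (.leaf 346 2006 (.cons 347 (.leaf 276 2013 (.cons 348 (.leaf 324 2012 (.leaf 372 2204 .nil)) .nil)) .nil)) .nil)) .nil)))) (.cons 346 (.cons 370 (.leaf 345 2188 (.cons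 322 (.leaf 249 1996 (.leaf 394 2383 .nil)) .nil)) (.cons 345 (.leaf 370 2188 (.cons 344 (.leaf 368 2182 (.cons 320 (.leaf 249 1990 (.cons 319 (.leaf 318 2544 (.leaf 347 2555 .nil)) .nil)) .nil)) .nil)) (.cons 249 (.leaf 322 1996 (.cons 224 (.leaf 248 1799 (.cons 225 (.leaf 200 1607 (.cons 320 (.leaf 296 1798 (.leaf 344 1990 .nil)) .nil)) .nil)) .nil)) (.cons 370 (.leaf 345 2188 (.cons 322 (.leaf 394 2383 (.cons 323 (.leaf 299 2006 (.cons 296 (.leaf 324 2371 (.cons 295 (.leaf 294 2352 (.leaf 320 2363 .nil)) .nil)) .nil)) .nil)) .nil)) .nil)))) (.cons 249 (.cons 344 (.leaf 320 1990 (.cons 345 (.leaf 368 2182 (.cons 346 (.leaf 322 1996 (.leaf 370 2188 .nil)) .nil)) .nil)) (.cons 248 (.leaf 276 1987 (.leaf 224 1799 .nil)) .nil)) (.cons 296 (.leaf 276 2178 (.cons 295 (.leaf 294 2161 (.cons 323 (.cons 299 (.leaf 228 1821 (.cons 322 (.leaf 346 2006 (.leaf 324 2371 .nil)) .nil)) (.cons 299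 (.leaf 228 1821 (.cons 348 (.leaf 324 2012 (.cons 347 (.leaf 372 2204 (.cons 346 (.leaf 370 2198 (.cons 345 (.leaf 320 2563 (.cons 368 (.leaf 344 2182 (.leaf 369 2754 .nil)) .nil)) .nil)) .nil)) .nil)) .nil)) (.cons 322 (.leaf 324 2371 (.leaf 320 2363 .nil)) (.cons 322 (.leaf 320 2363 (.cons 299 (.leaf 228 1821 (.leaf 346 2006 .nil)) .nil)) .nil)))) .nil)) .nil)) (.cons 296 (.leaf 276 2178 (.cons 295 (.leaf 294 2161 (.cons 322 (.cons 323 (.leaf 324 2371 (.leaf 320 2363 .nil)) (.cons 249 (.leaf 346 1996 (.cons 224 (.leaf 248 1799 (.cons 225 (.leaf 200 1607 (.leaf 320 1798 .nil)) .nil)) .nil)) (.cons 323 (.leaf 324 2371 (.cons 299 (.leaf 228 1821 (.leaf 346 2006 .nil)) .nil)) .nil))) .nil)) .nil)) (.cons 249 (.cons 224 (.leaf 248 1799 (.cons 225 (.leaf 200 1607 (.cons 320 (.leaf 296 1798 (.leaf 344 1990 .nil)) .nil)) .nil)) (.cons 296 (.leaf 276 2178 (.cons 320 (.leaf 225 1798 (.leaf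 344 1990 .nil)) .nil)) (.cons 248 (.leaf 276 1987 (.leaf 224 1799 .nil)) .nil))) (.cons 323 (.cons 299 (.leaf 228 1821 (.cons 322 (.leaf 346 2006 (.cons 324 (.leaf 348 2012 (.leaf 296 2371 .nil)) .nil)) .nil)) (.cons 296 (.leaf 276 2178 (.cons 294 (.leaf 295 2161 (.cons 322 (.leaf 324 2371 (.cons 346 (.leaf 249 1996 (.cons 370 (.leaf 345 2188 (.leaf 394 2383 .nil)) .nil)) .nil)) .nil)) .nil)) (.cons 299 (.leaf 228 1821 (.cons 322 (.leaf 346 2006 (.cons 347 (.leaf 276 2013 (.cons 348 (.leaf 324 2012 (.leaf 372 2204 .nil)) .nil)) .nil)) .nil)) (.cons 228 (.leaf 299 1821 (.cons 204 (.leaf 180 1438 (.cons 276 (.leaf 296 2178 (.cons 205 (.leaf 181 1445 (.cons 229 (.leaf 300 1637 (.cons 203 (.leaf 179 1439 (.cons 230 (.leaf 231 1818 (.leaf 202 1616 .nil)) .nil)) .nil)) .nil)) .nil)) .nil)) .nil)) .nil)))) .nil))))))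
noncomputable def t93 : T := .cons 249 (.cons 224 (.leaf 248 1799 (.cons 200 (.leaf 225 1607 (.cons 344 (.leaf 320 1990 (.cons 345 (.leaf 250 1997 (.leaf 368 2182 .nil)) .nil)) .nil)) .nil)) (.cons 320 (.leaf 344 1990 (.cons 224 (.leaf 248 1799 (.cons 225 (.leaf 200 1607 (.leaf 296 1798 .nil)) .nil)) .nil)) (.cons 250 (.leaf 345 1997 (.leaf 226 1805 .nil)) .nil))) (.cons 346 (.cons 345 (.leaf 370 2188 (.cons 322 (.leaf 249 1996 (.cons 323 (.leaf 299 2006 (.cons 324 (.leaf 296 2371 (.leaf 344 2562 .nil)) .nil)) .nil)) .nil)) (.cons 345 (.leaf 370 2188 (.cons 344 (.leaf 368 2182 (.cons 320 (.leaf 249 1990 (.cons 319 (.leaf 318 2544 (.leaf 347 2555 .nil)) .nil)) .nil)) .nil)) (.cons 322 (.leaf 249 1996 (.cons 323 (.leaf 299 2006 (.cons 296 (.leaf 324 2371 (.cons 295 (.leaf 294 2352 (.leaf 320 2363 .nil)) .nil)) .nil)) .nil)) (.cons 370 (.leaf 345 2188 (.cons 322 (.leaf 394 2383 (.cons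 323 (.leaf 299 2006 (.cons 296 (.leaf 324 2371 (.cons 295 (.leaf 294 2352 (.leaf 320 2363 .nil)) .nil)) .nil)) .nil)) .nil)) .nil)))) (.cons 249 (.cons 224 (.leaf 248 1799 (.cons 225 (.leaf 250 1795 (.leaf 200 1607 .nil)) .nil)) (.cons 320 (.leaf 344 1990 (.cons 224 (.leaf 248 1799 (.cons 225 (.leaf 200 1607 (.leaf 296 1798 .nil)) .nil)) .nil)) (.cons 250 (.leaf 226 1805 (.cons 228 (.leaf 229 1801 (.cons 180 (.leaf 204 1438 (.cons 323 (.leaf 299 1821 (.cons 247 (.leaf 248 1976 (.cons 320 (.leaf 344 1990 (.cons 296 (.leaf 225 1798 (.cons 322 (.leaf 346 1996 (.leaf 324 2371 .nil)) .nil)) .nil)) .nil)) .nil)) .nil)) .nil)) .nil)) (.cons 250 (.leaf 226 1805 (.cons 224 (.leaf 225 1795 (.cons 228 (.leaf 229 1801 (.cons 180 (.leaf 204 1438 (.cons 323 (.leaf 299 1821 (.cons 322 (.leaf 346 1996 (.cons 296 (.leaf 324 2371 (.cons 295 (.leaf 294 2352 (.leaf 320 2363 .nil)) .nil)) .nil)) .nil))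 .nil)) .nil)) .nil)) .nil)) (.cons 250 (.leaf 226 1805 (.cons 248 (.leaf 247 1976 (.leaf 224 1799 .nil)) .nil)) .nil))))) (.cons 345 (.leaf 250 1997 (.cons 368 (.leaf 344 2182 (.cons 369 (.leaf 392 2374 (.cons 370 (.leaf 346 2188 (.leaf 394 2380 .nil)) .nil)) .nil)) .nil)) (.cons 250 (.leaf 345 1997 (.cons 226 (.leaf 202 1614 (.leaf 249 1805 .nil)) .nil)) .nil))))
noncomputable def t94 : T := .cons 296 (.leaf 276 2178 (.cons 295 (.leaf 294 2161 (.cons 323 (.cons 299 (.leaf 228 1821 (.cons 250 (.leaf 226 1815 (.leaf 347 2007 .nil)) .nil)) (.cons 321 (.cons 322 (.leaf 324 2371 (.leaf 320 2363 .nil)) (.cons 250 (.leaf 345 1997 (.cons 226 (.leaf 202 1614 (.leaf 249 1805 .nil)) .nil)) .nil)) (.cons 299 (.leaf 228 1821 (.cons 322 (.leaf 346 2006 (.cons 321 (.leaf 324 2371 (.leaf 320 2363 .nil)) .nil)) .nil)) .nil))) .nil)) .nil)) (.cons 321 t93 (.cons 249 (.cons 250 (.cons 226 (.leaf 202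 1614 (.leaf 321 1805 .nil)) (.cons 276 (.leaf 248 1984 (.leaf 277 1992 .nil)) .nil)) (.cons 248 (.leaf 276 1987 (.cons 224 (.leaf 321 1799 (.cons 200 (.leaf 176 1412 (.leaf 225 1607 .nil)) .nil)) .nil)) (.cons 250 (.cons 226 (.leaf 202 1614 (.leaf 321 1805 .nil)) (.cons 276 (.leaf 277 1992 (.cons 228 (.leaf 229 1801 (.cons 299 (.leaf 204 1630 (.leaf 323 1821 .nil)) .nil)) .nil)) .nil)) (.cons 250 (.cons 226 (.leaf 202 1614 (.leaf 321 1805 .nil)) (.cons 224 (.leaf 225 1795 (.cons 248 (.leaf 247 1976 (.leaf 223 1787 .nil)) .nil)) .nil)) (.cons 276 (.leaf 248 1987 (.cons 250 (.leaf 277 1992 (.cons 228 (.leaf 229 1801 (.cons 299 (.leaf 204 1630 (.leaf 323 1821 .nil)) .nil)) .nil)) .nil)) .nil))))) (.cons 321 t92 (.cons 296 (.leaf 276 2178 (.cons 295 (.leaf 294 2161 (.cons 323 (.cons 299 (.leaf 228 1821 (.cons 250 (.leaf 226 1815 (.leaf 347 2007 .nil)) .nil)) (.cons 321 (.cons 322 (.leaf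 324 2371 (.leaf 320 2363 .nil)) (.cons 345 (.leaf 250 1997 (.cons 368 (.leaf 344 2182 (.cons 369 (.leaf 392 2374 (.cons 370 (.leaf 346 2188 (.leaf 394 2380 .nil)) .nil)) .nil)) .nil)) .nil)) (.cons 299 (.leaf 228 1821 (.cons 322 (.leaf 346 2006 (.cons 321 (.leaf 324 2371 (.leaf 320 2363 .nil)) .nil)) .nil)) .nil))) .nil)) .nil)) (.cons 276 (.leaf 296 2178 (.cons 249 (.leaf 248 1987 (.cons 250 (.leaf 277 1992 (.cons 226 (.leaf 202 1614 (.leaf 321 1805 .nil)) .nil)) .nil)) .nil)) (.cons 276 (.leaf 296 2178 (.cons 249 (.leaf 248 1987 (.cons 250 (.leaf 277 1992 (.cons 228 (.leaf 229 1801 (.cons 299 (.leaf 204 1630 (.leaf 323 1821 .nil)) .nil)) .nil)) .nil)) .nil)) .nil))))))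
noncomputable def t95 : T := .cons 252 (.cons 273 (.leaf 272 1985 (.cons 253 (.leaf 254 2002 (.leaf 276 1993 .nil)) .nil)) (.cons 273 (.leaf 272 1985 (.cons 297 t94 .nil)) (.cons 253 (.leaf 254 2002 (.cons 250 (.cons 226 (.leaf 225 1803 (.cons 202 (.leaf 178 1428 (.leaf 299 1620 .nil)) .nil)) (.cons 229 (.leaf 230 1809 (.cons 228 (.leaf 249 1801 (.cons 204 (.leaf 180 1438 (.cons 299 (.leaf 276 1630 (.leaf 323 1821 .nil)) .nil)) .nil)) .nil)) (.cons 229 (.leaf 230 1809 (.cons 249 (.leaf 228 1801 (.cons 276 (.leaf 248 1984 (.leaf 277 1992 .nil)) .nil)) .nil)) .nil))) .nil)) (.cons 253 (.leaf 254 2002 (.cons 273 (.leaf 272 1985 (.leaf 250 1994 .nil)) .nil)) .nil)))) (.cons 252 t91 (.cons 273 (.cons 272 (.leaf 252 1985 (.cons 247 (.leaf 248 1979 (.cons 271 (.leaf 250 1977 (.leaf 246 1971 .nil)) .nil)) .nil)) (.cons 276 t90 (.cons 272 (.cons 247 (.leaf 248 1979 (.cons 271 (.leaf 250 1977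 (.leaf 246 1971 .nil)) .nil)) (.cons 248 (.leaf 247 1979 (.cons 249 (.leaf 276 1987 (.cons 296 (.leaf 295 2170 (.cons 225 (.leaf 201 1606 (.leaf 320 1797 .nil)) .nil)) .nil)) .nil)) (.cons 250 (.leaf 271 1977 (.cons 295 (.leaf 296 2170 (.cons 299 (.leaf 300 2176 (.cons 226 (.leaf 202 1620 (.leaf 323 1815 .nil)) .nil)) .nil)) .nil)) .nil))) (.cons 272 (.leaf 252 1985 (.cons 247 (.leaf 248 1979 (.cons 271 (.leaf 246 1971 (.cons 299 (.leaf 300 2176 (.leaf 298 2168 .nil)) .nil)) .nil)) .nil)) (.cons 272 (.leaf 252 1985 (.cons 250 (.leaf 271 1977 (.cons 295 (.leaf 296 2170 (.cons 299 (.leaf 300 2176 (.cons 226 (.leaf 202 1620 (.leaf 323 1815 .nil)) .nil)) .nil)) .nil)) .nil)) .nil))))) (.cons 273 t89 (.cons 252 (.cons 253 (.leaf 254 2002 (.cons 273 (.leaf 272 1985 (.leaf 276 1993 .nil)) .nil)) (.cons 298 t88 (.cons 253 (.leaf 254 2002 (.cons 250 t79 .nil)) (.cons 253 (.leaf 254 2002 (.cons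 273 (.leaf 272 1985 (.leaf 250 1994 .nil)) .nil)) .nil)))) (.cons 273 t78 (.cons 250 (.cons 252 (.cons 253 (.leaf 254 2002 (.leaf 273 1994 .nil)) (.cons 273 (.leaf 272 1985 (.cons 249 (.cons 276 (.leaf 277 1992 (.cons 228 (.leaf 229 1801 (.cons 297 (.leaf 296 2178 (.cons 299 (.leaf 204 1630 (.leaf 323 1821 .nil)) .nil)) .nil)) .nil)) (.cons 225 (.leaf 224 1795 (.cons 201 (.leaf 177 1420 (.leaf 298 1612 .nil)) .nil)) .nil)) .nil)) (.cons 253 (.leaf 254 2002 (.cons 226 (.leaf 225 1803 (.cons 202 (.leaf 178 1428 (.leaf 299 1620 .nil)) .nil)) .nil)) .nil))) (.cons 226 (.cons 299 (.leaf 202 1620 (.leaf 323 1815 .nil)) (.cons 299 (.leaf 323 1815 (.cons 298 (.cons 322 (.leaf 346 2005 (.cons 225 (.leaf 201 1615 (.leaf 249 1807 .nil)) .nil)) (.cons 297 (.leaf 321 1806 (.cons 276 (.leaf 277 2186 (.leaf 296 2177 .nil)) .nil)) .nil)) .nil)) (.cons 202 (.leaf 178 1428 (.cons 179 (.leaf 203 1429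 (.cons 297 (.leaf 273 1614 (.cons 201 (.leaf 177 1423 (.cons 298 (.leaf 225 1615 (.leaf 321 1806 .nil)) .nil)) .nil)) .nil)) .nil)) .nil))) t76)) (.cons 299 t75 (.cons 273 (.cons 272 (.leaf 252 1985 (.cons 248 (.leaf 247 1979 (.cons 249 (.leaf 276 1987 (.cons 299 (.leaf 300 2176 (.cons 250 (.leaf 271 1977 (.cons 226 (.leaf 202 1620 (.leaf 323 1815 .nil)) .nil)) .nil)) .nil)) .nil)) .nil)) (.cons 272 t73 (.cons 276 t72 (.cons 272 (.leaf 252 1985 (.cons 248 (.leaf 247 1979 (.cons 249 (.leaf 276 1987 (.cons 299 (.leaf 300 2176 (.cons 271 (.leaf 298 2168 (.cons 270 (.leaf 269 1961 (.cons 294 (.leaf 295 2162 (.leaf 293 2154 .nil)) .nil)) .nil)) .nil)) .nil)) .nil)) .nil)) (.cons 272 (.leaf 252 1985 (.cons 271 (.leaf 250 1977 (.cons 299 (.leaf 300 2176 (.leaf 298 2168 .nil)) .nil)) .nil)) (.cons 272 (.leaf 252 1985 (.cons 271 (.leaf 250 1977 (.cons 247 (.leaf 248 1979 (.leaf 246 1971 .nil))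 .nil)) .nil)) .nil)))))) (.cons 252 t71 (.cons 252 (.cons 253 (.leaf 254 2002 (.cons 250 (.leaf 273 1994 (.cons 277 (.leaf 278 2000 (.cons 276 (.leaf 249 1992 (.cons 298 (.leaf 297 2186 (.cons 322 (.leaf 346 2005 (.cons 321 (.leaf 345 1998 (.cons 323 (.leaf 347 2004 (.cons 299 (.leaf 226 1812 (.leaf 228 1821 .nil)) .nil)) .nil)) .nil)) .nil)) .nil)) .nil)) .nil)) .nil)) (.cons 253 (.leaf 254 2002 (.cons 250 t69 .nil)) (.cons 273 (.leaf 272 1985 (.cons 276 t68 .nil)) (.cons 273 (.leaf 272 1985 (.cons 253 (.leaf 254 2002 (.leaf 276 1993 .nil)) .nil)) (.cons 273 (.leaf 272 1985 (.cons 253 (.leaf 254 2002 (.leaf 250 1994 .nil)) .nil)) .nil))))) (.cons 252 t67 .nil)))))))))))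
noncomputable def t96 : T := .cons 226 (.cons 202 (.leaf 178 1428 (.leaf 299 1620 .nil)) (.cons 323 (.leaf 299 1815 (.cons 298 (.cons 322 (.leaf 346 2005 (.leaf 347 2004 .nil)) (.cons 201 (.leaf 225 1615 (.cons 297 (.leaf 321 1806 (.cons 276 (.leaf 277 2186 (.cons 296 (.leaf 273 2178 (.leaf 295 2169 .nil)) .nil)) .nil)) .nil)) .nil)) .nil)) (.cons 202 (.leaf 178 1428 (.cons 179 (.leaf 203 1429 (.cons 201 (.leaf 177 1423 (.cons 225 (.leaf 298 1615 (.cons 224 (.leaf 223 1784 (.cons 252 (.leaf 249 1795 (.leaf 253 1803 .nil)) .nil)) .nil)) .nil)) .nil)) .nil)) .nil))) (.cons 226 (.cons 202 (.leaf 178 1428 (.leaf 299 1620 .nil)) (.cons 323 (.leaf 299 1815 (.cons 298 (.cons 322 (.leaf 346 2005 (.leaf 347 2004 .nil)) (.cons 201 (.leaf 225 1615 (.cons 297 (.leaf 321 1806 (.cons 276 (.leaf 277 2186 (.cons 296 (.leaf 273 2178 (.leaf 295 2169 .nil)) .nil)) .nil)) .nil)) .nil)) .nil)) (.cons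 202 (.leaf 178 1428 (.cons 179 (.leaf 203 1429 (.cons 297 (.leaf 273 1614 (.cons 201 (.leaf 177 1423 (.cons 298 (.leaf 225 1615 (.leaf 321 1806 .nil)) .nil)) .nil)) .nil)) .nil)) .nil))) (.cons 226 (.cons 323 (.leaf 299 1815 (.cons 298 (.cons 322 (.leaf 346 2005 (.leaf 347 2004 .nil)) (.cons 225 (.leaf 201 1615 (.cons 224 (.leaf 223 1784 (.cons 252 (.leaf 249 1795 (.leaf 253 1803 .nil)) .nil)) .nil)) .nil)) .nil)) (.cons 202 (.leaf 178 1428 (.cons 179 (.leaf 203 1429 (.cons 297 (.leaf 273 1614 (.cons 201 (.leaf 177 1423 (.cons 298 (.leaf 225 1615 (.leaf 321 1806 .nil)) .nil)) .nil)) .nil)) .nil)) (.cons 202 (.leaf 178 1428 (.leaf 299 1620 .nil)) .nil))) (.cons 276 (.cons 277 (.leaf 249 1995 (.leaf 278 2003 .nil)) (.cons 277 (.leaf 278 2003 (.cons 253 (.leaf 254 2001 (.cons 252 (.leaf 273 1993 (.cons 229 (.leaf 230 1809 (.cons 205 (.leaf 181 1446 (.leaf 300 1638 .nil)) .nil)) .nil))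 .nil)) .nil)) (.cons 249 (.leaf 248 1984 (.cons 252 (.cons 253 (.leaf 254 2002 (.leaf 273 1993 .nil)) (.cons 228 (.leaf 229 1801 (.cons 204 (.leaf 180 1438 (.leaf 299 1630 .nil)) .nil)) .nil)) .nil)) .nil))) (.cons 249 (.cons 248 (.leaf 247 1976 (.leaf 276 1984 .nil)) (.cons 248 (.leaf 247 1976 (.cons 224 (.leaf 223 1787 (.cons 225 (.leaf 252 1795 (.cons 201 (.leaf 177 1420 (.cons 298 (.leaf 226 1615 (.leaf 273 1612 .nil)) .nil)) .nil)) .nil)) .nil)) (.cons 276 (.leaf 277 1995 (.cons 252 (.cons 253 (.leaf 254 2002 (.leaf 273 1993 .nil)) (.cons 225 (.leaf 224 1795 (.cons 177 (.leaf 201 1420 (.cons 228 (.leaf 229 1801 (.cons 204 (.leaf 180 1438 (.cons 203 (.leaf 179 1439 (.cons 205 (.leaf 181 1445 (.cons 202 (.leaf 226 1610 (.leaf 178 1419 .nil)) .nil)) .nil)) .nil)) .nil)) .nil)) .nil)) .nil)) .nil)) .nil))) (.cons 226 (.cons 323 (.leaf 299 1815 (.cons 298 (.cons 322 (.leaf 346 2005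 (.leaf 347 2004 .nil)) (.cons 225 (.leaf 201 1615 (.cons 224 (.leaf 223 1784 (.cons 252 (.leaf 249 1795 (.leaf 253 1803 .nil)) .nil)) .nil)) .nil)) .nil)) (.cons 202 (.leaf 178 1428 (.cons 179 (.leaf 203 1429 (.cons 201 (.leaf 177 1423 (.cons 225 (.leaf 298 1615 (.cons 224 (.leaf 223 1784 (.cons 252 (.leaf 249 1795 (.leaf 253 1803 .nil)) .nil)) .nil)) .nil)) .nil)) .nil)) (.cons 202 (.leaf 178 1428 (.leaf 299 1620 .nil)) .nil))) .nil)))))
noncomputable def t97 : T := .cons 252 (.cons 272 (.leaf 273 1985 (.cons 253 (.leaf 254 2002 (.cons 226 (.leaf 225 1803 (.cons 202 (.leaf 178 1428 (.leaf 299 1620 .nil)) .nil)) .nil)) .nil)) (.cons 253 (.leaf 254 2002 (.cons 226 (.leaf 225 1803 (.cons 202 (.leaf 178 1428 (.leaf 299 1620 .nil)) .nil)) .nil)) (.cons 272 (.leaf 273 1985 (.cons 249 (.cons 224 (.leaf 225 1795 (.cons 248 (.leaf 247 1976 (.leaf 223 1787 .nil)) .nil)) (.cons 225 (.leaf 224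 1795 (.cons 228 (.leaf 229 1801 (.cons 298 (.leaf 322 1807 (.cons 201 (.leaf 177 1420 (.leaf 226 1615 .nil)) .nil)) .nil)) .nil)) (.cons 248 (.leaf 247 1976 (.leaf 271 1978 .nil)) .nil))) .nil)) (.cons 273 (.leaf 272 1985 (.leaf 253 1994 .nil)) .nil)))) (.cons 252 (.cons 249 (.cons 224 (.leaf 225 1795 (.cons 229 (.leaf 228 1801 (.cons 273 (.leaf 272 1985 (.leaf 253 1994 .nil)) .nil)) .nil)) (.cons 224 (.leaf 225 1795 (.cons 229 (.leaf 228 1801 (.cons 248 (.leaf 247 1976 (.leaf 223 1787 .nil)) .nil)) .nil)) (.cons 272 (.leaf 273 1985 (.cons 248 (.leaf 247 1976 (.leaf 271 1978 .nil)) .nil)) .nil))) (.cons 253 (.leaf 254 2002 (.cons 229 (.leaf 230 1809 (.cons 249 (.leaf 228 1801 (.cons 224 (.leaf 225 1795 (.cons 248 (.leaf 247 1976 (.leaf 223 1787 .nil)) .nil)) .nil)) .nil)) .nil)) (.cons 249 (.cons 224 (.leaf 225 1795 (.cons 248 (.leaf 247 1976 (.leaf 223 1787 .nil)) .nil)) (.cons 273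 (.leaf 272 1985 (.cons 225 (.leaf 224 1795 (.cons 201 (.leaf 177 1420 (.leaf 298 1612 .nil)) .nil)) .nil)) (.cons 272 (.leaf 273 1985 (.cons 248 (.leaf 247 1976 (.leaf 271 1978 .nil)) .nil)) .nil))) (.cons 273 (.leaf 272 1985 (.leaf 253 1994 .nil)) .nil)))) (.cons 226 (.cons 202 (.leaf 178 1428 (.leaf 299 1620 .nil)) (.cons 323 (.leaf 299 1815 (.cons 298 (.cons 322 (.leaf 346 2005 (.leaf 347 2004 .nil)) (.cons 225 (.leaf 201 1615 (.cons 224 (.leaf 223 1784 (.cons 252 (.leaf 249 1795 (.leaf 253 1803 .nil)) .nil)) .nil)) .nil)) .nil)) (.cons 202 (.leaf 178 1428 (.cons 179 (.leaf 203 1429 (.cons 201 (.leaf 177 1423 (.cons 225 (.leaf 298 1615 (.cons 224 (.leaf 223 1784 (.cons 252 (.leaf 249 1795 (.leaf 253 1803 .nil)) .nil)) .nil)) .nil)) .nil)) .nil)) .nil))) (.cons 226 (.cons 202 (.leaf 178 1428 (.leaf 299 1620 .nil)) (.cons 299 (.leaf 323 1815 (.cons 298 (.cons 321 (.leaf 297 1806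 (.cons 322 (.leaf 346 2005 (.leaf 345 1998 .nil)) .nil)) (.cons 297 (.leaf 321 1806 (.cons 201 (.leaf 225 1615 (.cons 296 (.leaf 295 2169 (.cons 272 (.leaf 271 2171 (.cons 273 (.leaf 300 2176 (.cons 247 (.leaf 248 1979 (.cons 320 (.leaf 319 2362 (.cons 344 (.leaf 368 2181 (.leaf 249 1989 .nil)) .nil)) .nil)) .nil)) .nil)) .nil)) .nil)) .nil)) (.cons 322 (.leaf 346 2005 (.cons 225 (.leaf 201 1615 (.leaf 249 1807 .nil)) .nil)) .nil))) .nil)) (.cons 202 (.leaf 178 1428 (.cons 179 (.leaf 203 1429 (.cons 273 (.leaf 297 1614 (.cons 201 (.leaf 177 1423 (.cons 225 (.leaf 298 1615 (.cons 223 (.leaf 224 1784 (.cons 272 (.leaf 271 1977 (.cons 296 (.leaf 295 2170 (.leaf 249 1606 .nil)) .nil)) .nil)) .nil)) .nil)) .nil)) .nil)) .nil)) .nil))) (.cons 226 (.cons 298 (.cons 321 (.leaf 297 1806 (.cons 322 (.leaf 346 2005 (.leaf 345 1998 .nil)) .nil)) (.cons 299 (.leaf 202 1620 (.leaf 323 1812 .nil))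 .nil)) (.cons 298 (.cons 321 (.leaf 297 1806 (.cons 322 (.leaf 346 2005 (.leaf 345 1998 .nil)) .nil)) (.cons 299 (.leaf 323 1812 (.cons 297 (.leaf 321 1806 (.cons 296 (.leaf 295 2169 (.cons 272 (.leaf 271 2171 (.cons 273 (.leaf 252 1985 (.leaf 300 2176 .nil)) .nil)) .nil)) .nil)) .nil)) (.cons 323 (.leaf 299 1812 (.cons 322 (.leaf 346 2005 (.leaf 347 2004 .nil)) .nil)) .nil))) (.cons 202 (.leaf 178 1428 (.cons 179 (.leaf 203 1429 (.cons 273 (.leaf 297 1614 (.cons 252 (.leaf 272 1985 (.leaf 253 1994 .nil)) .nil)) .nil)) .nil)) (.cons 202 (.leaf 178 1428 (.leaf 299 1620 .nil)) .nil)))) (.cons 252 (.cons 249 (.cons 273 (.leaf 272 1985 (.leaf 253 1994 .nil)) (.cons 253 (.leaf 254 2002 (.cons 225 (.leaf 224 1795 (.leaf 226 1803 .nil)) .nil)) (.cons 273 (.leaf 272 1985 (.cons 225 (.leaf 224 1795 (.cons 201 (.leaf 177 1420 (.cons 176 (.leaf 200 1415 (.cons 202 (.leaf 178 1421 (.cons 226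 (.leaf 299 1620 (.leaf 297 1613 .nil)) .nil)) .nil)) .nil)) .nil)) .nil)) .nil))) (.cons 249 (.cons 273 (.leaf 272 1985 (.cons 225 (.leaf 224 1795 (.cons 201 (.leaf 177 1420 (.cons 176 (.leaf 200 1415 (.cons 202 (.leaf 178 1421 (.cons 226 (.leaf 299 1620 (.leaf 297 1613 .nil)) .nil)) .nil)) .nil)) .nil)) .nil)) (.cons 248 (.leaf 247 1976 (.cons 224 (.leaf 223 1787 (.leaf 225 1795 .nil)) .nil)) (.cons 272 (.leaf 273 1985 (.cons 248 (.leaf 247 1976 (.leaf 271 1978 .nil)) .nil)) .nil))) (.cons 253 (.leaf 254 2002 (.cons 226 (.leaf 225 1803 (.cons 202 (.leaf 178 1428 (.leaf 299 1620 .nil)) .nil)) .nil)) (.cons 253 (.leaf 254 2002 (.leaf 273 1994 .nil)) .nil)))) .nil)))))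
noncomputable def t98 : T := .cons 370 (.leaf 346 2188 (.cons 294 (.leaf 295 2161 (.cons 368 (.leaf 344 2182 (.cons 369 (.leaf 392 2374 (.leaf 394 2380 .nil)) .nil)) .nil)) .nil)) (.cons 295 (.leaf 294 2161 (.cons 369 (.cons 393 (.leaf 320 2375 (.cons 416 (.leaf 392 2566 (.cons 417 (.leaf 440 2758 (.cons 346 (.leaf 370 2188 (.leaf 322 2573 .nil)) .nil)) .nil)) .nil)) (.cons 393 (.leaf 320 2375 (.cons 416 (.leaf 392 2566 (.cons 417 (.leaf 440 2758 (.cons 418 (.leaf 394 2572 (.leaf 442 2764 .nil)) .nil)) .nil)) .nil)) (.cons 370 (.leaf 346 2188 (.leaf 394 2380 .nil)) .nil))) .nil)) (.cons 368 (.leaf 344 2182 (.cons 369 (.leaf 392 2374 (.cons 393 (.leaf 320 2375 (.cons 394 (.leaf 370 2380 (.leaf 418 2572 .nil)) .nil)) .nil)) .nil)) (.cons 322 (.cons 323 (.leaf 324 2371 (.cons 299 (.leaf 346 2006 (.cons 228 (.leaf 252 1821 (.cons 320 (.leaf 295 2363 (.leaf 300 2369 .nil)) .nil)) .nil))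 .nil)) (.cons 323 (.leaf 324 2371 (.cons 299 (.leaf 346 2006 (.cons 228 (.leaf 252 1821 (.cons 320 (.leaf 300 2369 (.cons 344 (.leaf 368 2181 (.leaf 343 2554 .nil)) .nil)) .nil)) .nil)) .nil)) (.cons 368 (.leaf 344 2182 (.cons 369 (.leaf 392 2374 (.cons 393 (.leaf 320 2375 (.cons 294 (.leaf 295 2352 (.cons 417 (.leaf 346 2573 (.cons 418 (.leaf 394 2572 (.leaf 442 2764 .nil)) .nil)) .nil)) .nil)) .nil)) .nil)) (.cons 294 (.leaf 295 2352 (.cons 323 (.leaf 324 2371 (.cons 344 (.leaf 368 2182 (.cons 343 (.leaf 342 2545 (.leaf 346 2553 .nil)) .nil)) .nil)) .nil)) (.cons 294 (.leaf 295 2352 (.cons 323 (.leaf 324 2371 (.cons 344 (.leaf 368 2182 (.cons 343 (.leaf 320 2554 (.leaf 342 2545 .nil)) .nil)) .nil)) .nil)) .nil))))) (.cons 344 (.leaf 368 2182 (.cons 346 (.leaf 370 2188 (.cons 295 (.leaf 294 2161 (.cons 320 (.cons 319 (.leaf 318 2544 (.leaf 347 2555 .nil)) (.cons 323 (.leaf 322 2363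 (.cons 347 (.leaf 348 2563 (.leaf 324 2561 .nil)) .nil)) (.cons 319 (.leaf 318 2544 (.cons 322 (.leaf 323 2363 (.cons 343 (.leaf 342 2545 (.cons 367 (.leaf 391 2365 (.leaf 366 2738 .nil)) .nil)) .nil)) .nil)) .nil))) .nil)) .nil)) .nil)) .nil))))
noncomputable def t99 : T := .cons 249 (.cons 248 (.leaf 276 1987 (.leaf 224 1799 .nil)) (.cons 344 (.leaf 320 1990 (.cons 345 (.leaf 368 2182 (.cons 346 (.leaf 322 1996 (.leaf 370 2188 .nil)) .nil)) .nil)) .nil)) (.cons 346 (.cons 249 (.leaf 322 1996 (.cons 224 (.leaf 248 1799 (.cons 225 (.leaf 200 1607 (.cons 320 (.leaf 296 1798 (.leaf 344 1990 .nil)) .nil)) .nil)) .nil)) (.cons 345 (.leaf 370 2188 (.cons 344 (.leaf 368 2182 (.cons 320 (.leaf 249 1990 (.cons 319 (.leaf 318 2544 (.leaf 347 2555 .nil)) .nil)) .nil)) .nil)) (.cons 370 (.leaf 345 2188 (.cons 322 (.leaf 394 2383 (.cons 323 (.leaf 299 2006 (.cons 296 (.leaf 324 2371 (.cons 295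 (.leaf 294 2352 (.leaf 320 2363 .nil)) .nil)) .nil)) .nil)) .nil)) (.cons 322 (.leaf 249 1996 (.cons 370 (.leaf 345 2188 (.leaf 394 2383 .nil)) .nil)) .nil)))) (.cons 296 (.leaf 276 2178 (.cons 345 t98 .nil)) (.cons 249 (.cons 248 (.leaf 276 1987 (.leaf 224 1799 .nil)) (.cons 320 (.leaf 344 1990 (.cons 224 (.leaf 248 1799 (.cons 225 (.leaf 200 1607 (.leaf 296 1798 .nil)) .nil)) .nil)) (.cons 296 (.leaf 276 2178 (.cons 320 (.leaf 225 1798 (.leaf 344 1990 .nil)) .nil)) .nil))) (.cons 296 (.leaf 276 2178 (.cons 295 (.leaf 294 2161 (.cons 322 (.cons 249 (.leaf 346 1996 (.cons 323 (.leaf 324 2371 (.leaf 320 2363 .nil)) .nil)) (.cons 249 (.leaf 346 1996 (.cons 224 (.leaf 248 1799 (.cons 225 (.leaf 200 1607 (.leaf 320 1798 .nil)) .nil)) .nil)) (.cons 323 (.leaf 324 2371 (.leaf 320 2363 .nil)) (.cons 346 (.leaf 249 1996 (.cons 323 (.leaf 299 2006 (.leaf 324 2371 .nil)) .nil)) .nil)))) .nil))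 .nil)) (.cons 276 (.leaf 296 2178 (.cons 249 (.leaf 248 1987 (.cons 252 (.leaf 253 1993 (.cons 346 (.leaf 322 1996 (.cons 345 (.leaf 370 2188 (.cons 225 (.cons 200 (.leaf 224 1607 (.cons 201 (.leaf 176 1415 (.cons 202 (.leaf 178 1421 (.leaf 226 1613 .nil)) .nil)) .nil)) (.cons 347 (.cons 200 (.leaf 224 1607 (.cons 323 (.leaf 299 2013 (.cons 324 (.leaf 300 2014 (.leaf 344 2561 .nil)) .nil)) .nil)) (.cons 200 (.leaf 224 1607 (.cons 368 (.leaf 344 2182 (.cons 369 (.leaf 392 2374 (.leaf 348 2754 .nil)) .nil)) .nil)) (.cons 323 (.leaf 299 2013 (.cons 324 (.leaf 300 2014 (.cons 325 (.leaf 326 2578 (.leaf 348 2569 .nil)) .nil)) .nil)) .nil))) (.cons 347 (.cons 323 (.leaf 299 2013 (.cons 324 (.leaf 300 2014 (.leaf 344 2561 .nil)) .nil)) (.cons 202 (.leaf 226 1613 (.cons 368 (.leaf 344 2182 (.cons 369 (.leaf 392 2374 (.leaf 348 2754 .nil)) .nil)) .nil)) (.cons 323 (.leaf 299 2013 (.cons 324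 (.leaf 300 2014 (.cons 325 (.leaf 326 2578 (.leaf 348 2569 .nil)) .nil)) .nil)) .nil))) .nil))) .nil)) .nil)) .nil)) .nil)) .nil)) .nil)))))
noncomputable def t100 : T := .cons 276 (.leaf 248 1987 (.cons 253 (.leaf 252 1993 (.cons 321 (.cons 344 (.leaf 320 1990 (.cons 345 (.leaf 368 2182 (.cons 369 (.leaf 298 2189 (.cons 370 (.leaf 346 2188 (.leaf 394 2380 .nil)) .nil)) .nil)) .nil)) (.cons 344 (.leaf 320 1990 (.cons 345 (.leaf 368 2182 (.cons 346 (.leaf 322 1996 (.leaf 370 2188 .nil)) .nil)) .nil)) (.cons 344 (.leaf 320 1990 (.cons 345 (.leaf 368 2182 (.cons 298 (.leaf 277 2186 (.leaf 369 2189 .nil)) .nil)) .nil)) (.cons 322 (.leaf 346 1996 (.cons 225 (.leaf 298 1804 (.cons 200 (.leaf 224 1607 (.cons 201 (.leaf 176 1415 (.cons 202 (.leaf 178 1421 (.leaf 226 1613 .nil)) .nil)) .nil)) .nil)) .nil)) .nil)))) .nil)) .nil)) (.cons 225 (.cons 202 (.leaf 226 1613 (.cons 224 (.leaf 200 1607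 (.cons 201 (.leaf 298 1612 (.leaf 178 1421 .nil)) .nil)) .nil)) (.cons 200 (.leaf 224 1607 (.cons 201 (.leaf 176 1415 (.cons 202 (.leaf 178 1421 (.leaf 226 1613 .nil)) .nil)) .nil)) (.cons 202 (.leaf 226 1613 (.cons 224 (.leaf 200 1607 (.cons 322 (.leaf 298 1804 (.cons 321 (.leaf 248 1799 (.leaf 346 1996 .nil)) .nil)) .nil)) .nil)) (.cons 298 (.leaf 201 1612 (.leaf 322 1804 .nil)) .nil)))) (.cons 321 (.cons 344 (.leaf 320 1990 (.cons 345 (.leaf 368 2182 (.cons 346 (.leaf 322 1996 (.leaf 370 2188 .nil)) .nil)) .nil)) (.cons 344 (.leaf 320 1990 (.cons 345 (.leaf 368 2182 (.cons 369 (.leaf 298 2189 (.cons 370 (.leaf 346 2188 (.leaf 394 2380 .nil)) .nil)) .nil)) .nil)) (.cons 344 (.leaf 320 1990 (.cons 345 (.leaf 368 2182 (.cons 298 (.leaf 369 2189 (.cons 225 (.leaf 201 1612 (.leaf 322 1804 .nil)) .nil)) .nil)) .nil)) (.cons 322 (.leaf 346 1996 (.cons 225 (.leaf 298 1804 (.cons 202 (.leaf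 226 1613 (.cons 200 (.leaf 224 1607 (.cons 201 (.leaf 176 1415 (.leaf 178 1421 .nil)) .nil)) .nil)) .nil)) .nil)) .nil)))) (.cons 248 (.leaf 276 1987 (.cons 224 (.leaf 321 1799 (.cons 200 (.leaf 176 1412 (.leaf 225 1607 .nil)) .nil)) .nil)) (.cons 276 (.leaf 248 1987 (.cons 253 (.leaf 252 1993 (.cons 277 (.leaf 254 2001 (.leaf 298 2186 .nil)) .nil)) .nil)) .nil))))
noncomputable def t101 : T := .cons 249 (.cons 224 (.leaf 248 1799 (.cons 225 (.leaf 200 1607 (.leaf 320 1798 .nil)) .nil)) (.cons 224 (.leaf 248 1799 (.cons 346 (.leaf 322 1996 (.cons 345 (.leaf 370 2188 (.cons 295 (.leaf 298 2169 (.leaf 294 2161 .nil)) .nil)) .nil)) .nil)) (.cons 295 (.leaf 298 2169 (.leaf 294 2161 .nil)) .nil))) (.cons 249 (.cons 224 (.leaf 248 1799 (.cons 225 (.leaf 200 1607 (.leaf 320 1798 .nil)) .nil)) (.cons 224 (.leaf 248 1799 (.cons 346 (.leaf 322 1996 (.cons 345 (.leaf 370 2188 (.cons 369 (.leaf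 298 2189 (.cons 392 (.leaf 368 2374 (.cons 393 (.leaf 320 2375 (.leaf 416 2566 .nil)) .nil)) .nil)) .nil)) .nil)) .nil)) (.cons 224 (.leaf 248 1799 (.cons 225 (.leaf 200 1607 (.cons 201 (.leaf 298 1612 (.cons 202 (.leaf 178 1421 (.leaf 226 1613 .nil)) .nil)) .nil)) .nil)) (.cons 225 (.leaf 320 1798 (.cons 298 (.leaf 201 1612 (.leaf 322 1804 .nil)) .nil)) .nil)))) (.cons 295 (.leaf 294 2161 (.cons 322 (.cons 249 (.leaf 346 1996 (.cons 323 (.leaf 324 2371 (.leaf 320 2363 .nil)) .nil)) (.cons 249 (.leaf 346 1996 (.cons 224 (.leaf 248 1799 (.cons 225 (.leaf 200 1607 (.leaf 320 1798 .nil)) .nil)) .nil)) (.cons 323 (.leaf 324 2371 (.leaf 320 2363 .nil)) (.cons 346 (.leaf 249 1996 (.cons 323 (.leaf 299 2006 (.leaf 324 2371 .nil)) .nil)) .nil)))) .nil)) (.cons 295 (.leaf 298 2169 (.leaf 294 2161 .nil)) .nil)))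
noncomputable def t102 : T := .cons 248 (.leaf 224 1799 (.cons 320 (.leaf 344 1990 (.cons 246 (.leaf 247 1968 (.cons 225 (.leaf 296 1798 (.cons 298 (.leaf 201 1612 (.leaf 322 1804 .nil)) .nil)) .nil)) .nil)) .nil)) (.cons 224 (.leaf 248 1799 (.cons 225 (.leaf 200 1607 (.cons 298 (.leaf 201 1612 (.leaf 322 1804 .nil)) .nil)) .nil)) (.cons 248 (.leaf 224 1799 (.cons 320 (.leaf 344 1990 (.cons 246 (.leaf 247 1968 (.cons 298 (.cons 295 (.leaf 296 2169 (.cons 299 (.leaf 300 2370 (.cons 319 (.leaf 318 2353 (.leaf 322 2361 .nil)) .nil)) .nil)) (.cons 299 (.leaf 300 2370 (.cons 319 (.leaf 318 2353 (.leaf 322 2361 .nil)) .nil)) (.cons 296 (.leaf 295 2169 (.cons 299 (.leaf 300 2370 (.cons 323 (.leaf 324 2368 (.cons 347 (.leaf 371 2199 (.cons 348 (.leaf 372 2204 (.leaf 322 2560 .nil)) .nil)) .nil)) .nil)) .nil)) (.cons 295 (.leaf 296 2169 (.cons 319 (.leaf 318 2353 (.cons 294 (.leaf 322 2355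 (.cons 270 (.leaf 222 1780 (.cons 343 (.leaf 271 1975 (.leaf 367 2167 .nil)) .nil)) .nil)) .nil)) .nil)) (.cons 296 (.leaf 295 2169 (.cons 299 (.leaf 319 2362 (.leaf 300 2370 .nil)) .nil)) .nil))))) .nil)) .nil)) .nil)) (.cons 320 (.leaf 344 1990 (.cons 225 (.leaf 296 1798 (.cons 298 (.leaf 201 1612 (.leaf 322 1804 .nil)) .nil)) .nil)) (.cons 224 (.leaf 248 1799 (.cons 225 (.leaf 200 1607 (.cons 320 (.leaf 296 1798 (.leaf 344 1990 .nil)) .nil)) .nil)) .nil))))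
noncomputable def t103 : T := .cons 296 (.cons 249 (.cons 224 (.leaf 248 1799 (.cons 225 (.leaf 200 1607 (.leaf 320 1798 .nil)) .nil)) (.cons 295 (.leaf 298 2169 (.leaf 294 2161 .nil)) .nil)) (.cons 249 (.cons 224 (.leaf 248 1799 (.cons 225 (.leaf 200 1607 (.leaf 320 1798 .nil)) .nil)) (.cons 224 (.leaf 248 1799 (.cons 225 (.leaf 200 1607 (.cons 201 (.leaf 298 1612 (.cons 202 (.leaf 178 1421 (.leaf 226 1613 .nil)) .nil)) .nil)) .nil)) (.cons 224 (.leaf 248 1799 (.cons 346 (.leaf 322 1996 (.cons 345 (.leaf 370 2188 (.cons 344 (.leaf 320 1990 (.leaf 368 2182 .nil)) .nil)) .nil)) .nil)) (.cons 320 (.leaf 225 1798 (.leaf 344 1990 .nil)) .nil)))) (.cons 295 (.leaf 294 2161 (.cons 322 (.cons 249 (.leaf 346 1996 (.cons 320 (.leaf 225 1798 (.leaf 344 1990 .nil)) .nil)) (.cons 346 (.leaf 249 1996 (.cons 323 (.leaf 299 2006 (.leaf 324 2371 .nil)) .nil)) (.cons 323 (.leaf 324 2371 (.leaf 320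 2363 .nil)) .nil))) .nil)) (.cons 295 (.leaf 298 2169 (.leaf 294 2161 .nil)) .nil)))) (.cons 346 (.cons 370 (.leaf 345 2188 (.cons 322 (.leaf 249 1996 (.leaf 394 2383 .nil)) .nil)) (.cons 345 (.leaf 370 2188 (.cons 344 (.leaf 368 2182 (.cons 320 (.leaf 249 1990 (.cons 319 (.leaf 318 2544 (.leaf 347 2555 .nil)) .nil)) .nil)) .nil)) (.cons 249 (.leaf 322 1996 (.cons 224 (.leaf 248 1799 (.cons 225 (.leaf 200 1607 (.cons 320 (.leaf 296 1798 (.leaf 344 1990 .nil)) .nil)) .nil)) .nil)) (.cons 370 (.leaf 345 2188 (.cons 322 (.leaf 394 2383 (.cons 323 (.leaf 299 2006 (.cons 296 (.leaf 324 2371 (.cons 295 (.leaf 294 2352 (.leaf 320 2363 .nil)) .nil)) .nil)) .nil)) .nil)) .nil)))) (.cons 345 (.cons 344 (.leaf 368 2182 (.cons 346 (.leaf 370 2188 (.cons 322 (.leaf 298 2005 (.cons 323 (.leaf 299 2006 (.leaf 324 2562 .nil)) .nil)) .nil)) .nil)) (.cons 369 (.leaf 298 2189 (.cons 392 (.leaf 368 2374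 (.cons 393 (.leaf 416 2566 (.cons 394 (.leaf 370 2380 (.leaf 418 2572 .nil)) .nil)) .nil)) .nil)) (.cons 368 (.leaf 344 2182 (.cons 369 (.leaf 392 2374 (.cons 370 (.leaf 346 2188 (.leaf 394 2380 .nil)) .nil)) .nil)) (.cons 298 (.leaf 369 2189 (.cons 295 (.leaf 296 2169 (.cons 322 (.leaf 346 2005 (.cons 344 (.leaf 368 2182 (.cons 323 (.leaf 324 2562 (.cons 343 (.leaf 320 2554 (.leaf 342 2545 .nil)) .nil)) .nil)) .nil)) .nil)) .nil)) (.cons 298 (.leaf 369 2189 (.cons 346 (.leaf 322 2005 (.leaf 370 2188 .nil)) .nil)) .nil))))) (.cons 345 (.cons 369 (.leaf 298 2189 (.cons 370 (.leaf 346 2188 (.leaf 394 2380 .nil)) .nil)) (.cons 344 (.leaf 368 2182 (.cons 249 (.leaf 320 1990 (.cons 224 (.leaf 248 1799 (.cons 225 (.leaf 200 1607 (.cons 201 (.leaf 298 1612 (.cons 202 (.leaf 178 1421 (.leaf 226 1613 .nil)) .nil)) .nil)) .nil)) .nil)) .nil)) (.cons 344 (.leaf 368 2182 (.cons 320 (.leaf 249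 1990 (.cons 346 (.leaf 370 2188 (.cons 319 (.leaf 318 2544 (.leaf 347 2555 .nil)) .nil)) .nil)) .nil)) .nil))) (.cons 249 t102 (.cons 346 (.cons 322 (.leaf 298 2005 (.leaf 249 1996 .nil)) (.cons 345 (.leaf 370 2188 (.cons 368 (.leaf 344 2182 (.cons 369 (.leaf 298 2189 (.leaf 392 2374 .nil)) .nil)) .nil)) (.cons 322 (.leaf 249 1996 (.cons 370 (.leaf 345 2188 (.leaf 394 2383 .nil)) .nil)) .nil))) (.cons 296 t101 .nil))))))
noncomputable def t104 : T := .cons 298 (.cons 295 (.leaf 296 2169 (.cons 322 (.leaf 346 2005 (.cons 345 (.leaf 369 2189 (.cons 344 (.leaf 368 2182 (.cons 323 (.leaf 324 2562 (.cons 343 (.leaf 320 2554 (.leaf 342 2545 .nil)) .nil)) .nil)) .nil)) .nil)) .nil)) (.cons 346 (.leaf 322 2005 (.cons 345 (.leaf 369 2189 (.leaf 370 2188 .nil)) .nil)) (.cons 295 (.leaf 296 2169 (.cons 345 (.leaf 369 2189 (.cons 344 (.leaf 368 2182 (.cons 320 (.leaf 249 1990 (.cons 299 (.leaf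 300 2370 (.cons 319 (.leaf 318 2353 (.cons 346 (.leaf 370 2188 (.leaf 347 2555 .nil)) .nil)) .nil)) .nil)) .nil)) .nil)) .nil)) (.cons 295 (.leaf 296 2169 (.cons 345 (.leaf 369 2189 (.cons 344 (.leaf 368 2182 (.cons 249 (.leaf 320 1990 (.cons 224 (.leaf 248 1799 (.cons 225 (.leaf 201 1612 (.leaf 200 1607 .nil)) .nil)) .nil)) .nil)) .nil)) .nil)) (.cons 295 (.leaf 296 2169 (.cons 322 (.leaf 346 2005 (.cons 249 (.leaf 225 1804 (.cons 224 (.leaf 248 1799 (.cons 320 (.leaf 344 1990 (.cons 319 (.leaf 318 2353 (.leaf 294 2355 .nil)) .nil)) .nil)) .nil)) .nil)) .nil)) .nil))))) (.cons 249 (.cons 320 (.leaf 344 1990 (.cons 322 (.leaf 346 1996 (.cons 298 (.leaf 225 1804 (.cons 299 (.leaf 300 2370 (.leaf 319 2361 .nil)) .nil)) .nil)) .nil)) (.cons 248 (.leaf 276 1987 (.leaf 224 1799 .nil)) .nil)) (.cons 296 (.leaf 276 2178 (.cons 295 (.leaf 272 2170 (.leaf 294 2161 .nil)) .nil)) .nil))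
noncomputable def t105 : T := .cons 272 (.leaf 252 1985 (.cons 248 (.leaf 247 1979 (.leaf 345 1991 .nil)) .nil)) (.cons 298 (.cons 295 (.leaf 296 2169 (.cons 322 (.leaf 346 2005 (.cons 345 (.leaf 369 2189 (.cons 344 (.leaf 368 2182 (.cons 323 (.leaf 324 2562 (.cons 343 (.leaf 320 2554 (.leaf 342 2545 .nil)) .nil)) .nil)) .nil)) .nil)) .nil)) (.cons 295 (.leaf 296 2169 (.cons 345 (.leaf 369 2189 (.cons 344 (.leaf 368 2182 (.cons 320 (.leaf 249 1990 (.cons 299 (.leaf 300 2370 (.cons 319 (.leaf 318 2353 (.cons 346 (.leaf 370 2188 (.leaf 347 2555 .nil)) .nil)) .nil)) .nil)) .nil)) .nil)) .nil)) (.cons 295 (.leaf 296 2169 (.cons 345 (.leaf 369 2189 (.cons 344 (.leaf 368 2182 (.cons 249 (.leaf 320 1990 (.cons 224 (.leaf 248 1799 (.cons 225 (.leaf 201 1612 (.leaf 200 1607 .nil)) .nil)) .nil)) .nil)) .nil)) .nil)) (.cons 295 (.leaf 296 2169 (.cons 322 (.leaf 346 2005 (.cons 249 (.leaf 225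 1804 (.cons 224 (.leaf 248 1799 (.cons 320 (.leaf 344 1990 (.cons 319 (.leaf 318 2353 (.leaf 294 2355 .nil)) .nil)) .nil)) .nil)) .nil)) .nil)) (.cons 346 (.leaf 322 2005 (.cons 345 (.leaf 369 2189 (.leaf 370 2188 .nil)) .nil)) .nil))))) (.cons 272 (.leaf 252 1985 (.cons 247 (.leaf 248 1979 (.cons 271 (.leaf 246 1971 (.cons 298 (.leaf 299 2168 (.leaf 270 2160 .nil)) .nil)) .nil)) .nil)) (.cons 272 (.leaf 252 1985 (.cons 295 (.leaf 296 2170 (.cons 271 (.leaf 294 2162 (.cons 298 (.leaf 299 2168 (.leaf 270 2160 .nil)) .nil)) .nil)) .nil)) .nil)))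
noncomputable def t106 : T := .cons 322 (.leaf 346 2005 (.cons 249 (.leaf 225 1804 (.cons 224 (.leaf 248 1799 (.cons 295 (.leaf 296 2169 (.cons 320 (.leaf 344 1990 (.cons 319 (.leaf 318 2353 (.leaf 294 2355 .nil)) .nil)) .nil)) .nil)) .nil)) .nil)) (.cons 295 (.leaf 296 2169 (.cons 345 (.leaf 369 2189 (.cons 344 (.leaf 368 2182 (.cons 320 (.leaf 249 1990 (.cons 299 (.leaf 300 2370 (.cons 319 (.leaf 318 2353 (.cons 346 (.leaf 370 2188 (.leaf 347 2555 .nil)) .nil)) .nil)) .nil)) .nil)) .nil)) .nil)) (.cons 295 (.leaf 296 2169 (.cons 345 (.leaf 369 2189 (.cons 344 (.leaf 368 2182 (.cons 249 (.leaf 320 1990 (.cons 224 (.leaf 248 1799 (.cons 225 (.leaf 201 1612 (.leaf 200 1607 .nil)) .nil)) .nil)) .nil)) .nil)) .nil)) (.cons 322 (.leaf 346 2005 (.cons 225 (.leaf 249 1804 (.cons 345 (.leaf 369 2189 (.cons 344 (.leaf 368 2182 (.cons 323 (.leaf 324 2562 (.cons 343 (.leaf 320 2554 (.leaf 342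 2545 .nil)) .nil)) .nil)) .nil)) .nil)) .nil)) (.cons 322 (.leaf 346 2005 (.cons 295 (.leaf 296 2169 (.cons 345 (.leaf 369 2189 (.cons 344 (.leaf 368 2182 (.cons 323 (.leaf 324 2562 (.cons 343 (.leaf 320 2554 (.leaf 342 2545 .nil)) .nil)) .nil)) .nil)) .nil)) .nil)) (.cons 346 (.leaf 322 2005 (.cons 345 (.leaf 369 2189 (.leaf 370 2188 .nil)) .nil)) .nil)))))
noncomputable def t107 : T := .cons 249 (.cons 296 (.leaf 276 2178 (.cons 224 (.leaf 248 1799 (.cons 295 (.leaf 298 2169 (.leaf 294 2161 .nil)) .nil)) .nil)) (.cons 224 (.leaf 248 1799 (.cons 225 (.leaf 200 1607 (.cons 298 (.leaf 201 1612 (.leaf 322 1804 .nil)) .nil)) .nil)) (.cons 296 (.leaf 276 2178 (.cons 225 (.leaf 320 1798 (.cons 298 (.leaf 295 2169 (.leaf 201 1612 .nil)) .nil)) .nil)) (.cons 296 (.leaf 276 2178 (.cons 320 (.leaf 225 1798 (.leaf 344 1990 .nil)) .nil)) .nil)))) (.cons 298 t106 (.cons 249 (.cons 320 (.leaf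 344 1990 (.cons 322 (.leaf 346 1996 (.cons 298 (.leaf 225 1804 (.cons 299 (.leaf 300 2370 (.leaf 319 2361 .nil)) .nil)) .nil)) .nil)) (.cons 248 (.leaf 276 1987 (.leaf 224 1799 .nil)) .nil)) (.cons 276 (.leaf 296 2178 (.cons 249 (.leaf 248 1987 (.cons 252 (.leaf 253 1993 (.cons 346 (.leaf 322 1996 (.cons 345 (.leaf 370 2188 (.cons 225 (.cons 200 (.leaf 224 1607 (.cons 344 (.leaf 320 1990 (.leaf 368 2182 .nil)) .nil)) (.cons 200 (.leaf 224 1607 (.cons 201 (.leaf 176 1415 (.cons 202 (.leaf 178 1421 (.leaf 226 1613 .nil)) .nil)) .nil)) (.cons 347 (.cons 320 (.leaf 344 1990 (.leaf 348 2563 .nil)) (.cons 202 (.leaf 226 1613 (.cons 348 (.leaf 320 2563 (.cons 324 (.leaf 300 2015 (.leaf 325 2569 .nil)) .nil)) .nil)) (.cons 202 (.leaf 226 1613 (.cons 323 (.leaf 299 2013 (.cons 324 (.leaf 300 2014 (.leaf 344 2561 .nil)) .nil)) .nil)) .nil))) .nil))) .nil)) .nil)) .nil)) .nil)) .nil)) (.cons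 296 (.leaf 276 2178 (.cons 295 (.leaf 298 2169 (.leaf 294 2161 .nil)) .nil)) .nil))))
noncomputable def t108 : T := .cons 249 (.cons 296 (.leaf 276 2178 (.cons 224 (.leaf 248 1799 (.cons 295 (.leaf 272 2170 (.leaf 298 2169 .nil)) .nil)) .nil)) (.cons 296 (.leaf 276 2178 (.cons 225 (.leaf 320 1798 (.cons 298 (.leaf 295 2169 (.leaf 201 1612 .nil)) .nil)) .nil)) (.cons 224 (.leaf 248 1799 (.cons 225 (.leaf 200 1607 (.cons 298 (.leaf 201 1612 (.leaf 322 1804 .nil)) .nil)) .nil)) (.cons 296 (.leaf 276 2178 (.cons 320 (.leaf 225 1798 (.leaf 344 1990 .nil)) .nil)) .nil)))) (.cons 249 (.cons 296 (.leaf 276 2178 (.cons 224 (.leaf 248 1799 (.cons 295 (.leaf 298 2169 (.leaf 294 2161 .nil)) .nil)) .nil)) (.cons 224 (.leaf 248 1799 (.cons 225 (.leaf 200 1607 (.cons 298 (.leaf 201 1612 (.leaf 322 1804 .nil)) .nil)) .nil)) (.cons 296 (.leaf 276 2178 (.cons 225 (.leaf 320 1798 (.cons 298 (.leaf 295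 2169 (.leaf 201 1612 .nil)) .nil)) .nil)) (.cons 296 (.leaf 276 2178 (.cons 320 (.leaf 225 1798 (.leaf 344 1990 .nil)) .nil)) .nil)))) (.cons 272 (.leaf 252 1985 (.cons 248 (.leaf 247 1979 (.leaf 345 1991 .nil)) .nil)) (.cons 296 (.leaf 276 2178 (.cons 295 (.leaf 272 2170 (.leaf 298 2169 .nil)) .nil)) .nil)))
noncomputable def t109 : T := .cons 321 t108 (.cons 321 t107 (.cons 249 (.cons 248 (.leaf 276 1987 (.cons 224 (.leaf 321 1799 (.cons 200 (.leaf 176 1412 (.leaf 225 1607 .nil)) .nil)) .nil)) (.cons 252 (.leaf 272 1985 (.cons 253 (.leaf 254 2002 (.leaf 276 1993 .nil)) .nil)) (.cons 272 (.leaf 252 1985 (.cons 247 (.leaf 248 1979 (.cons 271 (.leaf 246 1971 (.cons 298 (.leaf 299 2168 (.leaf 270 2160 .nil)) .nil)) .nil)) .nil)) .nil))) (.cons 321 t105 (.cons 321 t104 (.cons 321 (.cons 296 (.leaf 276 2178 (.cons 295 (.leaf 272 2170 (.leaf 294 2161 .nil)) .nil)) (.cons 276 (.leaf 296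 2178 (.cons 249 (.leaf 248 1987 (.cons 252 (.leaf 253 1993 (.cons 346 (.leaf 322 1996 (.cons 345 (.leaf 370 2188 (.cons 225 (.cons 200 (.leaf 224 1607 (.cons 344 (.leaf 320 1990 (.leaf 368 2182 .nil)) .nil)) (.cons 200 (.leaf 224 1607 (.cons 201 (.leaf 176 1415 (.cons 202 (.leaf 178 1421 (.leaf 226 1613 .nil)) .nil)) .nil)) (.cons 347 (.cons 202 (.leaf 226 1613 (.cons 348 (.leaf 320 2563 (.cons 324 (.leaf 300 2015 (.leaf 325 2569 .nil)) .nil)) .nil)) (.cons 202 (.leaf 226 1613 (.cons 323 (.leaf 299 2013 (.cons 324 (.leaf 300 2014 (.leaf 344 2561 .nil)) .nil)) .nil)) (.cons 320 (.leaf 344 1990 (.leaf 348 2563 .nil)) .nil))) .nil))) .nil)) .nil)) .nil)) .nil)) .nil)) (.cons 272 (.leaf 252 1985 (.cons 248 (.leaf 247 1979 (.leaf 345 1991 .nil)) .nil)) .nil))) (.cons 272 (.leaf 252 1985 (.cons 296 (.leaf 295 2170 (.leaf 276 2178 .nil)) .nil)) .nil))))))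
noncomputable def t110 : T := .cons 297 t109 (.cons 297 (.cons 249 (.cons 248 (.leaf 276 1987 (.cons 224 (.leaf 321 1799 (.cons 200 (.leaf 176 1412 (.leaf 225 1607 .nil)) .nil)) .nil)) (.cons 225 (.cons 202 (.leaf 226 1613 (.cons 224 (.leaf 200 1607 (.cons 320 (.leaf 296 1798 (.cons 321 (.leaf 248 1799 (.leaf 344 1990 .nil)) .nil)) .nil)) .nil)) (.cons 202 (.leaf 226 1613 (.cons 224 (.leaf 200 1607 (.cons 201 (.leaf 298 1612 (.leaf 178 1421 .nil)) .nil)) .nil)) (.cons 298 (.leaf 201 1612 (.leaf 322 1804 .nil)) .nil))) (.cons 296 (.leaf 276 2178 (.cons 225 (.leaf 320 1798 (.cons 298 (.leaf 295 2169 (.leaf 201 1612 .nil)) .nil)) .nil)) (.cons 276 (.leaf 248 1987 (.leaf 296 2178 .nil)) .nil)))) (.cons 321 t103 (.cons 249 t100 (.cons 321 t99 (.cons 276 (.leaf 296 2178 (.cons 253 (.leaf 252 1993 (.cons 277 (.leaf 254 2001 (.leaf 298 2186 .nil)) .nil)) .nil)) .nil))))) (.cons 272 (.cons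 247 (.leaf 248 1979 (.cons 271 (.leaf 246 1971 (.cons 299 (.leaf 300 2176 (.leaf 298 2168 .nil)) .nil)) .nil)) (.cons 296 (.leaf 295 2170 (.cons 297 (.leaf 276 2178 (.cons 299 (.leaf 300 2176 (.cons 271 (.leaf 298 2168 (.cons 270 (.leaf 269 2152 (.cons 246 (.leaf 247 1971 (.leaf 245 1963 .nil)) .nil)) .nil)) .nil)) .nil)) .nil)) (.cons 247 (.leaf 248 1979 (.cons 271 (.leaf 246 1971 (.cons 295 (.leaf 296 2170 (.leaf 294 2162 .nil)) .nil)) .nil)) (.cons 296 (.leaf 295 2170 (.cons 297 (.leaf 276 2178 (.cons 299 (.leaf 300 2176 (.cons 298 (.leaf 271 2168 (.cons 319 (.leaf 320 2362 (.cons 323 (.leaf 324 2368 (.cons 346 (.leaf 322 2005 (.cons 347 (.leaf 370 2198 (.leaf 371 2199 .nil)) .nil)) .nil)) .nil)) .nil)) .nil)) .nil)) .nil)) (.cons 248 (.leaf 247 1979 (.cons 249 (.leaf 276 1987 (.cons 296 (.leaf 295 2170 (.cons 225 (.leaf 201 1606 (.leaf 320 1797 .nil)) .nil)) .nil)) .nil)) .nil)))))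 (.cons 272 (.leaf 252 1985 (.cons 299 (.leaf 300 2176 (.cons 247 (.leaf 248 1979 (.cons 271 (.leaf 246 1971 (.leaf 298 2168 .nil)) .nil)) .nil)) .nil)) (.cons 272 (.leaf 252 1985 (.cons 247 (.leaf 248 1979 (.cons 271 (.leaf 246 1971 (.cons 295 (.leaf 296 2170 (.leaf 294 2162 .nil)) .nil)) .nil)) .nil)) (.cons 272 (.leaf 252 1985 (.cons 296 (.leaf 295 2170 (.cons 297 (.leaf 276 2178 (.cons 299 (.leaf 300 2176 (.cons 271 (.leaf 298 2168 (.cons 270 (.leaf 269 2152 (.cons 246 (.leaf 247 1971 (.leaf 245 1963 .nil)) .nil)) .nil)) .nil)) .nil)) .nil)) .nil)) (.cons 272 (.leaf 252 1985 (.cons 296 (.leaf 295 2170 (.cons 297 (.leaf 276 2178 (.cons 299 (.leaf 300 2176 (.cons 298 (.leaf 271 2168 (.cons 319 (.leaf 320 2362 (.cons 323 (.leaf 324 2368 (.cons 346 (.leaf 322 2005 (.cons 347 (.leaf 370 2198 (.leaf 371 2199 .nil)) .nil)) .nil)) .nil)) .nil)) .nil)) .nil)) .nil)) .nil)) (.cons 272 (.leaf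 252 1985 (.cons 248 (.leaf 247 1979 (.cons 249 (.leaf 276 1987 (.cons 296 (.leaf 295 2170 (.cons 225 (.leaf 201 1606 (.leaf 320 1797 .nil)) .nil)) .nil)) .nil)) .nil)) .nil)))))))
noncomputable def t111 : T := .cons 253 (.leaf 254 2002 (.cons 229 (.leaf 230 1809 (.cons 228 (.leaf 249 1801 (.cons 299 (.leaf 323 1821 (.cons 277 (.leaf 278 2000 (.cons 202 (.leaf 226 1620 (.cons 205 (.cons 180 (.leaf 204 1444 (.cons 181 (.leaf 157 1254 (.leaf 276 1446 .nil)) .nil)) (.cons 181 (.leaf 157 1254 (.leaf 276 1446 .nil)) (.cons 180 (.leaf 204 1444 (.cons 181 (.leaf 157 1254 (.leaf 156 1255 .nil)) .nil)) (.cons 204 (.leaf 180 1444 (.leaf 276 1630 .nil)) .nil)))) .nil)) .nil)) .nil)) .nil)) .nil)) .nil)) (.cons 276 (.cons 249 (.leaf 248 1984 (.leaf 277 1992 .nil)) (.cons 249 (.leaf 248 1984 (.cons 228 (.leaf 229 1801 (.cons 204 (.leaf 180 1438 (.leaf 299 1630 .nil)) .nil)) .nil)) (.cons 277 (.leaf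 278 2003 (.cons 298 (.leaf 297 2186 (.cons 322 (.leaf 346 2005 (.cons 321 (.leaf 345 1998 (.cons 323 (.leaf 347 2004 (.cons 299 (.leaf 226 1812 (.leaf 228 1821 .nil)) .nil)) .nil)) .nil)) .nil)) .nil)) .nil))) (.cons 253 (.leaf 254 2002 (.cons 229 (.leaf 230 1809 (.cons 228 (.leaf 249 1801 (.cons 299 (.leaf 323 1821 (.cons 277 (.leaf 278 2000 (.cons 202 (.leaf 226 1620 (.cons 205 (.cons 180 (.leaf 204 1444 (.cons 181 (.leaf 157 1254 (.leaf 156 1255 .nil)) .nil)) (.cons 181 (.leaf 157 1254 (.cons 182 (.leaf 158 1261 (.leaf 206 1453 .nil)) .nil)) (.cons 204 (.leaf 180 1444 (.cons 206 (.leaf 182 1453 (.cons 203 (.leaf 201 1608 (.cons 178 (.leaf 177 1419 (.leaf 179 1427 .nil)) .nil)) .nil)) .nil)) .nil))) .nil)) .nil)) .nil)) .nil)) .nil)) .nil)) (.cons 253 (.leaf 254 2002 (.cons 229 (.leaf 230 1809 (.cons 277 (.leaf 278 2000 (.cons 276 (.leaf 249 1992 (.cons 205 (.leaf 181 1446 (.leaf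 300 1638 .nil)) .nil)) .nil)) .nil)) .nil)) (.cons 253 (.leaf 254 2002 (.cons 277 (.leaf 278 2000 (.cons 229 (.leaf 230 1809 (.cons 298 (.cons 297 (.leaf 276 2186 (.cons 295 (.leaf 296 2169 (.cons 226 (.leaf 321 1806 (.cons 299 (.leaf 202 1620 (.leaf 323 1812 .nil)) .nil)) .nil)) .nil)) (.cons 322 (.leaf 346 2005 (.cons 323 (.leaf 347 2004 (.cons 299 (.leaf 226 1812 (.leaf 228 1821 .nil)) .nil)) .nil)) (.cons 276 (.leaf 297 2186 (.cons 205 (.leaf 181 1446 (.leaf 300 1638 .nil)) .nil)) .nil))) .nil)) .nil)) .nil)) (.cons 253 (.leaf 254 2002 (.cons 229 (.leaf 230 1809 (.cons 228 (.leaf 249 1801 (.cons 204 (.leaf 180 1438 (.cons 299 (.leaf 276 1630 (.leaf 323 1821 .nil)) .nil)) .nil)) .nil)) .nil)) (.cons 253 (.leaf 254 2002 (.cons 277 (.leaf 278 2000 (.cons 276 (.leaf 249 1992 (.cons 298 (.leaf 297 2186 (.cons 322 (.leaf 346 2005 (.cons 321 (.leaf 345 1998 (.cons 323 (.leaf 347 2004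 (.cons 299 (.leaf 226 1812 (.leaf 228 1821 .nil)) .nil)) .nil)) .nil)) .nil)) .nil)) .nil)) .nil)) .nil))))))
noncomputable def t112 : T := .cons 249 (.cons 276 (.leaf 248 1984 (.leaf 277 1995 .nil)) (.cons 248 (.leaf 247 1976 (.cons 224 (.leaf 223 1787 (.cons 225 (.leaf 252 1795 (.cons 201 (.leaf 177 1420 (.cons 272 (.leaf 271 1978 (.leaf 296 1605 .nil)) .nil)) .nil)) .nil)) .nil)) (.cons 276 (.leaf 277 1995 (.cons 252 (.cons 225 (.leaf 224 1795 (.cons 177 (.leaf 201 1420 (.cons 253 (.leaf 254 2002 (.leaf 226 1803 .nil)) .nil)) .nil)) (.cons 228 (.leaf 229 1801 (.cons 204 (.leaf 180 1438 (.leaf 299 1630 .nil)) .nil)) .nil)) .nil)) .nil))) (.cons 249 (.cons 252 (.cons 276 (.leaf 248 1984 (.leaf 277 1992 .nil)) (.cons 229 (.leaf 228 1801 (.cons 253 (.leaf 254 2002 (.leaf 230 1809 .nil)) .nil)) .nil)) (.cons 248 (.leaf 247 1976 (.cons 224 (.leaf 223 1787 (.cons 225 (.leaf 252 1795 (.cons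 201 (.leaf 177 1420 (.cons 272 (.leaf 271 1978 (.leaf 296 1605 .nil)) .nil)) .nil)) .nil)) .nil)) (.cons 252 (.cons 276 (.leaf 277 1992 (.cons 228 (.leaf 229 1801 (.cons 204 (.leaf 180 1438 (.leaf 299 1630 .nil)) .nil)) .nil)) (.cons 229 (.leaf 228 1801 (.cons 253 (.leaf 254 2002 (.leaf 230 1809 .nil)) .nil)) (.cons 277 (.leaf 276 1992 (.cons 253 (.leaf 254 2002 (.leaf 278 2000 .nil)) .nil)) .nil))) (.cons 248 (.leaf 247 1976 (.leaf 276 1984 .nil)) .nil)))) (.cons 226 (.cons 202 (.leaf 178 1428 (.leaf 299 1620 .nil)) (.cons 202 (.leaf 178 1428 (.cons 179 (.leaf 203 1429 (.cons 201 (.leaf 177 1423 (.cons 298 (.leaf 225 1615 (.cons 322 (.leaf 346 2005 (.cons 321 (.leaf 297 1806 (.leaf 345 1998 .nil)) .nil)) .nil)) .nil)) .nil)) .nil)) (.cons 298 (.cons 323 (.leaf 299 1812 (.cons 322 (.leaf 346 2005 (.leaf 347 2004 .nil)) .nil)) (.cons 201 (.leaf 225 1615 (.cons 321 (.leaf 297 1806 (.cons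 322 (.leaf 346 2005 (.leaf 345 1998 .nil)) .nil)) .nil)) (.cons 299 (.leaf 323 1812 (.cons 297 (.leaf 321 1806 (.cons 276 (.leaf 277 2186 (.leaf 296 2177 .nil)) .nil)) .nil)) .nil))) .nil))) (.cons 249 (.cons 276 (.leaf 248 1984 (.leaf 277 1995 .nil)) (.cons 276 (.leaf 277 1995 (.cons 252 (.cons 225 (.leaf 224 1795 (.cons 177 (.leaf 201 1420 (.cons 253 (.leaf 254 2002 (.leaf 226 1803 .nil)) .nil)) .nil)) (.cons 225 (.leaf 224 1795 (.cons 177 (.leaf 201 1420 (.cons 228 (.leaf 229 1801 (.cons 204 (.leaf 180 1438 (.cons 203 (.leaf 179 1439 (.cons 205 (.leaf 181 1445 (.cons 202 (.leaf 226 1610 (.leaf 178 1419 .nil)) .nil)) .nil)) .nil)) .nil)) .nil)) .nil)) (.cons 253 (.leaf 254 2002 (.cons 229 (.leaf 228 1801 (.leaf 230 1809 .nil)) .nil)) .nil))) .nil)) (.cons 248 (.leaf 247 1976 (.cons 224 (.leaf 223 1787 (.cons 225 (.leaf 252 1795 (.cons 201 (.leaf 177 1420 (.cons 272 (.leaf 271 1978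 (.leaf 296 1605 .nil)) .nil)) .nil)) .nil)) .nil)) .nil))) (.cons 226 (.cons 323 (.leaf 299 1815 (.cons 298 (.cons 322 (.leaf 346 2005 (.leaf 347 2004 .nil)) (.cons 225 (.leaf 201 1615 (.cons 224 (.leaf 223 1784 (.cons 252 (.leaf 249 1795 (.leaf 253 1803 .nil)) .nil)) .nil)) .nil)) .nil)) (.cons 202 (.leaf 178 1428 (.cons 179 (.leaf 203 1429 (.cons 201 (.leaf 177 1423 (.cons 298 (.leaf 225 1615 (.cons 322 (.leaf 346 2005 (.cons 321 (.leaf 297 1806 (.leaf 345 1998 .nil)) .nil)) .nil)) .nil)) .nil)) .nil)) (.cons 202 (.leaf 178 1428 (.leaf 299 1620 .nil)) .nil))) (.cons 252 t111 (.cons 249 (.cons 248 (.leaf 247 1976 (.leaf 276 1984 .nil)) (.cons 248 (.leaf 247 1976 (.cons 224 (.leaf 223 1787 (.cons 225 (.leaf 252 1795 (.cons 298 (.leaf 322 1807 (.cons 272 (.leaf 271 1978 (.cons 296 (.leaf 320 1797 (.cons 295 (.leaf 297 2169 (.leaf 319 1790 .nil)) .nil)) .nil)) .nil)) .nil)) .nil)) .nil))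 (.cons 276 (.leaf 277 1995 (.cons 252 (.cons 225 (.leaf 224 1795 (.cons 253 (.leaf 254 2002 (.leaf 226 1803 .nil)) .nil)) (.cons 228 (.leaf 229 1801 (.cons 204 (.leaf 180 1438 (.leaf 299 1630 .nil)) .nil)) .nil)) .nil)) .nil))) .nil))))))
noncomputable def t113 : T := .cons 249 (.leaf 248 1987 (.cons 277 (.leaf 250 1995 (.cons 254 (.leaf 253 2001 (.cons 278 (.leaf 255 2009 (.cons 299 (.leaf 298 2194 (.cons 279 (.leaf 300 2202 (.cons 303 (.leaf 302 2200 (.leaf 304 2208 .nil)) .nil)) .nil)) .nil)) .nil)) .nil)) .nil)) (.cons 297 (.leaf 296 2178 (.cons 277 (.leaf 298 2186 (.cons 254 (.leaf 253 2001 (.cons 278 (.leaf 250 2003 (.leaf 255 2009 .nil)) .nil)) .nil)) .nil)) (.cons 297 (.leaf 296 2178 (.cons 249 (.leaf 248 1987 (.cons 298 (.leaf 277 2186 (.cons 225 (.leaf 201 1612 (.leaf 322 1804 .nil)) .nil)) .nil)) .nil)) (.cons 249 (.leaf 248 1987 (.cons 297 (.leaf 296 2178 (.cons 225 (.cons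 200 (.leaf 224 1607 (.cons 201 (.leaf 298 1612 (.leaf 176 1415 .nil)) .nil)) (.cons 200 (.leaf 224 1607 (.cons 201 (.leaf 176 1415 (.cons 202 (.leaf 178 1421 (.leaf 226 1613 .nil)) .nil)) .nil)) (.cons 200 (.leaf 224 1607 (.cons 322 (.leaf 298 1804 (.cons 202 (.leaf 226 1613 (.cons 321 (.leaf 346 1996 (.cons 345 (.leaf 250 1997 (.cons 344 (.leaf 320 1990 (.leaf 368 2182 .nil)) .nil)) .nil)) .nil)) .nil)) .nil)) (.cons 298 (.leaf 201 1612 (.leaf 322 1804 .nil)) .nil)))) .nil)) .nil)) (.cons 249 (.leaf 248 1987 (.cons 250 (.leaf 277 1995 (.cons 297 (.leaf 296 2178 (.cons 226 (.leaf 202 1614 (.leaf 321 1805 .nil)) .nil)) .nil)) .nil)) .nil))))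
noncomputable def t114 : T := .cons 272 (.cons 250 (.leaf 271 1977 (.cons 295 (.leaf 296 2170 (.cons 299 (.leaf 300 2176 (.cons 226 (.leaf 202 1620 (.leaf 323 1815 .nil)) .nil)) .nil)) .nil)) (.cons 248 (.leaf 247 1979 (.cons 249 (.leaf 276 1987 (.cons 296 (.leaf 295 2170 (.cons 225 (.leaf 201 1606 (.leaf 320 1797 .nil)) .nil)) .nil)) .nil)) (.cons 271 (.leaf 250 1977 (.cons 299 (.leaf 300 2176 (.leaf 298 2168 .nil)) .nil)) .nil))) (.cons 276 t113 (.cons 272 (.cons 247 (.leaf 248 1979 (.cons 271 (.leaf 246 1971 (.cons 299 (.leaf 300 2176 (.leaf 298 2168 .nil)) .nil)) .nil)) (.cons 295 (.leaf 296 2170 (.cons 271 (.leaf 294 2162 (.cons 299 (.leaf 300 2176 (.leaf 298 2168 .nil)) .nil)) .nil)) (.cons 296 (.leaf 295 2170 (.cons 247 (.leaf 248 1979 (.cons 271 (.leaf 246 1971 (.cons 199 (.leaf 223 1596 (.cons 297 (.leaf 276 2178 (.cons 270 (.leaf 298 2160 (.leaf 269 2152 .nil)) .nil)) .nil))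 .nil)) .nil)) .nil)) (.cons 296 (.leaf 295 2170 (.cons 248 (.leaf 247 1979 (.cons 297 (.leaf 276 2178 (.cons 321 (.leaf 345 1991 (.leaf 224 1796 .nil)) .nil)) .nil)) .nil)) .nil)))) (.cons 272 (.cons 271 (.leaf 250 1977 (.cons 295 (.leaf 296 2170 (.leaf 294 2162 .nil)) .nil)) (.cons 248 (.leaf 247 1979 (.cons 296 (.leaf 295 2170 (.cons 299 (.leaf 300 2176 (.cons 224 (.cons 297 (.leaf 200 1604 (.leaf 321 1796 .nil)) (.cons 199 (.leaf 223 1599 (.cons 200 (.leaf 175 1407 (.cons 201 (.leaf 177 1413 (.leaf 225 1605 .nil)) .nil)) .nil)) (.cons 199 (.leaf 223 1599 (.cons 225 (.leaf 201 1605 (.cons 249 (.leaf 320 1797 (.cons 297 (.leaf 321 1796 (.cons 226 (.leaf 202 1613 (.cons 298 (.leaf 322 1804 (.cons 323 (.leaf 250 1812 (.leaf 324 2368 .nil)) .nil)) .nil)) .nil)) .nil)) .nil)) .nil)) .nil))) .nil)) .nil)) .nil)) (.cons 299 (.leaf 300 2176 (.cons 247 (.leaf 248 1979 (.cons 271 (.leaf 246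 1971 (.leaf 298 2168 .nil)) .nil)) .nil)) .nil))) (.cons 272 (.cons 296 (.leaf 295 2170 (.cons 297 (.leaf 276 2178 (.cons 299 (.leaf 300 2176 (.cons 323 (.cons 298 (.leaf 271 2168 (.leaf 324 2368 .nil)) (.cons 250 (.leaf 226 1815 (.leaf 347 2007 .nil)) .nil)) .nil)) .nil)) .nil)) (.cons 296 (.leaf 295 2170 (.cons 297 (.leaf 276 2178 (.cons 299 (.leaf 300 2176 (.cons 323 (.cons 250 (.leaf 226 1815 (.leaf 347 2007 .nil)) (.cons 324 (.leaf 348 2012 (.leaf 298 2368 .nil)) .nil)) .nil)) .nil)) .nil)) (.cons 271 (.leaf 250 1977 (.cons 295 (.leaf 296 2170 (.leaf 294 2162 .nil)) .nil)) (.cons 271 (.leaf 250 1977 (.cons 299 (.leaf 300 2176 (.leaf 298 2168 .nil)) .nil)) (.cons 296 (.leaf 295 2170 (.cons 297 (.leaf 276 2178 (.cons 299 (.leaf 300 2176 (.cons 271 (.leaf 298 2168 (.cons 270 (.leaf 269 2152 (.cons 246 (.leaf 247 1971 (.leaf 245 1963 .nil)) .nil)) .nil)) .nil)) .nil)) .nil)) .nil)))))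 (.cons 272 (.cons 248 (.leaf 247 1979 (.cons 249 (.leaf 276 1987 (.cons 296 (.leaf 295 2170 (.cons 225 (.leaf 201 1606 (.leaf 320 1797 .nil)) .nil)) .nil)) .nil)) (.cons 271 (.leaf 250 1977 (.cons 295 (.leaf 296 2170 (.leaf 294 2162 .nil)) .nil)) (.cons 247 (.leaf 248 1979 (.cons 271 (.leaf 250 1977 (.leaf 246 1971 .nil)) .nil)) .nil))) (.cons 272 (.cons 271 (.leaf 250 1977 (.cons 299 (.leaf 300 2176 (.leaf 298 2168 .nil)) .nil)) (.cons 248 (.leaf 247 1979 (.cons 249 (.leaf 276 1987 (.cons 299 (.leaf 300 2176 (.cons 250 (.cons 226 (.leaf 202 1620 (.leaf 323 1815 .nil)) (.cons 223 (.leaf 224 1787 (.cons 323 (.leaf 347 2007 (.cons 322 (.leaf 346 2006 (.cons 298 (.leaf 225 1807 (.cons 321 (.leaf 345 1998 (.cons 320 (.leaf 319 2361 (.cons 344 (.leaf 297 1990 (.leaf 343 2554 .nil)) .nil)) .nil)) .nil)) .nil)) .nil)) .nil)) (.cons 202 (.leaf 226 1620 (.cons 224 (.leaf 223 1787 (.cons 200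 (.leaf 176 1412 (.leaf 297 1604 .nil)) .nil)) .nil)) .nil))) .nil)) .nil)) .nil)) (.cons 248 (.leaf 247 1979 (.cons 249 (.leaf 276 1987 (.cons 299 (.leaf 300 2176 (.cons 271 (.leaf 298 2168 (.cons 270 (.leaf 269 1961 (.cons 294 (.leaf 295 2162 (.leaf 293 2154 .nil)) .nil)) .nil)) .nil)) .nil)) .nil)) (.cons 271 (.leaf 250 1977 (.cons 247 (.leaf 248 1979 (.leaf 246 1971 .nil)) .nil)) .nil)))) .nil))))))
noncomputable def t115 : T := .cons 297 (.leaf 296 2178 (.cons 298 (.leaf 277 2186 (.cons 249 (.leaf 248 1987 (.cons 322 (.leaf 346 2005 (.leaf 225 1804 .nil)) .nil)) .nil)) .nil)) (.cons 297 (.leaf 296 2178 (.cons 298 (.leaf 277 2186 (.cons 322 (.leaf 346 2005 (.cons 250 (.cons 323 (.leaf 347 2004 (.cons 228 (.leaf 299 1821 (.cons 321 (.leaf 226 1806 (.leaf 345 1997 .nil)) .nil)) .nil)) (.cons 323 (.leaf 347 2004 (.cons 228 (.leaf 299 1821 (.cons 204 (.leaf 180 1438 (.cons 205 (.leaf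 181 1445 (.cons 300 (.leaf 229 1637 (.cons 324 (.leaf 348 2015 (.leaf 325 2379 .nil)) .nil)) .nil)) .nil)) .nil)) .nil)) (.cons 321 (.leaf 226 1806 (.leaf 345 1997 .nil)) .nil))) .nil)) .nil)) .nil)) (.cons 249 (.leaf 248 1987 (.cons 250 (.leaf 277 1992 (.cons 228 (.leaf 229 1801 (.cons 204 (.leaf 180 1438 (.leaf 299 1630 .nil)) .nil)) .nil)) .nil)) (.cons 249 (.leaf 248 1987 (.cons 297 (.leaf 296 2178 (.cons 250 (.cons 226 (.leaf 202 1614 (.leaf 321 1805 .nil)) (.cons 228 (.leaf 229 1801 (.cons 299 (.leaf 204 1630 (.leaf 323 1821 .nil)) .nil)) .nil)) .nil)) .nil)) .nil)))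
noncomputable def t116 : T := .cons 202 (.leaf 226 1623 (.cons 228 (.leaf 204 1629 (.cons 323 (.leaf 252 1821 (.cons 324 (.leaf 300 1820 (.leaf 348 2012 .nil)) .nil)) .nil)) .nil)) (.cons 226 (.leaf 202 1623 (.cons 250 (.leaf 323 1815 (.cons 298 (.leaf 322 1814 (.cons 300 (.leaf 324 1820 (.cons 203 (.leaf 276 1628 (.cons 179 (.leaf 155 1238 (.cons 180 (.leaf 204 1437 (.leaf 156 1245 .nil)) .nil)) .nil)) .nil)) .nil)) .nil)) .nil)) (.cons 228 (.leaf 204 1629 (.cons 252 (.leaf 323 1821 (.cons 298 (.leaf 322 1814 (.cons 300 (.leaf 324 1820 (.cons 203 (.leaf 276 1628 (.cons 178 (.leaf 202 1431 (.cons 179 (.leaf 154 1239 (.leaf 155 1244 .nil)) .nil)) .nil)) .nil)) .nil)) .nil)) .nil)) (.cons 226 (.leaf 202 1623 (.cons 250 (.leaf 323 1815 (.cons 298 (.leaf 322 1814 (.cons 300 (.leaf 324 1820 (.cons 276 (.leaf 203 1628 (.cons 277 (.leaf 278 2194 (.leaf 297 2185 .nil)) .nil)) .nil)) .nil))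 .nil)) .nil)) (.cons 228 (.leaf 204 1629 (.cons 202 (.leaf 226 1623 (.cons 322 (.leaf 298 1814 (.cons 323 (.leaf 252 1821 (.leaf 346 2006 .nil)) .nil)) .nil)) .nil)) (.cons 228 (.leaf 204 1629 (.cons 252 (.leaf 323 1821 (.cons 298 (.leaf 322 1814 (.cons 300 (.leaf 324 1820 (.cons 276 (.leaf 203 1628 (.cons 277 (.leaf 278 2194 (.leaf 297 2185 .nil)) .nil)) .nil)) .nil)) .nil)) .nil)) (.cons 300 (.leaf 324 1820 (.cons 202 (.leaf 226 1623 (.cons 203 (.leaf 178 1431 (.leaf 276 1628 .nil)) .nil)) .nil)) .nil))))))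
noncomputable def t117 : T := .cons 226 (.leaf 202 1623 (.cons 204 (.leaf 228 1629 (.cons 203 (.leaf 180 1437 (.cons 298 (.leaf 274 1622 (.leaf 322 1814 .nil)) .nil)) .nil)) .nil)) (.cons 228 (.leaf 204 1629 (.cons 252 (.leaf 323 1821 (.cons 298 (.leaf 322 1814 (.cons 274 (.leaf 203 1622 (.cons 253 (.leaf 254 2002 (.cons 273 (.leaf 272 1985 (.leaf 250 1994 .nil)) .nil)) .nil)) .nil)) .nil)) .nil)) (.cons 226 (.leaf 202 1623 (.cons 250 (.leaf 323 1815 (.cons 298 (.leaf 322 1814 (.cons 203 (.leaf 274 1621 (.cons 179 (.leaf 155 1238 (.cons 180 (.leaf 204 1437 (.leaf 156 1245 .nil)) .nil)) .nil)) .nil)) .nil)) .nil)) (.cons 226 (.leaf 202 1623 (.cons 204 (.leaf 228 1629 (.cons 180 (.leaf 203 1437 (.cons 323 (.leaf 250 1815 (.cons 324 (.leaf 300 1820 (.leaf 348 2012 .nil)) .nil)) .nil)) .nil)) .nil)) (.cons 226 (.leaf 202 1623 (.cons 250 (.leaf 323 1815 (.cons 298 (.leaf 322 1814 (.cons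 274 (.leaf 203 1621 (.cons 201 (.leaf 225 1615 (.cons 297 (.leaf 321 1806 (.cons 296 (.leaf 295 2169 (.cons 272 (.leaf 271 2171 (.cons 273 (.leaf 252 1985 (.leaf 300 2176 .nil)) .nil)) .nil)) .nil)) .nil)) .nil)) .nil)) .nil)) .nil)) (.cons 226 (.leaf 202 1623 (.cons 204 (.leaf 228 1629 (.cons 298 (.leaf 322 1814 (.cons 323 (.leaf 250 1815 (.cons 324 (.leaf 300 1820 (.leaf 348 2012 .nil)) .nil)) .nil)) .nil)) .nil)) .nil)))))
noncomputable def t118 : T := .cons 202 (.leaf 226 1623 (.cons 228 (.leaf 204 1629 (.cons 323 (.leaf 252 1821 (.cons 324 (.leaf 300 1820 (.leaf 348 2012 .nil)) .nil)) .nil)) .nil)) (.cons 228 (.leaf 204 1629 (.cons 252 (.leaf 323 1821 (.cons 300 (.leaf 324 1820 (.cons 203 (.leaf 276 1628 (.cons 179 (.leaf 155 1244 (.cons 154 (.leaf 178 1239 (.cons 156 (.leaf 180 1245 (.cons 250 (.leaf 274 1430 (.cons 229 (.leaf 230 1810 (.leaf 249 1801 .nil)) .nil)) .nil)) .nil))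 .nil)) .nil)) .nil)) .nil)) .nil)) (.cons 226 (.leaf 202 1623 (.cons 250 (.leaf 323 1815 (.cons 300 (.leaf 324 1820 (.cons 203 (.leaf 276 1628 (.cons 274 (.leaf 298 1621 (.leaf 179 1430 .nil)) .nil)) .nil)) .nil)) .nil)) (.cons 226 (.leaf 202 1623 (.cons 204 (.leaf 228 1629 (.cons 203 (.leaf 180 1437 (.cons 205 (.leaf 206 1618 (.cons 224 (.leaf 225 1601 (.cons 250 (.leaf 323 1815 (.cons 274 (.leaf 298 1621 (.leaf 179 1430 .nil)) .nil)) .nil)) .nil)) .nil)) .nil)) .nil)) (.cons 300 (.leaf 324 1820 (.cons 202 (.leaf 226 1623 (.cons 203 (.leaf 178 1431 (.leaf 276 1628 .nil)) .nil)) .nil)) .nil))))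
noncomputable def t119 : T := .cons 226 (.leaf 250 1815 (.cons 322 (.leaf 346 2006 (.cons 348 (.leaf 324 2012 (.cons 347 (.leaf 372 2204 (.cons 276 (.leaf 252 2013 (.cons 320 (.leaf 321 2560 (.cons 349 (.leaf 350 2579 (.cons 371 (.leaf 300 2205 (.cons 298 (.leaf 227 1814 (.leaf 274 2199 .nil)) .nil)) .nil)) .nil)) .nil)) .nil)) .nil)) .nil)) .nil)) (.cons 324 (.leaf 348 2012 (.cons 300 (.leaf 227 1820 (.cons 346 (.leaf 322 2006 (.cons 347 (.leaf 370 2198 (.cons 276 (.leaf 252 2013 (.leaf 371 2205 .nil)) .nil)) .nil)) .nil)) .nil)) (.cons 250 (.leaf 226 1815 (.cons 274 (.leaf 347 2007 (.cons 322 (.leaf 346 2006 (.cons 227 (.leaf 298 1813 (.cons 203 (.leaf 179 1430 (.cons 178 (.leaf 202 1431 (.cons 180 (.leaf 204 1437 (.cons 276 (.leaf 300 1628 (.cons 249 (.leaf 248 1984 (.leaf 277 1995 .nil)) .nil)) .nil)) .nil)) .nil)) .nil)) .nil)) .nil)) .nil)) (.cons 250 (.leaf 226 1815 (.cons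 347 (.leaf 274 2007 (.cons 348 (.leaf 324 2012 (.leaf 372 2204 .nil)) .nil)) .nil)) (.cons 324 (.leaf 348 2012 (.cons 226 (.leaf 250 1815 (.cons 227 (.leaf 202 1623 (.leaf 300 1820 .nil)) .nil)) .nil)) .nil))))
noncomputable def t120 : T := .cons 228 (.leaf 252 1821 (.cons 204 (.leaf 227 1629 (.cons 346 (.leaf 322 2006 (.cons 347 (.leaf 370 2198 (.cons 274 (.leaf 250 2007 (.cons 371 (.leaf 298 2199 (.cons 372 (.leaf 348 2204 (.leaf 396 2396 .nil)) .nil)) .nil)) .nil)) .nil)) .nil)) .nil)) (.cons 324 (.leaf 348 2012 (.cons 300 (.leaf 227 1820 (.cons 346 (.leaf 322 2006 (.cons 347 (.leaf 370 2198 (.cons 371 (.leaf 276 2205 (.leaf 395 2397 .nil)) .nil)) .nil)) .nil)) .nil)) (.cons 228 (.leaf 252 1821 (.cons 227 (.leaf 204 1629 (.cons 324 (.leaf 300 1820 (.leaf 348 2012 .nil)) .nil)) .nil)) (.cons 252 (.leaf 228 1821 (.cons 276 (.leaf 347 2013 (.cons 322 (.leaf 346 2006 (.cons 227 (.leaf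 298 1814 (.cons 300 (.leaf 203 1628 (.leaf 324 1820 .nil)) .nil)) .nil)) .nil)) .nil)) (.cons 228 (.leaf 252 1821 (.cons 324 (.leaf 348 2012 (.cons 346 (.leaf 322 2006 (.cons 347 (.leaf 370 2198 (.cons 274 (.leaf 250 2007 (.cons 325 (.leaf 326 2578 (.cons 344 (.leaf 345 2561 (.cons 371 (.leaf 298 2199 (.cons 395 (.leaf 300 2397 (.cons 396 (.leaf 372 2396 (.leaf 420 2588 .nil)) .nil)) .nil)) .nil)) .nil)) .nil)) .nil)) .nil)) .nil)) .nil)) .nil))))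
noncomputable def t121 : T := .cons 323 (.cons 250 (.leaf 226 1815 (.cons 228 (.leaf 252 1821 (.cons 347 (.leaf 274 2007 (.cons 348 (.leaf 324 2012 (.leaf 372 2204 .nil)) .nil)) .nil)) .nil)) (.cons 252 (.leaf 228 1821 (.cons 324 (.leaf 348 2012 (.cons 346 (.leaf 322 2006 (.cons 347 (.leaf 276 2013 (.leaf 370 2198 .nil)) .nil)) .nil)) .nil)) (.cons 250 (.leaf 226 1815 (.cons 347 (.leaf 274 2007 (.cons 348 (.leaf 324 2012 (.leaf 372 2204 .nil)) .nil)) .nil)) (.cons 226 (.leaf 250 1815 (.cons 227 (.leaf 202 1623 (.cons 228 (.leaf 204 1629 (.leaf 252 1821 .nil)) .nil)) .nil)) .nil)))) (.cons 323 (.cons 252 (.leaf 228 1821 (.cons 324 (.leaf 348 2012 (.cons 346 (.leaf 322 2006 (.cons 347 (.leaf 276 2013 (.leaf 370 2198 .nil)) .nil)) .nil)) .nil)) (.cons 250 (.leaf 226 1815 (.cons 347 (.leaf 274 2007 (.cons 348 (.leaf 324 2012 (.leaf 372 2204 .nil)) .nil)) .nil)) (.cons 250 (.leaf 226 1815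 (.cons 228 (.leaf 252 1821 (.cons 346 (.leaf 322 2006 (.cons 347 (.leaf 274 2007 (.leaf 370 2198 .nil)) .nil)) .nil)) .nil)) (.cons 250 (.leaf 226 1815 (.cons 252 (.leaf 228 1821 (.cons 324 (.leaf 348 2012 (.cons 322 (.leaf 346 2006 (.cons 249 (.cons 276 (.leaf 248 1984 (.leaf 277 1992 .nil)) (.cons 224 (.leaf 225 1795 (.cons 248 (.leaf 223 1787 (.cons 272 (.leaf 271 1978 (.leaf 273 1986 .nil)) .nil)) .nil)) (.cons 225 (.leaf 224 1795 (.cons 273 (.leaf 272 1986 (.cons 277 (.leaf 276 1992 (.cons 253 (.leaf 274 1994 (.leaf 278 2000 .nil)) .nil)) .nil)) .nil)) .nil))) .nil)) .nil)) .nil)) .nil)) .nil)))) (.cons 227 (.cons 204 (.leaf 228 1629 (.cons 203 (.leaf 180 1437 (.cons 300 (.leaf 276 1628 (.leaf 324 1820 .nil)) .nil)) .nil)) (.cons 298 (.leaf 322 1814 (.cons 202 (.leaf 226 1623 (.cons 203 (.leaf 178 1431 (.leaf 274 1622 .nil)) .nil)) .nil)) (.cons 226 (.leaf 202 1623 (.cons 228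 (.leaf 204 1629 (.cons 298 (.leaf 322 1814 (.cons 300 (.leaf 324 1820 (.cons 297 (.cons 272 (.leaf 273 2179 (.cons 296 (.leaf 276 2177 (.leaf 271 2171 .nil)) .nil)) (.cons 272 (.leaf 273 2179 (.cons 296 (.leaf 271 2171 (.cons 320 (.leaf 319 2362 (.leaf 321 2370 .nil)) .nil)) .nil)) (.cons 272 (.leaf 273 2179 (.cons 321 (.leaf 320 2370 (.cons 250 (.leaf 274 1806 (.cons 229 (.leaf 230 1810 (.leaf 249 1802 .nil)) .nil)) .nil)) .nil)) (.cons 276 (.leaf 296 2177 (.leaf 277 2185 .nil)) .nil)))) .nil)) .nil)) .nil)) .nil)) .nil))) (.cons 227 (.cons 202 (.leaf 226 1623 (.cons 228 (.leaf 204 1629 (.cons 323 (.leaf 252 1821 (.cons 324 (.leaf 300 1820 (.leaf 348 2012 .nil)) .nil)) .nil)) .nil)) (.cons 298 (.leaf 322 1814 (.cons 202 (.leaf 226 1623 (.cons 203 (.leaf 178 1431 (.leaf 274 1622 .nil)) .nil)) .nil)) (.cons 298 (.leaf 322 1814 (.cons 203 (.leaf 274 1622 (.cons 300 (.leaf 276 1628 (.leaf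 324 1820 .nil)) .nil)) .nil)) .nil))) (.cons 323 t120 (.cons 323 t119 (.cons 227 (.cons 298 (.leaf 322 1814 (.cons 202 (.leaf 226 1623 (.cons 203 (.leaf 178 1431 (.leaf 274 1622 .nil)) .nil)) .nil)) (.cons 298 (.leaf 322 1814 (.cons 203 (.leaf 274 1622 (.cons 204 (.leaf 180 1437 (.leaf 228 1629 .nil)) .nil)) .nil)) (.cons 228 (.leaf 204 1629 (.cons 202 (.leaf 226 1623 (.cons 203 (.leaf 178 1431 (.cons 200 (.leaf 201 1600 (.cons 229 (.leaf 230 1619 (.cons 252 (.leaf 323 1821 (.cons 276 (.leaf 300 1628 (.leaf 179 1436 .nil)) .nil)) .nil)) .nil)) .nil)) .nil)) .nil)) (.cons 202 (.leaf 226 1623 (.cons 228 (.leaf 204 1629 (.cons 322 (.leaf 298 1814 (.cons 323 (.leaf 252 1821 (.leaf 346 2006 .nil)) .nil)) .nil)) .nil)) .nil)))) (.cons 227 t118 (.cons 227 t117 (.cons 227 t116 .nil)))))))))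
noncomputable def top : T := .cons 299 t121 (.cons 274 (.cons 252 (.cons 273 (.leaf 272 1985 (.cons 253 (.leaf 254 2002 (.leaf 276 1993 .nil)) .nil)) (.cons 253 (.leaf 254 2002 (.cons 250 (.cons 225 (.leaf 226 1803 (.cons 229 (.leaf 230 1809 (.cons 249 (.leaf 224 1795 (.leaf 228 1801 .nil)) .nil)) .nil)) (.cons 277 (.leaf 278 2000 (.cons 276 (.leaf 249 1992 (.cons 229 (.leaf 230 1809 (.cons 205 (.leaf 181 1446 (.leaf 300 1638 .nil)) .nil)) .nil)) .nil)) (.cons 226 (.leaf 225 1803 (.cons 202 (.leaf 178 1428 (.leaf 299 1620 .nil)) .nil)) .nil))) .nil)) (.cons 273 (.leaf 272 1985 (.cons 276 t115 .nil)) (.cons 273 (.leaf 272 1985 (.cons 253 (.leaf 254 2002 (.leaf 250 1994 .nil)) .nil)) .nil)))) (.cons 273 t114 (.cons 250 t112 (.cons 273 t110 (.cons 250 (t97) (.cons 250 t96 t95)))))) (.cons 250 t66 (.cons 227 t42 (.cons 227 (.cons 299 (.cons 204 (.leaf 228 1629 (.cons 180 (.leaf 203 1437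 (.cons 322 (.leaf 298 1814 (.cons 323 (.leaf 346 2006 (.cons 324 (.leaf 300 1820 (.leaf 348 2012 .nil)) .nil)) .nil)) .nil)) .nil)) (.cons 202 (.leaf 226 1623 (.cons 203 (.leaf 178 1431 (.cons 204 (.leaf 180 1437 (.leaf 228 1629 .nil)) .nil)) .nil)) (.cons 202 (.leaf 226 1623 (.cons 203 (.leaf 178 1431 (.cons 298 (.leaf 274 1622 (.leaf 322 1814 .nil)) .nil)) .nil)) (.cons 202 (.leaf 226 1623 (.cons 322 (.leaf 298 1814 (.cons 323 (.leaf 346 2006 (.cons 324 (.leaf 300 1820 (.leaf 348 2012 .nil)) .nil)) .nil)) .nil)) .nil)))) (.cons 299 t37 t36)) (.cons 299 (.cons 227 t35 t34) (.cons 299 t33 (.cons 299 t31 (.cons 227 (t28) (.cons 227 t26 (.cons 227 t22 (.cons 299 (t20) (.cons 299 t18 (.cons 299 t14 (.cons 227 (t9) (.cons 227 t8 (.cons 227 (.cons 203 (.cons 202 (.leaf 178 1431 (.cons 204 (.leaf 180 1437 (.cons 274 (.leaf 298 1622 (.cons 276 (.leaf 300 1628 (.cons 273 (.cons 248 (.leaf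 249 1987 (.cons 272 (.leaf 247 1979 (.leaf 252 1985 .nil)) .nil)) (.cons 249 (.leaf 248 1987 (.cons 250 (.leaf 277 1995 (.leaf 179 1430 .nil)) .nil)) (.cons 252 (.leaf 272 1985 (.leaf 253 1993 .nil)) .nil))) .nil)) .nil)) .nil)) .nil)) (.cons 180 (.leaf 204 1437 (.cons 179 (.leaf 156 1245 (.cons 274 (.leaf 298 1622 (.leaf 250 1430 .nil)) .nil)) .nil)) (.cons 274 (.leaf 298 1622 (.cons 179 (.leaf 250 1430 (.cons 276 (.leaf 300 1628 (.leaf 252 1436 .nil)) .nil)) .nil)) (.cons 202 (.leaf 178 1431 (.cons 204 (.leaf 180 1437 (.cons 299 (.leaf 226 1623 (.leaf 228 1629 .nil)) .nil)) .nil)) .nil)))) (.cons 299 t6 t5)) (.cons 227 t4 (.cons 299 (t1) .nil))))))))))))))))))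

end Vale.Agent.P062.Data.D1
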