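import Vale.Agent.P062.Checker

namespace Vale.Agent.P062.Data.D2

open Vale.Agent.P062

noncomputable def t0 : T := .cons 272 (.cons 247 (.leaf 248 1979 (.cons 271 (.leaf 246 1971 (.cons 296 (.leaf 295 2170 (.cons 299 (.leaf 300 2176 (.leaf 298 2168 .nil)) .nil)) .nil)) .nil)) (.cons 299 (.leaf 300 2176 (.cons 271 (.leaf 298 2168 (.cons 295 (.leaf 296 2170 (.leaf 294 2162 .nil)) .nil)) .nil)) (.cons 248 (.leaf 247 1979 (.cons 249 (.leaf 276 1987 (.cons 295 (.leaf 296 2170 (.cons 271 (.leaf 294 2162 (.cons 270 (.leaf 250 1969 (.leaf 269 1961 .nil)) .nil)) .nil)) .nil)) .nil)) (.cons 248 (.leaf 247 1979 (.cons 249 (.leaf 276 1987 (.cons 299 (.leaf 300 2176 (.cons 271 (.leaf 298 2168 (.cons 270 (.leaf 250 1969 (.leaf 269 1961 .nil)) .nil)) .nil)) .nil)) .nil)) (.cons 248 (.leaf 247 1979 (.cons 276 (.leaf 249 1987 (.cons 296 (.leaf 295 2170 (.leaf 297 2178 .nil)) .nil)) .nil)) .nil)))))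 (.cons 272 (.cons 248 (.leaf 247 1979 (.cons 249 (.leaf 276 1987 (.cons 295 (.leaf 296 2170 (.cons 271 (.leaf 294 2162 (.cons 270 (.leaf 250 1969 (.leaf 269 1961 .nil)) .nil)) .nil)) .nil)) .nil)) (.cons 251 (.leaf 252 1985 (.cons 250 (.leaf 271 1977 (.cons 296 (.leaf 295 2170 (.cons 297 (.leaf 276 2178 (.cons 226 (.leaf 202 1614 (.cons 321 (.leaf 298 1806 (.leaf 345 1997 .nil)) .nil)) .nil)) .nil)) .nil)) .nil)) (.cons 247 (.leaf 248 1979 (.cons 251 (.leaf 252 1985 (.cons 271 (.leaf 246 1971 (.leaf 250 1977 .nil)) .nil)) .nil)) (.cons 248 (.leaf 247 1979 (.cons 276 (.leaf 249 1987 (.cons 296 (.leaf 295 2170 (.leaf 297 2178 .nil)) .nil)) .nil)) .nil)))) (.cons 272 (.cons 295 (.leaf 296 2170 (.cons 271 (.leaf 294 2162 (.cons 246 (.leaf 247 1971 (.cons 250 (.leaf 251 1977 (.cons 270 (.leaf 245 1963 (.leaf 249 1969 .nil)) .nil)) .nil)) .nil)) .nil)) (.cons 295 (.leaf 296 2170 (.cons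 271 (.leaf 294 2162 (.cons 246 (.leaf 247 1971 (.cons 270 (.leaf 245 1963 (.cons 298 (.leaf 299 2168 (.leaf 297 2160 .nil)) .nil)) .nil)) .nil)) .nil)) (.cons 251 (.leaf 252 1985 (.cons 250 (.leaf 271 1977 (.cons 299 (.leaf 300 2176 (.cons 226 (.leaf 202 1620 (.leaf 323 1815 .nil)) .nil)) .nil)) .nil)) (.cons 251 (.leaf 252 1985 (.cons 296 (.leaf 295 2170 (.cons 276 (.leaf 297 2178 (.cons 300 (.leaf 299 2176 (.leaf 301 2184 .nil)) .nil)) .nil)) .nil)) .nil)))) (.cons 272 (.cons 247 (.leaf 248 1979 (.cons 251 (.leaf 252 1985 (.cons 271 (.leaf 246 1971 (.leaf 250 1977 .nil)) .nil)) .nil)) (.cons 299 (.leaf 300 2176 (.cons 247 (.leaf 248 1979 (.cons 271 (.leaf 246 1971 (.leaf 298 2168 .nil)) .nil)) .nil)) (.cons 251 (.leaf 252 1985 (.cons 296 (.leaf 295 2170 (.cons 276 (.leaf 297 2178 (.cons 300 (.leaf 299 2176 (.leaf 301 2184 .nil)) .nil)) .nil)) .nil)) .nil))) (.cons 272 (.cons 299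 (.leaf 300 2176 (.cons 247 (.leaf 248 1979 (.cons 271 (.leaf 246 1971 (.leaf 298 2168 .nil)) .nil)) .nil)) (.cons 299 (.leaf 300 2176 (.cons 271 (.leaf 298 2168 (.cons 295 (.leaf 296 2170 (.leaf 294 2162 .nil)) .nil)) .nil)) (.cons 247 (.leaf 248 1979 (.cons 271 (.leaf 246 1971 (.cons 296 (.leaf 295 2170 (.cons 199 (.leaf 223 1596 (.cons 297 (.leaf 276 2178 (.cons 270 (.leaf 298 2160 (.leaf 269 2152 .nil)) .nil)) .nil)) .nil)) .nil)) .nil)) (.cons 248 (.leaf 247 1979 (.cons 276 (.leaf 249 1987 (.cons 296 (.leaf 295 2170 (.leaf 297 2178 .nil)) .nil)) .nil)) .nil)))) (.cons 272 (.cons 247 (.leaf 248 1979 (.cons 251 (.leaf 252 1985 (.cons 271 (.leaf 246 1971 (.leaf 250 1977 .nil)) .nil)) .nil)) (.cons 251 (.leaf 252 1985 (.cons 296 (.leaf 295 2170 (.cons 276 (.leaf 297 2178 (.cons 300 (.leaf 299 2176 (.leaf 301 2184 .nil)) .nil)) .nil)) .nil)) (.cons 248 (.leaf 247 1979 (.cons 249 (.leaf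 276 1987 (.cons 295 (.leaf 296 2170 (.cons 271 (.leaf 294 2162 (.cons 270 (.leaf 250 1969 (.leaf 269 1961 .nil)) .nil)) .nil)) .nil)) .nil)) .nil))) (.cons 272 (.cons 247 (.leaf 248 1979 (.cons 271 (.leaf 246 1971 (.cons 251 (.leaf 252 1985 (.leaf 250 1977 .nil)) .nil)) .nil)) (.cons 247 (.leaf 248 1979 (.cons 271 (.leaf 246 1971 (.cons 299 (.leaf 300 2176 (.leaf 298 2168 .nil)) .nil)) .nil)) (.cons 251 (.leaf 252 1985 (.cons 250 (.leaf 271 1977 (.cons 299 (.leaf 300 2176 (.cons 226 (.leaf 202 1620 (.leaf 323 1815 .nil)) .nil)) .nil)) .nil)) (.cons 247 (.leaf 248 1979 (.cons 252 (.leaf 251 1985 (.cons 276 (.leaf 253 1993 (.cons 300 (.leaf 299 2176 (.leaf 301 2184 .nil)) .nil)) .nil)) .nil)) .nil)))) .nil))))))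
noncomputable def t1 : T := .cons 251 (.leaf 252 1985 (.cons 299 (.leaf 300 2176 (.cons 248 (.leaf 247 1979 (.cons 296 (.leaf 295 2170 (.cons 224 (.cons 201 (.leaf 225 1605 (.cons 223 (.leaf 199 1599 (.cons 250 (.leaf 271 1977 (.leaf 249 1787 .nil)) .nil)) .nil)) (.cons 297 (.leaf 200 1604 (.leaf 321 1796 .nil)) .nil)) .nil)) .nil)) .nil)) .nil)) (.cons 299 (.leaf 300 2176 (.cons 247 (.leaf 248 1979 (.cons 271 (.leaf 246 1971 (.leaf 298 2168 .nil)) .nil)) .nil)) (.cons 251 (.leaf 252 1985 (.cons 247 (.leaf 248 1979 (.cons 271 (.leaf 246 1971 (.leaf 250 1977 .nil)) .nil)) .nil)) (.cons 251 (.leaf 252 1985 (.cons 250 (.leaf 271 1977 (.cons 295 (.leaf 296 2170 (.cons 299 (.leaf 300 2176 (.cons 226 (.leaf 202 1620 (.leaf 323 1815 .nil)) .nil)) .nil)) .nil)) .nil)) (.cons 251 (.leaf 252 1985 (.cons 299 (.leaf 300 2176 (.cons 248 (.leaf 247 1979 (.cons 296 (.leaf 295 2170 (.cons 224 (.cons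 201 (.leaf 225 1605 (.cons 223 (.leaf 199 1599 (.cons 250 (.leaf 249 1787 (.cons 226 (.leaf 202 1620 (.leaf 323 1815 .nil)) .nil)) .nil)) .nil)) (.cons 297 (.leaf 200 1604 (.leaf 321 1796 .nil)) .nil)) .nil)) .nil)) .nil)) .nil)) .nil))))
noncomputable def t2 : T := .cons 297 (.leaf 296 2178 (.cons 249 (.leaf 248 1987 (.cons 300 (.leaf 301 2184 (.cons 252 (.leaf 253 1993 (.cons 225 (.cons 224 (.leaf 200 1607 (.cons 226 (.leaf 202 1613 (.cons 227 (.leaf 251 1792 (.cons 203 (.leaf 228 1631 (.leaf 204 1601 .nil)) .nil)) .nil)) .nil)) (.cons 298 (.leaf 201 1612 (.leaf 322 1804 .nil)) .nil)) .nil)) .nil)) .nil)) .nil)) (.cons 249 (.leaf 248 1987 (.cons 297 (.leaf 296 2178 (.cons 300 (.leaf 301 2184 (.cons 225 (.cons 200 (.leaf 224 1607 (.cons 226 (.leaf 202 1613 (.cons 250 (.leaf 321 1805 (.cons 298 (.leaf 201 1612 (.leaf 322 1804 .nil)) .nil)) .nil)) .nil)) (.cons 226 (.leaf 202 1613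 (.cons 200 (.leaf 224 1607 (.cons 201 (.leaf 176 1415 (.cons 250 (.leaf 177 1420 (.leaf 321 1805 .nil)) .nil)) .nil)) .nil)) (.cons 200 (.leaf 224 1607 (.cons 226 (.leaf 202 1613 (.cons 250 (.leaf 321 1805 (.cons 298 (.leaf 322 1804 (.cons 227 (.leaf 203 1621 (.cons 228 (.leaf 229 1802 (.cons 204 (.leaf 205 1609 (.cons 299 (.leaf 251 1629 (.leaf 323 1812 .nil)) .nil)) .nil)) .nil)) .nil)) .nil)) .nil)) .nil)) (.cons 298 (.leaf 201 1612 (.leaf 322 1804 .nil)) .nil)))) .nil)) .nil)) .nil)) (.cons 249 (.leaf 248 1987 (.cons 297 (.leaf 296 2178 (.cons 252 (.leaf 253 1993 (.cons 225 (.cons 298 (.leaf 201 1612 (.leaf 322 1804 .nil)) (.cons 200 (.leaf 224 1607 (.cons 201 (.leaf 176 1415 (.cons 202 (.leaf 178 1421 (.leaf 226 1613 .nil)) .nil)) .nil)) (.cons 224 (.leaf 200 1607 (.cons 226 (.leaf 202 1613 (.cons 250 (.leaf 321 1805 (.leaf 251 1795 .nil)) .nil)) .nil)) .nil))) .nil)) .nil))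 .nil)) (.cons 252 (.leaf 253 1993 (.cons 300 (.leaf 301 2184 (.cons 297 (.leaf 296 2178 (.cons 228 (.cons 203 (.leaf 227 1631 (.cons 204 (.leaf 299 1630 (.leaf 179 1439 .nil)) .nil)) (.cons 203 (.leaf 227 1631 (.cons 204 (.leaf 179 1439 (.cons 205 (.leaf 181 1445 (.leaf 229 1637 .nil)) .nil)) .nil)) (.cons 299 (.leaf 323 1822 (.cons 205 (.leaf 229 1637 (.cons 227 (.leaf 203 1631 (.cons 251 (.leaf 324 1820 (.cons 226 (.leaf 202 1623 (.cons 225 (.leaf 224 1792 (.cons 201 (.leaf 200 1603 (.cons 298 (.leaf 322 1814 (.leaf 250 1615 .nil)) .nil)) .nil)) .nil)) .nil)) .nil)) .nil)) .nil)) (.cons 299 (.leaf 204 1630 (.leaf 323 1822 .nil)) .nil)))) .nil)) .nil)) .nil)) (.cons 252 (.leaf 253 1993 (.cons 300 (.leaf 301 2184 (.cons 249 (.leaf 248 1987 (.cons 228 (.cons 227 (.leaf 203 1631 (.cons 205 (.leaf 229 1637 (.cons 204 (.leaf 299 1630 (.leaf 181 1445 .nil)) .nil)) .nil)) (.cons 227 (.leaf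 203 1631 (.cons 205 (.leaf 229 1637 (.cons 204 (.leaf 181 1445 (.cons 225 (.leaf 226 1609 (.cons 201 (.leaf 298 1612 (.cons 176 (.leaf 200 1415 (.cons 177 (.leaf 250 1420 (.leaf 152 1223 .nil)) .nil)) .nil)) .nil)) .nil)) .nil)) .nil)) (.cons 299 (.leaf 204 1630 (.leaf 323 1822 .nil)) (.cons 227 (.leaf 203 1631 (.cons 229 (.leaf 205 1637 (.cons 250 (.leaf 251 1801 (.leaf 226 1802 .nil)) .nil)) .nil)) .nil)))) .nil)) .nil)) .nil)) (.cons 297 (.leaf 296 2178 (.cons 249 (.leaf 248 1987 (.cons 300 (.leaf 301 2184 (.cons 252 (.leaf 253 1993 (.cons 225 (.cons 298 (.leaf 201 1612 (.leaf 322 1804 .nil)) (.cons 200 (.leaf 224 1607 (.cons 201 (.leaf 176 1415 (.cons 202 (.leaf 178 1421 (.leaf 226 1613 .nil)) .nil)) .nil)) (.cons 200 (.leaf 224 1607 (.cons 226 (.leaf 202 1613 (.cons 321 (.leaf 250 1805 (.cons 322 (.leaf 298 1804 (.leaf 346 1996 .nil)) .nil)) .nil)) .nil)) .nil))) .nil)) .nil))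 .nil)) .nil)) (.cons 252 (.leaf 253 1993 (.cons 300 (.leaf 301 2184 (.cons 249 (.leaf 248 1987 (.cons 228 (.cons 227 (.leaf 203 1631 (.cons 229 (.leaf 205 1637 (.cons 250 (.leaf 251 1801 (.leaf 226 1802 .nil)) .nil)) .nil)) (.cons 299 (.leaf 204 1630 (.leaf 323 1822 .nil)) .nil)) .nil)) .nil)) .nil)) (.cons 252 (.leaf 253 1993 (.cons 300 (.leaf 301 2184 (.cons 297 (.leaf 296 2178 (.cons 228 (.cons 203 (.leaf 227 1631 (.cons 204 (.leaf 299 1630 (.leaf 179 1439 .nil)) .nil)) (.cons 203 (.leaf 227 1631 (.cons 204 (.leaf 179 1439 (.cons 205 (.leaf 181 1445 (.leaf 229 1637 .nil)) .nil)) .nil)) (.cons 323 (.leaf 299 1822 (.cons 203 (.leaf 227 1631 (.cons 205 (.leaf 229 1637 (.cons 324 (.leaf 347 2014 (.cons 325 (.leaf 349 2020 (.cons 322 (.leaf 298 2379 (.cons 345 (.leaf 346 2570 (.cons 321 (.leaf 250 1997 (.leaf 344 2562 .nil)) .nil)) .nil)) .nil)) .nil)) .nil)) .nil)) .nil)) (.cons 299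 (.leaf 204 1630 (.leaf 323 1822 .nil)) .nil)))) .nil)) .nil)) .nil)) .nil)))))))
noncomputable def t3 : T := .cons 272 (.cons 247 (.leaf 248 1979 (.cons 251 (.leaf 252 1985 (.cons 271 (.leaf 246 1971 (.leaf 250 1977 .nil)) .nil)) .nil)) (.cons 248 (.leaf 247 1979 (.cons 249 (.leaf 276 1987 (.cons 296 (.leaf 295 2170 (.cons 201 (.leaf 225 1606 (.cons 299 (.leaf 300 2176 (.cons 271 (.leaf 298 2168 (.cons 270 (.leaf 250 1969 (.leaf 269 1961 .nil)) .nil)) .nil)) .nil)) .nil)) .nil)) .nil)) (.cons 299 (.leaf 300 2176 (.cons 271 (.leaf 298 2168 (.cons 246 (.leaf 247 1971 (.cons 270 (.leaf 245 1963 (.cons 294 (.leaf 295 2162 (.leaf 293 2154 .nil)) .nil)) .nil)) .nil)) .nil)) (.cons 299 (.leaf 300 2176 (.cons 271 (.leaf 298 2168 (.cons 250 (.leaf 251 1977 (.cons 202 (.leaf 226 1620 (.cons 270 (.leaf 249 1969 (.cons 294 (.leaf 295 2162 (.leaf 293 2154 .nil)) .nil)) .nil)) .nil)) .nil)) .nil))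 (.cons 248 (.leaf 247 1979 (.cons 251 (.leaf 252 1985 (.cons 276 (.leaf 249 1987 (.cons 300 (.leaf 299 2176 (.leaf 301 2184 .nil)) .nil)) .nil)) .nil)) .nil))))) (.cons 276 (t2) (.cons 272 t1 t0))
noncomputable def t4 : T := .cons 272 (.cons 251 (.leaf 252 1985 (.cons 247 (.leaf 248 1979 (.cons 271 (.leaf 246 1971 (.leaf 250 1977 .nil)) .nil)) .nil)) (.cons 299 (.leaf 300 2176 (.cons 247 (.leaf 248 1979 (.cons 271 (.leaf 246 1971 (.leaf 298 2168 .nil)) .nil)) .nil)) (.cons 251 (.leaf 252 1985 (.cons 250 (.leaf 271 1977 (.cons 295 (.leaf 296 2170 (.cons 299 (.leaf 300 2176 (.cons 226 (.leaf 202 1620 (.leaf 323 1815 .nil)) .nil)) .nil)) .nil)) .nil)) (.cons 251 (.leaf 252 1985 (.cons 299 (.leaf 300 2176 (.cons 248 (.leaf 247 1979 (.cons 296 (.leaf 295 2170 (.cons 227 (.cons 202 (.leaf 226 1623 (.cons 203 (.leaf 178 1431 (.leaf 298 1622 .nil)) .nil)) (.cons 202 (.leaf 226 1623 (.cons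 203 (.leaf 178 1431 (.cons 204 (.leaf 180 1437 (.leaf 228 1629 .nil)) .nil)) .nil)) (.cons 202 (.leaf 226 1623 (.cons 228 (.leaf 204 1629 (.cons 249 (.leaf 250 1793 (.cons 320 (.leaf 344 1989 (.leaf 225 1797 .nil)) .nil)) .nil)) .nil)) (.cons 298 (.leaf 203 1622 (.leaf 322 1814 .nil)) .nil)))) .nil)) .nil)) .nil)) .nil)) .nil)))) (.cons 272 (.cons 247 (.leaf 248 1979 (.cons 252 (.leaf 251 1985 (.cons 276 (.leaf 253 1993 (.cons 296 (.leaf 295 2170 (.leaf 297 2178 .nil)) .nil)) .nil)) .nil)) (.cons 251 (.leaf 252 1985 (.cons 247 (.leaf 248 1979 (.cons 271 (.leaf 246 1971 (.leaf 250 1977 .nil)) .nil)) .nil)) (.cons 296 (.leaf 295 2170 (.cons 247 (.leaf 248 1979 (.cons 271 (.leaf 246 1971 (.cons 199 (.leaf 223 1596 (.cons 297 (.leaf 276 2178 (.cons 270 (.leaf 298 2160 (.leaf 269 2152 .nil)) .nil)) .nil)) .nil)) .nil)) .nil)) (.cons 296 (.leaf 295 2170 (.cons 252 (.leaf 251 1985 (.cons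 276 (.leaf 253 1993 (.leaf 297 2178 .nil)) .nil)) .nil)) .nil)))) (.cons 272 (.cons 247 (.leaf 248 1979 (.cons 296 (.leaf 295 2170 (.cons 276 (.leaf 297 2178 (.cons 300 (.leaf 299 2176 (.leaf 301 2184 .nil)) .nil)) .nil)) .nil)) (.cons 299 (.leaf 300 2176 (.cons 247 (.leaf 248 1979 (.cons 271 (.leaf 246 1971 (.leaf 298 2168 .nil)) .nil)) .nil)) (.cons 296 (.leaf 295 2170 (.cons 247 (.leaf 248 1979 (.cons 271 (.leaf 246 1971 (.cons 199 (.leaf 223 1596 (.cons 297 (.leaf 276 2178 (.cons 270 (.leaf 298 2160 (.leaf 269 2152 .nil)) .nil)) .nil)) .nil)) .nil)) .nil)) (.cons 296 (.leaf 295 2170 (.cons 276 (.leaf 297 2178 (.cons 300 (.leaf 299 2176 (.leaf 301 2184 .nil)) .nil)) .nil)) .nil)))) (.cons 272 (.cons 247 (.leaf 248 1979 (.cons 252 (.leaf 251 1985 (.cons 276 (.leaf 253 1993 (.cons 300 (.leaf 299 2176 (.leaf 301 2184 .nil)) .nil)) .nil)) .nil)) (.cons 299 (.leaf 300 2176 (.cons 247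 (.leaf 248 1979 (.cons 271 (.leaf 246 1971 (.leaf 298 2168 .nil)) .nil)) .nil)) (.cons 251 (.leaf 252 1985 (.cons 247 (.leaf 248 1979 (.cons 271 (.leaf 246 1971 (.leaf 250 1977 .nil)) .nil)) .nil)) (.cons 251 (.leaf 252 1985 (.cons 250 (.leaf 271 1977 (.cons 299 (.leaf 300 2176 (.cons 226 (.leaf 202 1620 (.leaf 323 1815 .nil)) .nil)) .nil)) .nil)) .nil)))) (.cons 272 (.cons 251 (.leaf 252 1985 (.cons 250 (.leaf 271 1977 (.cons 295 (.leaf 296 2170 (.cons 299 (.leaf 300 2176 (.cons 226 (.leaf 202 1620 (.leaf 323 1815 .nil)) .nil)) .nil)) .nil)) .nil)) (.cons 251 (.leaf 252 1985 (.cons 250 (.leaf 271 1977 (.cons 299 (.leaf 300 2176 (.cons 226 (.leaf 202 1620 (.leaf 323 1815 .nil)) .nil)) .nil)) .nil)) (.cons 247 (.leaf 248 1979 (.cons 296 (.leaf 295 2170 (.cons 276 (.leaf 297 2178 (.cons 300 (.leaf 299 2176 (.leaf 301 2184 .nil)) .nil)) .nil)) .nil)) (.cons 251 (.leaf 252 1985 (.cons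 247 (.leaf 248 1979 (.cons 271 (.leaf 246 1971 (.leaf 250 1977 .nil)) .nil)) .nil)) .nil)))) (.cons 272 (.cons 295 (.leaf 296 2170 (.cons 271 (.leaf 294 2162 (.cons 246 (.leaf 247 1971 (.cons 250 (.leaf 251 1977 (.cons 270 (.leaf 245 1963 (.leaf 249 1969 .nil)) .nil)) .nil)) .nil)) .nil)) (.cons 295 (.leaf 296 2170 (.cons 271 (.leaf 294 2162 (.cons 246 (.leaf 247 1971 (.cons 270 (.leaf 245 1963 (.cons 298 (.leaf 299 2168 (.leaf 297 2160 .nil)) .nil)) .nil)) .nil)) .nil)) (.cons 251 (.leaf 252 1985 (.cons 250 (.leaf 271 1977 (.cons 299 (.leaf 300 2176 (.cons 226 (.leaf 202 1620 (.leaf 323 1815 .nil)) .nil)) .nil)) .nil)) (.cons 251 (.leaf 252 1985 (.cons 296 (.leaf 295 2170 (.cons 276 (.leaf 297 2178 (.cons 300 (.leaf 299 2176 (.leaf 301 2184 .nil)) .nil)) .nil)) .nil)) .nil)))) .nil)))))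
noncomputable def t5 : T := .cons 249 (.leaf 248 1987 (.cons 297 (.leaf 296 2178 (.cons 252 (.leaf 253 1993 (.cons 300 (.leaf 301 2184 (.cons 228 (.cons 203 (.leaf 227 1631 (.cons 229 (.leaf 205 1637 (.cons 250 (.leaf 251 1801 (.cons 321 (.leaf 345 1997 (.leaf 226 1805 .nil)) .nil)) .nil)) .nil)) (.cons 299 (.leaf 204 1630 (.leaf 323 1822 .nil)) .nil)) .nil)) .nil)) .nil)) .nil)) (.cons 297 (.leaf 296 2178 (.cons 249 (.leaf 248 1987 (.cons 252 (.leaf 253 1993 (.cons 321 (.cons 250 (.leaf 345 1997 (.leaf 226 1805 .nil)) (.cons 346 (.leaf 322 1996 (.cons 344 (.leaf 320 1990 (.cons 345 (.leaf 368 2182 (.leaf 370 2188 .nil)) .nil)) .nil)) (.cons 226 (.leaf 250 1805 (.cons 320 (.leaf 344 1990 (.cons 322 (.leaf 346 1996 (.cons 298 (.leaf 225 1804 (.cons 319 (.leaf 318 2353 (.leaf 299 2361 .nil)) .nil)) .nil)) .nil)) .nil)) .nil))) .nil)) .nil)) .nil)) (.cons 297 (.leaf 296 2178 (.cons 249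 (.leaf 248 1987 (.cons 300 (.leaf 301 2184 (.cons 321 (.cons 250 (.leaf 345 1997 (.leaf 226 1805 .nil)) (.cons 320 (.leaf 344 1990 (.cons 322 (.leaf 346 1996 (.cons 323 (.leaf 299 2369 (.cons 348 (.leaf 347 2560 (.cons 324 (.leaf 251 2015 (.leaf 349 2568 .nil)) .nil)) .nil)) .nil)) .nil)) .nil)) .nil)) .nil)) .nil)) (.cons 252 (.leaf 253 1993 (.cons 300 (.leaf 301 2184 (.cons 249 (.leaf 248 1987 (.cons 228 (.cons 227 (.leaf 203 1631 (.cons 205 (.leaf 229 1637 (.cons 204 (.leaf 299 1630 (.leaf 181 1445 .nil)) .nil)) .nil)) (.cons 227 (.leaf 203 1631 (.cons 205 (.leaf 229 1637 (.cons 204 (.leaf 181 1445 (.cons 225 (.leaf 226 1609 (.cons 201 (.leaf 298 1612 (.cons 176 (.leaf 200 1415 (.cons 177 (.leaf 250 1420 (.leaf 152 1223 .nil)) .nil)) .nil)) .nil)) .nil)) .nil)) .nil)) (.cons 299 (.leaf 204 1630 (.leaf 323 1822 .nil)) (.cons 227 (.leaf 203 1631 (.cons 229 (.leaf 205 1637 (.cons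 250 (.leaf 251 1801 (.leaf 226 1802 .nil)) .nil)) .nil)) .nil)))) .nil)) .nil)) .nil)) (.cons 252 (.leaf 253 1993 (.cons 300 (.leaf 301 2184 (.cons 297 (.leaf 296 2178 (.cons 228 (.cons 203 (.leaf 227 1631 (.cons 204 (.leaf 299 1630 (.leaf 179 1439 .nil)) .nil)) (.cons 203 (.leaf 227 1631 (.cons 204 (.leaf 179 1439 (.cons 205 (.leaf 181 1445 (.leaf 229 1637 .nil)) .nil)) .nil)) (.cons 299 (.leaf 323 1822 (.cons 205 (.leaf 229 1637 (.cons 227 (.leaf 203 1631 (.cons 324 (.leaf 251 1820 (.cons 325 (.leaf 349 2020 (.leaf 298 2376 .nil)) .nil)) .nil)) .nil)) .nil)) (.cons 299 (.leaf 204 1630 (.leaf 323 1822 .nil)) .nil)))) .nil)) .nil)) .nil)) (.cons 249 (.leaf 248 1987 (.cons 297 (.leaf 296 2178 (.cons 252 (.leaf 253 1993 (.cons 300 (.leaf 301 2184 (.cons 321 (.cons 250 (.leaf 345 1997 (.leaf 226 1805 .nil)) (.cons 322 (.leaf 346 1996 (.cons 225 (.leaf 298 1804 (.cons 202 (.leaf 226 1613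 (.cons 344 (.leaf 320 1990 (.cons 345 (.leaf 368 2182 (.cons 324 (.leaf 323 2562 (.cons 251 (.leaf 348 2015 (.leaf 227 1823 .nil)) .nil)) .nil)) .nil)) .nil)) .nil)) .nil)) (.cons 226 (.leaf 250 1805 (.cons 225 (.leaf 202 1613 (.cons 322 (.leaf 298 1804 (.leaf 346 1996 .nil)) .nil)) .nil)) (.cons 345 (.leaf 250 1997 (.cons 344 (.leaf 320 1990 (.leaf 368 2182 .nil)) .nil)) .nil)))) .nil)) .nil)) .nil)) .nil)) .nil)))))
noncomputable def t6 : T := .cons 248 (.leaf 247 1979 (.cons 296 (.leaf 295 2170 (.cons 251 (.leaf 252 1985 (.cons 299 (.leaf 300 2176 (.cons 224 (.cons 201 (.leaf 225 1605 (.cons 223 (.leaf 199 1599 (.cons 250 (.leaf 271 1977 (.leaf 249 1787 .nil)) .nil)) .nil)) (.cons 297 (.leaf 200 1604 (.leaf 321 1796 .nil)) .nil)) .nil)) .nil)) .nil)) .nil)) (.cons 299 (.leaf 300 2176 (.cons 247 (.leaf 248 1979 (.cons 271 (.leaf 246 1971 (.leaf 298 2168 .nil)) .nil)) .nil)) (.cons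 248 (.leaf 247 1979 (.cons 296 (.leaf 295 2170 (.cons 251 (.leaf 252 1985 (.cons 224 (.cons 297 (.leaf 200 1604 (.leaf 321 1796 .nil)) (.cons 250 (.leaf 271 1977 (.cons 223 (.leaf 199 1599 (.leaf 249 1787 .nil)) .nil)) .nil)) .nil)) .nil)) .nil)) (.cons 251 (.leaf 252 1985 (.cons 250 (.leaf 271 1977 (.cons 295 (.leaf 296 2170 (.cons 299 (.leaf 300 2176 (.cons 226 (.leaf 202 1620 (.leaf 323 1815 .nil)) .nil)) .nil)) .nil)) .nil)) (.cons 248 (.leaf 247 1979 (.cons 296 (.leaf 295 2170 (.cons 251 (.leaf 252 1985 (.cons 299 (.leaf 300 2176 (.cons 224 (.cons 201 (.leaf 225 1605 (.cons 223 (.leaf 199 1599 (.cons 250 (.leaf 249 1787 (.cons 226 (.leaf 202 1620 (.leaf 323 1815 .nil)) .nil)) .nil)) .nil)) (.cons 297 (.leaf 200 1604 (.leaf 321 1796 .nil)) .nil)) .nil)) .nil)) .nil)) .nil)) .nil))))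
noncomputable def t7 : T := .cons 249 (.leaf 248 1987 (.cons 297 (.leaf 296 2178 (.cons 300 (.leaf 301 2184 (.cons 225 (.cons 202 (.leaf 226 1613 (.cons 200 (.leaf 224 1607 (.cons 322 (.leaf 298 1804 (.cons 321 (.leaf 346 1996 (.cons 344 (.leaf 320 1990 (.cons 345 (.leaf 250 1997 (.leaf 368 2182 .nil)) .nil)) .nil)) .nil)) .nil)) .nil)) (.cons 202 (.leaf 226 1613 (.cons 200 (.leaf 224 1607 (.cons 201 (.leaf 176 1415 (.leaf 178 1421 .nil)) .nil)) .nil)) (.cons 298 (.leaf 201 1612 (.leaf 322 1804 .nil)) .nil))) .nil)) .nil)) .nil)) (.cons 252 (.leaf 253 1993 (.cons 300 (.leaf 301 2184 (.cons 297 (.leaf 296 2178 (.cons 228 (.cons 299 (.leaf 204 1630 (.leaf 323 1822 .nil)) (.cons 203 (.leaf 227 1631 (.cons 204 (.leaf 179 1439 (.cons 205 (.leaf 181 1445 (.leaf 229 1637 .nil)) .nil)) .nil)) (.cons 299 (.leaf 323 1822 (.cons 227 (.leaf 203 1631 (.cons 229 (.leaf 205 1637 (.cons 230 (.cons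 207 (.leaf 206 1625 (.cons 231 (.leaf 251 1818 (.leaf 208 1633 .nil)) .nil)) (.cons 207 (.leaf 206 1625 (.cons 231 (.leaf 208 1633 (.cons 255 (.leaf 254 1816 (.leaf 256 1824 .nil)) .nil)) .nil)) (.cons 206 (.leaf 207 1625 (.cons 250 (.leaf 251 1810 (.cons 226 (.leaf 202 1620 (.cons 321 (.leaf 298 1806 (.leaf 345 1997 .nil)) .nil)) .nil)) .nil)) (.cons 251 (.leaf 231 1818 (.leaf 250 1810 .nil)) .nil)))) .nil)) .nil)) .nil)) .nil))) .nil)) .nil)) .nil)) (.cons 252 (.leaf 253 1993 (.cons 300 (.leaf 301 2184 (.cons 249 (.leaf 248 1987 (.cons 228 (.cons 227 (.leaf 203 1631 (.cons 205 (.leaf 229 1637 (.cons 204 (.leaf 299 1630 (.leaf 181 1445 .nil)) .nil)) .nil)) (.cons 227 (.leaf 203 1631 (.cons 205 (.leaf 229 1637 (.cons 204 (.leaf 181 1445 (.cons 225 (.leaf 226 1609 (.cons 201 (.leaf 298 1612 (.cons 176 (.leaf 200 1415 (.cons 177 (.leaf 250 1420 (.leaf 152 1223 .nil)) .nil)) .nil)) .nil))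 .nil)) .nil)) .nil)) (.cons 227 (.leaf 203 1631 (.cons 229 (.leaf 205 1637 (.cons 250 (.leaf 251 1801 (.leaf 226 1802 .nil)) .nil)) .nil)) (.cons 299 (.leaf 204 1630 (.leaf 323 1822 .nil)) .nil)))) .nil)) .nil)) .nil)) (.cons 249 (.leaf 248 1987 (.cons 297 (.leaf 296 2178 (.cons 252 (.leaf 253 1993 (.cons 225 (.cons 298 (.leaf 201 1612 (.leaf 322 1804 .nil)) (.cons 200 (.leaf 224 1607 (.cons 201 (.leaf 176 1415 (.cons 202 (.leaf 178 1421 (.leaf 226 1613 .nil)) .nil)) .nil)) (.cons 224 (.leaf 200 1607 (.cons 226 (.leaf 202 1613 (.cons 250 (.leaf 321 1805 (.leaf 251 1795 .nil)) .nil)) .nil)) .nil))) .nil)) .nil)) .nil)) (.cons 252 (.leaf 253 1993 (.cons 300 (.leaf 301 2184 (.cons 297 (.leaf 296 2178 (.cons 249 (.leaf 248 1987 (.cons 225 (.cons 224 (.leaf 200 1607 (.cons 226 (.leaf 202 1613 (.cons 227 (.leaf 251 1792 (.cons 203 (.leaf 228 1631 (.leaf 204 1601 .nil)) .nil)) .nil)) .nil))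 (.cons 298 (.leaf 201 1612 (.leaf 322 1804 .nil)) .nil)) .nil)) .nil)) .nil)) .nil)) (.cons 252 (.leaf 253 1993 (.cons 300 (.leaf 301 2184 (.cons 249 (.leaf 248 1987 (.cons 228 (.cons 227 (.leaf 203 1631 (.cons 229 (.leaf 205 1637 (.cons 250 (.leaf 251 1801 (.leaf 226 1802 .nil)) .nil)) .nil)) (.cons 299 (.leaf 204 1630 (.leaf 323 1822 .nil)) .nil)) .nil)) .nil)) .nil)) (.cons 249 (.leaf 248 1987 (.cons 297 (.leaf 296 2178 (.cons 252 (.leaf 253 1993 (.cons 300 (.leaf 301 2184 (.cons 228 (.cons 203 (.leaf 227 1631 (.cons 204 (.leaf 299 1630 (.leaf 179 1439 .nil)) .nil)) (.cons 203 (.leaf 227 1631 (.cons 204 (.leaf 179 1439 (.cons 205 (.leaf 181 1445 (.leaf 229 1637 .nil)) .nil)) .nil)) (.cons 203 (.leaf 227 1631 (.cons 229 (.leaf 205 1637 (.cons 250 (.leaf 251 1801 (.cons 321 (.leaf 345 1997 (.cons 299 (.leaf 323 1822 (.cons 320 (.leaf 344 1990 (.leaf 298 2370 .nil)) .nil)) .nil))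 .nil)) .nil)) .nil)) (.cons 299 (.leaf 204 1630 (.leaf 323 1822 .nil)) .nil)))) .nil)) .nil)) .nil)) .nil)) .nil))))))
noncomputable def t8 : T := .cons 276 t7 (.cons 272 t6 (.cons 272 (.cons 299 (.leaf 300 2176 (.cons 247 (.leaf 248 1979 (.cons 271 (.leaf 246 1971 (.leaf 298 2168 .nil)) .nil)) .nil)) (.cons 251 (.leaf 252 1985 (.cons 271 (.leaf 250 1977 (.cons 295 (.leaf 296 2170 (.leaf 294 2162 .nil)) .nil)) .nil)) (.cons 296 (.leaf 295 2170 (.cons 276 (.leaf 297 2178 (.cons 300 (.leaf 299 2176 (.leaf 301 2184 .nil)) .nil)) .nil)) .nil))) (.cons 272 (.cons 247 (.leaf 248 1979 (.cons 271 (.leaf 246 1971 (.cons 296 (.leaf 295 2170 (.cons 299 (.leaf 300 2176 (.leaf 298 2168 .nil)) .nil)) .nil)) .nil)) (.cons 248 (.leaf 247 1979 (.cons 249 (.leaf 276 1987 (.cons 299 (.leaf 300 2176 (.cons 271 (.leaf 298 2168 (.cons 270 (.leaf 250 1969 (.leaf 269 1961 .nil)) .nil)) .nil)) .nil)) .nil))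 (.cons 296 (.leaf 295 2170 (.cons 276 (.leaf 297 2178 (.cons 300 (.leaf 299 2176 (.leaf 301 2184 .nil)) .nil)) .nil)) (.cons 247 (.leaf 248 1979 (.cons 271 (.leaf 246 1971 (.cons 296 (.leaf 295 2170 (.cons 199 (.leaf 223 1596 (.cons 297 (.leaf 276 2178 (.cons 270 (.leaf 298 2160 (.leaf 269 2152 .nil)) .nil)) .nil)) .nil)) .nil)) .nil)) .nil)))) (.cons 272 (.cons 251 (.leaf 252 1985 (.cons 250 (.leaf 271 1977 (.cons 295 (.leaf 296 2170 (.cons 299 (.leaf 300 2176 (.cons 226 (.leaf 202 1620 (.leaf 323 1815 .nil)) .nil)) .nil)) .nil)) .nil)) (.cons 251 (.leaf 252 1985 (.cons 271 (.leaf 250 1977 (.cons 295 (.leaf 296 2170 (.leaf 294 2162 .nil)) .nil)) .nil)) (.cons 296 (.leaf 295 2170 (.cons 276 (.leaf 297 2178 (.cons 300 (.leaf 299 2176 (.leaf 301 2184 .nil)) .nil)) .nil)) (.cons 251 (.leaf 252 1985 (.cons 250 (.leaf 271 1977 (.cons 299 (.leaf 300 2176 (.cons 226 (.leaf 202 1620 (.leaf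 323 1815 .nil)) .nil)) .nil)) .nil)) .nil)))) (.cons 272 (.cons 247 (.leaf 248 1979 (.cons 252 (.leaf 251 1985 (.cons 276 (.leaf 253 1993 (.cons 300 (.leaf 299 2176 (.leaf 301 2184 .nil)) .nil)) .nil)) .nil)) (.cons 247 (.leaf 248 1979 (.cons 271 (.leaf 246 1971 (.cons 299 (.leaf 300 2176 (.leaf 298 2168 .nil)) .nil)) .nil)) (.cons 251 (.leaf 252 1985 (.cons 250 (.leaf 271 1977 (.cons 299 (.leaf 300 2176 (.cons 226 (.leaf 202 1620 (.leaf 323 1815 .nil)) .nil)) .nil)) .nil)) (.cons 247 (.leaf 248 1979 (.cons 271 (.leaf 246 1971 (.cons 251 (.leaf 252 1985 (.leaf 250 1977 .nil)) .nil)) .nil)) .nil)))) (.cons 272 (.cons 251 (.leaf 252 1985 (.cons 271 (.leaf 250 1977 (.cons 295 (.leaf 296 2170 (.leaf 294 2162 .nil)) .nil)) .nil)) (.cons 248 (.leaf 247 1979 (.cons 249 (.leaf 276 1987 (.cons 251 (.leaf 252 1985 (.cons 250 (.leaf 271 1977 (.cons 223 (.leaf 224 1787 (.cons 227 (.leaf 228 1793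 (.cons 203 (.leaf 298 1622 (.leaf 179 1430 .nil)) .nil)) .nil)) .nil)) .nil)) .nil)) .nil)) (.cons 247 (.leaf 248 1979 (.cons 271 (.leaf 246 1971 (.cons 296 (.leaf 295 2170 (.cons 199 (.leaf 223 1596 (.cons 297 (.leaf 276 2178 (.cons 270 (.leaf 298 2160 (.leaf 269 2152 .nil)) .nil)) .nil)) .nil)) .nil)) .nil)) (.cons 247 (.leaf 248 1979 (.cons 252 (.leaf 251 1985 (.cons 276 (.leaf 253 1993 (.cons 296 (.leaf 295 2170 (.leaf 297 2178 .nil)) .nil)) .nil)) .nil)) .nil)))) (.cons 272 (.cons 247 (.leaf 248 1979 (.cons 252 (.leaf 251 1985 (.cons 276 (.leaf 253 1993 (.cons 271 (.leaf 246 1971 (.cons 294 (.leaf 295 2162 (.cons 270 (.leaf 293 2154 (.cons 298 (.leaf 299 2168 (.leaf 297 2160 .nil)) .nil)) .nil)) .nil)) .nil)) .nil)) .nil)) (.cons 251 (.leaf 252 1985 (.cons 296 (.leaf 295 2170 (.cons 276 (.leaf 297 2178 (.cons 300 (.leaf 299 2176 (.leaf 301 2184 .nil)) .nil)) .nil)) .nil)) (.cons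 296 (.leaf 295 2170 (.cons 247 (.leaf 248 1979 (.cons 271 (.leaf 246 1971 (.cons 199 (.leaf 223 1596 (.cons 297 (.leaf 276 2178 (.cons 270 (.leaf 298 2160 (.leaf 269 2152 .nil)) .nil)) .nil)) .nil)) .nil)) .nil)) (.cons 248 (.leaf 247 1979 (.cons 249 (.leaf 276 1987 (.cons 251 (.leaf 252 1985 (.cons 299 (.leaf 300 2176 (.cons 298 (.leaf 271 2168 (.cons 322 (.leaf 227 1814 (.leaf 346 2005 .nil)) .nil)) .nil)) .nil)) .nil)) .nil)) (.cons 247 (.leaf 248 1979 (.cons 251 (.leaf 252 1985 (.cons 271 (.leaf 246 1971 (.cons 299 (.leaf 300 2176 (.leaf 298 2168 .nil)) .nil)) .nil)) .nil)) .nil))))) .nil)))))))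
noncomputable def t9 : T := .cons 252 (.leaf 253 1993 (.cons 300 (.leaf 301 2184 (.cons 249 (.leaf 248 1987 (.cons 297 (.leaf 296 2178 (.cons 228 (.cons 227 (.leaf 203 1631 (.cons 229 (.leaf 205 1637 (.cons 226 (.leaf 250 1802 (.cons 202 (.leaf 225 1613 (.leaf 201 1611 .nil)) .nil)) .nil)) .nil)) (.cons 299 (.leaf 204 1630 (.leaf 323 1822 .nil)) .nil)) .nil)) .nil)) .nil)) .nil)) (.cons 249 (.leaf 248 1987 (.cons 297 (.leaf 296 2178 (.cons 300 (.leaf 301 2184 (.cons 225 (.cons 202 (.leaf 226 1613 (.cons 200 (.leaf 224 1607 (.cons 201 (.leaf 298 1612 (.leaf 176 1415 .nil)) .nil)) .nil)) (.cons 202 (.leaf 226 1613 (.cons 200 (.leaf 224 1607 (.cons 201 (.leaf 176 1415 (.leaf 178 1421 .nil)) .nil)) .nil)) (.cons 298 (.leaf 322 1804 (.cons 226 (.leaf 202 1613 (.cons 224 (.leaf 200 1607 (.cons 223 (.cons 250 (.leaf 222 1776 (.leaf 251 1784 .nil)) (.cons 198 (.leaf 199 1587 (.cons 222 (.leaf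 197 1579 (.cons 246 (.leaf 245 1770 (.leaf 247 1778 .nil)) .nil)) .nil)) (.cons 198 (.leaf 199 1587 (.cons 251 (.leaf 250 1784 (.cons 227 (.leaf 203 1628 (.cons 324 (.leaf 299 1820 (.leaf 348 2015 .nil)) .nil)) .nil)) .nil)) .nil))) .nil)) .nil)) .nil)) (.cons 298 (.leaf 201 1612 (.leaf 322 1804 .nil)) .nil)))) .nil)) .nil)) .nil)) (.cons 249 (.leaf 248 1987 (.cons 297 (.leaf 296 2178 (.cons 252 (.leaf 253 1993 (.cons 225 (.cons 298 (.leaf 201 1612 (.leaf 322 1804 .nil)) (.cons 200 (.leaf 224 1607 (.cons 201 (.leaf 176 1415 (.cons 202 (.leaf 178 1421 (.leaf 226 1613 .nil)) .nil)) .nil)) (.cons 224 (.leaf 200 1607 (.cons 226 (.leaf 202 1613 (.cons 251 (.leaf 250 1795 (.leaf 227 1792 .nil)) .nil)) .nil)) .nil))) .nil)) .nil)) .nil)) (.cons 252 (.leaf 253 1993 (.cons 300 (.leaf 301 2184 (.cons 297 (.leaf 296 2178 (.cons 228 (.cons 203 (.leaf 227 1631 (.cons 204 (.leaf 299 1630 (.leaf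 179 1439 .nil)) .nil)) (.cons 203 (.leaf 227 1631 (.cons 204 (.leaf 179 1439 (.cons 205 (.leaf 181 1445 (.leaf 229 1637 .nil)) .nil)) .nil)) (.cons 203 (.leaf 227 1631 (.cons 205 (.leaf 229 1637 (.cons 323 (.leaf 299 1822 (.cons 324 (.leaf 347 2014 (.cons 348 (.leaf 251 2015 (.cons 349 (.leaf 325 2020 (.leaf 373 2212 .nil)) .nil)) .nil)) .nil)) .nil)) .nil)) (.cons 299 (.leaf 204 1630 (.leaf 323 1822 .nil)) .nil)))) .nil)) .nil)) .nil)) (.cons 252 (.leaf 253 1993 (.cons 300 (.leaf 301 2184 (.cons 249 (.leaf 248 1987 (.cons 228 (.cons 299 (.leaf 204 1630 (.leaf 323 1822 .nil)) (.cons 227 (.leaf 203 1631 (.cons 205 (.leaf 229 1637 (.cons 204 (.leaf 181 1445 (.cons 225 (.leaf 226 1609 (.cons 201 (.leaf 298 1612 (.cons 176 (.leaf 200 1415 (.cons 177 (.leaf 250 1420 (.leaf 152 1223 .nil)) .nil)) .nil)) .nil)) .nil)) .nil)) .nil)) (.cons 203 (.leaf 227 1631 (.cons 205 (.leaf 229 1637 (.cons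 323 (.leaf 299 1822 (.cons 324 (.leaf 347 2014 (.cons 348 (.leaf 251 2015 (.cons 349 (.leaf 325 2020 (.leaf 373 2212 .nil)) .nil)) .nil)) .nil)) .nil)) .nil)) .nil))) .nil)) .nil)) .nil)) (.cons 252 (.leaf 253 1993 (.cons 300 (.leaf 301 2184 (.cons 249 (.leaf 248 1987 (.cons 297 (.leaf 296 2178 (.cons 225 (.cons 200 (.leaf 224 1607 (.cons 201 (.leaf 298 1612 (.leaf 176 1415 .nil)) .nil)) (.cons 200 (.leaf 224 1607 (.cons 201 (.leaf 176 1415 (.cons 202 (.leaf 178 1421 (.leaf 226 1613 .nil)) .nil)) .nil)) (.cons 202 (.leaf 226 1613 (.cons 224 (.leaf 200 1607 (.cons 251 (.leaf 250 1795 (.cons 324 (.leaf 348 2015 (.cons 298 (.leaf 322 1804 (.cons 325 (.leaf 349 2020 (.leaf 299 2376 .nil)) .nil)) .nil)) .nil)) .nil)) .nil)) (.cons 298 (.leaf 201 1612 (.leaf 322 1804 .nil)) .nil)))) .nil)) .nil)) .nil)) .nil)) .nil)))))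
noncomputable def t10 : T := .cons 272 (.cons 251 (.leaf 252 1985 (.cons 250 (.leaf 271 1977 (.cons 295 (.leaf 296 2170 (.cons 299 (.leaf 300 2176 (.cons 226 (.leaf 202 1620 (.leaf 323 1815 .nil)) .nil)) .nil)) .nil)) .nil)) (.cons 295 (.leaf 296 2170 (.cons 271 (.leaf 294 2162 (.cons 246 (.leaf 247 1971 (.cons 270 (.leaf 245 1963 (.cons 298 (.leaf 299 2168 (.leaf 297 2160 .nil)) .nil)) .nil)) .nil)) .nil)) (.cons 251 (.leaf 252 1985 (.cons 271 (.leaf 250 1977 (.cons 295 (.leaf 296 2170 (.leaf 294 2162 .nil)) .nil)) .nil)) (.cons 251 (.leaf 252 1985 (.cons 250 (.leaf 271 1977 (.cons 299 (.leaf 300 2176 (.cons 226 (.leaf 202 1620 (.leaf 323 1815 .nil)) .nil)) .nil)) .nil)) (.cons 296 (.leaf 295 2170 (.cons 276 (.leaf 297 2178 (.cons 300 (.leaf 299 2176 (.leaf 301 2184 .nil)) .nil)) .nil)) .nil))))) (.cons 276 t9 (.cons 272 (.cons 251 (.leaf 252 1985 (.cons 247 (.leaf 248 1979 (.cons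 271 (.leaf 246 1971 (.leaf 250 1977 .nil)) .nil)) .nil)) (.cons 299 (.leaf 300 2176 (.cons 247 (.leaf 248 1979 (.cons 271 (.leaf 246 1971 (.leaf 298 2168 .nil)) .nil)) .nil)) (.cons 251 (.leaf 252 1985 (.cons 250 (.leaf 271 1977 (.cons 295 (.leaf 296 2170 (.cons 299 (.leaf 300 2176 (.cons 226 (.leaf 202 1620 (.leaf 323 1815 .nil)) .nil)) .nil)) .nil)) .nil)) (.cons 251 (.leaf 252 1985 (.cons 299 (.leaf 300 2176 (.cons 248 (.leaf 247 1979 (.cons 296 (.leaf 295 2170 (.cons 227 (.cons 202 (.leaf 226 1623 (.cons 203 (.leaf 178 1431 (.leaf 298 1622 .nil)) .nil)) (.cons 202 (.leaf 226 1623 (.cons 203 (.leaf 178 1431 (.cons 204 (.leaf 180 1437 (.leaf 228 1629 .nil)) .nil)) .nil)) (.cons 202 (.leaf 226 1623 (.cons 228 (.leaf 204 1629 (.cons 249 (.leaf 250 1793 (.cons 320 (.leaf 344 1989 (.leaf 225 1797 .nil)) .nil)) .nil)) .nil)) (.cons 298 (.leaf 203 1622 (.leaf 322 1814 .nil)) .nil))))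 .nil)) .nil)) .nil)) .nil)) .nil)))) (.cons 272 (.cons 295 (.leaf 296 2170 (.cons 271 (.leaf 294 2162 (.cons 246 (.leaf 247 1971 (.cons 270 (.leaf 245 1963 (.cons 298 (.leaf 299 2168 (.leaf 297 2160 .nil)) .nil)) .nil)) .nil)) .nil)) (.cons 299 (.leaf 300 2176 (.cons 247 (.leaf 248 1979 (.cons 271 (.leaf 246 1971 (.leaf 298 2168 .nil)) .nil)) .nil)) (.cons 296 (.leaf 295 2170 (.cons 247 (.leaf 248 1979 (.cons 271 (.leaf 246 1971 (.cons 199 (.leaf 223 1596 (.cons 297 (.leaf 276 2178 (.cons 270 (.leaf 298 2160 (.leaf 269 2152 .nil)) .nil)) .nil)) .nil)) .nil)) .nil)) (.cons 296 (.leaf 295 2170 (.cons 276 (.leaf 297 2178 (.cons 300 (.leaf 299 2176 (.leaf 301 2184 .nil)) .nil)) .nil)) .nil)))) (.cons 272 (.cons 251 (.leaf 252 1985 (.cons 247 (.leaf 248 1979 (.cons 271 (.leaf 246 1971 (.leaf 250 1977 .nil)) .nil)) .nil)) (.cons 251 (.leaf 252 1985 (.cons 271 (.leaf 250 1977 (.cons 295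 (.leaf 296 2170 (.leaf 294 2162 .nil)) .nil)) .nil)) (.cons 296 (.leaf 295 2170 (.cons 247 (.leaf 248 1979 (.cons 271 (.leaf 246 1971 (.cons 199 (.leaf 223 1596 (.cons 297 (.leaf 276 2178 (.cons 270 (.leaf 298 2160 (.leaf 269 2152 .nil)) .nil)) .nil)) .nil)) .nil)) .nil)) (.cons 247 (.leaf 248 1979 (.cons 252 (.leaf 251 1985 (.cons 276 (.leaf 253 1993 (.cons 296 (.leaf 295 2170 (.leaf 297 2178 .nil)) .nil)) .nil)) .nil)) .nil)))) (.cons 272 (.cons 247 (.leaf 248 1979 (.cons 271 (.leaf 246 1971 (.cons 251 (.leaf 252 1985 (.leaf 250 1977 .nil)) .nil)) .nil)) (.cons 247 (.leaf 248 1979 (.cons 271 (.leaf 246 1971 (.cons 299 (.leaf 300 2176 (.leaf 298 2168 .nil)) .nil)) .nil)) (.cons 251 (.leaf 252 1985 (.cons 250 (.leaf 271 1977 (.cons 299 (.leaf 300 2176 (.cons 226 (.leaf 202 1620 (.leaf 323 1815 .nil)) .nil)) .nil)) .nil)) (.cons 247 (.leaf 248 1979 (.cons 252 (.leaf 251 1985 (.cons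 276 (.leaf 253 1993 (.cons 300 (.leaf 299 2176 (.leaf 301 2184 .nil)) .nil)) .nil)) .nil)) .nil)))) (.cons 272 (.cons 247 (.leaf 248 1979 (.cons 246 (.leaf 271 1971 (.cons 252 (.leaf 251 1985 (.cons 276 (.leaf 253 1993 (.cons 300 (.leaf 299 2176 (.leaf 301 2184 .nil)) .nil)) .nil)) .nil)) .nil)) (.cons 296 (.leaf 295 2170 (.cons 276 (.leaf 297 2178 (.cons 300 (.leaf 299 2176 (.leaf 301 2184 .nil)) .nil)) .nil)) (.cons 247 (.leaf 248 1979 (.cons 246 (.leaf 271 1971 (.cons 252 (.leaf 251 1985 (.cons 276 (.leaf 253 1993 (.cons 296 (.leaf 295 2170 (.leaf 297 2178 .nil)) .nil)) .nil)) .nil)) .nil)) (.cons 251 (.leaf 252 1985 (.cons 250 (.leaf 271 1977 (.cons 295 (.leaf 296 2170 (.cons 299 (.leaf 300 2176 (.cons 226 (.leaf 202 1620 (.leaf 323 1815 .nil)) .nil)) .nil)) .nil)) .nil)) .nil)))) (.cons 272 (.cons 296 (.leaf 295 2170 (.cons 276 (.leaf 297 2178 (.cons 300 (.leaf 299 2176 (.leaf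 301 2184 .nil)) .nil)) .nil)) (.cons 251 (.leaf 252 1985 (.cons 271 (.leaf 250 1977 (.cons 295 (.leaf 296 2170 (.leaf 294 2162 .nil)) .nil)) .nil)) (.cons 251 (.leaf 252 1985 (.cons 250 (.leaf 271 1977 (.cons 299 (.leaf 300 2176 (.cons 226 (.leaf 202 1620 (.leaf 323 1815 .nil)) .nil)) .nil)) .nil)) .nil))) .nil)))))))
noncomputable def t11 : T := .cons 272 (.cons 251 (.leaf 252 1985 (.cons 250 (.leaf 271 1977 (.cons 296 (.leaf 295 2170 (.cons 297 (.leaf 276 2178 (.cons 226 (.leaf 202 1614 (.cons 321 (.leaf 298 1806 (.leaf 345 1997 .nil)) .nil)) .nil)) .nil)) .nil)) .nil)) (.cons 248 (.leaf 247 1979 (.cons 249 (.leaf 276 1987 (.cons 251 (.leaf 252 1985 (.cons 250 (.leaf 271 1977 (.cons 223 (.leaf 224 1787 (.cons 227 (.leaf 228 1793 (.cons 203 (.leaf 298 1622 (.leaf 179 1430 .nil)) .nil)) .nil)) .nil)) .nil)) .nil)) .nil)) (.cons 247 (.leaf 248 1979 (.cons 271 (.leaf 246 1971 (.cons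 296 (.leaf 295 2170 (.cons 199 (.leaf 223 1596 (.cons 297 (.leaf 276 2178 (.cons 270 (.leaf 298 2160 (.leaf 269 2152 .nil)) .nil)) .nil)) .nil)) .nil)) .nil)) (.cons 247 (.leaf 248 1979 (.cons 252 (.leaf 251 1985 (.cons 276 (.leaf 253 1993 (.cons 296 (.leaf 295 2170 (.leaf 297 2178 .nil)) .nil)) .nil)) .nil)) (.cons 251 (.leaf 252 1985 (.cons 247 (.leaf 248 1979 (.cons 271 (.leaf 246 1971 (.leaf 250 1977 .nil)) .nil)) .nil)) .nil))))) (.cons 272 (.cons 247 (.leaf 248 1979 (.cons 271 (.leaf 246 1971 (.cons 296 (.leaf 295 2170 (.cons 299 (.leaf 300 2176 (.leaf 298 2168 .nil)) .nil)) .nil)) .nil)) (.cons 299 (.leaf 300 2176 (.cons 271 (.leaf 298 2168 (.cons 295 (.leaf 296 2170 (.leaf 294 2162 .nil)) .nil)) .nil)) (.cons 248 (.leaf 247 1979 (.cons 249 (.leaf 276 1987 (.cons 299 (.leaf 300 2176 (.cons 271 (.leaf 298 2168 (.cons 270 (.leaf 250 1969 (.leaf 269 1961 .nil)) .nil)) .nil)) .nil))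 .nil)) (.cons 248 (.leaf 247 1979 (.cons 249 (.leaf 276 1987 (.cons 295 (.leaf 296 2170 (.cons 271 (.leaf 294 2162 (.cons 270 (.leaf 250 1969 (.leaf 269 1961 .nil)) .nil)) .nil)) .nil)) .nil)) (.cons 248 (.leaf 247 1979 (.cons 249 (.leaf 276 1987 (.cons 296 (.leaf 295 2170 (.cons 320 (.leaf 344 1989 (.cons 319 (.leaf 343 1982 (.cons 321 (.leaf 345 1988 (.cons 224 (.leaf 297 1796 (.cons 199 (.leaf 223 1599 (.cons 200 (.leaf 176 1412 (.leaf 175 1407 .nil)) .nil)) .nil)) .nil)) .nil)) .nil)) .nil)) .nil)) .nil)) .nil))))) (.cons 272 (.cons 295 (.leaf 296 2170 (.cons 271 (.leaf 294 2162 (.cons 246 (.leaf 247 1971 (.cons 250 (.leaf 251 1977 (.cons 270 (.leaf 245 1963 (.leaf 249 1969 .nil)) .nil)) .nil)) .nil)) .nil)) (.cons 295 (.leaf 296 2170 (.cons 271 (.leaf 294 2162 (.cons 246 (.leaf 247 1971 (.cons 270 (.leaf 245 1963 (.cons 298 (.leaf 299 2168 (.leaf 297 2160 .nil)) .nil)) .nil))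 .nil)) .nil)) (.cons 251 (.leaf 252 1985 (.cons 250 (.leaf 271 1977 (.cons 299 (.leaf 300 2176 (.cons 226 (.leaf 202 1620 (.leaf 323 1815 .nil)) .nil)) .nil)) .nil)) (.cons 251 (.leaf 252 1985 (.cons 296 (.leaf 295 2170 (.cons 276 (.leaf 297 2178 (.cons 300 (.leaf 299 2176 (.leaf 301 2184 .nil)) .nil)) .nil)) .nil)) .nil)))) (.cons 272 (.cons 247 (.leaf 248 1979 (.cons 251 (.leaf 252 1985 (.cons 271 (.leaf 246 1971 (.leaf 250 1977 .nil)) .nil)) .nil)) (.cons 247 (.leaf 248 1979 (.cons 271 (.leaf 246 1971 (.cons 299 (.leaf 300 2176 (.leaf 298 2168 .nil)) .nil)) .nil)) (.cons 251 (.leaf 252 1985 (.cons 250 (.leaf 271 1977 (.cons 299 (.leaf 300 2176 (.cons 226 (.leaf 202 1620 (.leaf 323 1815 .nil)) .nil)) .nil)) .nil)) (.cons 247 (.leaf 248 1979 (.cons 252 (.leaf 251 1985 (.cons 276 (.leaf 253 1993 (.cons 300 (.leaf 299 2176 (.leaf 301 2184 .nil)) .nil)) .nil)) .nil)) .nil)))) (.cons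 272 (.cons 247 (.leaf 248 1979 (.cons 246 (.leaf 271 1971 (.cons 252 (.leaf 251 1985 (.cons 276 (.leaf 253 1993 (.cons 300 (.leaf 299 2176 (.leaf 301 2184 .nil)) .nil)) .nil)) .nil)) .nil)) (.cons 251 (.leaf 252 1985 (.cons 296 (.leaf 295 2170 (.cons 276 (.leaf 297 2178 (.cons 300 (.leaf 299 2176 (.leaf 301 2184 .nil)) .nil)) .nil)) .nil)) (.cons 247 (.leaf 248 1979 (.cons 246 (.leaf 271 1971 (.cons 252 (.leaf 251 1985 (.cons 276 (.leaf 253 1993 (.cons 296 (.leaf 295 2170 (.leaf 297 2178 .nil)) .nil)) .nil)) .nil)) .nil)) (.cons 247 (.leaf 248 1979 (.cons 271 (.leaf 246 1971 (.cons 296 (.leaf 295 2170 (.cons 299 (.leaf 300 2176 (.leaf 298 2168 .nil)) .nil)) .nil)) .nil)) .nil)))) (.cons 272 (.cons 247 (.leaf 248 1979 (.cons 251 (.leaf 252 1985 (.cons 271 (.leaf 246 1971 (.leaf 250 1977 .nil)) .nil)) .nil)) (.cons 251 (.leaf 252 1985 (.cons 250 (.leaf 271 1977 (.cons 295 (.leaf 296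 2170 (.cons 299 (.leaf 300 2176 (.cons 226 (.leaf 202 1620 (.leaf 323 1815 .nil)) .nil)) .nil)) .nil)) .nil)) (.cons 248 (.leaf 247 1979 (.cons 249 (.leaf 276 1987 (.cons 296 (.leaf 295 2170 (.cons 320 (.leaf 344 1989 (.cons 319 (.leaf 343 1982 (.cons 321 (.leaf 345 1988 (.cons 224 (.leaf 297 1796 (.cons 199 (.leaf 223 1599 (.cons 200 (.leaf 176 1412 (.leaf 175 1407 .nil)) .nil)) .nil)) .nil)) .nil)) .nil)) .nil)) .nil)) .nil)) .nil))) .nil)))))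
noncomputable def t12 : T := .cons 247 (.leaf 248 1979 (.cons 251 (.leaf 252 1985 (.cons 271 (.leaf 246 1971 (.leaf 250 1977 .nil)) .nil)) .nil)) (.cons 299 (.leaf 300 2176 (.cons 247 (.leaf 248 1979 (.cons 271 (.leaf 246 1971 (.leaf 298 2168 .nil)) .nil)) .nil)) (.cons 299 (.leaf 300 2176 (.cons 271 (.leaf 298 2168 (.cons 250 (.leaf 251 1977 (.cons 202 (.leaf 226 1620 (.cons 270 (.leaf 249 1969 (.cons 294 (.leaf 295 2162 (.leaf 293 2154 .nil)) .nil)) .nil)) .nil)) .nil)) .nil)) (.cons 251 (.leaf 252 1985 (.cons 299 (.leaf 300 2176 (.cons 248 (.leaf 247 1979 (.cons 296 (.leaf 295 2170 (.cons 227 (.cons 202 (.leaf 226 1623 (.cons 203 (.leaf 178 1431 (.leaf 298 1622 .nil)) .nil)) (.cons 202 (.leaf 226 1623 (.cons 203 (.leaf 178 1431 (.cons 204 (.leaf 180 1437 (.leaf 228 1629 .nil)) .nil)) .nil)) (.cons 202 (.leaf 226 1623 (.cons 228 (.leaf 204 1629 (.cons 249 (.leaf 250 1793 (.cons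 320 (.leaf 344 1989 (.cons 298 (.leaf 322 1814 (.cons 319 (.leaf 343 1982 (.leaf 297 2362 .nil)) .nil)) .nil)) .nil)) .nil)) .nil)) (.cons 298 (.leaf 203 1622 (.leaf 322 1814 .nil)) .nil)))) .nil)) .nil)) .nil)) .nil)) .nil)))
noncomputable def t13 : T := .cons 252 (.leaf 253 1993 (.cons 300 (.leaf 301 2184 (.cons 297 (.leaf 296 2178 (.cons 228 (.cons 323 (.leaf 299 1822 (.cons 203 (.leaf 227 1631 (.cons 205 (.leaf 229 1637 (.cons 324 (.leaf 347 2014 (.cons 325 (.leaf 349 2020 (.cons 322 (.leaf 298 2379 (.cons 345 (.leaf 346 2570 (.cons 321 (.leaf 250 1997 (.leaf 344 2562 .nil)) .nil)) .nil)) .nil)) .nil)) .nil)) .nil)) .nil)) (.cons 203 (.leaf 227 1631 (.cons 204 (.leaf 179 1439 (.cons 205 (.leaf 181 1445 (.leaf 229 1637 .nil)) .nil)) .nil)) (.cons 299 (.leaf 204 1630 (.leaf 323 1822 .nil)) .nil))) .nil)) .nil)) .nil)) (.cons 297 (.leaf 296 2178 (.cons 249 (.leaf 248 1987 (.cons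 252 (.leaf 253 1993 (.cons 321 (.cons 250 (.leaf 345 1997 (.leaf 226 1805 .nil)) (.cons 346 (.leaf 322 1996 (.cons 344 (.leaf 320 1990 (.cons 345 (.leaf 368 2182 (.leaf 370 2188 .nil)) .nil)) .nil)) (.cons 250 (.leaf 226 1805 (.cons 322 (.leaf 346 1996 (.cons 320 (.leaf 344 1990 (.cons 299 (.cons 319 (.leaf 298 2361 (.cons 294 (.leaf 295 2355 (.cons 318 (.leaf 293 2347 (.cons 342 (.leaf 341 2538 (.leaf 343 2546 .nil)) .nil)) .nil)) .nil)) (.cons 323 (.leaf 347 2013 (.cons 228 (.leaf 204 1630 (.leaf 251 1821 .nil)) .nil)) .nil)) .nil)) .nil)) .nil)) .nil))) .nil)) .nil)) .nil)) (.cons 297 (.leaf 296 2178 (.cons 249 (.leaf 248 1987 (.cons 300 (.leaf 301 2184 (.cons 321 (.cons 250 (.leaf 345 1997 (.leaf 226 1805 .nil)) (.cons 320 (.leaf 344 1990 (.cons 322 (.leaf 346 1996 (.cons 323 (.leaf 299 2369 (.cons 348 (.leaf 347 2560 (.cons 324 (.leaf 251 2015 (.leaf 349 2568 .nil)) .nil)) .nil))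 .nil)) .nil)) .nil)) .nil)) .nil)) .nil)) (.cons 252 (.leaf 253 1993 (.cons 300 (.leaf 301 2184 (.cons 249 (.leaf 248 1987 (.cons 228 (.cons 299 (.leaf 204 1630 (.leaf 323 1822 .nil)) (.cons 227 (.leaf 203 1631 (.cons 229 (.leaf 205 1637 (.cons 250 (.leaf 251 1801 (.leaf 226 1802 .nil)) .nil)) .nil)) .nil)) .nil)) .nil)) .nil)) (.cons 297 (.leaf 296 2178 (.cons 249 (.leaf 248 1987 (.cons 252 (.leaf 253 1993 (.cons 300 (.leaf 301 2184 (.cons 324 (.cons 251 (.leaf 348 2015 (.leaf 227 1823 .nil)) (.cons 323 (.leaf 347 2014 (.cons 325 (.leaf 349 2020 (.cons 322 (.leaf 298 2379 (.cons 346 (.leaf 321 1996 (.leaf 345 2570 .nil)) .nil)) .nil)) .nil)) .nil)) .nil)) .nil)) .nil)) .nil)) (.cons 300 (.leaf 301 2184 (.cons 252 (.leaf 253 1993 (.cons 297 (.leaf 296 2178 (.cons 249 (.leaf 248 1987 (.cons 321 (.cons 320 (.leaf 344 1990 (.cons 346 (.leaf 322 1996 (.cons 345 (.leaf 250 1997 (.leaf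 370 2188 .nil)) .nil)) .nil)) (.cons 320 (.leaf 344 1990 (.cons 346 (.leaf 322 1996 (.cons 345 (.leaf 370 2188 (.cons 348 (.leaf 347 2563 (.cons 324 (.leaf 251 2015 (.cons 349 (.leaf 325 2020 (.leaf 373 2212 .nil)) .nil)) .nil)) .nil)) .nil)) .nil)) (.cons 226 (.leaf 250 1805 (.cons 320 (.leaf 344 1990 (.cons 299 (.leaf 298 2370 (.cons 228 (.leaf 204 1630 (.cons 205 (.leaf 229 1637 (.cons 227 (.leaf 203 1631 (.cons 251 (.leaf 202 1623 (.leaf 324 1820 .nil)) .nil)) .nil)) .nil)) .nil)) .nil)) .nil)) (.cons 250 (.leaf 345 1997 (.leaf 226 1805 .nil)) .nil)))) .nil)) .nil)) .nil)) .nil)) .nil)))))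
noncomputable def t14 : T := .cons 272 (.cons 251 (.leaf 252 1985 (.cons 299 (.leaf 300 2176 (.cons 298 (.leaf 271 2168 (.cons 227 (.leaf 203 1622 (.leaf 322 1814 .nil)) .nil)) .nil)) .nil)) (.cons 299 (.leaf 300 2176 (.cons 247 (.leaf 248 1979 (.cons 271 (.leaf 246 1971 (.leaf 298 2168 .nil)) .nil)) .nil)) (.cons 251 (.leaf 252 1985 (.cons 247 (.leaf 248 1979 (.cons 271 (.leaf 246 1971 (.leaf 250 1977 .nil)) .nil)) .nil)) (.cons 251 (.leaf 252 1985 (.cons 299 (.leaf 300 2176 (.cons 248 (.leaf 247 1979 (.cons 296 (.leaf 295 2170 (.cons 320 (.cons 249 (.leaf 344 1989 (.leaf 225 1797 .nil)) (.cons 319 (.leaf 343 1982 (.cons 297 (.leaf 298 2362 (.cons 321 (.leaf 345 1988 (.leaf 224 1796 .nil)) .nil)) .nil)) .nil)) .nil)) .nil)) .nil)) .nil)) .nil)))) (.cons 272 (.cons 247 (.leaf 248 1979 (.cons 296 (.leaf 295 2170 (.cons 276 (.leaf 297 2178 (.cons 300 (.leaf 299 2176 (.leaf 301 2184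 .nil)) .nil)) .nil)) .nil)) (.cons 299 (.leaf 300 2176 (.cons 247 (.leaf 248 1979 (.cons 271 (.leaf 246 1971 (.leaf 298 2168 .nil)) .nil)) .nil)) (.cons 299 (.leaf 300 2176 (.cons 271 (.leaf 298 2168 (.cons 295 (.leaf 296 2170 (.leaf 294 2162 .nil)) .nil)) .nil)) (.cons 248 (.leaf 247 1979 (.cons 249 (.leaf 276 1987 (.cons 295 (.leaf 296 2170 (.cons 271 (.leaf 294 2162 (.cons 270 (.leaf 250 1969 (.leaf 269 1961 .nil)) .nil)) .nil)) .nil)) .nil)) .nil)))) (.cons 272 (.cons 247 (.leaf 248 1979 (.cons 252 (.leaf 251 1985 (.cons 276 (.leaf 253 1993 (.cons 296 (.leaf 295 2170 (.leaf 297 2178 .nil)) .nil)) .nil)) .nil)) (.cons 251 (.leaf 252 1985 (.cons 250 (.leaf 271 1977 (.cons 296 (.leaf 295 2170 (.cons 297 (.leaf 276 2178 (.cons 226 (.leaf 202 1614 (.cons 321 (.leaf 298 1806 (.leaf 345 1997 .nil)) .nil)) .nil)) .nil)) .nil)) .nil)) (.cons 247 (.leaf 248 1979 (.cons 271 (.leaf 246 1971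 (.cons 251 (.leaf 252 1985 (.leaf 250 1977 .nil)) .nil)) .nil)) (.cons 248 (.leaf 247 1979 (.cons 249 (.leaf 276 1987 (.cons 295 (.leaf 296 2170 (.cons 271 (.leaf 294 2162 (.cons 270 (.leaf 250 1969 (.leaf 269 1961 .nil)) .nil)) .nil)) .nil)) .nil)) .nil)))) (.cons 272 (.cons 295 (.leaf 296 2170 (.cons 271 (.leaf 294 2162 (.cons 246 (.leaf 247 1971 (.cons 250 (.leaf 251 1977 (.cons 270 (.leaf 245 1963 (.leaf 249 1969 .nil)) .nil)) .nil)) .nil)) .nil)) (.cons 295 (.leaf 296 2170 (.cons 271 (.leaf 294 2162 (.cons 246 (.leaf 247 1971 (.cons 270 (.leaf 245 1963 (.cons 298 (.leaf 299 2168 (.leaf 297 2160 .nil)) .nil)) .nil)) .nil)) .nil)) (.cons 251 (.leaf 252 1985 (.cons 250 (.leaf 271 1977 (.cons 299 (.leaf 300 2176 (.cons 226 (.leaf 202 1620 (.leaf 323 1815 .nil)) .nil)) .nil)) .nil)) (.cons 251 (.leaf 252 1985 (.cons 296 (.leaf 295 2170 (.cons 276 (.leaf 297 2178 (.cons 300 (.leaf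 299 2176 (.leaf 301 2184 .nil)) .nil)) .nil)) .nil)) .nil)))) (.cons 272 (.cons 247 (.leaf 248 1979 (.cons 271 (.leaf 246 1971 (.cons 251 (.leaf 252 1985 (.leaf 250 1977 .nil)) .nil)) .nil)) (.cons 247 (.leaf 248 1979 (.cons 271 (.leaf 246 1971 (.cons 299 (.leaf 300 2176 (.leaf 298 2168 .nil)) .nil)) .nil)) (.cons 251 (.leaf 252 1985 (.cons 250 (.leaf 271 1977 (.cons 299 (.leaf 300 2176 (.cons 226 (.leaf 202 1620 (.leaf 323 1815 .nil)) .nil)) .nil)) .nil)) (.cons 247 (.leaf 248 1979 (.cons 252 (.leaf 251 1985 (.cons 276 (.leaf 253 1993 (.cons 300 (.leaf 299 2176 (.leaf 301 2184 .nil)) .nil)) .nil)) .nil)) .nil)))) (.cons 272 (.cons 247 (.leaf 248 1979 (.cons 271 (.leaf 246 1971 (.cons 296 (.leaf 295 2170 (.cons 299 (.leaf 300 2176 (.leaf 298 2168 .nil)) .nil)) .nil)) .nil)) (.cons 247 (.leaf 248 1979 (.cons 271 (.leaf 246 1971 (.cons 299 (.leaf 300 2176 (.leaf 298 2168 .nil)) .nil))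 .nil)) (.cons 251 (.leaf 252 1985 (.cons 296 (.leaf 295 2170 (.cons 276 (.leaf 297 2178 (.cons 300 (.leaf 299 2176 (.leaf 301 2184 .nil)) .nil)) .nil)) .nil)) (.cons 247 (.leaf 248 1979 (.cons 246 (.leaf 271 1971 (.cons 252 (.leaf 251 1985 (.cons 276 (.leaf 253 1993 (.cons 296 (.leaf 295 2170 (.leaf 297 2178 .nil)) .nil)) .nil)) .nil)) .nil)) .nil)))) (.cons 272 (.cons 247 (.leaf 248 1979 (.cons 246 (.leaf 271 1971 (.cons 252 (.leaf 251 1985 (.cons 276 (.leaf 253 1993 (.cons 300 (.leaf 299 2176 (.leaf 301 2184 .nil)) .nil)) .nil)) .nil)) .nil)) (.cons 251 (.leaf 252 1985 (.cons 250 (.leaf 271 1977 (.cons 295 (.leaf 296 2170 (.cons 299 (.leaf 300 2176 (.cons 226 (.leaf 202 1620 (.leaf 323 1815 .nil)) .nil)) .nil)) .nil)) .nil)) (.cons 248 (.leaf 247 1979 (.cons 249 (.leaf 276 1987 (.cons 295 (.leaf 296 2170 (.cons 271 (.leaf 294 2162 (.cons 270 (.leaf 250 1969 (.leaf 269 1961 .nil))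 .nil)) .nil)) .nil)) .nil)) (.cons 248 (.leaf 247 1979 (.cons 249 (.leaf 276 1987 (.cons 251 (.leaf 252 1985 (.cons 296 (.leaf 295 2170 (.cons 320 (.leaf 344 1989 (.leaf 225 1797 .nil)) .nil)) .nil)) .nil)) .nil)) .nil)))) .nil))))))
noncomputable def t15 : T := .cons 297 (.leaf 296 2178 (.cons 249 (.leaf 248 1987 (.cons 252 (.leaf 253 1993 (.cons 321 (.cons 322 (.leaf 346 1996 (.cons 225 (.leaf 298 1804 (.cons 226 (.leaf 202 1613 (.leaf 250 1805 .nil)) .nil)) .nil)) (.cons 322 (.leaf 346 1996 (.cons 344 (.leaf 320 1990 (.cons 345 (.leaf 368 2182 (.cons 323 (.leaf 324 2562 (.cons 299 (.leaf 347 2013 (.cons 228 (.leaf 204 1630 (.leaf 251 1821 .nil)) .nil)) .nil)) .nil)) .nil)) .nil)) (.cons 250 (.leaf 345 1997 (.leaf 226 1805 .nil)) .nil))) .nil)) .nil)) .nil)) (.cons 297 (.leaf 296 2178 (.cons 249 (.leaf 248 1987 (.cons 300 (.leaf 301 2184 (.cons 321 (.cons 250 (.leaf 345 1997 (.leaf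 226 1805 .nil)) (.cons 320 (.leaf 344 1990 (.cons 322 (.leaf 346 1996 (.cons 323 (.leaf 299 2369 (.cons 348 (.leaf 347 2560 (.cons 324 (.leaf 251 2015 (.leaf 349 2568 .nil)) .nil)) .nil)) .nil)) .nil)) .nil)) .nil)) .nil)) .nil)) (.cons 252 (.leaf 253 1993 (.cons 300 (.leaf 301 2184 (.cons 249 (.leaf 248 1987 (.cons 228 (.cons 299 (.leaf 204 1630 (.leaf 323 1822 .nil)) (.cons 227 (.leaf 203 1631 (.cons 229 (.leaf 205 1637 (.cons 250 (.leaf 251 1801 (.leaf 226 1802 .nil)) .nil)) .nil)) .nil)) .nil)) .nil)) .nil)) (.cons 252 (.leaf 253 1993 (.cons 300 (.leaf 301 2184 (.cons 297 (.leaf 296 2178 (.cons 228 (.cons 299 (.leaf 204 1630 (.leaf 323 1822 .nil)) (.cons 227 (.leaf 203 1631 (.cons 205 (.leaf 229 1637 (.cons 181 (.leaf 204 1445 (.cons 324 (.leaf 251 1823 (.cons 347 (.leaf 323 2014 (.cons 348 (.leaf 371 2206 (.cons 349 (.leaf 325 2020 (.leaf 373 2212 .nil)) .nil)) .nil)) .nil))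 .nil)) .nil)) .nil)) (.cons 203 (.leaf 227 1631 (.cons 205 (.leaf 229 1637 (.cons 323 (.leaf 299 1822 (.cons 324 (.leaf 347 2014 (.cons 325 (.leaf 349 2020 (.cons 322 (.leaf 298 2379 (.cons 345 (.leaf 346 2570 (.cons 321 (.leaf 250 1997 (.leaf 344 2562 .nil)) .nil)) .nil)) .nil)) .nil)) .nil)) .nil)) .nil)) (.cons 204 (.leaf 299 1630 (.cons 203 (.leaf 179 1439 (.leaf 227 1631 .nil)) .nil)) .nil)))) .nil)) .nil)) .nil)) (.cons 252 (.leaf 253 1993 (.cons 300 (.leaf 301 2184 (.cons 297 (.leaf 296 2178 (.cons 228 (.cons 204 (.leaf 299 1630 (.cons 203 (.leaf 179 1439 (.leaf 227 1631 .nil)) .nil)) (.cons 249 (.leaf 248 1987 (.cons 203 (.leaf 227 1631 (.cons 204 (.leaf 179 1439 (.cons 205 (.leaf 181 1445 (.leaf 229 1637 .nil)) .nil)) .nil)) .nil)) (.cons 323 (.leaf 299 1822 (.cons 203 (.leaf 227 1631 (.cons 205 (.leaf 229 1637 (.cons 324 (.leaf 347 2014 (.cons 325 (.leaf 349 2020 (.cons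 322 (.leaf 298 2379 (.cons 345 (.leaf 346 2570 (.cons 321 (.leaf 250 1997 (.leaf 344 2562 .nil)) .nil)) .nil)) .nil)) .nil)) .nil)) .nil)) .nil)) (.cons 299 (.leaf 204 1630 (.leaf 323 1822 .nil)) .nil)))) .nil)) .nil)) .nil)) (.cons 297 (.leaf 296 2178 (.cons 249 (.leaf 248 1987 (.cons 252 (.leaf 253 1993 (.cons 300 (.leaf 301 2184 (.cons 321 (.cons 320 (.leaf 344 1990 (.cons 346 (.leaf 322 1996 (.cons 345 (.leaf 250 1997 (.leaf 370 2188 .nil)) .nil)) .nil)) (.cons 320 (.leaf 344 1990 (.cons 346 (.leaf 322 1996 (.cons 345 (.leaf 370 2188 (.cons 348 (.leaf 347 2563 (.cons 324 (.leaf 251 2015 (.cons 349 (.leaf 325 2020 (.leaf 373 2212 .nil)) .nil)) .nil)) .nil)) .nil)) .nil)) (.cons 226 (.leaf 250 1805 (.cons 225 (.leaf 202 1613 (.cons 322 (.leaf 298 1804 (.leaf 346 1996 .nil)) .nil)) .nil)) (.cons 250 (.leaf 345 1997 (.leaf 226 1805 .nil)) .nil)))) .nil)) .nil)) .nil)) .nil)) (.cons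 252 (.leaf 253 1993 (.cons 300 (.leaf 301 2184 (.cons 249 (.leaf 248 1987 (.cons 228 (.cons 299 (.leaf 204 1630 (.leaf 323 1822 .nil)) (.cons 227 (.leaf 203 1631 (.cons 205 (.leaf 229 1637 (.cons 204 (.leaf 181 1445 (.cons 251 (.leaf 180 1438 (.leaf 324 1823 .nil)) .nil)) .nil)) .nil)) (.cons 203 (.leaf 227 1631 (.cons 205 (.leaf 229 1637 (.cons 323 (.leaf 299 1822 (.cons 324 (.leaf 347 2014 (.cons 348 (.leaf 251 2015 (.cons 349 (.leaf 325 2020 (.leaf 373 2212 .nil)) .nil)) .nil)) .nil)) .nil)) .nil)) .nil))) .nil)) .nil)) .nil)) .nil))))))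
noncomputable def t16 : T := .cons 272 (.cons 247 (.leaf 248 1979 (.cons 246 (.leaf 271 1971 (.cons 252 (.leaf 251 1985 (.cons 276 (.leaf 253 1993 (.cons 300 (.leaf 299 2176 (.leaf 301 2184 .nil)) .nil)) .nil)) .nil)) .nil)) (.cons 248 (.leaf 247 1979 (.cons 249 (.leaf 276 1987 (.cons 295 (.leaf 296 2170 (.cons 271 (.leaf 294 2162 (.cons 270 (.leaf 250 1969 (.leaf 269 1961 .nil)) .nil)) .nil)) .nil)) .nil)) (.cons 299 (.leaf 300 2176 (.cons 271 (.leaf 298 2168 (.cons 246 (.leaf 247 1971 (.cons 270 (.leaf 245 1963 (.cons 294 (.leaf 295 2162 (.leaf 293 2154 .nil)) .nil)) .nil)) .nil)) .nil)) (.cons 299 (.leaf 300 2176 (.cons 271 (.leaf 298 2168 (.cons 250 (.leaf 251 1977 (.cons 202 (.leaf 226 1620 (.cons 270 (.leaf 249 1969 (.cons 294 (.leaf 295 2162 (.leaf 293 2154 .nil)) .nil)) .nil)) .nil)) .nil)) .nil)) (.cons 248 (.leaf 247 1979 (.cons 249 (.leaf 276 1987 (.cons 251 (.leaf 252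 1985 (.cons 296 (.leaf 295 2170 (.cons 320 (.leaf 344 1989 (.leaf 225 1797 .nil)) .nil)) .nil)) .nil)) .nil)) .nil))))) (.cons 276 t15 t14)
noncomputable def t17 : T := .cons 272 (.cons 295 (.leaf 296 2170 (.cons 271 (.leaf 294 2162 (.cons 246 (.leaf 247 1971 (.cons 270 (.leaf 245 1963 (.cons 298 (.leaf 299 2168 (.leaf 297 2160 .nil)) .nil)) .nil)) .nil)) .nil)) (.cons 248 (.leaf 247 1979 (.cons 249 (.leaf 276 1987 (.cons 299 (.leaf 300 2176 (.cons 271 (.leaf 298 2168 (.cons 270 (.leaf 250 1969 (.leaf 269 1961 .nil)) .nil)) .nil)) .nil)) .nil)) (.cons 296 (.leaf 295 2170 (.cons 276 (.leaf 297 2178 (.cons 300 (.leaf 299 2176 (.leaf 301 2184 .nil)) .nil)) .nil)) (.cons 248 (.leaf 247 1979 (.cons 249 (.leaf 276 1987 (.cons 295 (.leaf 296 2170 (.cons 271 (.leaf 294 2162 (.cons 270 (.leaf 250 1969 (.leaf 269 1961 .nil)) .nil)) .nil)) .nil)) .nil)) .nil)))) (.cons 272 (.cons 251 (.leaf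 252 1985 (.cons 250 (.leaf 271 1977 (.cons 295 (.leaf 296 2170 (.cons 299 (.leaf 300 2176 (.cons 226 (.leaf 202 1620 (.leaf 323 1815 .nil)) .nil)) .nil)) .nil)) .nil)) (.cons 248 (.leaf 247 1979 (.cons 249 (.leaf 276 1987 (.cons 295 (.leaf 296 2170 (.cons 271 (.leaf 294 2162 (.cons 270 (.leaf 250 1969 (.leaf 269 1961 .nil)) .nil)) .nil)) .nil)) .nil)) (.cons 251 (.leaf 252 1985 (.cons 250 (.leaf 271 1977 (.cons 299 (.leaf 300 2176 (.cons 226 (.leaf 202 1620 (.leaf 323 1815 .nil)) .nil)) .nil)) .nil)) (.cons 247 (.leaf 248 1979 (.cons 252 (.leaf 251 1985 (.cons 276 (.leaf 253 1993 (.cons 300 (.leaf 299 2176 (.leaf 301 2184 .nil)) .nil)) .nil)) .nil)) .nil)))) (.cons 272 (.cons 251 (.leaf 252 1985 (.cons 250 (.leaf 271 1977 (.cons 295 (.leaf 296 2170 (.cons 299 (.leaf 300 2176 (.cons 226 (.leaf 202 1620 (.leaf 323 1815 .nil)) .nil)) .nil)) .nil)) .nil)) (.cons 295 (.leaf 296 2170 (.cons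 271 (.leaf 294 2162 (.cons 246 (.leaf 247 1971 (.cons 270 (.leaf 245 1963 (.cons 298 (.leaf 299 2168 (.leaf 297 2160 .nil)) .nil)) .nil)) .nil)) .nil)) (.cons 251 (.leaf 252 1985 (.cons 250 (.leaf 271 1977 (.cons 299 (.leaf 300 2176 (.cons 226 (.leaf 202 1620 (.leaf 323 1815 .nil)) .nil)) .nil)) .nil)) (.cons 251 (.leaf 252 1985 (.cons 250 (.leaf 271 1977 (.cons 296 (.leaf 295 2170 (.cons 297 (.leaf 276 2178 (.cons 226 (.leaf 202 1614 (.cons 321 (.leaf 298 1806 (.leaf 345 1997 .nil)) .nil)) .nil)) .nil)) .nil)) .nil)) (.cons 251 (.leaf 252 1985 (.cons 296 (.leaf 295 2170 (.cons 276 (.leaf 297 2178 (.cons 300 (.leaf 299 2176 (.leaf 301 2184 .nil)) .nil)) .nil)) .nil)) .nil))))) (.cons 272 (.cons 247 (.leaf 248 1979 (.cons 251 (.leaf 252 1985 (.cons 271 (.leaf 246 1971 (.leaf 250 1977 .nil)) .nil)) .nil)) (.cons 247 (.leaf 248 1979 (.cons 271 (.leaf 246 1971 (.cons 299 (.leaf 300 2176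 (.leaf 298 2168 .nil)) .nil)) .nil)) (.cons 251 (.leaf 252 1985 (.cons 250 (.leaf 271 1977 (.cons 299 (.leaf 300 2176 (.cons 226 (.leaf 202 1620 (.leaf 323 1815 .nil)) .nil)) .nil)) .nil)) (.cons 247 (.leaf 248 1979 (.cons 252 (.leaf 251 1985 (.cons 276 (.leaf 253 1993 (.cons 300 (.leaf 299 2176 (.leaf 301 2184 .nil)) .nil)) .nil)) .nil)) .nil)))) (.cons 272 (.cons 247 (.leaf 248 1979 (.cons 251 (.leaf 252 1985 (.cons 271 (.leaf 246 1971 (.leaf 250 1977 .nil)) .nil)) .nil)) (.cons 251 (.leaf 252 1985 (.cons 250 (.leaf 271 1977 (.cons 296 (.leaf 295 2170 (.cons 297 (.leaf 276 2178 (.cons 226 (.leaf 202 1614 (.cons 321 (.leaf 298 1806 (.leaf 345 1997 .nil)) .nil)) .nil)) .nil)) .nil)) .nil)) (.cons 247 (.leaf 248 1979 (.cons 271 (.leaf 246 1971 (.cons 296 (.leaf 295 2170 (.cons 199 (.leaf 223 1596 (.cons 297 (.leaf 276 2178 (.cons 270 (.leaf 298 2160 (.leaf 269 2152 .nil)) .nil)) .nil))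 .nil)) .nil)) .nil)) (.cons 247 (.leaf 248 1979 (.cons 252 (.leaf 251 1985 (.cons 276 (.leaf 253 1993 (.cons 296 (.leaf 295 2170 (.leaf 297 2178 .nil)) .nil)) .nil)) .nil)) .nil)))) (.cons 272 (.cons 247 (.leaf 248 1979 (.cons 246 (.leaf 271 1971 (.cons 252 (.leaf 251 1985 (.cons 276 (.leaf 253 1993 (.cons 300 (.leaf 299 2176 (.leaf 301 2184 .nil)) .nil)) .nil)) .nil)) .nil)) (.cons 251 (.leaf 252 1985 (.cons 296 (.leaf 295 2170 (.cons 276 (.leaf 297 2178 (.cons 300 (.leaf 299 2176 (.leaf 301 2184 .nil)) .nil)) .nil)) .nil)) (.cons 247 (.leaf 248 1979 (.cons 252 (.leaf 251 1985 (.cons 276 (.leaf 253 1993 (.cons 296 (.leaf 295 2170 (.leaf 297 2178 .nil)) .nil)) .nil)) .nil)) (.cons 247 (.leaf 248 1979 (.cons 271 (.leaf 246 1971 (.cons 296 (.leaf 295 2170 (.cons 299 (.leaf 300 2176 (.leaf 298 2168 .nil)) .nil)) .nil)) .nil)) .nil)))) .nil)))))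
noncomputable def t18 : T := .cons 251 (.leaf 252 1985 (.cons 250 (.leaf 271 1977 (.cons 295 (.leaf 296 2170 (.cons 299 (.leaf 300 2176 (.cons 226 (.leaf 202 1620 (.leaf 323 1815 .nil)) .nil)) .nil)) .nil)) .nil)) (.cons 299 (.leaf 300 2176 (.cons 247 (.leaf 248 1979 (.cons 271 (.leaf 246 1971 (.leaf 298 2168 .nil)) .nil)) .nil)) (.cons 248 (.leaf 247 1979 (.cons 296 (.leaf 295 2170 (.cons 251 (.leaf 252 1985 (.cons 224 (.cons 225 (.leaf 201 1605 (.cons 199 (.leaf 223 1599 (.cons 175 (.leaf 200 1407 (.cons 320 (.leaf 249 1797 (.cons 343 (.leaf 319 1982 (.cons 344 (.leaf 367 2174 (.cons 345 (.leaf 321 1988 (.leaf 369 2180 .nil)) .nil)) .nil)) .nil)) .nil)) .nil)) .nil)) (.cons 200 (.leaf 297 1604 (.cons 199 (.leaf 175 1407 (.leaf 223 1599 .nil)) .nil)) (.cons 321 (.leaf 297 1796 (.cons 199 (.leaf 223 1599 (.cons 201 (.leaf 225 1605 (.cons 320 (.leaf 345 1988 (.cons 343 (.leaf 319 1982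 (.cons 344 (.leaf 249 1989 (.leaf 367 2174 .nil)) .nil)) .nil)) .nil)) .nil)) .nil)) (.cons 297 (.leaf 200 1604 (.leaf 321 1796 .nil)) .nil)))) .nil)) .nil)) .nil)) .nil))
noncomputable def t19 : T := .cons 252 (.leaf 253 1993 (.cons 300 (.leaf 301 2184 (.cons 297 (.leaf 296 2178 (.cons 228 (.cons 205 (.leaf 229 1637 (.cons 227 (.leaf 203 1631 (.cons 204 (.leaf 299 1630 (.leaf 181 1445 .nil)) .nil)) .nil)) (.cons 203 (.leaf 227 1631 (.cons 204 (.leaf 179 1439 (.cons 205 (.leaf 181 1445 (.leaf 229 1637 .nil)) .nil)) .nil)) (.cons 299 (.leaf 204 1630 (.leaf 323 1822 .nil)) (.cons 205 (.leaf 229 1637 (.cons 227 (.leaf 203 1631 (.cons 251 (.leaf 324 1823 (.cons 299 (.leaf 323 1821 (.cons 226 (.leaf 202 1623 (.cons 225 (.leaf 224 1792 (.cons 201 (.leaf 200 1603 (.cons 298 (.leaf 322 1814 (.leaf 250 1615 .nil)) .nil)) .nil)) .nil)) .nil)) .nil)) .nil)) .nil)) .nil)))) .nil)) .nil)) .nil))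 (.cons 300 (.leaf 301 2184 (.cons 252 (.leaf 253 1993 (.cons 249 (.leaf 248 1987 (.cons 228 (.cons 205 (.leaf 229 1637 (.cons 227 (.leaf 203 1631 (.cons 204 (.leaf 299 1630 (.leaf 181 1445 .nil)) .nil)) .nil)) (.cons 227 (.leaf 203 1631 (.cons 205 (.leaf 229 1637 (.cons 204 (.leaf 181 1445 (.cons 225 (.leaf 226 1609 (.cons 201 (.leaf 298 1612 (.cons 176 (.leaf 200 1415 (.cons 177 (.leaf 250 1420 (.leaf 152 1223 .nil)) .nil)) .nil)) .nil)) .nil)) .nil)) .nil)) (.cons 299 (.leaf 204 1630 (.leaf 323 1822 .nil)) (.cons 205 (.leaf 229 1637 (.cons 227 (.leaf 203 1631 (.cons 251 (.leaf 324 1823 (.cons 299 (.leaf 323 1821 (.cons 226 (.leaf 202 1623 (.cons 225 (.leaf 224 1792 (.cons 201 (.leaf 298 1612 (.leaf 200 1603 .nil)) .nil)) .nil)) .nil)) .nil)) .nil)) .nil)) .nil)))) .nil)) .nil)) .nil)) (.cons 249 (.leaf 248 1987 (.cons 297 (.leaf 296 2178 (.cons 252 (.leaf 253 1993 (.cons 225 (.cons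 201 (.leaf 298 1612 (.cons 202 (.leaf 178 1421 (.leaf 226 1613 .nil)) .nil)) (.cons 224 (.leaf 200 1607 (.cons 226 (.leaf 202 1613 (.cons 250 (.leaf 321 1805 (.leaf 251 1795 .nil)) .nil)) .nil)) (.cons 200 (.leaf 224 1607 (.cons 201 (.leaf 298 1612 (.leaf 176 1415 .nil)) .nil)) .nil))) .nil)) .nil)) .nil)) (.cons 249 (.leaf 248 1987 (.cons 297 (.leaf 296 2178 (.cons 300 (.leaf 301 2184 (.cons 225 (.cons 201 (.leaf 298 1612 (.cons 202 (.leaf 178 1421 (.leaf 226 1613 .nil)) .nil)) (.cons 226 (.leaf 202 1613 (.cons 200 (.leaf 224 1607 (.cons 321 (.leaf 250 1805 (.cons 344 (.leaf 320 1990 (.cons 345 (.leaf 368 2182 (.cons 346 (.leaf 322 1996 (.leaf 370 2188 .nil)) .nil)) .nil)) .nil)) .nil)) .nil)) (.cons 200 (.leaf 224 1607 (.cons 201 (.leaf 298 1612 (.leaf 176 1415 .nil)) .nil)) .nil))) .nil)) .nil)) .nil)) (.cons 252 (.leaf 253 1993 (.cons 300 (.leaf 301 2184 (.cons 249 (.leaf 248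 1987 (.cons 297 (.leaf 296 2178 (.cons 228 (.cons 203 (.leaf 227 1631 (.cons 229 (.leaf 205 1637 (.cons 250 (.leaf 251 1801 (.cons 226 (.leaf 202 1614 (.leaf 321 1805 .nil)) .nil)) .nil)) .nil)) (.cons 299 (.leaf 204 1630 (.leaf 323 1822 .nil)) .nil)) .nil)) .nil)) .nil)) .nil)) (.cons 300 (.leaf 301 2184 (.cons 252 (.leaf 253 1993 (.cons 249 (.leaf 248 1987 (.cons 228 (.cons 205 (.leaf 229 1637 (.cons 227 (.leaf 203 1631 (.cons 251 (.leaf 324 1823 (.cons 299 (.leaf 204 1629 (.leaf 323 1821 .nil)) .nil)) .nil)) .nil)) (.cons 227 (.leaf 203 1631 (.cons 205 (.leaf 229 1637 (.cons 204 (.leaf 181 1445 (.cons 251 (.leaf 180 1438 (.leaf 324 1823 .nil)) .nil)) .nil)) .nil)) (.cons 205 (.leaf 229 1637 (.cons 227 (.leaf 203 1631 (.cons 251 (.leaf 324 1823 (.cons 299 (.leaf 323 1821 (.cons 226 (.leaf 202 1623 (.cons 225 (.leaf 224 1792 (.cons 201 (.leaf 298 1612 (.leaf 200 1603 .nil)) .nil))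 .nil)) .nil)) .nil)) .nil)) .nil)) (.cons 299 (.leaf 204 1630 (.leaf 323 1822 .nil)) .nil)))) .nil)) .nil)) .nil)) (.cons 249 (.leaf 248 1987 (.cons 297 (.leaf 296 2178 (.cons 300 (.leaf 301 2184 (.cons 252 (.leaf 253 1993 (.cons 228 (.cons 299 (.leaf 204 1630 (.leaf 323 1822 .nil)) (.cons 227 (.leaf 203 1631 (.cons 205 (.leaf 229 1637 (.cons 204 (.leaf 181 1445 (.cons 251 (.leaf 180 1438 (.leaf 324 1823 .nil)) .nil)) .nil)) .nil)) (.cons 227 (.leaf 203 1631 (.cons 205 (.leaf 229 1637 (.cons 299 (.leaf 323 1822 (.cons 324 (.leaf 251 1820 (.cons 325 (.leaf 349 2020 (.leaf 298 2376 .nil)) .nil)) .nil)) .nil)) .nil)) .nil))) .nil)) .nil)) .nil)) .nil)) .nil))))))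
noncomputable def t20 : T := .cons 272 (.cons 251 (.leaf 252 1985 (.cons 250 (.leaf 271 1977 (.cons 295 (.leaf 296 2170 (.cons 299 (.leaf 300 2176 (.cons 226 (.leaf 202 1620 (.leaf 323 1815 .nil)) .nil)) .nil)) .nil)) .nil)) (.cons 251 (.leaf 252 1985 (.cons 250 (.leaf 271 1977 (.cons 296 (.leaf 295 2170 (.cons 297 (.leaf 276 2178 (.cons 226 (.leaf 202 1614 (.cons 321 (.leaf 298 1806 (.leaf 345 1997 .nil)) .nil)) .nil)) .nil)) .nil)) .nil)) (.cons 299 (.leaf 300 2176 (.cons 271 (.leaf 298 2168 (.cons 246 (.leaf 247 1971 (.cons 270 (.leaf 245 1963 (.cons 294 (.leaf 295 2162 (.leaf 293 2154 .nil)) .nil)) .nil)) .nil)) .nil)) (.cons 299 (.leaf 300 2176 (.cons 271 (.leaf 298 2168 (.cons 246 (.leaf 247 1971 (.cons 250 (.leaf 251 1977 (.cons 270 (.leaf 245 1963 (.leaf 249 1969 .nil)) .nil)) .nil)) .nil)) .nil)) (.cons 251 (.leaf 252 1985 (.cons 296 (.leaf 295 2170 (.cons 276 (.leaf 297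 2178 (.cons 300 (.leaf 299 2176 (.leaf 301 2184 .nil)) .nil)) .nil)) .nil)) .nil))))) (.cons 272 (.cons 247 (.leaf 248 1979 (.cons 252 (.leaf 251 1985 (.cons 276 (.leaf 253 1993 (.cons 300 (.leaf 299 2176 (.leaf 301 2184 .nil)) .nil)) .nil)) .nil)) (.cons 247 (.leaf 248 1979 (.cons 251 (.leaf 252 1985 (.cons 271 (.leaf 246 1971 (.leaf 250 1977 .nil)) .nil)) .nil)) (.cons 299 (.leaf 300 2176 (.cons 271 (.leaf 298 2168 (.cons 246 (.leaf 247 1971 (.cons 270 (.leaf 245 1963 (.cons 294 (.leaf 295 2162 (.leaf 293 2154 .nil)) .nil)) .nil)) .nil)) .nil)) (.cons 299 (.leaf 300 2176 (.cons 271 (.leaf 298 2168 (.cons 250 (.leaf 251 1977 (.cons 202 (.leaf 226 1620 (.cons 270 (.leaf 249 1969 (.cons 294 (.leaf 295 2162 (.leaf 293 2154 .nil)) .nil)) .nil)) .nil)) .nil)) .nil)) .nil)))) (.cons 272 (.cons 247 (.leaf 248 1979 (.cons 296 (.leaf 295 2170 (.cons 276 (.leaf 297 2178 (.cons 300 (.leaf 299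 2176 (.leaf 301 2184 .nil)) .nil)) .nil)) .nil)) (.cons 299 (.leaf 300 2176 (.cons 271 (.leaf 298 2168 (.cons 246 (.leaf 247 1971 (.cons 270 (.leaf 245 1963 (.cons 294 (.leaf 295 2162 (.leaf 293 2154 .nil)) .nil)) .nil)) .nil)) .nil)) (.cons 247 (.leaf 248 1979 (.cons 271 (.leaf 246 1971 (.cons 296 (.leaf 295 2170 (.cons 199 (.leaf 223 1596 (.cons 297 (.leaf 276 2178 (.cons 270 (.leaf 298 2160 (.leaf 269 2152 .nil)) .nil)) .nil)) .nil)) .nil)) .nil)) (.cons 299 (.leaf 300 2176 (.cons 271 (.leaf 298 2168 (.cons 250 (.leaf 251 1977 (.cons 202 (.leaf 226 1620 (.cons 270 (.leaf 249 1969 (.cons 294 (.leaf 295 2162 (.leaf 293 2154 .nil)) .nil)) .nil)) .nil)) .nil)) .nil)) (.cons 299 (.leaf 300 2176 (.cons 247 (.leaf 248 1979 (.cons 271 (.leaf 246 1971 (.leaf 298 2168 .nil)) .nil)) .nil)) .nil))))) (.cons 272 (.cons 247 (.leaf 248 1979 (.cons 296 (.leaf 295 2170 (.cons 276 (.leaf 297 2178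 (.cons 300 (.leaf 299 2176 (.leaf 301 2184 .nil)) .nil)) .nil)) .nil)) (.cons 248 (.leaf 247 1979 (.cons 249 (.leaf 276 1987 (.cons 299 (.leaf 300 2176 (.cons 271 (.leaf 298 2168 (.cons 270 (.leaf 250 1969 (.leaf 269 1961 .nil)) .nil)) .nil)) .nil)) .nil)) (.cons 296 (.leaf 295 2170 (.cons 276 (.leaf 297 2178 (.cons 300 (.leaf 299 2176 (.leaf 301 2184 .nil)) .nil)) .nil)) (.cons 248 (.leaf 247 1979 (.cons 249 (.leaf 276 1987 (.cons 295 (.leaf 296 2170 (.cons 271 (.leaf 294 2162 (.cons 270 (.leaf 250 1969 (.leaf 269 1961 .nil)) .nil)) .nil)) .nil)) .nil)) (.cons 299 (.leaf 300 2176 (.cons 247 (.leaf 248 1979 (.cons 271 (.leaf 246 1971 (.leaf 298 2168 .nil)) .nil)) .nil)) .nil))))) (.cons 272 (.cons 247 (.leaf 248 1979 (.cons 296 (.leaf 295 2170 (.cons 276 (.leaf 297 2178 (.cons 300 (.leaf 299 2176 (.leaf 301 2184 .nil)) .nil)) .nil)) .nil)) (.cons 299 (.leaf 300 2176 (.cons 247 (.leaf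 248 1979 (.cons 271 (.leaf 246 1971 (.leaf 298 2168 .nil)) .nil)) .nil)) (.cons 296 (.leaf 295 2170 (.cons 276 (.leaf 297 2178 (.cons 300 (.leaf 299 2176 (.leaf 301 2184 .nil)) .nil)) .nil)) (.cons 247 (.leaf 248 1979 (.cons 271 (.leaf 246 1971 (.cons 296 (.leaf 295 2170 (.cons 199 (.leaf 223 1596 (.cons 297 (.leaf 276 2178 (.cons 270 (.leaf 298 2160 (.leaf 269 2152 .nil)) .nil)) .nil)) .nil)) .nil)) .nil)) .nil)))) (.cons 272 (.cons 247 (.leaf 248 1979 (.cons 246 (.leaf 271 1971 (.cons 252 (.leaf 251 1985 (.cons 276 (.leaf 253 1993 (.cons 300 (.leaf 299 2176 (.leaf 301 2184 .nil)) .nil)) .nil)) .nil)) .nil)) (.cons 296 (.leaf 295 2170 (.cons 276 (.leaf 297 2178 (.cons 300 (.leaf 299 2176 (.leaf 301 2184 .nil)) .nil)) .nil)) (.cons 247 (.leaf 248 1979 (.cons 246 (.leaf 271 1971 (.cons 252 (.leaf 251 1985 (.cons 276 (.leaf 253 1993 (.cons 296 (.leaf 295 2170 (.leaf 297 2178 .nil))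 .nil)) .nil)) .nil)) .nil)) (.cons 247 (.leaf 248 1979 (.cons 251 (.leaf 252 1985 (.cons 271 (.leaf 246 1971 (.leaf 250 1977 .nil)) .nil)) .nil)) .nil)))) .nil)))))
noncomputable def t21 : T := .cons 248 (.leaf 247 1979 (.cons 296 (.leaf 295 2170 (.cons 251 (.leaf 252 1985 (.cons 224 (.cons 225 (.leaf 201 1605 (.cons 199 (.leaf 223 1599 (.cons 175 (.leaf 200 1407 (.cons 320 (.leaf 249 1797 (.cons 343 (.leaf 319 1982 (.cons 344 (.leaf 367 2174 (.cons 345 (.leaf 321 1988 (.leaf 369 2180 .nil)) .nil)) .nil)) .nil)) .nil)) .nil)) .nil)) (.cons 297 (.leaf 200 1604 (.leaf 321 1796 .nil)) (.cons 321 (.leaf 297 1796 (.cons 199 (.leaf 223 1599 (.cons 201 (.leaf 225 1605 (.cons 320 (.leaf 345 1988 (.cons 343 (.leaf 319 1982 (.cons 344 (.leaf 249 1989 (.leaf 367 2174 .nil)) .nil)) .nil)) .nil)) .nil)) .nil)) (.cons 200 (.leaf 297 1604 (.cons 199 (.leaf 175 1407 (.leaf 223 1599 .nil)) .nil))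 .nil)))) .nil)) .nil)) .nil)) (.cons 299 (.leaf 300 2176 (.cons 247 (.leaf 248 1979 (.cons 271 (.leaf 246 1971 (.leaf 298 2168 .nil)) .nil)) .nil)) (.cons 299 (.leaf 300 2176 (.cons 271 (.leaf 298 2168 (.cons 246 (.leaf 247 1971 (.cons 270 (.leaf 245 1963 (.cons 294 (.leaf 295 2162 (.leaf 293 2154 .nil)) .nil)) .nil)) .nil)) .nil)) (.cons 299 (.leaf 300 2176 (.cons 271 (.leaf 298 2168 (.cons 250 (.leaf 251 1977 (.cons 202 (.leaf 226 1620 (.cons 270 (.leaf 249 1969 (.cons 294 (.leaf 295 2162 (.leaf 293 2154 .nil)) .nil)) .nil)) .nil)) .nil)) .nil)) .nil)))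
noncomputable def t22 : T := .cons 249 (.leaf 248 1987 (.cons 297 (.leaf 296 2178 (.cons 252 (.leaf 253 1993 (.cons 321 (.cons 322 (.leaf 346 1996 (.cons 225 (.leaf 298 1804 (.cons 226 (.leaf 202 1613 (.leaf 250 1805 .nil)) .nil)) .nil)) (.cons 322 (.leaf 346 1996 (.cons 344 (.leaf 320 1990 (.cons 345 (.leaf 368 2182 (.cons 323 (.leaf 324 2562 (.cons 299 (.leaf 347 2013 (.cons 228 (.leaf 204 1630 (.leaf 251 1821 .nil)) .nil)) .nil)) .nil)) .nil)) .nil)) (.cons 250 (.leaf 345 1997 (.leaf 226 1805 .nil)) .nil))) .nil)) .nil)) .nil)) (.cons 252 (.leaf 253 1993 (.cons 300 (.leaf 301 2184 (.cons 297 (.leaf 296 2178 (.cons 324 (.cons 323 (.leaf 347 2014 (.cons 325 (.leaf 349 2020 (.cons 251 (.leaf 348 2015 (.leaf 227 1823 .nil)) .nil)) .nil)) (.cons 323 (.leaf 347 2014 (.cons 325 (.leaf 349 2020 (.cons 322 (.leaf 298 2379 (.cons 345 (.leaf 346 2570 (.cons 321 (.leaf 250 1997 (.leaf 344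 2562 .nil)) .nil)) .nil)) .nil)) .nil)) (.cons 251 (.leaf 348 2015 (.leaf 227 1823 .nil)) .nil))) .nil)) .nil)) .nil)) (.cons 252 (.leaf 253 1993 (.cons 300 (.leaf 301 2184 (.cons 249 (.leaf 248 1987 (.cons 324 (.cons 251 (.leaf 348 2015 (.leaf 227 1823 .nil)) (.cons 347 (.leaf 323 2014 (.cons 348 (.leaf 371 2206 (.cons 349 (.leaf 325 2020 (.leaf 373 2212 .nil)) .nil)) .nil)) (.cons 227 (.leaf 251 1823 (.cons 323 (.leaf 347 2014 (.cons 228 (.leaf 299 1822 (.cons 205 (.leaf 229 1637 (.cons 204 (.leaf 181 1445 (.cons 225 (.leaf 226 1609 (.cons 298 (.leaf 201 1612 (.cons 322 (.leaf 250 1807 (.leaf 346 1999 .nil)) .nil)) .nil)) .nil)) .nil)) .nil)) .nil)) .nil)) .nil))) .nil)) .nil)) .nil)) (.cons 249 (.leaf 248 1987 (.cons 297 (.leaf 296 2178 (.cons 300 (.leaf 301 2184 (.cons 321 (.cons 250 (.leaf 345 1997 (.leaf 226 1805 .nil)) (.cons 320 (.leaf 344 1990 (.cons 322 (.leaf 346 1996 (.cons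 323 (.leaf 299 2369 (.cons 348 (.leaf 347 2560 (.cons 324 (.leaf 251 2015 (.leaf 349 2568 .nil)) .nil)) .nil)) .nil)) .nil)) .nil)) .nil)) .nil)) .nil)) (.cons 300 (.leaf 301 2184 (.cons 252 (.leaf 253 1993 (.cons 297 (.leaf 296 2178 (.cons 249 (.leaf 248 1987 (.cons 225 (.cons 200 (.leaf 224 1607 (.cons 201 (.leaf 298 1612 (.leaf 176 1415 .nil)) .nil)) (.cons 200 (.leaf 224 1607 (.cons 201 (.leaf 176 1415 (.cons 202 (.leaf 178 1421 (.leaf 226 1613 .nil)) .nil)) .nil)) (.cons 322 (.leaf 298 1804 (.cons 200 (.leaf 224 1607 (.cons 321 (.leaf 346 1996 (.cons 320 (.leaf 344 1990 (.cons 323 (.leaf 299 2369 (.cons 347 (.leaf 324 2014 (.leaf 348 2560 .nil)) .nil)) .nil)) .nil)) .nil)) .nil)) (.cons 298 (.leaf 201 1612 (.leaf 322 1804 .nil)) .nil)))) .nil)) .nil)) .nil)) .nil)) (.cons 252 (.leaf 253 1993 (.cons 300 (.leaf 301 2184 (.cons 297 (.leaf 296 2178 (.cons 249 (.leaf 248 1987 (.cons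 324 (.cons 251 (.leaf 348 2015 (.leaf 227 1823 .nil)) (.cons 323 (.leaf 347 2014 (.cons 299 (.leaf 228 1822 (.cons 325 (.leaf 349 2020 (.leaf 298 2376 .nil)) .nil)) .nil)) .nil)) .nil)) .nil)) .nil)) .nil)) (.cons 249 (.leaf 248 1987 (.cons 297 (.leaf 296 2178 (.cons 300 (.leaf 301 2184 (.cons 252 (.leaf 253 1993 (.cons 225 (.cons 298 (.leaf 201 1612 (.leaf 322 1804 .nil)) (.cons 226 (.leaf 202 1613 (.cons 200 (.leaf 224 1607 (.cons 201 (.leaf 176 1415 (.cons 250 (.leaf 177 1420 (.leaf 321 1805 .nil)) .nil)) .nil)) .nil)) (.cons 322 (.leaf 298 1804 (.cons 200 (.leaf 224 1607 (.cons 226 (.leaf 202 1613 (.cons 321 (.leaf 250 1805 (.leaf 346 1996 .nil)) .nil)) .nil)) .nil)) .nil))) .nil)) .nil)) .nil)) .nil)) .nil))))))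
noncomputable def t23 : T := .cons 272 (.cons 247 (.leaf 248 1979 (.cons 246 (.leaf 271 1971 (.cons 252 (.leaf 251 1985 (.cons 276 (.leaf 253 1993 (.cons 300 (.leaf 299 2176 (.leaf 301 2184 .nil)) .nil)) .nil)) .nil)) .nil)) (.cons 299 (.leaf 300 2176 (.cons 271 (.leaf 298 2168 (.cons 246 (.leaf 247 1971 (.cons 270 (.leaf 245 1963 (.cons 294 (.leaf 295 2162 (.leaf 293 2154 .nil)) .nil)) .nil)) .nil)) .nil)) (.cons 247 (.leaf 248 1979 (.cons 246 (.leaf 271 1971 (.cons 252 (.leaf 251 1985 (.cons 276 (.leaf 253 1993 (.cons 296 (.leaf 295 2170 (.leaf 297 2178 .nil)) .nil)) .nil)) .nil)) .nil)) (.cons 299 (.leaf 300 2176 (.cons 271 (.leaf 298 2168 (.cons 250 (.leaf 251 1977 (.cons 202 (.leaf 226 1620 (.cons 270 (.leaf 249 1969 (.cons 294 (.leaf 295 2162 (.leaf 293 2154 .nil)) .nil)) .nil)) .nil)) .nil)) .nil)) (.cons 248 (.leaf 247 1979 (.cons 249 (.leaf 276 1987 (.cons 251 (.leaf 252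 1985 (.cons 296 (.leaf 295 2170 (.cons 225 (.leaf 201 1606 (.leaf 320 1797 .nil)) .nil)) .nil)) .nil)) .nil)) .nil))))) (.cons 276 t22 (.cons 272 t21 (.cons 272 (.cons 247 (.leaf 248 1979 (.cons 271 (.leaf 246 1971 (.cons 251 (.leaf 252 1985 (.leaf 250 1977 .nil)) .nil)) .nil)) (.cons 296 (.leaf 295 2170 (.cons 252 (.leaf 251 1985 (.cons 276 (.leaf 253 1993 (.leaf 297 2178 .nil)) .nil)) .nil)) (.cons 247 (.leaf 248 1979 (.cons 271 (.leaf 246 1971 (.cons 296 (.leaf 295 2170 (.cons 199 (.leaf 223 1596 (.cons 297 (.leaf 276 2178 (.cons 270 (.leaf 298 2160 (.leaf 269 2152 .nil)) .nil)) .nil)) .nil)) .nil)) .nil)) .nil))) (.cons 272 (.cons 247 (.leaf 248 1979 (.cons 252 (.leaf 251 1985 (.cons 276 (.leaf 253 1993 (.cons 300 (.leaf 299 2176 (.leaf 301 2184 .nil)) .nil)) .nil)) .nil)) (.cons 248 (.leaf 247 1979 (.cons 249 (.leaf 276 1987 (.cons 251 (.leaf 252 1985 (.cons 296 (.leaf 295 2170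 (.cons 225 (.leaf 201 1606 (.leaf 320 1797 .nil)) .nil)) .nil)) .nil)) .nil)) (.cons 299 (.leaf 300 2176 (.cons 271 (.leaf 298 2168 (.cons 246 (.leaf 247 1971 (.cons 270 (.leaf 245 1963 (.cons 294 (.leaf 295 2162 (.leaf 293 2154 .nil)) .nil)) .nil)) .nil)) .nil)) (.cons 299 (.leaf 300 2176 (.cons 271 (.leaf 298 2168 (.cons 250 (.leaf 251 1977 (.cons 202 (.leaf 226 1620 (.cons 270 (.leaf 249 1969 (.cons 294 (.leaf 295 2162 (.leaf 293 2154 .nil)) .nil)) .nil)) .nil)) .nil)) .nil)) .nil)))) t20))))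
noncomputable def t24 : T := .cons 297 (.leaf 296 2178 (.cons 249 (.leaf 248 1987 (.cons 300 (.leaf 301 2184 (.cons 252 (.leaf 253 1993 (.cons 321 (.cons 250 (.leaf 345 1997 (.leaf 226 1805 .nil)) (.cons 322 (.leaf 346 1996 (.cons 225 (.leaf 298 1804 (.cons 200 (.leaf 224 1607 (.cons 320 (.leaf 344 1990 (.cons 323 (.leaf 299 2369 (.cons 347 (.leaf 324 2014 (.leaf 348 2560 .nil)) .nil)) .nil)) .nil)) .nil)) .nil)) .nil)) .nil)) .nil)) .nil)) .nil)) (.cons 249 (.leaf 248 1987 (.cons 297 (.leaf 296 2178 (.cons 300 (.leaf 301 2184 (.cons 321 (.cons 250 (.leaf 345 1997 (.leaf 226 1805 .nil)) (.cons 320 (.leaf 344 1990 (.cons 322 (.leaf 346 1996 (.cons 323 (.leaf 299 2369 (.cons 348 (.leaf 347 2560 (.cons 324 (.leaf 251 2015 (.leaf 349 2568 .nil)) .nil)) .nil)) .nil)) .nil)) .nil)) .nil)) .nil)) .nil)) (.cons 249 (.leaf 248 1987 (.cons 297 (.leaf 296 2178 (.cons 252 (.leaf 253 1993 (.cons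 321 (.cons 322 (.leaf 346 1996 (.cons 344 (.leaf 320 1990 (.cons 345 (.leaf 250 1997 (.leaf 368 2182 .nil)) .nil)) .nil)) (.cons 322 (.leaf 346 1996 (.cons 344 (.leaf 320 1990 (.cons 345 (.leaf 368 2182 (.cons 323 (.leaf 324 2562 (.cons 299 (.leaf 347 2013 (.cons 228 (.leaf 204 1630 (.leaf 251 1821 .nil)) .nil)) .nil)) .nil)) .nil)) .nil)) (.cons 226 (.leaf 250 1805 (.cons 320 (.leaf 344 1990 (.cons 322 (.leaf 346 1996 (.cons 298 (.leaf 225 1804 (.cons 319 (.leaf 318 2353 (.leaf 299 2361 .nil)) .nil)) .nil)) .nil)) .nil)) (.cons 250 (.leaf 345 1997 (.leaf 226 1805 .nil)) .nil)))) .nil)) .nil)) .nil)) (.cons 252 (.leaf 253 1993 (.cons 300 (.leaf 301 2184 (.cons 297 (.leaf 296 2178 (.cons 227 (.cons 324 (.leaf 251 1823 (.cons 349 (.leaf 325 2020 (.cons 348 (.leaf 373 2212 (.cons 371 (.leaf 347 2206 (.cons 372 (.leaf 299 2207 (.leaf 395 2398 .nil)) .nil)) .nil)) .nil)) .nil)) (.cons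 228 (.leaf 203 1631 (.cons 204 (.leaf 299 1630 (.cons 205 (.leaf 181 1445 (.leaf 229 1637 .nil)) .nil)) .nil)) (.cons 203 (.leaf 251 1628 (.leaf 228 1631 .nil)) .nil))) .nil)) .nil)) .nil)) (.cons 252 (.leaf 253 1993 (.cons 300 (.leaf 301 2184 (.cons 249 (.leaf 248 1987 (.cons 228 (.cons 205 (.leaf 229 1637 (.cons 204 (.leaf 299 1630 (.leaf 181 1445 .nil)) .nil)) (.cons 205 (.leaf 229 1637 (.cons 204 (.leaf 181 1445 (.cons 179 (.leaf 203 1439 (.cons 180 (.leaf 251 1438 (.leaf 155 1247 .nil)) .nil)) .nil)) .nil)) (.cons 205 (.leaf 229 1637 (.cons 323 (.leaf 299 1822 (.cons 324 (.leaf 347 2014 (.cons 348 (.leaf 251 2015 (.cons 349 (.leaf 325 2020 (.leaf 373 2212 .nil)) .nil)) .nil)) .nil)) .nil)) (.cons 299 (.leaf 204 1630 (.leaf 323 1822 .nil)) .nil)))) .nil)) .nil)) .nil)) (.cons 249 (.leaf 248 1987 (.cons 297 (.leaf 296 2178 (.cons 252 (.leaf 253 1993 (.cons 300 (.leaf 301 2184 (.cons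 321 (.cons 250 (.leaf 345 1997 (.leaf 226 1805 .nil)) (.cons 322 (.leaf 346 1996 (.cons 225 (.leaf 298 1804 (.cons 200 (.leaf 224 1607 (.cons 344 (.leaf 320 1990 (.cons 345 (.leaf 368 2182 (.cons 324 (.leaf 323 2562 (.cons 251 (.leaf 348 2015 (.leaf 227 1823 .nil)) .nil)) .nil)) .nil)) .nil)) .nil)) .nil)) (.cons 322 (.leaf 346 1996 (.cons 225 (.leaf 298 1804 (.cons 200 (.leaf 224 1607 (.cons 201 (.leaf 176 1415 (.cons 250 (.leaf 177 1420 (.leaf 226 1805 .nil)) .nil)) .nil)) .nil)) .nil)) .nil))) .nil)) .nil)) .nil)) .nil)) (.cons 249 (.leaf 248 1987 (.cons 297 (.leaf 296 2178 (.cons 252 (.leaf 253 1993 (.cons 300 (.leaf 301 2184 (.cons 228 (.cons 299 (.leaf 204 1630 (.leaf 323 1822 .nil)) (.cons 203 (.leaf 227 1631 (.cons 204 (.leaf 179 1439 (.cons 205 (.leaf 181 1445 (.leaf 229 1637 .nil)) .nil)) .nil)) (.cons 203 (.leaf 227 1631 (.cons 229 (.leaf 205 1637 (.cons 250 (.leaf 251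 1801 (.cons 321 (.leaf 345 1997 (.leaf 226 1805 .nil)) .nil)) .nil)) .nil)) .nil))) .nil)) .nil)) .nil)) .nil)) .nil))))))
noncomputable def t25 : T := .cons 276 t24 (.cons 272 (.cons 251 (.leaf 252 1985 (.cons 250 (.leaf 271 1977 (.cons 299 (.leaf 300 2176 (.cons 323 (.leaf 226 1815 (.leaf 347 2007 .nil)) .nil)) .nil)) .nil)) (.cons 247 (.leaf 248 1979 (.cons 271 (.leaf 246 1971 (.cons 299 (.leaf 300 2176 (.leaf 298 2168 .nil)) .nil)) .nil)) (.cons 248 (.leaf 247 1979 (.cons 296 (.leaf 295 2170 (.cons 251 (.leaf 252 1985 (.cons 224 (.cons 225 (.leaf 201 1605 (.cons 199 (.leaf 223 1599 (.cons 175 (.leaf 200 1407 (.cons 320 (.leaf 249 1797 (.cons 343 (.leaf 319 1982 (.cons 344 (.leaf 367 2174 (.cons 345 (.leaf 321 1988 (.leaf 369 2180 .nil)) .nil)) .nil)) .nil)) .nil)) .nil)) .nil)) (.cons 200 (.leaf 297 1604 (.cons 199 (.leaf 175 1407 (.leaf 223 1599 .nil)) .nil)) (.cons 321 (.leaf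 297 1796 (.cons 199 (.leaf 223 1599 (.cons 201 (.leaf 225 1605 (.cons 320 (.leaf 345 1988 (.cons 343 (.leaf 319 1982 (.cons 344 (.leaf 249 1989 (.leaf 367 2174 .nil)) .nil)) .nil)) .nil)) .nil)) .nil)) (.cons 297 (.leaf 200 1604 (.leaf 321 1796 .nil)) .nil)))) .nil)) .nil)) .nil)) .nil))) (.cons 272 (.cons 295 (.leaf 296 2170 (.cons 271 (.leaf 294 2162 (.cons 246 (.leaf 247 1971 (.cons 270 (.leaf 245 1963 (.cons 298 (.leaf 299 2168 (.leaf 297 2160 .nil)) .nil)) .nil)) .nil)) .nil)) (.cons 248 (.leaf 247 1979 (.cons 249 (.leaf 276 1987 (.cons 299 (.leaf 300 2176 (.cons 271 (.leaf 298 2168 (.cons 270 (.leaf 250 1969 (.leaf 269 1961 .nil)) .nil)) .nil)) .nil)) .nil)) (.cons 248 (.leaf 247 1979 (.cons 249 (.leaf 276 1987 (.cons 295 (.leaf 296 2170 (.cons 271 (.leaf 294 2162 (.cons 270 (.leaf 250 1969 (.leaf 269 1961 .nil)) .nil)) .nil)) .nil)) .nil)) (.cons 296 (.leaf 295 2170 (.cons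 276 (.leaf 297 2178 (.cons 300 (.leaf 299 2176 (.leaf 301 2184 .nil)) .nil)) .nil)) .nil)))) (.cons 272 (.cons 251 (.leaf 252 1985 (.cons 250 (.leaf 271 1977 (.cons 299 (.leaf 300 2176 (.cons 323 (.leaf 226 1815 (.leaf 347 2007 .nil)) .nil)) .nil)) .nil)) (.cons 251 (.leaf 252 1985 (.cons 250 (.leaf 271 1977 (.cons 296 (.leaf 295 2170 (.cons 297 (.leaf 276 2178 (.cons 321 (.leaf 345 1997 (.cons 226 (.leaf 298 1806 (.leaf 249 1805 .nil)) .nil)) .nil)) .nil)) .nil)) .nil)) (.cons 296 (.leaf 295 2170 (.cons 276 (.leaf 297 2178 (.cons 300 (.leaf 299 2176 (.leaf 301 2184 .nil)) .nil)) .nil)) .nil))) (.cons 272 (.cons 247 (.leaf 248 1979 (.cons 252 (.leaf 251 1985 (.cons 276 (.leaf 253 1993 (.cons 300 (.leaf 299 2176 (.leaf 301 2184 .nil)) .nil)) .nil)) .nil)) (.cons 247 (.leaf 248 1979 (.cons 271 (.leaf 246 1971 (.cons 299 (.leaf 300 2176 (.leaf 298 2168 .nil)) .nil)) .nil)) (.cons 251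 (.leaf 252 1985 (.cons 250 (.leaf 271 1977 (.cons 299 (.leaf 300 2176 (.cons 323 (.leaf 226 1815 (.leaf 347 2007 .nil)) .nil)) .nil)) .nil)) (.cons 247 (.leaf 248 1979 (.cons 251 (.leaf 252 1985 (.cons 271 (.leaf 246 1971 (.leaf 250 1977 .nil)) .nil)) .nil)) .nil)))) (.cons 272 (.cons 247 (.leaf 248 1979 (.cons 271 (.leaf 246 1971 (.cons 251 (.leaf 252 1985 (.leaf 250 1977 .nil)) .nil)) .nil)) (.cons 251 (.leaf 252 1985 (.cons 250 (.leaf 271 1977 (.cons 296 (.leaf 295 2170 (.cons 297 (.leaf 276 2178 (.cons 321 (.leaf 345 1997 (.cons 226 (.leaf 298 1806 (.leaf 249 1805 .nil)) .nil)) .nil)) .nil)) .nil)) .nil)) (.cons 247 (.leaf 248 1979 (.cons 271 (.leaf 246 1971 (.cons 296 (.leaf 295 2170 (.cons 199 (.leaf 223 1596 (.cons 297 (.leaf 276 2178 (.cons 270 (.leaf 298 2160 (.leaf 269 2152 .nil)) .nil)) .nil)) .nil)) .nil)) .nil)) (.cons 247 (.leaf 248 1979 (.cons 252 (.leaf 251 1985 (.cons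 276 (.leaf 253 1993 (.cons 296 (.leaf 295 2170 (.leaf 297 2178 .nil)) .nil)) .nil)) .nil)) .nil)))) (.cons 272 (.cons 251 (.leaf 252 1985 (.cons 296 (.leaf 295 2170 (.cons 276 (.leaf 297 2178 (.cons 300 (.leaf 299 2176 (.leaf 301 2184 .nil)) .nil)) .nil)) .nil)) (.cons 247 (.leaf 248 1979 (.cons 251 (.leaf 252 1985 (.cons 271 (.leaf 246 1971 (.cons 299 (.leaf 300 2176 (.leaf 298 2168 .nil)) .nil)) .nil)) .nil)) (.cons 296 (.leaf 295 2170 (.cons 247 (.leaf 248 1979 (.cons 271 (.leaf 246 1971 (.cons 199 (.leaf 223 1596 (.cons 297 (.leaf 276 2178 (.cons 270 (.leaf 298 2160 (.leaf 269 2152 .nil)) .nil)) .nil)) .nil)) .nil)) .nil)) .nil))) .nil))))))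
noncomputable def t26 : T := .cons 272 (.cons 251 (.leaf 252 1985 (.cons 271 (.leaf 250 1977 (.cons 294 (.leaf 295 2162 (.cons 270 (.leaf 293 2154 (.cons 298 (.leaf 299 2168 (.leaf 297 2160 .nil)) .nil)) .nil)) .nil)) .nil)) (.cons 296 (.leaf 295 2170 (.cons 276 (.leaf 297 2178 (.cons 300 (.leaf 299 2176 (.leaf 301 2184 .nil)) .nil)) .nil)) (.cons 296 (.leaf 295 2170 (.cons 252 (.leaf 251 1985 (.cons 276 (.leaf 253 1993 (.leaf 297 2178 .nil)) .nil)) .nil)) (.cons 251 (.leaf 252 1985 (.cons 250 (.leaf 271 1977 (.cons 300 (.leaf 299 2176 (.cons 276 (.leaf 301 2184 (.cons 203 (.leaf 227 1628 (.cons 297 (.leaf 296 2178 (.cons 226 (.leaf 202 1614 (.cons 321 (.leaf 298 1806 (.leaf 345 1997 .nil)) .nil)) .nil)) .nil)) .nil)) .nil)) .nil)) .nil)) (.cons 251 (.leaf 252 1985 (.cons 271 (.leaf 250 1977 (.cons 295 (.leaf 296 2170 (.leaf 294 2162 .nil)) .nil)) .nil)) .nil))))) (.cons 272 (.cons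 251 (.leaf 252 1985 (.cons 271 (.leaf 250 1977 (.cons 295 (.leaf 296 2170 (.leaf 294 2162 .nil)) .nil)) .nil)) (.cons 247 (.leaf 248 1979 (.cons 271 (.leaf 246 1971 (.cons 299 (.leaf 300 2176 (.leaf 298 2168 .nil)) .nil)) .nil)) (.cons 247 (.leaf 248 1979 (.cons 252 (.leaf 251 1985 (.cons 276 (.leaf 253 1993 (.cons 300 (.leaf 299 2176 (.leaf 301 2184 .nil)) .nil)) .nil)) .nil)) .nil))) (.cons 272 (.cons 247 (.leaf 248 1979 (.cons 271 (.leaf 246 1971 (.cons 294 (.leaf 295 2162 (.cons 270 (.leaf 293 2154 (.cons 298 (.leaf 299 2168 (.leaf 297 2160 .nil)) .nil)) .nil)) .nil)) .nil)) (.cons 296 (.leaf 295 2170 (.cons 276 (.leaf 297 2178 (.cons 300 (.leaf 299 2176 (.leaf 301 2184 .nil)) .nil)) .nil)) (.cons 248 (.leaf 247 1979 (.cons 249 (.leaf 276 1987 (.cons 299 (.leaf 300 2176 (.cons 271 (.leaf 298 2168 (.cons 270 (.leaf 250 1969 (.leaf 269 1961 .nil)) .nil)) .nil)) .nil)) .nil)) (.cons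 248 (.leaf 247 1979 (.cons 249 (.leaf 276 1987 (.cons 295 (.leaf 296 2170 (.cons 271 (.leaf 294 2162 (.cons 270 (.leaf 250 1969 (.leaf 269 1961 .nil)) .nil)) .nil)) .nil)) .nil)) .nil)))) (.cons 272 (.cons 247 (.leaf 248 1979 (.cons 251 (.leaf 252 1985 (.cons 271 (.leaf 246 1971 (.leaf 250 1977 .nil)) .nil)) .nil)) (.cons 248 (.leaf 247 1979 (.cons 249 (.leaf 276 1987 (.cons 299 (.leaf 300 2176 (.cons 271 (.leaf 298 2168 (.cons 270 (.leaf 250 1969 (.leaf 269 1961 .nil)) .nil)) .nil)) .nil)) .nil)) (.cons 251 (.leaf 252 1985 (.cons 271 (.leaf 250 1977 (.cons 294 (.leaf 295 2162 (.cons 270 (.leaf 293 2154 (.cons 298 (.leaf 299 2168 (.leaf 297 2160 .nil)) .nil)) .nil)) .nil)) .nil)) (.cons 247 (.leaf 248 1979 (.cons 252 (.leaf 251 1985 (.cons 276 (.leaf 253 1993 (.cons 300 (.leaf 299 2176 (.leaf 301 2184 .nil)) .nil)) .nil)) .nil)) .nil)))) (.cons 272 (.cons 247 (.leaf 248 1979 (.cons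 251 (.leaf 252 1985 (.cons 271 (.leaf 246 1971 (.leaf 250 1977 .nil)) .nil)) .nil)) (.cons 296 (.leaf 295 2170 (.cons 252 (.leaf 251 1985 (.cons 276 (.leaf 253 1993 (.leaf 297 2178 .nil)) .nil)) .nil)) (.cons 296 (.leaf 295 2170 (.cons 247 (.leaf 248 1979 (.cons 271 (.leaf 246 1971 (.cons 199 (.leaf 223 1596 (.cons 297 (.leaf 276 2178 (.cons 270 (.leaf 298 2160 (.leaf 269 2152 .nil)) .nil)) .nil)) .nil)) .nil)) .nil)) .nil))) (.cons 272 (.cons 247 (.leaf 248 1979 (.cons 246 (.leaf 271 1971 (.cons 252 (.leaf 251 1985 (.cons 276 (.leaf 253 1993 (.cons 300 (.leaf 299 2176 (.leaf 301 2184 .nil)) .nil)) .nil)) .nil)) .nil)) (.cons 296 (.leaf 295 2170 (.cons 276 (.leaf 297 2178 (.cons 300 (.leaf 299 2176 (.leaf 301 2184 .nil)) .nil)) .nil)) (.cons 247 (.leaf 248 1979 (.cons 252 (.leaf 251 1985 (.cons 276 (.leaf 253 1993 (.cons 296 (.leaf 295 2170 (.leaf 297 2178 .nil)) .nil)) .nil)) .nil))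 (.cons 247 (.leaf 248 1979 (.cons 271 (.leaf 246 1971 (.cons 251 (.leaf 252 1985 (.leaf 250 1977 .nil)) .nil)) .nil)) .nil)))) (.cons 272 (.cons 247 (.leaf 248 1979 (.cons 246 (.leaf 271 1971 (.cons 252 (.leaf 251 1985 (.cons 276 (.leaf 253 1993 (.cons 300 (.leaf 299 2176 (.leaf 301 2184 .nil)) .nil)) .nil)) .nil)) .nil)) (.cons 296 (.leaf 295 2170 (.cons 276 (.leaf 297 2178 (.cons 300 (.leaf 299 2176 (.leaf 301 2184 .nil)) .nil)) .nil)) (.cons 247 (.leaf 248 1979 (.cons 246 (.leaf 271 1971 (.cons 252 (.leaf 251 1985 (.cons 276 (.leaf 253 1993 (.cons 296 (.leaf 295 2170 (.leaf 297 2178 .nil)) .nil)) .nil)) .nil)) .nil)) (.cons 247 (.leaf 248 1979 (.cons 251 (.leaf 252 1985 (.cons 271 (.leaf 246 1971 (.cons 299 (.leaf 300 2176 (.leaf 298 2168 .nil)) .nil)) .nil)) .nil)) .nil)))) .nil))))))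
noncomputable def t27 : T := .cons 249 (.leaf 248 1987 (.cons 297 (.leaf 296 2178 (.cons 300 (.leaf 301 2184 (.cons 225 (.cons 201 (.leaf 298 1612 (.cons 202 (.leaf 178 1421 (.leaf 226 1613 .nil)) .nil)) (.cons 224 (.leaf 200 1607 (.cons 226 (.leaf 202 1613 (.cons 250 (.leaf 321 1805 (.cons 223 (.leaf 222 1776 (.leaf 251 1784 .nil)) .nil)) .nil)) .nil)) (.cons 200 (.leaf 224 1607 (.cons 201 (.leaf 298 1612 (.leaf 176 1415 .nil)) .nil)) .nil))) .nil)) .nil)) .nil)) (.cons 300 (.leaf 301 2184 (.cons 252 (.leaf 253 1993 (.cons 297 (.leaf 296 2178 (.cons 227 (.cons 324 (.leaf 251 1823 (.cons 349 (.leaf 325 2020 (.cons 348 (.leaf 373 2212 (.cons 371 (.leaf 347 2206 (.cons 372 (.leaf 299 2207 (.leaf 395 2398 .nil)) .nil)) .nil)) .nil)) .nil)) (.cons 228 (.leaf 203 1631 (.cons 204 (.leaf 299 1630 (.cons 205 (.leaf 181 1445 (.leaf 229 1637 .nil)) .nil)) .nil)) (.cons 203 (.leaf 251 1628 (.leaf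 228 1631 .nil)) .nil))) .nil)) .nil)) .nil)) (.cons 300 (.leaf 301 2184 (.cons 252 (.leaf 253 1993 (.cons 249 (.leaf 248 1987 (.cons 227 (.cons 228 (.leaf 203 1631 (.cons 205 (.leaf 229 1637 (.cons 204 (.leaf 299 1630 (.leaf 181 1445 .nil)) .nil)) .nil)) (.cons 324 (.leaf 251 1823 (.cons 349 (.leaf 325 2020 (.cons 348 (.leaf 373 2212 (.cons 371 (.leaf 347 2206 (.cons 372 (.leaf 299 2207 (.leaf 395 2398 .nil)) .nil)) .nil)) .nil)) .nil)) (.cons 228 (.leaf 203 1631 (.cons 205 (.leaf 229 1637 (.cons 204 (.leaf 181 1445 (.cons 225 (.leaf 226 1609 (.cons 201 (.leaf 298 1612 (.cons 176 (.leaf 200 1415 (.cons 177 (.leaf 250 1420 (.leaf 152 1223 .nil)) .nil)) .nil)) .nil)) .nil)) .nil)) .nil)) .nil))) .nil)) .nil)) .nil)) (.cons 249 (.leaf 248 1987 (.cons 297 (.leaf 296 2178 (.cons 252 (.leaf 253 1993 (.cons 225 (.cons 201 (.leaf 298 1612 (.cons 202 (.leaf 178 1421 (.leaf 226 1613 .nil))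 .nil)) (.cons 224 (.leaf 200 1607 (.cons 226 (.leaf 202 1613 (.cons 250 (.leaf 321 1805 (.leaf 251 1795 .nil)) .nil)) .nil)) (.cons 200 (.leaf 224 1607 (.cons 201 (.leaf 298 1612 (.leaf 176 1415 .nil)) .nil)) .nil))) .nil)) .nil)) .nil)) (.cons 297 (.leaf 296 2178 (.cons 249 (.leaf 248 1987 (.cons 300 (.leaf 301 2184 (.cons 225 (.cons 201 (.leaf 298 1612 (.cons 202 (.leaf 178 1421 (.leaf 226 1613 .nil)) .nil)) (.cons 226 (.leaf 202 1613 (.cons 200 (.leaf 224 1607 (.cons 321 (.leaf 250 1805 (.cons 344 (.leaf 320 1990 (.cons 345 (.leaf 368 2182 (.cons 346 (.leaf 322 1996 (.leaf 370 2188 .nil)) .nil)) .nil)) .nil)) .nil)) .nil)) (.cons 200 (.leaf 224 1607 (.cons 201 (.leaf 298 1612 (.leaf 176 1415 .nil)) .nil)) .nil))) .nil)) .nil)) .nil)) .nil))))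
noncomputable def t28 : T := .cons 247 (.leaf 248 1979 (.cons 252 (.leaf 251 1985 (.cons 276 (.leaf 253 1993 (.cons 271 (.leaf 246 1971 (.cons 294 (.leaf 295 2162 (.cons 270 (.leaf 293 2154 (.cons 298 (.leaf 299 2168 (.leaf 297 2160 .nil)) .nil)) .nil)) .nil)) .nil)) .nil)) .nil)) (.cons 251 (.leaf 252 1985 (.cons 271 (.leaf 250 1977 (.cons 294 (.leaf 295 2162 (.cons 270 (.leaf 293 2154 (.cons 298 (.leaf 299 2168 (.leaf 297 2160 .nil)) .nil)) .nil)) .nil)) .nil)) (.cons 247 (.leaf 248 1979 (.cons 246 (.leaf 271 1971 (.cons 296 (.leaf 295 2170 (.cons 276 (.leaf 297 2178 (.cons 300 (.leaf 299 2176 (.leaf 301 2184 .nil)) .nil)) .nil)) .nil)) .nil)) (.cons 251 (.leaf 252 1985 (.cons 271 (.leaf 250 1977 (.cons 295 (.leaf 296 2170 (.leaf 294 2162 .nil)) .nil)) .nil)) (.cons 248 (.leaf 247 1979 (.cons 249 (.leaf 276 1987 (.cons 251 (.leaf 252 1985 (.cons 250 (.leaf 271 1977 (.cons 223 (.leaf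 224 1787 (.cons 227 (.leaf 228 1793 (.cons 203 (.leaf 298 1622 (.leaf 179 1430 .nil)) .nil)) .nil)) .nil)) .nil)) .nil)) .nil)) (.cons 247 (.leaf 248 1979 (.cons 252 (.leaf 251 1985 (.cons 276 (.leaf 253 1993 (.cons 296 (.leaf 295 2170 (.leaf 297 2178 .nil)) .nil)) .nil)) .nil)) .nil)))))
noncomputable def t29 : T := .cons 272 t28 (.cons 276 t27 (.cons 272 (.cons 299 (.leaf 300 2176 (.cons 247 (.leaf 248 1979 (.cons 271 (.leaf 246 1971 (.leaf 298 2168 .nil)) .nil)) .nil)) (.cons 251 (.leaf 252 1985 (.cons 271 (.leaf 250 1977 (.cons 294 (.leaf 295 2162 (.cons 270 (.leaf 293 2154 (.cons 298 (.leaf 299 2168 (.leaf 297 2160 .nil)) .nil)) .nil)) .nil)) .nil)) (.cons 251 (.leaf 252 1985 (.cons 271 (.leaf 250 1977 (.cons 295 (.leaf 296 2170 (.leaf 294 2162 .nil)) .nil)) .nil)) (.cons 248 (.leaf 247 1979 (.cons 296 (.leaf 295 2170 (.cons 251 (.leaf 252 1985 (.cons 299 (.leaf 300 2176 (.cons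 320 (.cons 249 (.leaf 344 1989 (.leaf 225 1797 .nil)) (.cons 319 (.leaf 343 1982 (.cons 297 (.leaf 298 2362 (.cons 321 (.leaf 345 1988 (.leaf 224 1796 .nil)) .nil)) .nil)) .nil)) .nil)) .nil)) .nil)) .nil)) .nil)))) (.cons 272 (.cons 299 (.leaf 300 2176 (.cons 247 (.leaf 248 1979 (.cons 271 (.leaf 246 1971 (.leaf 298 2168 .nil)) .nil)) .nil)) (.cons 251 (.leaf 252 1985 (.cons 271 (.leaf 250 1977 (.cons 295 (.leaf 296 2170 (.leaf 294 2162 .nil)) .nil)) .nil)) (.cons 296 (.leaf 295 2170 (.cons 276 (.leaf 297 2178 (.cons 300 (.leaf 299 2176 (.leaf 301 2184 .nil)) .nil)) .nil)) .nil))) t26)))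
noncomputable def t30 : T := .cons 272 (.cons 247 (.leaf 248 1979 (.cons 251 (.leaf 252 1985 (.cons 271 (.leaf 246 1971 (.leaf 250 1977 .nil)) .nil)) .nil)) (.cons 251 (.leaf 252 1985 (.cons 271 (.leaf 250 1977 (.cons 295 (.leaf 296 2170 (.leaf 294 2162 .nil)) .nil)) .nil)) (.cons 248 (.leaf 247 1979 (.cons 249 (.leaf 276 1987 (.cons 295 (.leaf 296 2170 (.cons 271 (.leaf 294 2162 (.cons 270 (.leaf 250 1969 (.leaf 269 1961 .nil)) .nil)) .nil)) .nil)) .nil)) (.cons 247 (.leaf 248 1979 (.cons 252 (.leaf 251 1985 (.cons 276 (.leaf 253 1993 (.cons 296 (.leaf 295 2170 (.leaf 297 2178 .nil)) .nil)) .nil)) .nil)) .nil)))) (.cons 272 (.cons 247 (.leaf 248 1979 (.cons 252 (.leaf 251 1985 (.cons 276 (.leaf 253 1993 (.cons 300 (.leaf 299 2176 (.leaf 301 2184 .nil)) .nil)) .nil)) .nil)) (.cons 251 (.leaf 252 1985 (.cons 250 (.leaf 271 1977 (.cons 299 (.leaf 300 2176 (.cons 226 (.leaf 202 1620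 (.leaf 323 1815 .nil)) .nil)) .nil)) .nil)) (.cons 248 (.leaf 247 1979 (.cons 249 (.leaf 276 1987 (.cons 251 (.leaf 252 1985 (.cons 250 (.leaf 271 1977 (.cons 223 (.leaf 224 1787 (.cons 227 (.leaf 228 1793 (.cons 203 (.leaf 298 1622 (.leaf 179 1430 .nil)) .nil)) .nil)) .nil)) .nil)) .nil)) .nil)) (.cons 247 (.leaf 248 1979 (.cons 271 (.leaf 246 1971 (.cons 294 (.leaf 295 2162 (.cons 270 (.leaf 293 2154 (.cons 298 (.leaf 299 2168 (.leaf 297 2160 .nil)) .nil)) .nil)) .nil)) .nil)) .nil)))) (.cons 272 (.cons 247 (.leaf 248 1979 (.cons 296 (.leaf 295 2170 (.cons 276 (.leaf 297 2178 (.cons 300 (.leaf 299 2176 (.leaf 301 2184 .nil)) .nil)) .nil)) .nil)) (.cons 299 (.leaf 300 2176 (.cons 271 (.leaf 298 2168 (.cons 246 (.leaf 247 1971 (.cons 270 (.leaf 245 1963 (.cons 294 (.leaf 295 2162 (.leaf 293 2154 .nil)) .nil)) .nil)) .nil)) .nil)) (.cons 248 (.leaf 247 1979 (.cons 249 (.leaf 276 1987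 (.cons 295 (.leaf 296 2170 (.cons 271 (.leaf 294 2162 (.cons 270 (.leaf 250 1969 (.leaf 269 1961 .nil)) .nil)) .nil)) .nil)) .nil)) (.cons 299 (.leaf 300 2176 (.cons 271 (.leaf 298 2168 (.cons 250 (.leaf 251 1977 (.cons 202 (.leaf 226 1620 (.cons 270 (.leaf 249 1969 (.cons 294 (.leaf 295 2162 (.leaf 293 2154 .nil)) .nil)) .nil)) .nil)) .nil)) .nil)) (.cons 299 (.leaf 300 2176 (.cons 247 (.leaf 248 1979 (.cons 271 (.leaf 246 1971 (.leaf 298 2168 .nil)) .nil)) .nil)) .nil))))) (.cons 272 (.cons 248 (.leaf 247 1979 (.cons 249 (.leaf 276 1987 (.cons 295 (.leaf 296 2170 (.cons 271 (.leaf 294 2162 (.cons 270 (.leaf 250 1969 (.leaf 269 1961 .nil)) .nil)) .nil)) .nil)) .nil)) (.cons 299 (.leaf 300 2176 (.cons 271 (.leaf 298 2168 (.cons 246 (.leaf 247 1971 (.cons 270 (.leaf 245 1963 (.cons 294 (.leaf 295 2162 (.leaf 293 2154 .nil)) .nil)) .nil)) .nil)) .nil)) (.cons 299 (.leaf 300 2176 (.cons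 271 (.leaf 298 2168 (.cons 250 (.leaf 251 1977 (.cons 202 (.leaf 226 1620 (.cons 270 (.leaf 249 1969 (.cons 294 (.leaf 295 2162 (.leaf 293 2154 .nil)) .nil)) .nil)) .nil)) .nil)) .nil)) (.cons 247 (.leaf 248 1979 (.cons 252 (.leaf 251 1985 (.cons 276 (.leaf 253 1993 (.cons 300 (.leaf 299 2176 (.leaf 301 2184 .nil)) .nil)) .nil)) .nil)) .nil)))) (.cons 272 (.cons 248 (.leaf 247 1979 (.cons 249 (.leaf 276 1987 (.cons 295 (.leaf 296 2170 (.cons 271 (.leaf 294 2162 (.cons 270 (.leaf 250 1969 (.leaf 269 1961 .nil)) .nil)) .nil)) .nil)) .nil)) (.cons 248 (.leaf 247 1979 (.cons 249 (.leaf 276 1987 (.cons 299 (.leaf 300 2176 (.cons 271 (.leaf 298 2168 (.cons 270 (.leaf 250 1969 (.leaf 269 1961 .nil)) .nil)) .nil)) .nil)) .nil)) (.cons 296 (.leaf 295 2170 (.cons 276 (.leaf 297 2178 (.cons 300 (.leaf 299 2176 (.leaf 301 2184 .nil)) .nil)) .nil)) (.cons 299 (.leaf 300 2176 (.cons 247 (.leaf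 248 1979 (.cons 271 (.leaf 246 1971 (.leaf 298 2168 .nil)) .nil)) .nil)) .nil)))) (.cons 272 (.cons 296 (.leaf 295 2170 (.cons 276 (.leaf 297 2178 (.cons 300 (.leaf 299 2176 (.leaf 301 2184 .nil)) .nil)) .nil)) (.cons 299 (.leaf 300 2176 (.cons 247 (.leaf 248 1979 (.cons 271 (.leaf 246 1971 (.leaf 298 2168 .nil)) .nil)) .nil)) (.cons 247 (.leaf 248 1979 (.cons 246 (.leaf 271 1971 (.cons 252 (.leaf 251 1985 (.cons 276 (.leaf 253 1993 (.cons 296 (.leaf 295 2170 (.leaf 297 2178 .nil)) .nil)) .nil)) .nil)) .nil)) .nil))) .nil)))))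
noncomputable def t31 : T := .cons 299 (.leaf 300 2176 (.cons 247 (.leaf 248 1979 (.cons 271 (.leaf 246 1971 (.leaf 298 2168 .nil)) .nil)) .nil)) (.cons 248 (.leaf 247 1979 (.cons 296 (.leaf 295 2170 (.cons 251 (.leaf 252 1985 (.cons 224 (.cons 321 (.leaf 297 1796 (.cons 199 (.leaf 223 1599 (.cons 201 (.leaf 225 1605 (.cons 320 (.leaf 345 1988 (.cons 343 (.leaf 319 1982 (.cons 344 (.leaf 249 1989 (.leaf 367 2174 .nil)) .nil)) .nil)) .nil)) .nil)) .nil)) (.cons 250 (.leaf 271 1977 (.cons 223 (.leaf 199 1599 (.leaf 249 1787 .nil)) .nil)) (.cons 200 (.leaf 297 1604 (.cons 199 (.leaf 175 1407 (.leaf 223 1599 .nil)) .nil)) (.cons 297 (.leaf 200 1604 (.leaf 321 1796 .nil)) .nil)))) .nil)) .nil)) .nil)) (.cons 299 (.leaf 300 2176 (.cons 271 (.leaf 298 2168 (.cons 246 (.leaf 247 1971 (.cons 270 (.leaf 245 1963 (.cons 294 (.leaf 295 2162 (.leaf 293 2154 .nil)) .nil)) .nil)) .nil)) .nil)) (.cons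 299 (.leaf 300 2176 (.cons 271 (.leaf 298 2168 (.cons 250 (.leaf 251 1977 (.cons 202 (.leaf 226 1620 (.cons 270 (.leaf 249 1969 (.cons 294 (.leaf 295 2162 (.leaf 293 2154 .nil)) .nil)) .nil)) .nil)) .nil)) .nil)) (.cons 248 (.leaf 247 1979 (.cons 296 (.leaf 295 2170 (.cons 251 (.leaf 252 1985 (.cons 224 (.cons 321 (.leaf 297 1796 (.cons 199 (.leaf 223 1599 (.cons 201 (.leaf 225 1605 (.cons 320 (.leaf 345 1988 (.cons 343 (.leaf 319 1982 (.cons 344 (.leaf 249 1989 (.leaf 367 2174 .nil)) .nil)) .nil)) .nil)) .nil)) .nil)) (.cons 225 (.leaf 201 1605 (.cons 199 (.leaf 223 1599 (.cons 175 (.leaf 200 1407 (.cons 320 (.leaf 249 1797 (.cons 343 (.leaf 319 1982 (.cons 344 (.leaf 367 2174 (.cons 345 (.leaf 321 1988 (.leaf 369 2180 .nil)) .nil)) .nil)) .nil)) .nil)) .nil)) .nil)) (.cons 200 (.leaf 297 1604 (.cons 199 (.leaf 175 1407 (.leaf 223 1599 .nil)) .nil)) (.cons 297 (.leaf 200 1604 (.leaf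 321 1796 .nil)) .nil)))) .nil)) .nil)) .nil)) .nil))))
noncomputable def t32 : T := .cons 297 (.leaf 296 2178 (.cons 249 (.leaf 248 1987 (.cons 300 (.leaf 301 2184 (.cons 252 (.leaf 253 1993 (.cons 228 (.cons 203 (.leaf 227 1631 (.cons 204 (.leaf 299 1630 (.leaf 179 1439 .nil)) .nil)) (.cons 203 (.leaf 227 1631 (.cons 204 (.leaf 179 1439 (.cons 205 (.leaf 181 1445 (.leaf 229 1637 .nil)) .nil)) .nil)) (.cons 227 (.leaf 203 1631 (.cons 229 (.leaf 205 1637 (.cons 226 (.leaf 250 1802 (.cons 202 (.leaf 225 1613 (.leaf 201 1611 .nil)) .nil)) .nil)) .nil)) (.cons 299 (.leaf 204 1630 (.leaf 323 1822 .nil)) .nil)))) .nil)) .nil)) .nil)) .nil)) (.cons 297 (.leaf 296 2178 (.cons 249 (.leaf 248 1987 (.cons 300 (.leaf 301 2184 (.cons 225 (.cons 201 (.leaf 298 1612 (.cons 202 (.leaf 178 1421 (.leaf 226 1613 .nil)) .nil)) (.cons 224 (.leaf 200 1607 (.cons 226 (.leaf 202 1613 (.cons 250 (.leaf 321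 1805 (.cons 223 (.leaf 222 1776 (.leaf 251 1784 .nil)) .nil)) .nil)) .nil)) (.cons 200 (.leaf 224 1607 (.cons 201 (.leaf 298 1612 (.leaf 176 1415 .nil)) .nil)) .nil))) .nil)) .nil)) .nil)) (.cons 297 (.leaf 296 2178 (.cons 249 (.leaf 248 1987 (.cons 252 (.leaf 253 1993 (.cons 225 (.cons 201 (.leaf 298 1612 (.cons 202 (.leaf 178 1421 (.leaf 226 1613 .nil)) .nil)) (.cons 200 (.leaf 224 1607 (.cons 201 (.leaf 298 1612 (.leaf 176 1415 .nil)) .nil)) (.cons 224 (.leaf 200 1607 (.cons 226 (.leaf 202 1613 (.cons 250 (.leaf 321 1805 (.leaf 251 1795 .nil)) .nil)) .nil)) .nil))) .nil)) .nil)) .nil)) (.cons 252 (.leaf 253 1993 (.cons 300 (.leaf 301 2184 (.cons 249 (.leaf 248 1987 (.cons 228 (.cons 205 (.leaf 229 1637 (.cons 227 (.leaf 203 1631 (.cons 204 (.leaf 299 1630 (.leaf 181 1445 .nil)) .nil)) .nil)) (.cons 205 (.leaf 229 1637 (.cons 204 (.leaf 181 1445 (.cons 179 (.leaf 203 1439 (.cons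 180 (.leaf 251 1438 (.leaf 155 1247 .nil)) .nil)) .nil)) .nil)) (.cons 205 (.leaf 229 1637 (.cons 227 (.leaf 203 1631 (.cons 251 (.leaf 324 1823 (.cons 299 (.leaf 323 1821 (.cons 226 (.leaf 202 1623 (.cons 225 (.leaf 224 1792 (.cons 201 (.leaf 298 1612 (.leaf 200 1603 .nil)) .nil)) .nil)) .nil)) .nil)) .nil)) .nil)) (.cons 205 (.leaf 229 1637 (.cons 323 (.leaf 299 1822 (.cons 324 (.leaf 347 2014 (.cons 348 (.leaf 251 2015 (.cons 349 (.leaf 325 2020 (.leaf 373 2212 .nil)) .nil)) .nil)) .nil)) .nil)) (.cons 299 (.leaf 204 1630 (.leaf 323 1822 .nil)) .nil))))) .nil)) .nil)) .nil)) (.cons 252 (.leaf 253 1993 (.cons 300 (.leaf 301 2184 (.cons 297 (.leaf 296 2178 (.cons 228 (.cons 299 (.leaf 204 1630 (.leaf 323 1822 .nil)) (.cons 227 (.leaf 203 1631 (.cons 205 (.leaf 229 1637 (.cons 181 (.leaf 204 1445 (.cons 324 (.leaf 251 1823 (.cons 347 (.leaf 323 2014 (.cons 348 (.leaf 371 2206 (.cons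 349 (.leaf 325 2020 (.leaf 373 2212 .nil)) .nil)) .nil)) .nil)) .nil)) .nil)) .nil)) (.cons 203 (.leaf 227 1631 (.cons 205 (.leaf 229 1637 (.cons 323 (.leaf 299 1822 (.cons 324 (.leaf 347 2014 (.cons 348 (.leaf 251 2015 (.cons 349 (.leaf 325 2020 (.leaf 373 2212 .nil)) .nil)) .nil)) .nil)) .nil)) .nil)) (.cons 204 (.leaf 299 1630 (.cons 203 (.leaf 179 1439 (.leaf 227 1631 .nil)) .nil)) .nil)))) .nil)) .nil)) .nil)) .nil))))
noncomputable def t33 : T := .cons 272 (.cons 251 (.leaf 252 1985 (.cons 271 (.leaf 250 1977 (.cons 294 (.leaf 295 2162 (.cons 270 (.leaf 293 2154 (.cons 298 (.leaf 299 2168 (.leaf 297 2160 .nil)) .nil)) .nil)) .nil)) .nil)) (.cons 251 (.leaf 252 1985 (.cons 271 (.leaf 250 1977 (.cons 295 (.leaf 296 2170 (.leaf 294 2162 .nil)) .nil)) .nil)) (.cons 247 (.leaf 248 1979 (.cons 271 (.leaf 246 1971 (.cons 294 (.leaf 295 2162 (.cons 270 (.leaf 293 2154 (.cons 298 (.leaf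 299 2168 (.leaf 297 2160 .nil)) .nil)) .nil)) .nil)) .nil)) (.cons 247 (.leaf 248 1979 (.cons 252 (.leaf 251 1985 (.cons 271 (.leaf 246 1971 (.cons 299 (.leaf 300 2176 (.leaf 298 2168 .nil)) .nil)) .nil)) .nil)) (.cons 247 (.leaf 248 1979 (.cons 252 (.leaf 251 1985 (.cons 276 (.leaf 253 1993 (.cons 296 (.leaf 295 2170 (.leaf 297 2178 .nil)) .nil)) .nil)) .nil)) .nil))))) (.cons 276 t32 (.cons 272 t31 (.cons 272 (.cons 295 (.leaf 296 2170 (.cons 271 (.leaf 294 2162 (.cons 246 (.leaf 247 1971 (.cons 250 (.leaf 251 1977 (.cons 270 (.leaf 245 1963 (.leaf 249 1969 .nil)) .nil)) .nil)) .nil)) .nil)) (.cons 299 (.leaf 300 2176 (.cons 271 (.leaf 298 2168 (.cons 246 (.leaf 247 1971 (.cons 270 (.leaf 245 1963 (.cons 294 (.leaf 295 2162 (.leaf 293 2154 .nil)) .nil)) .nil)) .nil)) .nil)) (.cons 299 (.leaf 300 2176 (.cons 271 (.leaf 298 2168 (.cons 246 (.leaf 247 1971 (.cons 250 (.leaf 251 1977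 (.cons 270 (.leaf 245 1963 (.leaf 249 1969 .nil)) .nil)) .nil)) .nil)) .nil)) (.cons 251 (.leaf 252 1985 (.cons 296 (.leaf 295 2170 (.cons 276 (.leaf 297 2178 (.cons 300 (.leaf 299 2176 (.leaf 301 2184 .nil)) .nil)) .nil)) .nil)) .nil)))) t30)))
noncomputable def t34 : T := .cons 247 (.leaf 248 1979 (.cons 271 (.leaf 246 1971 (.cons 294 (.leaf 295 2162 (.cons 270 (.leaf 293 2154 (.cons 298 (.leaf 299 2168 (.leaf 297 2160 .nil)) .nil)) .nil)) .nil)) .nil)) (.cons 299 (.leaf 300 2176 (.cons 271 (.leaf 298 2168 (.cons 246 (.leaf 247 1971 (.cons 270 (.leaf 245 1963 (.cons 294 (.leaf 295 2162 (.leaf 293 2154 .nil)) .nil)) .nil)) .nil)) .nil)) (.cons 247 (.leaf 248 1979 (.cons 271 (.leaf 246 1971 (.cons 296 (.leaf 295 2170 (.cons 199 (.leaf 223 1596 (.cons 297 (.leaf 276 2178 (.cons 270 (.leaf 298 2160 (.leaf 269 2152 .nil)) .nil)) .nil)) .nil)) .nil)) .nil)) (.cons 299 (.leaf 300 2176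 (.cons 247 (.leaf 248 1979 (.cons 271 (.leaf 246 1971 (.leaf 298 2168 .nil)) .nil)) .nil)) (.cons 299 (.leaf 300 2176 (.cons 271 (.leaf 298 2168 (.cons 250 (.leaf 251 1977 (.cons 202 (.leaf 226 1620 (.cons 270 (.leaf 249 1969 (.cons 294 (.leaf 295 2162 (.leaf 293 2154 .nil)) .nil)) .nil)) .nil)) .nil)) .nil)) (.cons 247 (.leaf 248 1979 (.cons 296 (.leaf 295 2170 (.cons 276 (.leaf 297 2178 (.cons 300 (.leaf 299 2176 (.leaf 301 2184 .nil)) .nil)) .nil)) .nil)) .nil)))))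
noncomputable def t35 : T := .cons 248 (.leaf 247 1979 (.cons 296 (.leaf 295 2170 (.cons 251 (.leaf 252 1985 (.cons 224 (.cons 199 (.leaf 223 1599 (.cons 175 (.leaf 200 1407 (.cons 201 (.leaf 225 1605 (.cons 321 (.leaf 297 1796 (.cons 320 (.leaf 345 1988 (.cons 250 (.leaf 271 1977 (.cons 343 (.leaf 319 1982 (.cons 344 (.leaf 249 1989 (.leaf 367 2174 .nil)) .nil)) .nil)) .nil)) .nil)) .nil)) .nil)) .nil)) (.cons 250 (.leaf 271 1977 (.cons 223 (.leaf 199 1599 (.leaf 249 1787 .nil)) .nil)) (.cons 199 (.leaf 223 1599 (.cons 200 (.leaf 297 1604 (.leaf 175 1407 .nil)) .nil)) (.cons 297 (.leaf 200 1604 (.leaf 321 1796 .nil)) .nil)))) .nil)) .nil)) .nil)) (.cons 247 (.leaf 248 1979 (.cons 271 (.leaf 246 1971 (.cons 294 (.leaf 295 2162 (.cons 270 (.leaf 293 2154 (.cons 298 (.leaf 299 2168 (.leaf 297 2160 .nil)) .nil)) .nil)) .nil)) .nil)) (.cons 299 (.leaf 300 2176 (.cons 271 (.leaf 298 2168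 (.cons 246 (.leaf 247 1971 (.cons 270 (.leaf 245 1963 (.cons 294 (.leaf 295 2162 (.leaf 293 2154 .nil)) .nil)) .nil)) .nil)) .nil)) (.cons 247 (.leaf 248 1979 (.cons 271 (.leaf 246 1971 (.cons 299 (.leaf 300 2176 (.leaf 298 2168 .nil)) .nil)) .nil)) (.cons 299 (.leaf 300 2176 (.cons 271 (.leaf 298 2168 (.cons 250 (.leaf 251 1977 (.cons 202 (.leaf 226 1620 (.cons 270 (.leaf 249 1969 (.cons 294 (.leaf 295 2162 (.leaf 293 2154 .nil)) .nil)) .nil)) .nil)) .nil)) .nil)) (.cons 248 (.leaf 247 1979 (.cons 296 (.leaf 295 2170 (.cons 251 (.leaf 252 1985 (.cons 224 (.cons 199 (.leaf 223 1599 (.cons 175 (.leaf 200 1407 (.cons 225 (.leaf 201 1605 (.cons 320 (.leaf 249 1797 (.cons 343 (.leaf 319 1982 (.cons 344 (.leaf 367 2174 (.cons 345 (.leaf 321 1988 (.leaf 369 2180 .nil)) .nil)) .nil)) .nil)) .nil)) .nil)) .nil)) (.cons 321 (.leaf 297 1796 (.cons 199 (.leaf 223 1599 (.cons 201 (.leaf 225 1605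 (.cons 320 (.leaf 345 1988 (.cons 343 (.leaf 319 1982 (.cons 344 (.leaf 249 1989 (.leaf 367 2174 .nil)) .nil)) .nil)) .nil)) .nil)) .nil)) (.cons 297 (.leaf 200 1604 (.leaf 321 1796 .nil)) (.cons 200 (.leaf 297 1604 (.cons 199 (.leaf 175 1407 (.leaf 223 1599 .nil)) .nil)) .nil)))) .nil)) .nil)) .nil)) .nil)))))
noncomputable def t36 : T := .cons 249 (.leaf 248 1987 (.cons 297 (.leaf 296 2178 (.cons 252 (.leaf 253 1993 (.cons 225 (.cons 200 (.leaf 224 1607 (.cons 322 (.leaf 298 1804 (.cons 321 (.leaf 346 1996 (.cons 344 (.leaf 320 1990 (.cons 345 (.leaf 250 1997 (.leaf 368 2182 .nil)) .nil)) .nil)) .nil)) .nil)) (.cons 200 (.leaf 224 1607 (.cons 201 (.leaf 176 1415 (.cons 202 (.leaf 178 1421 (.leaf 226 1613 .nil)) .nil)) .nil)) (.cons 298 (.leaf 201 1612 (.leaf 322 1804 .nil)) .nil))) .nil)) .nil)) .nil)) (.cons 252 (.leaf 253 1993 (.cons 300 (.leaf 301 2184 (.cons 249 (.leaf 248 1987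 (.cons 228 (.cons 205 (.leaf 229 1637 (.cons 204 (.leaf 299 1630 (.leaf 181 1445 .nil)) .nil)) (.cons 205 (.leaf 229 1637 (.cons 204 (.leaf 181 1445 (.cons 179 (.leaf 203 1439 (.cons 180 (.leaf 251 1438 (.leaf 155 1247 .nil)) .nil)) .nil)) .nil)) (.cons 205 (.leaf 229 1637 (.cons 323 (.leaf 299 1822 (.cons 324 (.leaf 347 2014 (.cons 348 (.leaf 251 2015 (.cons 349 (.leaf 325 2020 (.leaf 373 2212 .nil)) .nil)) .nil)) .nil)) .nil)) (.cons 299 (.leaf 204 1630 (.leaf 323 1822 .nil)) .nil)))) .nil)) .nil)) .nil)) (.cons 252 (.leaf 253 1993 (.cons 300 (.leaf 301 2184 (.cons 297 (.leaf 296 2178 (.cons 228 (.cons 205 (.leaf 229 1637 (.cons 204 (.leaf 299 1630 (.leaf 181 1445 .nil)) .nil)) (.cons 205 (.leaf 229 1637 (.cons 204 (.leaf 181 1445 (.cons 179 (.leaf 203 1439 (.cons 180 (.leaf 251 1438 (.leaf 155 1247 .nil)) .nil)) .nil)) .nil)) (.cons 205 (.leaf 229 1637 (.cons 323 (.leaf 299 1822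 (.cons 324 (.leaf 347 2014 (.cons 325 (.leaf 349 2020 (.cons 322 (.leaf 298 2379 (.cons 345 (.leaf 346 2570 (.cons 321 (.leaf 250 1997 (.leaf 344 2562 .nil)) .nil)) .nil)) .nil)) .nil)) .nil)) .nil)) (.cons 299 (.leaf 204 1630 (.leaf 323 1822 .nil)) .nil)))) .nil)) .nil)) .nil)) (.cons 249 (.leaf 248 1987 (.cons 297 (.leaf 296 2178 (.cons 300 (.leaf 301 2184 (.cons 321 (.cons 250 (.leaf 345 1997 (.leaf 226 1805 .nil)) (.cons 320 (.leaf 344 1990 (.cons 322 (.leaf 346 1996 (.cons 323 (.leaf 299 2369 (.cons 348 (.leaf 347 2560 (.cons 324 (.leaf 251 2015 (.leaf 349 2568 .nil)) .nil)) .nil)) .nil)) .nil)) .nil)) .nil)) .nil)) .nil)) .nil)))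
noncomputable def t37 : T := .cons 272 (.cons 247 (.leaf 248 1979 (.cons 246 (.leaf 271 1971 (.cons 252 (.leaf 251 1985 (.cons 276 (.leaf 253 1993 (.cons 300 (.leaf 299 2176 (.leaf 301 2184 .nil)) .nil)) .nil)) .nil)) .nil)) (.cons 251 (.leaf 252 1985 (.cons 271 (.leaf 250 1977 (.cons 294 (.leaf 295 2162 (.cons 270 (.leaf 293 2154 (.cons 298 (.leaf 299 2168 (.leaf 297 2160 .nil)) .nil)) .nil)) .nil)) .nil)) (.cons 247 (.leaf 248 1979 (.cons 246 (.leaf 271 1971 (.cons 252 (.leaf 251 1985 (.cons 276 (.leaf 253 1993 (.cons 296 (.leaf 295 2170 (.leaf 297 2178 .nil)) .nil)) .nil)) .nil)) .nil)) (.cons 247 (.leaf 248 1979 (.cons 271 (.leaf 246 1971 (.cons 294 (.leaf 295 2162 (.cons 270 (.leaf 293 2154 (.cons 298 (.leaf 299 2168 (.leaf 297 2160 .nil)) .nil)) .nil)) .nil)) .nil)) (.cons 247 (.leaf 248 1979 (.cons 296 (.leaf 295 2170 (.cons 276 (.leaf 297 2178 (.cons 300 (.leaf 299 2176 (.leaf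 301 2184 .nil)) .nil)) .nil)) .nil)) .nil))))) (.cons 276 t36 (.cons 272 t35 (.cons 272 (.cons 247 (.leaf 248 1979 (.cons 251 (.leaf 252 1985 (.cons 271 (.leaf 246 1971 (.leaf 250 1977 .nil)) .nil)) .nil)) (.cons 299 (.leaf 300 2176 (.cons 271 (.leaf 298 2168 (.cons 246 (.leaf 247 1971 (.cons 270 (.leaf 245 1963 (.cons 294 (.leaf 295 2162 (.leaf 293 2154 .nil)) .nil)) .nil)) .nil)) .nil)) (.cons 299 (.leaf 300 2176 (.cons 271 (.leaf 298 2168 (.cons 250 (.leaf 251 1977 (.cons 202 (.leaf 226 1620 (.cons 270 (.leaf 249 1969 (.cons 294 (.leaf 295 2162 (.leaf 293 2154 .nil)) .nil)) .nil)) .nil)) .nil)) .nil)) (.cons 247 (.leaf 248 1979 (.cons 252 (.leaf 251 1985 (.cons 276 (.leaf 253 1993 (.cons 300 (.leaf 299 2176 (.leaf 301 2184 .nil)) .nil)) .nil)) .nil)) .nil)))) (.cons 272 (.cons 247 (.leaf 248 1979 (.cons 271 (.leaf 246 1971 (.cons 296 (.leaf 295 2170 (.cons 199 (.leaf 223 1596 (.cons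 297 (.leaf 276 2178 (.cons 270 (.leaf 298 2160 (.leaf 269 2152 .nil)) .nil)) .nil)) .nil)) .nil)) .nil)) (.cons 251 (.leaf 252 1985 (.cons 271 (.leaf 250 1977 (.cons 295 (.leaf 296 2170 (.leaf 294 2162 .nil)) .nil)) .nil)) (.cons 248 (.leaf 247 1979 (.cons 249 (.leaf 276 1987 (.cons 251 (.leaf 252 1985 (.cons 250 (.leaf 271 1977 (.cons 224 (.leaf 223 1787 (.cons 200 (.leaf 176 1412 (.leaf 297 1604 .nil)) .nil)) .nil)) .nil)) .nil)) .nil)) (.cons 247 (.leaf 248 1979 (.cons 252 (.leaf 251 1985 (.cons 276 (.leaf 253 1993 (.cons 296 (.leaf 295 2170 (.leaf 297 2178 .nil)) .nil)) .nil)) .nil)) .nil)))) (.cons 272 (.cons 251 (.leaf 252 1985 (.cons 271 (.leaf 250 1977 (.cons 294 (.leaf 295 2162 (.cons 270 (.leaf 293 2154 (.cons 298 (.leaf 299 2168 (.leaf 297 2160 .nil)) .nil)) .nil)) .nil)) .nil)) (.cons 296 (.leaf 295 2170 (.cons 252 (.leaf 251 1985 (.cons 276 (.leaf 253 1993 (.leaf 297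 2178 .nil)) .nil)) .nil)) (.cons 295 (.leaf 296 2170 (.cons 271 (.leaf 294 2162 (.cons 246 (.leaf 247 1971 (.cons 270 (.leaf 245 1963 (.cons 298 (.leaf 299 2168 (.leaf 297 2160 .nil)) .nil)) .nil)) .nil)) .nil)) (.cons 299 (.leaf 300 2176 (.cons 271 (.leaf 298 2168 (.cons 246 (.leaf 247 1971 (.cons 250 (.leaf 251 1977 (.cons 270 (.leaf 245 1963 (.leaf 249 1969 .nil)) .nil)) .nil)) .nil)) .nil)) .nil)))) (.cons 272 t34 (.cons 272 (.cons 251 (.leaf 252 1985 (.cons 296 (.leaf 295 2170 (.cons 276 (.leaf 297 2178 (.cons 300 (.leaf 299 2176 (.leaf 301 2184 .nil)) .nil)) .nil)) .nil)) (.cons 247 (.leaf 248 1979 (.cons 246 (.leaf 271 1971 (.cons 252 (.leaf 251 1985 (.cons 276 (.leaf 253 1993 (.cons 300 (.leaf 299 2176 (.leaf 301 2184 .nil)) .nil)) .nil)) .nil)) .nil)) (.cons 296 (.leaf 295 2170 (.cons 247 (.leaf 248 1979 (.cons 271 (.leaf 246 1971 (.cons 199 (.leaf 223 1596 (.cons 297 (.leaf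 276 2178 (.cons 270 (.leaf 298 2160 (.leaf 269 2152 .nil)) .nil)) .nil)) .nil)) .nil)) .nil)) (.cons 247 (.leaf 248 1979 (.cons 251 (.leaf 252 1985 (.cons 271 (.leaf 246 1971 (.cons 299 (.leaf 300 2176 (.leaf 298 2168 .nil)) .nil)) .nil)) .nil)) .nil)))) (.cons 272 (.cons 247 (.leaf 248 1979 (.cons 251 (.leaf 252 1985 (.cons 271 (.leaf 246 1971 (.leaf 250 1977 .nil)) .nil)) .nil)) (.cons 296 (.leaf 295 2170 (.cons 276 (.leaf 297 2178 (.cons 300 (.leaf 299 2176 (.leaf 301 2184 .nil)) .nil)) .nil)) .nil)) (.cons 272 (.cons 247 (.leaf 248 1979 (.cons 271 (.leaf 246 1971 (.cons 294 (.leaf 295 2162 (.cons 270 (.leaf 293 2154 (.cons 298 (.leaf 299 2168 (.leaf 297 2160 .nil)) .nil)) .nil)) .nil)) .nil)) (.cons 296 (.leaf 295 2170 (.cons 276 (.leaf 297 2178 (.cons 300 (.leaf 299 2176 (.leaf 301 2184 .nil)) .nil)) .nil)) (.cons 247 (.leaf 248 1979 (.cons 271 (.leaf 246 1971 (.cons 296 (.leaf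 295 2170 (.cons 199 (.leaf 223 1596 (.cons 297 (.leaf 276 2178 (.cons 270 (.leaf 298 2160 (.leaf 269 2152 .nil)) .nil)) .nil)) .nil)) .nil)) .nil)) (.cons 247 (.leaf 248 1979 (.cons 271 (.leaf 246 1971 (.cons 299 (.leaf 300 2176 (.leaf 298 2168 .nil)) .nil)) .nil)) .nil)))) .nil)))))))))
noncomputable def t38 : T := .cons 272 (.cons 247 (.leaf 248 1979 (.cons 271 (.leaf 246 1971 (.cons 294 (.leaf 295 2162 (.cons 270 (.leaf 293 2154 (.cons 298 (.leaf 299 2168 (.leaf 297 2160 .nil)) .nil)) .nil)) .nil)) .nil)) (.cons 296 (.leaf 295 2170 (.cons 276 (.leaf 297 2178 (.cons 300 (.leaf 299 2176 (.leaf 301 2184 .nil)) .nil)) .nil)) (.cons 248 (.leaf 247 1979 (.cons 249 (.leaf 276 1987 (.cons 295 (.leaf 296 2170 (.cons 271 (.leaf 294 2162 (.cons 270 (.leaf 250 1969 (.leaf 269 1961 .nil)) .nil)) .nil)) .nil)) .nil)) (.cons 248 (.leaf 247 1979 (.cons 249 (.leaf 276 1987 (.cons 299 (.leaf 300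 2176 (.cons 271 (.leaf 298 2168 (.cons 270 (.leaf 250 1969 (.leaf 269 1961 .nil)) .nil)) .nil)) .nil)) .nil)) .nil)))) (.cons 272 (.cons 251 (.leaf 252 1985 (.cons 271 (.leaf 250 1977 (.cons 294 (.leaf 295 2162 (.cons 270 (.leaf 293 2154 (.cons 298 (.leaf 299 2168 (.leaf 297 2160 .nil)) .nil)) .nil)) .nil)) .nil)) (.cons 296 (.leaf 295 2170 (.cons 276 (.leaf 297 2178 (.cons 300 (.leaf 299 2176 (.leaf 301 2184 .nil)) .nil)) .nil)) (.cons 251 (.leaf 252 1985 (.cons 271 (.leaf 250 1977 (.cons 295 (.leaf 296 2170 (.leaf 294 2162 .nil)) .nil)) .nil)) (.cons 251 (.leaf 252 1985 (.cons 271 (.leaf 250 1977 (.cons 298 (.leaf 299 2168 (.cons 203 (.leaf 227 1622 (.cons 270 (.leaf 297 2160 (.cons 245 (.leaf 246 1963 (.cons 269 (.leaf 244 1955 (.cons 293 (.leaf 294 2154 (.leaf 292 2146 .nil)) .nil)) .nil)) .nil)) .nil)) .nil)) .nil)) .nil)) .nil)))) (.cons 272 (.cons 247 (.leaf 248 1979 (.cons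 252 (.leaf 251 1985 (.cons 276 (.leaf 253 1993 (.cons 271 (.leaf 246 1971 (.cons 294 (.leaf 295 2162 (.cons 270 (.leaf 293 2154 (.cons 298 (.leaf 299 2168 (.leaf 297 2160 .nil)) .nil)) .nil)) .nil)) .nil)) .nil)) .nil)) (.cons 296 (.leaf 295 2170 (.cons 252 (.leaf 251 1985 (.cons 276 (.leaf 253 1993 (.leaf 297 2178 .nil)) .nil)) .nil)) (.cons 296 (.leaf 295 2170 (.cons 247 (.leaf 248 1979 (.cons 271 (.leaf 246 1971 (.cons 199 (.leaf 223 1596 (.cons 297 (.leaf 276 2178 (.cons 270 (.leaf 298 2160 (.leaf 269 2152 .nil)) .nil)) .nil)) .nil)) .nil)) .nil)) (.cons 247 (.leaf 248 1979 (.cons 251 (.leaf 252 1985 (.cons 271 (.leaf 246 1971 (.leaf 250 1977 .nil)) .nil)) .nil)) .nil)))) (.cons 272 (.cons 296 (.leaf 295 2170 (.cons 247 (.leaf 248 1979 (.cons 251 (.leaf 252 1985 (.cons 271 (.leaf 246 1971 (.leaf 250 1977 .nil)) .nil)) .nil)) .nil)) (.cons 296 (.leaf 295 2170 (.cons 252 (.leaf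 251 1985 (.cons 276 (.leaf 253 1993 (.leaf 297 2178 .nil)) .nil)) .nil)) (.cons 247 (.leaf 248 1979 (.cons 251 (.leaf 252 1985 (.cons 271 (.leaf 246 1971 (.leaf 250 1977 .nil)) .nil)) .nil)) (.cons 296 (.leaf 295 2170 (.cons 247 (.leaf 248 1979 (.cons 271 (.leaf 246 1971 (.cons 199 (.leaf 223 1596 (.cons 297 (.leaf 276 2178 (.cons 270 (.leaf 298 2160 (.leaf 269 2152 .nil)) .nil)) .nil)) .nil)) .nil)) .nil)) .nil)))) (.cons 272 (.cons 251 (.leaf 252 1985 (.cons 271 (.leaf 250 1977 (.cons 295 (.leaf 296 2170 (.leaf 294 2162 .nil)) .nil)) .nil)) (.cons 247 (.leaf 248 1979 (.cons 271 (.leaf 246 1971 (.cons 299 (.leaf 300 2176 (.leaf 298 2168 .nil)) .nil)) .nil)) (.cons 247 (.leaf 248 1979 (.cons 252 (.leaf 251 1985 (.cons 276 (.leaf 253 1993 (.cons 300 (.leaf 299 2176 (.leaf 301 2184 .nil)) .nil)) .nil)) .nil)) .nil))) (.cons 272 (.cons 251 (.leaf 252 1985 (.cons 271 (.leaf 250 1977 (.cons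 295 (.leaf 296 2170 (.leaf 294 2162 .nil)) .nil)) .nil)) (.cons 247 (.leaf 248 1979 (.cons 252 (.leaf 251 1985 (.cons 276 (.leaf 253 1993 (.cons 300 (.leaf 299 2176 (.leaf 301 2184 .nil)) .nil)) .nil)) .nil)) (.cons 247 (.leaf 248 1979 (.cons 246 (.leaf 271 1971 (.cons 296 (.leaf 295 2170 (.cons 276 (.leaf 297 2178 (.cons 300 (.leaf 299 2176 (.leaf 301 2184 .nil)) .nil)) .nil)) .nil)) .nil)) .nil))) (.cons 272 (.cons 251 (.leaf 252 1985 (.cons 296 (.leaf 295 2170 (.cons 276 (.leaf 297 2178 (.cons 300 (.leaf 299 2176 (.leaf 301 2184 .nil)) .nil)) .nil)) .nil)) (.cons 247 (.leaf 248 1979 (.cons 271 (.leaf 246 1971 (.cons 294 (.leaf 295 2162 (.cons 270 (.leaf 293 2154 (.cons 298 (.leaf 299 2168 (.leaf 297 2160 .nil)) .nil)) .nil)) .nil)) .nil)) (.cons 247 (.leaf 248 1979 (.cons 246 (.leaf 271 1971 (.cons 252 (.leaf 251 1985 (.cons 276 (.leaf 253 1993 (.cons 296 (.leaf 295 2170 (.leaf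 297 2178 .nil)) .nil)) .nil)) .nil)) .nil)) (.cons 247 (.leaf 248 1979 (.cons 271 (.leaf 246 1971 (.cons 299 (.leaf 300 2176 (.leaf 298 2168 .nil)) .nil)) .nil)) .nil)))) .nil))))))
noncomputable def t39 : T := .cons 247 (.leaf 248 1979 (.cons 252 (.leaf 251 1985 (.cons 276 (.leaf 253 1993 (.cons 271 (.leaf 246 1971 (.cons 294 (.leaf 295 2162 (.cons 270 (.leaf 293 2154 (.cons 298 (.leaf 299 2168 (.leaf 297 2160 .nil)) .nil)) .nil)) .nil)) .nil)) .nil)) .nil)) (.cons 248 (.leaf 247 1979 (.cons 249 (.leaf 276 1987 (.cons 299 (.leaf 300 2176 (.cons 271 (.leaf 298 2168 (.cons 270 (.leaf 250 1969 (.leaf 269 1961 .nil)) .nil)) .nil)) .nil)) .nil)) (.cons 251 (.leaf 252 1985 (.cons 271 (.leaf 250 1977 (.cons 294 (.leaf 295 2162 (.cons 270 (.leaf 293 2154 (.cons 298 (.leaf 299 2168 (.leaf 297 2160 .nil)) .nil)) .nil)) .nil)) .nil)) (.cons 248 (.leaf 247 1979 (.cons 249 (.leaf 276 1987 (.cons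 251 (.leaf 252 1985 (.cons 250 (.leaf 271 1977 (.cons 223 (.leaf 224 1787 (.cons 227 (.leaf 228 1793 (.cons 203 (.leaf 298 1622 (.leaf 179 1430 .nil)) .nil)) .nil)) .nil)) .nil)) .nil)) .nil)) (.cons 248 (.leaf 247 1979 (.cons 251 (.leaf 252 1985 (.cons 276 (.leaf 249 1987 (.cons 300 (.leaf 299 2176 (.leaf 301 2184 .nil)) .nil)) .nil)) .nil)) .nil))))
noncomputable def t40 : T := .cons 251 (.leaf 252 1985 (.cons 271 (.leaf 250 1977 (.cons 294 (.leaf 295 2162 (.cons 270 (.leaf 293 2154 (.cons 298 (.leaf 299 2168 (.leaf 297 2160 .nil)) .nil)) .nil)) .nil)) .nil)) (.cons 299 (.leaf 300 2176 (.cons 247 (.leaf 248 1979 (.cons 271 (.leaf 246 1971 (.leaf 298 2168 .nil)) .nil)) .nil)) (.cons 251 (.leaf 252 1985 (.cons 271 (.leaf 250 1977 (.cons 295 (.leaf 296 2170 (.leaf 294 2162 .nil)) .nil)) .nil)) (.cons 248 (.leaf 247 1979 (.cons 296 (.leaf 295 2170 (.cons 251 (.leaf 252 1985 (.cons 224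 (.cons 199 (.leaf 223 1599 (.cons 175 (.leaf 200 1407 (.cons 225 (.leaf 201 1605 (.cons 320 (.leaf 249 1797 (.cons 343 (.leaf 319 1982 (.cons 344 (.leaf 367 2174 (.cons 345 (.leaf 321 1988 (.leaf 369 2180 .nil)) .nil)) .nil)) .nil)) .nil)) .nil)) .nil)) (.cons 199 (.leaf 223 1599 (.cons 201 (.leaf 225 1605 (.cons 321 (.leaf 297 1796 (.cons 320 (.leaf 345 1988 (.cons 343 (.leaf 319 1982 (.cons 344 (.leaf 249 1989 (.leaf 367 2174 .nil)) .nil)) .nil)) .nil)) .nil)) .nil)) (.cons 199 (.leaf 223 1599 (.cons 200 (.leaf 297 1604 (.leaf 175 1407 .nil)) .nil)) (.cons 297 (.leaf 200 1604 (.leaf 321 1796 .nil)) .nil)))) .nil)) .nil)) .nil)) .nil)))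
noncomputable def t41 : T := .cons 249 (.leaf 248 1987 (.cons 297 (.leaf 296 2178 (.cons 252 (.leaf 253 1993 (.cons 225 (.cons 200 (.leaf 224 1607 (.cons 322 (.leaf 298 1804 (.cons 321 (.leaf 346 1996 (.cons 344 (.leaf 320 1990 (.cons 345 (.leaf 250 1997 (.leaf 368 2182 .nil)) .nil)) .nil)) .nil)) .nil)) (.cons 200 (.leaf 224 1607 (.cons 201 (.leaf 176 1415 (.cons 177 (.leaf 250 1420 (.cons 178 (.leaf 202 1421 (.leaf 154 1229 .nil)) .nil)) .nil)) .nil)) (.cons 298 (.leaf 201 1612 (.leaf 322 1804 .nil)) .nil))) .nil)) .nil)) .nil)) (.cons 249 (.leaf 248 1987 (.cons 297 (.leaf 296 2178 (.cons 300 (.leaf 301 2184 (.cons 225 (.cons 200 (.leaf 224 1607 (.cons 201 (.leaf 298 1612 (.leaf 176 1415 .nil)) .nil)) (.cons 200 (.leaf 224 1607 (.cons 201 (.leaf 176 1415 (.cons 177 (.leaf 250 1420 (.cons 178 (.leaf 202 1421 (.leaf 154 1229 .nil)) .nil)) .nil)) .nil)) (.cons 200 (.leaf 224 1607 (.cons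 322 (.leaf 298 1804 (.cons 321 (.leaf 346 1996 (.cons 344 (.leaf 320 1990 (.cons 345 (.leaf 250 1997 (.leaf 368 2182 .nil)) .nil)) .nil)) .nil)) .nil)) (.cons 298 (.leaf 201 1612 (.leaf 322 1804 .nil)) .nil)))) .nil)) .nil)) .nil)) (.cons 252 (.leaf 253 1993 (.cons 300 (.leaf 301 2184 (.cons 297 (.leaf 296 2178 (.cons 228 (.cons 299 (.leaf 204 1630 (.leaf 323 1822 .nil)) (.cons 203 (.leaf 227 1631 (.cons 204 (.leaf 179 1439 (.cons 205 (.leaf 181 1445 (.leaf 229 1637 .nil)) .nil)) .nil)) (.cons 203 (.leaf 227 1631 (.cons 205 (.leaf 229 1637 (.cons 323 (.leaf 299 1822 (.cons 324 (.leaf 347 2014 (.cons 325 (.leaf 349 2020 (.cons 322 (.leaf 298 2379 (.cons 345 (.leaf 346 2570 (.cons 321 (.leaf 250 1997 (.leaf 344 2562 .nil)) .nil)) .nil)) .nil)) .nil)) .nil)) .nil)) .nil)) .nil))) .nil)) .nil)) .nil)) (.cons 252 (.leaf 253 1993 (.cons 300 (.leaf 301 2184 (.cons 249 (.leaf 248 1987 (.cons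 228 (.cons 299 (.leaf 204 1630 (.leaf 323 1822 .nil)) (.cons 203 (.leaf 227 1631 (.cons 204 (.leaf 179 1439 (.cons 205 (.leaf 181 1445 (.leaf 229 1637 .nil)) .nil)) .nil)) (.cons 203 (.leaf 227 1631 (.cons 205 (.leaf 229 1637 (.cons 323 (.leaf 299 1822 (.cons 324 (.leaf 347 2014 (.cons 348 (.leaf 251 2015 (.cons 349 (.leaf 325 2020 (.leaf 373 2212 .nil)) .nil)) .nil)) .nil)) .nil)) .nil)) .nil))) .nil)) .nil)) .nil)) .nil)))
noncomputable def t42 : T := .cons 273 (.cons 272 (.cons 247 (.leaf 248 1979 (.cons 271 (.leaf 246 1971 (.cons 294 (.leaf 295 2162 (.cons 270 (.leaf 293 2154 (.cons 298 (.leaf 299 2168 (.leaf 297 2160 .nil)) .nil)) .nil)) .nil)) .nil)) (.cons 251 (.leaf 252 1985 (.cons 271 (.leaf 250 1977 (.cons 294 (.leaf 295 2162 (.cons 270 (.leaf 293 2154 (.cons 298 (.leaf 299 2168 (.leaf 297 2160 .nil)) .nil)) .nil)) .nil)) .nil)) (.cons 247 (.leaf 248 1979 (.cons 271 (.leaf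 246 1971 (.cons 296 (.leaf 295 2170 (.cons 199 (.leaf 223 1596 (.cons 297 (.leaf 276 2178 (.cons 270 (.leaf 298 2160 (.leaf 269 2152 .nil)) .nil)) .nil)) .nil)) .nil)) .nil)) (.cons 247 (.leaf 248 1979 (.cons 271 (.leaf 246 1971 (.cons 299 (.leaf 300 2176 (.leaf 298 2168 .nil)) .nil)) .nil)) (.cons 251 (.leaf 252 1985 (.cons 296 (.leaf 295 2170 (.cons 276 (.leaf 297 2178 (.cons 300 (.leaf 299 2176 (.leaf 301 2184 .nil)) .nil)) .nil)) .nil)) .nil))))) (.cons 276 t41 (.cons 272 t40 (.cons 272 t39 t38)))) (.cons 273 (t37) (.cons 273 t33 (.cons 273 t29 (.cons 273 (.cons 272 (.cons 247 (.leaf 248 1979 (.cons 271 (.leaf 246 1971 (.cons 251 (.leaf 252 1985 (.leaf 250 1977 .nil)) .nil)) .nil)) (.cons 251 (.leaf 252 1985 (.cons 250 (.leaf 271 1977 (.cons 299 (.leaf 300 2176 (.cons 323 (.leaf 226 1815 (.leaf 347 2007 .nil)) .nil)) .nil)) .nil)) (.cons 296 (.leaf 295 2170 (.cons 276 (.leaf 297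 2178 (.cons 300 (.leaf 299 2176 (.leaf 301 2184 .nil)) .nil)) .nil)) .nil))) t25) (.cons 273 t23 (.cons 273 (.cons 272 (.cons 247 (.leaf 248 1979 (.cons 271 (.leaf 246 1971 (.cons 251 (.leaf 252 1985 (.leaf 250 1977 .nil)) .nil)) .nil)) (.cons 251 (.leaf 252 1985 (.cons 250 (.leaf 271 1977 (.cons 295 (.leaf 296 2170 (.cons 299 (.leaf 300 2176 (.cons 226 (.leaf 202 1620 (.leaf 323 1815 .nil)) .nil)) .nil)) .nil)) .nil)) (.cons 247 (.leaf 248 1979 (.cons 271 (.leaf 246 1971 (.cons 296 (.leaf 295 2170 (.cons 299 (.leaf 300 2176 (.leaf 298 2168 .nil)) .nil)) .nil)) .nil)) (.cons 251 (.leaf 252 1985 (.cons 296 (.leaf 295 2170 (.cons 276 (.leaf 297 2178 (.cons 300 (.leaf 299 2176 (.leaf 301 2184 .nil)) .nil)) .nil)) .nil)) .nil)))) (.cons 276 t19 (.cons 272 t18 t17))) (.cons 273 t16 (.cons 273 (.cons 272 (.cons 247 (.leaf 248 1979 (.cons 246 (.leaf 271 1971 (.cons 252 (.leaf 251 1985 (.cons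 276 (.leaf 253 1993 (.cons 300 (.leaf 299 2176 (.leaf 301 2184 .nil)) .nil)) .nil)) .nil)) .nil)) (.cons 247 (.leaf 248 1979 (.cons 251 (.leaf 252 1985 (.cons 271 (.leaf 246 1971 (.leaf 250 1977 .nil)) .nil)) .nil)) (.cons 247 (.leaf 248 1979 (.cons 296 (.leaf 295 2170 (.cons 276 (.leaf 297 2178 (.cons 300 (.leaf 299 2176 (.leaf 301 2184 .nil)) .nil)) .nil)) .nil)) (.cons 299 (.leaf 300 2176 (.cons 271 (.leaf 298 2168 (.cons 246 (.leaf 247 1971 (.cons 270 (.leaf 245 1963 (.cons 294 (.leaf 295 2162 (.leaf 293 2154 .nil)) .nil)) .nil)) .nil)) .nil)) (.cons 299 (.leaf 300 2176 (.cons 271 (.leaf 298 2168 (.cons 250 (.leaf 251 1977 (.cons 202 (.leaf 226 1620 (.cons 270 (.leaf 249 1969 (.cons 294 (.leaf 295 2162 (.leaf 293 2154 .nil)) .nil)) .nil)) .nil)) .nil)) .nil)) .nil))))) (.cons 276 t13 (.cons 272 t12 t11))) (.cons 273 (t10) (.cons 273 (.cons 272 (.cons 247 (.leaf 248 1979 (.cons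 251 (.leaf 252 1985 (.cons 271 (.leaf 246 1971 (.leaf 250 1977 .nil)) .nil)) .nil)) (.cons 299 (.leaf 300 2176 (.cons 271 (.leaf 298 2168 (.cons 246 (.leaf 247 1971 (.cons 270 (.leaf 245 1963 (.cons 294 (.leaf 295 2162 (.leaf 293 2154 .nil)) .nil)) .nil)) .nil)) .nil)) (.cons 299 (.leaf 300 2176 (.cons 271 (.leaf 298 2168 (.cons 250 (.leaf 251 1977 (.cons 202 (.leaf 226 1620 (.cons 270 (.leaf 249 1969 (.cons 294 (.leaf 295 2162 (.leaf 293 2154 .nil)) .nil)) .nil)) .nil)) .nil)) .nil)) (.cons 248 (.leaf 247 1979 (.cons 249 (.leaf 276 1987 (.cons 296 (.leaf 295 2170 (.cons 225 (.leaf 201 1606 (.leaf 320 1797 .nil)) .nil)) .nil)) .nil)) .nil)))) t8) (.cons 273 (.cons 272 (.cons 247 (.leaf 248 1979 (.cons 252 (.leaf 251 1985 (.cons 276 (.leaf 253 1993 (.cons 271 (.leaf 246 1971 (.cons 294 (.leaf 295 2162 (.cons 270 (.leaf 293 2154 (.cons 298 (.leaf 299 2168 (.leaf 297 2160 .nil)) .nil))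 .nil)) .nil)) .nil)) .nil)) .nil)) (.cons 296 (.leaf 295 2170 (.cons 247 (.leaf 248 1979 (.cons 251 (.leaf 252 1985 (.cons 271 (.leaf 246 1971 (.leaf 250 1977 .nil)) .nil)) .nil)) .nil)) (.cons 296 (.leaf 295 2170 (.cons 276 (.leaf 297 2178 (.cons 300 (.leaf 299 2176 (.leaf 301 2184 .nil)) .nil)) .nil)) (.cons 248 (.leaf 247 1979 (.cons 249 (.leaf 276 1987 (.cons 251 (.leaf 252 1985 (.cons 299 (.leaf 300 2176 (.cons 298 (.leaf 271 2168 (.cons 322 (.leaf 227 1814 (.leaf 346 2005 .nil)) .nil)) .nil)) .nil)) .nil)) .nil)) .nil)))) (.cons 276 t5 t4)) (.cons 273 t3 .nil))))))))))))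
noncomputable def t43 : T := .cons 227 (.leaf 203 1622 (.cons 299 (.leaf 322 1814 (.cons 228 (.leaf 204 1629 (.cons 323 (.leaf 252 1821 (.cons 347 (.leaf 250 2007 (.leaf 371 2199 .nil)) .nil)) .nil)) .nil)) .nil)) (.cons 227 (.leaf 203 1622 (.cons 299 (.cons 228 (.leaf 204 1629 (.cons 323 (.leaf 252 1821 (.cons 347 (.leaf 250 2007 (.leaf 371 2199 .nil)) .nil)) .nil)) (.cons 300 (.leaf 324 1820 (.cons 273 (.leaf 272 2176 (.leaf 301 2187 .nil)) .nil)) .nil)) .nil)) (.cons 322 (.leaf 346 2005 (.cons 250 (.cons 321 (.leaf 345 1998 (.cons 323 (.leaf 347 2004 (.cons 299 (.leaf 226 1812 (.cons 300 (.leaf 301 2378 (.leaf 320 2369 .nil)) .nil)) .nil)) .nil)) (.cons 249 (.leaf 225 1807 (.cons 248 (.leaf 247 1976 (.cons 223 (.leaf 224 1787 (.cons 272 (.leaf 271 1978 (.cons 252 (.leaf 273 1985 (.cons 229 (.leaf 228 1801 (.cons 253 (.leaf 254 2002 (.leaf 230 1809 .nil)) .nil)) .nil)) .nil)) .nil))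 .nil)) .nil)) .nil)) .nil)) (.cons 322 (.leaf 346 2005 (.cons 227 (.leaf 203 1622 (.leaf 250 1813 .nil)) .nil)) (.cons 227 (.leaf 203 1622 (.cons 322 (.leaf 299 1814 (.leaf 346 2005 .nil)) .nil)) .nil))))
noncomputable def t44 : T := .cons 204 (.leaf 228 1629 (.cons 322 (.leaf 298 1814 (.cons 323 (.leaf 346 2006 (.cons 324 (.leaf 300 1820 (.leaf 348 2012 .nil)) .nil)) .nil)) .nil)) (.cons 300 (.leaf 324 1820 (.cons 204 (.leaf 228 1629 (.cons 273 (.leaf 272 2176 (.cons 301 (.leaf 276 2184 (.leaf 302 2195 .nil)) .nil)) .nil)) .nil)) (.cons 322 (.leaf 298 1814 (.cons 204 (.leaf 228 1629 (.cons 323 (.leaf 346 2006 (.cons 347 (.leaf 250 2007 (.cons 348 (.leaf 324 2012 (.leaf 372 2204 .nil)) .nil)) .nil)) .nil)) .nil)) (.cons 322 (.leaf 298 1814 (.cons 300 (.leaf 324 1820 (.cons 272 (.leaf 273 2176 (.cons 301 (.leaf 302 2195 (.cons 323 (.leaf 346 2006 (.cons 320 (.leaf 321 2369 (.cons 347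 (.leaf 250 2007 (.cons 276 (.leaf 252 2013 (.leaf 371 2205 .nil)) .nil)) .nil)) .nil)) .nil)) .nil)) .nil)) .nil)) (.cons 322 (.leaf 298 1814 (.cons 204 (.leaf 228 1629 (.cons 323 (.leaf 346 2006 (.cons 347 (.leaf 250 2007 (.cons 276 (.leaf 252 2013 (.cons 371 (.leaf 300 2205 (.cons 372 (.leaf 348 2204 (.leaf 396 2396 .nil)) .nil)) .nil)) .nil)) .nil)) .nil)) .nil)) .nil))))
noncomputable def t45 : T := .cons 249 (.leaf 248 1987 (.cons 181 (.leaf 205 1445 (.cons 250 (.leaf 229 1801 (.cons 225 (.leaf 224 1795 (.cons 201 (.leaf 177 1420 (.leaf 298 1612 .nil)) .nil)) .nil)) .nil)) .nil)) (.cons 203 (.leaf 179 1439 (.cons 181 (.leaf 205 1445 (.cons 227 (.leaf 298 1622 (.cons 202 (.leaf 178 1431 (.cons 201 (.leaf 200 1600 (.leaf 229 1608 .nil)) .nil)) .nil)) .nil)) .nil)) (.cons 203 (.leaf 179 1439 (.cons 227 (.leaf 298 1622 (.cons 202 (.leaf 178 1431 (.cons 201 (.leaf 200 1600 (.leaf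 229 1608 .nil)) .nil)) .nil)) .nil)) (.cons 203 (.leaf 179 1439 (.cons 181 (.leaf 205 1445 (.cons 249 (.leaf 248 1987 (.cons 298 (.leaf 227 1622 (.cons 322 (.leaf 346 2005 (.cons 225 (.leaf 201 1612 (.leaf 250 1807 .nil)) .nil)) .nil)) .nil)) .nil)) .nil)) (.cons 249 (.leaf 248 1987 (.cons 181 (.leaf 205 1445 (.cons 203 (.leaf 179 1439 (.cons 229 (.leaf 250 1801 (.cons 230 (.leaf 231 1818 (.cons 202 (.leaf 201 1608 (.leaf 227 1619 .nil)) .nil)) .nil)) .nil)) .nil)) .nil)) (.cons 203 (.leaf 179 1439 (.cons 181 (.leaf 205 1445 (.cons 227 (.leaf 298 1622 (.cons 202 (.leaf 178 1431 (.cons 229 (.leaf 230 1619 (.cons 249 (.leaf 248 1987 (.leaf 250 1801 .nil)) .nil)) .nil)) .nil)) .nil)) .nil)) .nil)))))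
noncomputable def t46 : T := .cons 253 (.leaf 254 2002 (.cons 250 (.leaf 273 1994 (.cons 226 (.leaf 225 1803 (.cons 202 (.leaf 178 1428 (.leaf 299 1620 .nil)) .nil)) .nil)) .nil)) (.cons 273 (.leaf 272 1985 (.cons 228 (.cons 204 (.leaf 180 1438 (.cons 299 (.leaf 227 1629 (.leaf 276 1630 .nil)) .nil)) (.cons 299 (.leaf 323 1821 (.cons 227 (.cons 226 (.leaf 202 1623 (.cons 225 (.leaf 224 1792 (.cons 200 (.leaf 201 1603 (.cons 249 (.leaf 248 1794 (.cons 229 (.leaf 250 1801 (.cons 206 (.leaf 205 1617 (.cons 230 (.leaf 231 1818 (.leaf 207 1625 .nil)) .nil)) .nil)) .nil)) .nil)) .nil)) .nil)) (.cons 298 (.leaf 203 1622 (.leaf 322 1814 .nil)) .nil)) .nil)) (.cons 204 (.leaf 180 1438 (.cons 276 t45 .nil)) (.cons 299 (.leaf 323 1821 (.cons 204 (.leaf 180 1438 (.leaf 276 1630 .nil)) .nil)) .nil)))) .nil)) (.cons 253 (.leaf 254 2002 (.cons 250 (.cons 226 (.leaf 225 1803 (.cons 202 (.leaf 178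 1428 (.leaf 299 1620 .nil)) .nil)) (.cons 229 (.leaf 230 1809 (.cons 249 (.leaf 228 1801 (.cons 248 (.leaf 247 1976 (.leaf 276 1984 .nil)) .nil)) .nil)) .nil)) .nil)) (.cons 253 (.leaf 254 2002 (.cons 273 (.leaf 272 1985 (.leaf 276 1993 .nil)) .nil)) .nil)))
noncomputable def t47 : T := .cons 300 (.leaf 301 2184 (.cons 248 (.leaf 249 1987 (.cons 324 (.leaf 348 2015 (.leaf 227 1823 .nil)) .nil)) .nil)) (.cons 249 (.leaf 248 1987 (.cons 228 (.cons 180 (.leaf 204 1438 (.cons 250 (.leaf 229 1801 (.cons 225 (.leaf 224 1795 (.cons 201 (.leaf 177 1420 (.cons 200 (.leaf 176 1415 (.cons 202 (.leaf 178 1421 (.cons 203 (.leaf 227 1600 (.leaf 179 1409 .nil)) .nil)) .nil)) .nil)) .nil)) .nil)) .nil)) (.cons 250 (.leaf 229 1801 (.cons 225 (.leaf 224 1795 (.cons 201 (.leaf 177 1420 (.cons 176 (.leaf 200 1415 (.cons 202 (.leaf 178 1421 (.cons 299 (.leaf 226 1620 (.leaf 323 1821 .nil)) .nil)) .nil))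 .nil)) .nil)) .nil)) (.cons 204 (.leaf 180 1438 (.leaf 299 1630 .nil)) .nil))) .nil)) (.cons 300 (.leaf 301 2184 (.cons 227 (.leaf 203 1628 (.leaf 324 1823 .nil)) .nil)) (.cons 248 (.leaf 249 1987 (.cons 300 (.leaf 301 2184 (.cons 324 (.leaf 348 2015 (.cons 323 (.leaf 347 2014 (.cons 228 (.leaf 299 1821 (.cons 204 (.leaf 180 1438 (.cons 205 (.leaf 181 1445 (.leaf 229 1637 .nil)) .nil)) .nil)) .nil)) .nil)) .nil)) .nil)) .nil)))
noncomputable def t48 : T := .cons 202 (.leaf 226 1623 (.cons 298 (.leaf 322 1814 (.cons 324 (.leaf 300 1820 (.cons 323 (.leaf 348 2012 (.cons 347 (.leaf 250 2007 (.leaf 371 2199 .nil)) .nil)) .nil)) .nil)) .nil)) (.cons 322 (.leaf 298 1814 (.cons 204 (.leaf 228 1629 (.cons 323 (.leaf 346 2006 (.cons 324 (.leaf 300 1820 (.leaf 348 2012 .nil)) .nil)) .nil)) .nil)) (.cons 226 (.leaf 202 1623 (.cons 204 (.leaf 228 1629 (.cons 323 (.leaf 250 1815 (.cons 324 (.leaf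 300 1820 (.leaf 348 2012 .nil)) .nil)) .nil)) .nil)) (.cons 298 (.leaf 322 1814 (.cons 226 (.leaf 202 1623 (.cons 228 (.leaf 204 1629 (.cons 300 (.leaf 324 1820 (.cons 301 (.leaf 302 2195 (.cons 325 (.leaf 326 2384 (.cons 252 (.leaf 276 1828 (.cons 253 (.leaf 254 2002 (.leaf 225 1800 .nil)) .nil)) .nil)) .nil)) .nil)) .nil)) .nil)) .nil)) (.cons 322 (.leaf 298 1814 (.cons 202 (.leaf 226 1623 (.cons 323 (.leaf 346 2006 (.cons 347 (.leaf 250 2007 (.cons 348 (.leaf 324 2012 (.leaf 372 2204 .nil)) .nil)) .nil)) .nil)) .nil)) (.cons 322 (.leaf 298 1814 (.cons 202 (.leaf 226 1623 (.cons 204 (.leaf 228 1629 (.cons 323 (.leaf 346 2006 (.cons 347 (.leaf 250 2007 (.cons 276 (.leaf 252 2013 (.cons 371 (.leaf 300 2205 (.cons 372 (.leaf 348 2204 (.leaf 396 2396 .nil)) .nil)) .nil)) .nil)) .nil)) .nil)) .nil)) .nil)) .nil)))))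
noncomputable def t49 : T := .cons 203 (.leaf 298 1622 (.cons 180 (.leaf 204 1437 (.cons 178 (.leaf 202 1431 (.cons 179 (.leaf 250 1430 (.leaf 154 1239 .nil)) .nil)) .nil)) .nil)) (.cons 299 t48 (.cons 203 (.cons 180 (.leaf 204 1437 (.cons 178 (.leaf 202 1431 (.cons 179 (.leaf 250 1430 (.leaf 154 1239 .nil)) .nil)) .nil)) (.cons 178 (.leaf 202 1431 (.cons 204 (.leaf 180 1437 (.cons 299 (.leaf 228 1629 (.cons 300 (.leaf 276 1628 (.leaf 324 1820 .nil)) .nil)) .nil)) .nil)) (.cons 180 (.leaf 204 1437 (.cons 179 (.leaf 250 1430 (.leaf 156 1245 .nil)) .nil)) (.cons 178 (.leaf 202 1431 (.cons 179 (.leaf 250 1430 (.leaf 154 1239 .nil)) .nil)) .nil)))) (.cons 203 (.leaf 298 1622 (.cons 180 (.leaf 204 1437 (.cons 178 (.leaf 202 1431 (.cons 179 (.leaf 154 1239 (.leaf 156 1245 .nil)) .nil)) .nil)) .nil)) (.cons 203 (.leaf 298 1622 (.cons 180 (.leaf 204 1437 (.cons 179 (.leaf 250 1430 (.leaf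 156 1245 .nil)) .nil)) .nil)) (.cons 203 (.leaf 298 1622 (.cons 178 (.leaf 202 1431 (.cons 179 (.leaf 250 1430 (.leaf 154 1239 .nil)) .nil)) .nil)) .nil)))))
noncomputable def t50 : T := .cons 225 (.cons 250 (.leaf 224 1795 (.cons 201 (.leaf 177 1420 (.leaf 298 1612 .nil)) .nil)) (.cons 201 (.leaf 298 1612 (.cons 176 (.leaf 200 1415 (.cons 177 (.leaf 152 1223 (.cons 178 (.leaf 202 1421 (.leaf 154 1229 .nil)) .nil)) .nil)) .nil)) (.cons 250 (.leaf 224 1795 (.cons 201 (.leaf 177 1420 (.cons 200 (.leaf 176 1415 (.cons 202 (.leaf 178 1421 (.cons 228 (.leaf 229 1801 (.cons 227 (.leaf 248 1793 (.leaf 226 1603 .nil)) .nil)) .nil)) .nil)) .nil)) .nil)) (.cons 224 (.leaf 250 1795 (.cons 227 (.leaf 226 1792 (.cons 203 (.leaf 298 1622 (.cons 276 (.leaf 300 1628 (.leaf 248 1987 .nil)) .nil)) .nil)) .nil)) .nil)))) (.cons 225 (.cons 250 (.leaf 224 1795 (.cons 201 (.leaf 177 1420 (.leaf 298 1612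 .nil)) .nil)) (.cons 201 (.leaf 298 1612 (.cons 176 (.leaf 200 1415 (.cons 177 (.leaf 152 1223 (.cons 178 (.leaf 202 1421 (.leaf 154 1229 .nil)) .nil)) .nil)) .nil)) (.cons 250 (.leaf 224 1795 (.cons 201 (.leaf 177 1420 (.cons 200 (.leaf 176 1415 (.cons 202 (.leaf 178 1421 (.cons 228 (.leaf 229 1801 (.cons 227 (.leaf 226 1603 (.leaf 203 1600 .nil)) .nil)) .nil)) .nil)) .nil)) .nil)) (.cons 224 (.leaf 250 1795 (.cons 227 (.leaf 226 1792 (.cons 203 (.leaf 298 1622 (.cons 276 (.leaf 300 1628 (.leaf 179 1436 .nil)) .nil)) .nil)) .nil)) .nil)))) (.cons 298 (.cons 225 (.leaf 201 1612 (.cons 322 (.leaf 346 2005 (.leaf 250 1807 .nil)) .nil)) (.cons 225 (.leaf 201 1612 (.cons 224 (.leaf 250 1795 (.cons 227 (.leaf 203 1622 (.leaf 226 1792 .nil)) .nil)) .nil)) (.cons 322 (.leaf 346 2005 (.cons 225 (.leaf 201 1612 (.cons 227 (.leaf 203 1622 (.cons 226 (.leaf 224 1792 (.cons 228 (.leaf 248 1794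 (.cons 204 (.leaf 180 1438 (.leaf 205 1609 .nil)) .nil)) .nil)) .nil)) .nil)) .nil)) (.cons 322 (.leaf 346 2005 (.cons 227 (.leaf 203 1622 (.leaf 250 1813 .nil)) .nil)) .nil)))) (.cons 276 (.leaf 248 1987 (.cons 300 (.leaf 301 2184 (.cons 227 (.leaf 203 1628 (.leaf 324 1823 .nil)) .nil)) .nil)) (.cons 248 (.leaf 276 1987 (.cons 247 (.leaf 250 1976 (.leaf 246 1968 .nil)) .nil)) .nil))))
noncomputable def t51 : T := .cons 253 (.leaf 254 2002 (.cons 250 (.leaf 273 1994 (.cons 225 (.leaf 226 1803 (.cons 249 (.leaf 224 1795 (.cons 248 (.leaf 247 1976 (.leaf 276 1984 .nil)) .nil)) .nil)) .nil)) .nil)) (.cons 273 (.leaf 272 1985 (.cons 249 t50 .nil)) (.cons 253 (.leaf 254 2002 (.cons 250 (.cons 225 (.leaf 226 1803 (.cons 249 (.leaf 224 1795 (.cons 248 (.leaf 247 1976 (.leaf 276 1984 .nil)) .nil)) .nil)) (.cons 229 (.leaf 230 1809 (.cons 249 (.leaf 228 1801 (.cons 248 (.leaf 247 1976 (.leaf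 276 1984 .nil)) .nil)) .nil)) (.cons 226 (.leaf 225 1803 (.cons 202 (.leaf 178 1428 (.cons 177 (.leaf 201 1423 (.cons 203 (.leaf 179 1429 (.cons 227 (.leaf 298 1621 (.cons 204 (.leaf 180 1437 (.cons 205 (.leaf 206 1618 (.cons 229 (.leaf 230 1616 (.cons 181 (.leaf 276 1446 (.leaf 182 1425 .nil)) .nil)) .nil)) .nil)) .nil)) .nil)) .nil)) .nil)) .nil)) (.cons 229 (.leaf 230 1809 (.cons 249 (.leaf 228 1801 (.cons 224 (.leaf 225 1795 (.cons 248 (.leaf 247 1976 (.leaf 223 1787 .nil)) .nil)) .nil)) .nil)) .nil)))) .nil)) (.cons 253 (.leaf 254 2002 (.cons 273 (.leaf 272 1985 (.leaf 276 1993 .nil)) .nil)) (.cons 253 (.leaf 254 2002 (.cons 273 (.leaf 272 1985 (.leaf 250 1994 .nil)) .nil)) .nil))))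
noncomputable def t52 : T := .cons 203 (.leaf 298 1622 (.cons 180 (.leaf 204 1437 (.cons 178 (.leaf 202 1431 (.cons 179 (.leaf 154 1239 (.leaf 156 1245 .nil)) .nil)) .nil)) .nil)) (.cons 299 (.cons 202 (.leaf 226 1623 (.cons 298 (.leaf 322 1814 (.cons 300 (.leaf 324 1820 (.cons 273 (.leaf 272 2176 (.leaf 301 2187 .nil)) .nil)) .nil)) .nil)) (.cons 202 (.leaf 226 1623 (.cons 228 (.leaf 204 1629 (.cons 298 (.leaf 322 1814 (.cons 252 (.leaf 323 1821 (.cons 253 (.leaf 254 2002 (.cons 273 (.leaf 272 1985 (.leaf 276 1993 .nil)) .nil)) .nil)) .nil)) .nil)) .nil)) (.cons 202 (.leaf 226 1623 (.cons 204 (.leaf 228 1629 (.cons 300 (.leaf 324 1820 (.cons 273 (.leaf 272 2176 (.cons 301 (.leaf 276 2184 (.leaf 302 2195 .nil)) .nil)) .nil)) .nil)) .nil)) (.cons 204 (.leaf 228 1629 (.cons 300 (.leaf 324 1820 (.cons 273 (.leaf 272 2176 (.cons 301 (.leaf 276 2184 (.leaf 302 2195 .nil)) .nil)) .nil))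 .nil)) (.cons 202 (.leaf 226 1623 (.cons 228 (.leaf 204 1629 (.cons 298 (.leaf 322 1814 (.cons 323 (.leaf 252 1821 (.cons 347 (.leaf 371 2199 (.cons 348 (.leaf 324 2012 (.leaf 372 2204 .nil)) .nil)) .nil)) .nil)) .nil)) .nil)) .nil))))) (.cons 299 (.cons 202 (.leaf 226 1623 (.cons 178 (.leaf 203 1431 (.cons 228 (.leaf 204 1629 (.cons 323 (.leaf 252 1821 (.cons 324 (.leaf 300 1820 (.leaf 348 2012 .nil)) .nil)) .nil)) .nil)) .nil)) (.cons 202 (.leaf 226 1623 (.cons 178 (.leaf 203 1431 (.cons 228 (.leaf 204 1629 (.cons 252 (.leaf 323 1821 (.cons 253 (.leaf 254 2002 (.cons 273 (.leaf 272 1985 (.leaf 276 1993 .nil)) .nil)) .nil)) .nil)) .nil)) .nil)) (.cons 202 (.leaf 226 1623 (.cons 178 (.leaf 203 1431 (.cons 300 (.leaf 324 1820 (.cons 273 (.leaf 272 2176 (.cons 301 (.leaf 276 2184 (.leaf 302 2195 .nil)) .nil)) .nil)) .nil)) .nil)) (.cons 300 (.leaf 324 1820 (.cons 203 (.leaf 276 1628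 (.cons 204 (.leaf 180 1437 (.leaf 228 1629 .nil)) .nil)) .nil)) (.cons 300 (.leaf 324 1820 (.cons 202 (.leaf 226 1623 (.cons 204 (.leaf 228 1629 (.cons 273 (.leaf 272 2176 (.cons 301 (.leaf 276 2184 (.leaf 302 2195 .nil)) .nil)) .nil)) .nil)) .nil)) .nil))))) (.cons 203 (.leaf 298 1622 (.cons 178 (.leaf 202 1431 (.cons 179 (.leaf 154 1239 (.cons 276 (.leaf 300 1628 (.leaf 252 1436 .nil)) .nil)) .nil)) .nil)) (.cons 203 (.leaf 298 1622 (.cons 180 (.leaf 204 1437 (.cons 179 (.leaf 156 1245 (.cons 276 (.leaf 300 1628 (.leaf 252 1436 .nil)) .nil)) .nil)) .nil)) .nil))))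
noncomputable def t53 : T := .cons 203 (.leaf 298 1622 (.cons 179 (.leaf 250 1430 (.cons 154 (.leaf 178 1239 (.cons 155 (.leaf 130 1047 (.cons 156 (.leaf 180 1245 (.leaf 132 1053 .nil)) .nil)) .nil)) .nil)) .nil)) (.cons 299 (.cons 204 (.leaf 228 1629 (.cons 226 (.leaf 202 1623 (.cons 322 (.leaf 298 1814 (.cons 323 (.leaf 250 1815 (.leaf 346 2006 .nil)) .nil)) .nil)) .nil)) (.cons 202 (.leaf 226 1623 (.cons 204 (.leaf 228 1629 (.cons 300 (.leaf 324 1820 (.cons 273 (.leaf 272 2176 (.cons 301 (.leaf 276 2184 (.leaf 302 2195 .nil)) .nil)) .nil)) .nil)) .nil)) (.cons 322 (.leaf 298 1814 (.cons 204 (.leaf 228 1629 (.cons 323 (.leaf 346 2006 (.cons 324 (.leaf 300 1820 (.leaf 348 2012 .nil)) .nil)) .nil)) .nil)) (.cons 202 (.leaf 226 1623 (.cons 298 (.leaf 322 1814 (.cons 324 (.leaf 300 1820 (.cons 323 (.leaf 348 2012 (.cons 347 (.leaf 250 2007 (.leaf 371 2199 .nil)) .nil)) .nil)) .nil))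 .nil)) .nil)))) (.cons 203 (.cons 178 (.leaf 202 1431 (.cons 204 (.leaf 180 1437 (.cons 299 (.leaf 228 1629 (.cons 300 (.leaf 276 1628 (.leaf 324 1820 .nil)) .nil)) .nil)) .nil)) (.cons 179 (.leaf 250 1430 (.cons 154 (.leaf 178 1239 (.cons 155 (.leaf 130 1047 (.cons 156 (.leaf 180 1245 (.leaf 132 1053 .nil)) .nil)) .nil)) .nil)) (.cons 204 (.leaf 180 1437 (.cons 299 (.leaf 228 1629 (.cons 300 (.leaf 276 1628 (.leaf 324 1820 .nil)) .nil)) .nil)) (.cons 202 (.leaf 178 1431 (.cons 179 (.leaf 250 1430 (.cons 299 (.leaf 226 1623 (.cons 300 (.leaf 276 1628 (.leaf 324 1820 .nil)) .nil)) .nil)) .nil)) .nil)))) (.cons 203 (.leaf 298 1622 (.cons 178 (.leaf 202 1431 (.cons 179 (.leaf 154 1239 (.cons 180 (.leaf 204 1437 (.leaf 156 1245 .nil)) .nil)) .nil)) .nil)) .nil)))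
noncomputable def t54 : T := .cons 273 (.leaf 272 1985 (.cons 276 (.leaf 248 1987 (.cons 300 (.leaf 301 2184 (.cons 324 (.leaf 348 2015 (.cons 325 (.leaf 349 2020 (.cons 228 (.cons 204 (.leaf 180 1438 (.leaf 299 1630 .nil)) (.cons 229 (.leaf 250 1801 (.leaf 205 1637 .nil)) .nil)) .nil)) .nil)) .nil)) .nil)) .nil)) (.cons 250 (.cons 224 (.leaf 225 1795 (.cons 228 (.leaf 229 1801 (.cons 204 (.leaf 180 1438 (.cons 299 (.leaf 276 1630 (.leaf 323 1821 .nil)) .nil)) .nil)) .nil)) (.cons 248 (.leaf 247 1976 (.leaf 276 1984 .nil)) (.cons 224 (.leaf 225 1795 (.cons 248 (.leaf 247 1976 (.leaf 223 1787 .nil)) .nil)) .nil))) (.cons 273 (.leaf 272 1985 (.cons 276 (.leaf 248 1987 (.cons 300 (.leaf 301 2184 (.cons 324 (.leaf 348 2015 (.cons 323 (.leaf 347 2014 (.cons 228 (.leaf 299 1821 (.cons 204 (.leaf 180 1438 (.cons 205 (.leaf 181 1445 (.leaf 229 1637 .nil)) .nil)) .nil)) .nil)) .nil)) .nil))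 .nil)) .nil)) (.cons 273 (.leaf 272 1985 (.cons 228 (.cons 180 (.leaf 204 1438 (.cons 250 (.leaf 229 1801 (.cons 225 (.leaf 224 1795 (.cons 201 (.leaf 177 1420 (.leaf 298 1612 .nil)) .nil)) .nil)) .nil)) (.cons 204 (.leaf 180 1438 (.cons 299 (.leaf 276 1630 (.leaf 323 1821 .nil)) .nil)) (.cons 250 (.leaf 229 1801 (.cons 225 (.leaf 224 1795 (.cons 201 (.leaf 177 1420 (.leaf 298 1612 .nil)) .nil)) .nil)) .nil))) .nil)) (.cons 273 (.leaf 272 1985 (.cons 248 (.leaf 276 1987 (.cons 247 (.leaf 250 1976 (.leaf 246 1968 .nil)) .nil)) .nil)) (.cons 272 (.leaf 273 1985 (.cons 250 (.cons 225 (.leaf 224 1795 (.cons 248 (.leaf 247 1976 (.leaf 271 1978 .nil)) .nil)) (.cons 225 (.leaf 224 1795 (.cons 201 (.leaf 177 1420 (.cons 298 (.leaf 226 1615 (.leaf 322 1807 .nil)) .nil)) .nil)) (.cons 248 (.leaf 247 1976 (.leaf 271 1978 .nil)) .nil))) .nil)) .nil)))))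
noncomputable def t55 : T := .cons 203 (.leaf 298 1622 (.cons 179 (.leaf 250 1430 (.cons 154 (.leaf 178 1239 (.cons 155 (.leaf 130 1047 (.cons 156 (.leaf 180 1245 (.leaf 132 1053 .nil)) .nil)) .nil)) .nil)) .nil)) (.cons 299 (.cons 204 (.leaf 228 1629 (.cons 300 (.leaf 324 1820 (.cons 273 (.leaf 272 2176 (.cons 301 (.leaf 276 2184 (.leaf 302 2195 .nil)) .nil)) .nil)) .nil)) (.cons 322 (.leaf 298 1814 (.cons 202 (.leaf 226 1623 (.cons 323 (.leaf 346 2006 (.cons 347 (.leaf 250 2007 (.cons 348 (.leaf 324 2012 (.leaf 372 2204 .nil)) .nil)) .nil)) .nil)) .nil)) (.cons 204 (.leaf 228 1629 (.cons 322 (.leaf 298 1814 (.cons 323 (.leaf 346 2006 (.cons 347 (.leaf 250 2007 (.cons 276 (.leaf 252 2013 (.cons 371 (.leaf 300 2205 (.cons 372 (.leaf 348 2204 (.leaf 396 2396 .nil)) .nil)) .nil)) .nil)) .nil)) .nil)) .nil)) .nil))) (.cons 203 (.cons 179 (.leaf 250 1430 (.cons 154 (.leaf 178 1239 (.cons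 155 (.leaf 130 1047 (.cons 156 (.leaf 180 1245 (.leaf 132 1053 .nil)) .nil)) .nil)) .nil)) (.cons 178 (.leaf 202 1431 (.cons 204 (.leaf 180 1437 (.cons 299 (.leaf 228 1629 (.cons 300 (.leaf 276 1628 (.leaf 324 1820 .nil)) .nil)) .nil)) .nil)) (.cons 179 (.leaf 250 1430 (.cons 180 (.leaf 204 1437 (.leaf 156 1245 .nil)) .nil)) (.cons 178 (.leaf 202 1431 (.cons 179 (.leaf 250 1430 (.leaf 154 1239 .nil)) .nil)) .nil)))) (.cons 203 (.leaf 298 1622 (.cons 178 (.leaf 202 1431 (.cons 179 (.leaf 154 1239 (.cons 276 (.leaf 300 1628 (.leaf 252 1436 .nil)) .nil)) .nil)) .nil)) .nil)))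
noncomputable def t56 : T := .cons 227 t55 (.cons 252 (.cons 273 (.leaf 272 1985 (.cons 253 (.leaf 254 2002 (.leaf 276 1993 .nil)) .nil)) (.cons 253 (.leaf 254 2002 (.cons 250 (.cons 229 (.leaf 230 1809 (.cons 249 (.leaf 228 1801 (.cons 248 (.leaf 247 1976 (.leaf 276 1984 .nil)) .nil)) .nil)) (.cons 226 (.leaf 225 1803 (.cons 202 (.leaf 178 1428 (.leaf 299 1620 .nil)) .nil)) .nil)) .nil)) (.cons 249 t54 (.cons 273 (.leaf 272 1985 (.cons 253 (.leaf 254 2002 (.leaf 250 1994 .nil)) .nil)) .nil)))) (.cons 227 t53 (.cons 227 t52 (.cons 252 t51 (.cons 227 t49 (.cons 252 (.cons 273 (.leaf 272 1985 (.cons 276 (.leaf 253 1993 (.cons 300 (.leaf 301 2184 (.cons 248 (.leaf 249 1987 (.cons 324 (.leaf 348 2015 (.leaf 227 1823 .nil)) .nil)) .nil)) .nil)) .nil)) (.cons 273 (.leaf 272 1985 (.cons 276 t47 .nil)) (.cons 253 (.leaf 254 2002 (.cons 250 (.cons 226 (.leaf 225 1803 (.cons 202 (.leaf 178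 1428 (.leaf 299 1620 .nil)) .nil)) (.cons 229 (.leaf 230 1809 (.cons 249 (.leaf 228 1801 (.cons 248 (.leaf 247 1976 (.leaf 276 1984 .nil)) .nil)) .nil)) .nil)) .nil)) (.cons 253 (.leaf 254 2002 (.cons 273 (.leaf 272 1985 (.leaf 250 1994 .nil)) .nil)) .nil)))) (.cons 252 t46 (.cons 227 (.cons 203 (.leaf 298 1622 (.cons 180 (.leaf 204 1437 (.cons 178 (.leaf 202 1431 (.cons 179 (.leaf 250 1430 (.leaf 154 1239 .nil)) .nil)) .nil)) .nil)) (.cons 299 t44 (.cons 203 (.cons 180 (.leaf 204 1437 (.cons 178 (.leaf 202 1431 (.cons 179 (.leaf 250 1430 (.leaf 154 1239 .nil)) .nil)) .nil)) (.cons 178 (.leaf 202 1431 (.cons 204 (.leaf 180 1437 (.cons 299 (.leaf 228 1629 (.cons 300 (.leaf 276 1628 (.leaf 324 1820 .nil)) .nil)) .nil)) .nil)) (.cons 178 (.leaf 202 1431 (.cons 179 (.leaf 250 1430 (.leaf 154 1239 .nil)) .nil)) (.cons 180 (.leaf 204 1437 (.cons 179 (.leaf 250 1430 (.leaf 156 1245 .nil))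 .nil)) .nil)))) (.cons 203 (.leaf 298 1622 (.cons 180 (.leaf 204 1437 (.cons 178 (.leaf 202 1431 (.cons 179 (.leaf 154 1239 (.leaf 156 1245 .nil)) .nil)) .nil)) .nil)) (.cons 203 (.leaf 298 1622 (.cons 178 (.leaf 202 1431 (.cons 179 (.leaf 250 1430 (.leaf 154 1239 .nil)) .nil)) .nil)) .nil))))) (.cons 298 t43 (.cons 298 (.cons 322 (.leaf 346 2005 (.cons 250 (.leaf 227 1813 (.cons 321 (.leaf 345 1998 (.cons 323 (.leaf 347 2004 (.cons 299 (.leaf 226 1812 (.cons 300 (.leaf 301 2378 (.leaf 320 2369 .nil)) .nil)) .nil)) .nil)) .nil)) .nil)) (.cons 227 (.leaf 203 1622 (.cons 299 (.cons 300 (.leaf 324 1820 (.cons 273 (.leaf 272 2176 (.leaf 301 2187 .nil)) .nil)) (.cons 226 (.leaf 202 1623 (.cons 250 (.leaf 323 1812 (.cons 225 (.leaf 201 1615 (.cons 224 (.leaf 223 1784 (.leaf 252 1792 .nil)) .nil)) .nil)) .nil)) .nil)) .nil)) (.cons 322 (.leaf 346 2005 (.cons 250 (.cons 321 (.leaf 345 1998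 (.cons 323 (.leaf 347 2004 (.cons 299 (.leaf 226 1812 (.cons 300 (.leaf 301 2378 (.leaf 320 2369 .nil)) .nil)) .nil)) .nil)) (.cons 249 (.leaf 225 1807 (.cons 248 (.leaf 247 1976 (.leaf 276 1984 .nil)) .nil)) .nil)) .nil)) (.cons 227 (.leaf 203 1622 (.cons 322 (.leaf 299 1814 (.leaf 346 2005 .nil)) .nil)) (.cons 322 (.leaf 346 2005 (.cons 227 (.leaf 203 1622 (.leaf 250 1813 .nil)) .nil)) .nil))))) .nil))))))))))
noncomputable def t57 : T := .cons 347 (.leaf 250 2007 (.cons 252 (.leaf 276 2013 (.cons 228 (.leaf 251 1821 (.cons 371 (.leaf 298 2199 (.cons 372 (.leaf 348 2204 (.leaf 396 2396 .nil)) .nil)) .nil)) .nil)) .nil)) (.cons 251 (.cons 228 (.leaf 252 1821 (.cons 227 (.leaf 204 1629 (.cons 324 (.leaf 300 1820 (.leaf 348 2012 .nil)) .nil)) .nil)) (.cons 226 (.leaf 250 1815 (.cons 227 (.leaf 202 1623 (.cons 324 (.leaf 300 1820 (.leaf 348 2012 .nil)) .nil)) .nil)) (.cons 226 (.leaf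 250 1815 (.cons 252 (.leaf 228 1821 (.cons 253 (.leaf 254 2002 (.cons 273 (.leaf 272 1985 (.leaf 276 1993 .nil)) .nil)) .nil)) .nil)) .nil))) (.cons 347 (.cons 252 (.leaf 276 2013 (.cons 228 (.leaf 251 1821 (.cons 371 (.leaf 298 2199 (.cons 372 (.leaf 348 2204 (.leaf 396 2396 .nil)) .nil)) .nil)) .nil)) (.cons 252 (.leaf 276 2013 (.cons 251 (.leaf 228 1821 (.cons 348 (.leaf 324 2012 (.leaf 372 2204 .nil)) .nil)) .nil)) (.cons 371 (.leaf 298 2199 (.cons 370 (.leaf 346 2198 (.leaf 394 2390 .nil)) .nil)) .nil))) (.cons 347 (.leaf 250 2007 (.cons 371 (.leaf 298 2199 (.cons 276 (.leaf 252 2013 (.leaf 300 2205 .nil)) .nil)) .nil)) (.cons 347 (.leaf 250 2007 (.cons 371 (.leaf 298 2199 (.cons 370 (.leaf 346 2198 (.leaf 394 2390 .nil)) .nil)) .nil)) .nil))))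
noncomputable def t58 : T := .cons 201 (.leaf 225 1615 (.cons 297 (.leaf 321 1806 (.cons 203 (.leaf 227 1621 (.cons 296 (.leaf 295 2169 (.cons 272 (.leaf 271 2171 (.cons 300 (.leaf 273 2176 (.cons 301 (.leaf 302 2195 (.cons 325 (.leaf 324 2376 (.leaf 326 2384 .nil)) .nil)) .nil)) .nil)) .nil)) .nil)) .nil)) .nil)) (.cons 201 (.leaf 225 1615 (.cons 297 (.leaf 321 1806 (.cons 296 (.leaf 295 2169 (.cons 272 (.leaf 271 2171 (.cons 300 (.leaf 273 2176 (.cons 301 (.leaf 302 2195 (.cons 325 (.leaf 324 2376 (.leaf 326 2384 .nil)) .nil)) .nil)) .nil)) .nil)) .nil)) .nil)) (.cons 201 (.leaf 225 1615 (.cons 227 (.leaf 203 1621 (.cons 251 (.leaf 322 1813 (.cons 204 (.leaf 228 1629 (.cons 300 (.leaf 324 1820 (.cons 273 (.leaf 272 2176 (.leaf 301 2187 .nil)) .nil)) .nil)) .nil)) .nil)) .nil)) (.cons 227 (.leaf 203 1621 (.cons 251 (.leaf 322 1813 (.cons 204 (.leaf 228 1629 (.cons 297 (.leaf 321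 1806 (.cons 295 (.leaf 296 2169 (.cons 300 (.leaf 324 1820 (.cons 273 (.leaf 272 2176 (.leaf 301 2187 .nil)) .nil)) .nil)) .nil)) .nil)) .nil)) .nil)) (.cons 227 (.leaf 203 1621 (.cons 251 (.leaf 322 1813 (.cons 225 (.leaf 201 1615 (.cons 224 (.leaf 223 1784 (.leaf 252 1792 .nil)) .nil)) .nil)) .nil)) .nil))))
noncomputable def t59 : T := .cons 323 (.leaf 347 2007 (.cons 226 (.leaf 202 1620 (.leaf 251 1815 .nil)) .nil)) (.cons 323 (.leaf 347 2007 (.cons 251 (.cons 324 (.leaf 227 1820 (.leaf 348 2012 .nil)) (.cons 322 (.leaf 346 2006 (.cons 227 (.leaf 298 1813 (.cons 203 (.leaf 276 1628 (.leaf 179 1430 .nil)) .nil)) .nil)) (.cons 322 (.leaf 346 2006 (.cons 321 (.leaf 320 2369 (.cons 345 (.leaf 297 1997 (.leaf 298 1998 .nil)) .nil)) .nil)) .nil))) .nil)) (.cons 226 (.leaf 202 1620 (.cons 298 (.cons 201 (.leaf 225 1615 (.cons 203 (.leaf 227 1621 (.cons 297 (.leaf 321 1806 (.cons 296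 (.leaf 276 2177 (.leaf 295 2169 .nil)) .nil)) .nil)) .nil)) (.cons 201 (.leaf 225 1615 (.cons 227 (.leaf 203 1621 (.cons 251 (.leaf 322 1813 (.leaf 324 1820 .nil)) .nil)) .nil)) (.cons 201 (.leaf 225 1615 (.cons 297 (.leaf 321 1806 (.cons 296 (.leaf 276 2177 (.leaf 295 2169 .nil)) .nil)) .nil)) (.cons 203 (.leaf 227 1621 (.cons 297 (.leaf 321 1806 (.cons 296 (.leaf 276 2177 (.leaf 295 2169 .nil)) .nil)) .nil)) .nil)))) .nil)) (.cons 226 (.leaf 202 1620 (.cons 323 (.leaf 347 2007 (.leaf 298 1812 .nil)) .nil)) .nil)))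
noncomputable def t60 : T := .cons 252 (.leaf 253 1993 (.cons 228 (.leaf 204 1630 (.leaf 323 1822 .nil)) .nil)) (.cons 297 (.leaf 296 2178 (.cons 324 (.cons 251 (.leaf 227 1820 (.leaf 348 2015 .nil)) (.cons 227 (.leaf 251 1820 (.cons 298 (.leaf 325 2376 (.cons 321 (.leaf 320 2370 (.cons 345 (.leaf 369 2189 (.cons 344 (.leaf 368 2182 (.cons 323 (.leaf 322 2562 (.cons 347 (.leaf 371 2205 (.leaf 346 2561 .nil)) .nil)) .nil)) .nil)) .nil)) .nil)) .nil)) (.cons 298 (.leaf 325 2376 (.cons 321 (.leaf 320 2370 (.cons 345 (.leaf 369 2189 (.cons 344 (.leaf 368 2182 (.cons 322 (.leaf 323 2562 (.cons 346 (.leaf 370 2188 (.cons 347 (.leaf 371 2196 (.cons 348 (.leaf 372 2207 (.leaf 349 2571 .nil)) .nil)) .nil)) .nil)) .nil)) .nil)) .nil)) .nil)) .nil))) .nil)) (.cons 252 (.leaf 253 1993 (.cons 228 (.leaf 204 1630 (.cons 205 (.leaf 229 1637 (.cons 227 (.leaf 203 1631 (.cons 324 (.leaf 251 1820 (.cons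 296 (.leaf 297 2178 (.cons 348 (.leaf 372 2207 (.cons 349 (.leaf 325 2020 (.leaf 373 2212 .nil)) .nil)) .nil)) .nil)) .nil)) .nil)) .nil)) .nil)) .nil))
noncomputable def t61 : T := .cons 347 (.leaf 250 2007 (.cons 252 (.leaf 276 2013 (.cons 251 (.leaf 228 1821 (.cons 346 (.leaf 322 2006 (.leaf 370 2198 .nil)) .nil)) .nil)) .nil)) (.cons 251 (.cons 228 (.leaf 252 1821 (.cons 227 (.leaf 204 1629 (.cons 298 (.leaf 203 1622 (.leaf 322 1814 .nil)) .nil)) .nil)) (.cons 228 (.leaf 252 1821 (.cons 227 (.leaf 204 1629 (.cons 324 (.leaf 300 1820 (.leaf 348 2012 .nil)) .nil)) .nil)) (.cons 250 (.leaf 226 1815 (.cons 252 (.leaf 228 1821 (.cons 253 (.leaf 254 2002 (.cons 229 (.leaf 230 1809 (.cons 322 (.leaf 346 2006 (.cons 324 (.leaf 348 2012 (.cons 300 (.leaf 276 1829 (.cons 301 (.leaf 302 2386 (.leaf 321 2377 .nil)) .nil)) .nil)) .nil)) .nil)) .nil)) .nil)) .nil)) (.cons 226 (.leaf 250 1815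 (.cons 227 (.leaf 202 1623 (.cons 298 (.leaf 203 1622 (.leaf 322 1814 .nil)) .nil)) .nil)) .nil)))) (.cons 347 (.cons 252 (.leaf 276 2013 (.cons 251 (.leaf 228 1821 (.cons 346 (.leaf 322 2006 (.leaf 370 2198 .nil)) .nil)) .nil)) (.cons 252 (.leaf 276 2013 (.cons 251 (.leaf 228 1821 (.cons 348 (.leaf 324 2012 (.leaf 372 2204 .nil)) .nil)) .nil)) (.cons 298 (.leaf 371 2199 (.cons 346 (.leaf 370 2198 (.cons 322 (.leaf 251 2005 (.cons 345 (.leaf 369 2190 (.cons 324 (.leaf 325 2570 (.leaf 344 2561 .nil)) .nil)) .nil)) .nil)) .nil)) (.cons 252 (.leaf 276 2013 (.cons 370 (.leaf 346 2198 (.cons 371 (.leaf 298 2199 (.leaf 394 2390 .nil)) .nil)) .nil)) .nil)))) (.cons 347 (.leaf 250 2007 (.cons 252 (.leaf 276 2013 (.cons 370 (.leaf 346 2198 (.cons 371 (.leaf 298 2199 (.leaf 394 2390 .nil)) .nil)) .nil)) .nil)) (.cons 347 (.leaf 250 2007 (.cons 252 (.leaf 276 2013 (.cons 251 (.leaf 228 1821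 (.cons 348 (.leaf 324 2012 (.leaf 372 2204 .nil)) .nil)) .nil)) .nil)) (.cons 347 (.leaf 250 2007 (.cons 298 (.leaf 371 2199 (.cons 346 (.leaf 370 2198 (.cons 322 (.leaf 251 2005 (.cons 345 (.leaf 369 2190 (.cons 324 (.leaf 325 2570 (.leaf 344 2561 .nil)) .nil)) .nil)) .nil)) .nil)) .nil)) .nil)))))
noncomputable def t62 : T := .cons 347 (.leaf 250 2007 (.cons 346 (.leaf 370 2198 (.cons 322 (.leaf 251 2006 (.cons 348 (.leaf 372 2204 (.cons 321 (.leaf 320 2560 (.leaf 349 2571 .nil)) .nil)) .nil)) .nil)) .nil)) (.cons 251 (.cons 226 (.leaf 250 1815 (.cons 252 (.leaf 228 1821 (.cons 253 (.leaf 254 2002 (.cons 273 (.leaf 272 1985 (.leaf 276 1993 .nil)) .nil)) .nil)) .nil)) (.cons 322 (.leaf 346 2006 (.cons 324 (.leaf 348 2012 (.cons 227 (.leaf 300 1820 (.cons 202 (.leaf 226 1623 (.cons 203 (.leaf 178 1431 (.cons 204 (.leaf 180 1437 (.leaf 228 1629 .nil)) .nil)) .nil)) .nil)) .nil)) .nil))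 (.cons 322 (.leaf 346 2006 (.cons 324 (.leaf 348 2012 (.cons 300 (.leaf 227 1820 (.cons 301 (.leaf 302 2386 (.leaf 321 2377 .nil)) .nil)) .nil)) .nil)) .nil))) (.cons 251 (.cons 322 (.leaf 346 2006 (.cons 324 (.leaf 348 2012 (.cons 227 (.leaf 300 1820 (.cons 228 (.leaf 204 1629 (.leaf 252 1821 .nil)) .nil)) .nil)) .nil)) (.cons 322 (.leaf 346 2006 (.cons 324 (.leaf 348 2012 (.cons 227 (.leaf 300 1820 (.cons 202 (.leaf 226 1623 (.cons 203 (.leaf 178 1431 (.cons 204 (.leaf 180 1437 (.leaf 228 1629 .nil)) .nil)) .nil)) .nil)) .nil)) .nil)) (.cons 252 (.leaf 228 1821 (.cons 253 (.leaf 254 2002 (.cons 273 (.leaf 272 1985 (.leaf 276 1993 .nil)) .nil)) .nil)) (.cons 322 (.leaf 346 2006 (.cons 324 (.leaf 348 2012 (.cons 300 (.leaf 227 1820 (.cons 301 (.leaf 302 2386 (.leaf 321 2377 .nil)) .nil)) .nil)) .nil)) .nil)))) (.cons 347 (.leaf 250 2007 (.cons 252 (.leaf 276 2013 (.cons 370 (.leaf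 346 2198 (.cons 371 (.leaf 394 2390 (.cons 372 (.leaf 348 2204 (.leaf 396 2396 .nil)) .nil)) .nil)) .nil)) .nil)) (.cons 347 (.leaf 250 2007 (.cons 252 (.leaf 276 2013 (.cons 251 (.leaf 228 1821 (.cons 346 (.leaf 322 2006 (.leaf 370 2198 .nil)) .nil)) .nil)) .nil)) (.cons 347 (.leaf 250 2007 (.cons 252 (.leaf 276 2013 (.cons 251 (.leaf 228 1821 (.cons 348 (.leaf 324 2012 (.leaf 372 2204 .nil)) .nil)) .nil)) .nil)) .nil)))))
noncomputable def t63 : T := .leaf 302 2195 (.cons 298 (.cons 322 (.leaf 321 2378 (.cons 325 (.leaf 326 2384 (.cons 346 (.leaf 370 2197 (.cons 345 (.leaf 369 2190 (.cons 347 (.leaf 371 2196 (.cons 348 (.leaf 324 2569 (.cons 373 (.leaf 372 2760 (.cons 349 (.leaf 276 2215 (.leaf 374 2768 .nil)) .nil)) .nil)) .nil)) .nil)) .nil)) .nil)) .nil)) (.cons 325 (.leaf 326 2384 (.cons 297 (.leaf 324 2376 (.cons 296 (.leaf 295 2169 (.leaf 276 2177 .nil)) .nil)) .nil)) (.cons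 322 (.leaf 321 2378 (.cons 346 (.leaf 370 2197 (.cons 345 (.leaf 369 2190 (.cons 347 (.leaf 371 2196 (.cons 323 (.leaf 250 2004 (.cons 344 (.leaf 343 2553 (.leaf 324 2561 .nil)) .nil)) .nil)) .nil)) .nil)) .nil)) (.cons 322 (.leaf 321 2378 (.cons 325 (.leaf 326 2384 (.cons 346 (.leaf 370 2197 (.cons 345 (.leaf 369 2190 (.cons 347 (.leaf 371 2196 (.cons 323 (.leaf 250 2004 (.cons 276 (.leaf 252 2013 (.cons 296 (.leaf 297 2177 (.cons 348 (.leaf 372 2204 (.cons 349 (.leaf 373 2215 (.leaf 350 2579 .nil)) .nil)) .nil)) .nil)) .nil)) .nil)) .nil)) .nil)) .nil)) .nil)) .nil)))) .nil)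
noncomputable def t64 : T := .cons 296 (.leaf 276 2178 (.cons 295 (.leaf 298 2169 (.leaf 294 2161 .nil)) .nil)) (.cons 321 (.cons 298 (.leaf 320 2370 (.cons 324 (.leaf 325 2376 (.cons 345 (.leaf 250 1997 (.leaf 369 2189 .nil)) .nil)) .nil)) (.cons 345 (.leaf 250 1997 (.cons 368 (.leaf 344 2182 (.cons 369 (.leaf 392 2374 (.cons 370 (.leaf 346 2188 (.leaf 394 2380 .nil)) .nil)) .nil)) .nil)) (.cons 298 (.leaf 320 2370 (.cons 324 (.leaf 325 2376 (.cons 345 (.leaf 369 2189 (.cons 344 (.leaf 368 2182 (.cons 322 (.leaf 323 2562 (.cons 346 (.leaf 370 2188 (.cons 342 (.leaf 343 2545 (.cons 347 (.leaf 371 2196 (.cons 348 (.leaf 372 2207 (.leaf 349 2571 .nil)) .nil)) .nil)) .nil)) .nil)) .nil)) .nil)) .nil)) .nil)) (.cons 320 (.leaf 298 2370 (.cons 323 (.leaf 322 2369 (.cons 347 (.leaf 250 2007 (.cons 276 (.leaf 252 2013 (.leaf 371 2205 .nil)) .nil)) .nil)) .nil)) .nil)))) (.cons 250 (.cons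 226 (.leaf 202 1620 (.cons 323 (.leaf 347 2007 (.leaf 298 1812 .nil)) .nil)) (.cons 321 (.leaf 345 1997 (.cons 320 (.leaf 298 2370 (.cons 323 (.leaf 347 2007 (.leaf 322 2369 .nil)) .nil)) .nil)) (.cons 202 (.leaf 226 1620 (.cons 321 (.leaf 345 1997 (.cons 323 (.leaf 347 2007 (.cons 322 (.leaf 320 2369 (.cons 324 (.leaf 296 2371 (.cons 348 (.leaf 372 2207 (.leaf 349 2568 .nil)) .nil)) .nil)) .nil)) .nil)) .nil)) (.cons 226 (.leaf 202 1620 (.cons 321 (.leaf 298 1806 (.leaf 345 1997 .nil)) .nil)) .nil)))) (.cons 276 (.leaf 296 2178 (.cons 252 (.leaf 253 1993 (.cons 228 (.leaf 204 1630 (.leaf 323 1822 .nil)) .nil)) .nil)) .nil)))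
noncomputable def t65 : T := .cons 300 (.cons 273 (.leaf 272 2176 (.cons 301 (.leaf 276 2184 (.leaf 302 2195 .nil)) .nil)) (.cons 273 (.leaf 272 2176 (.cons 297 t64 .nil)) (.cons 301 t63 (.cons 273 (.leaf 272 2176 (.cons 301 (.leaf 302 2195 (.leaf 298 2187 .nil)) .nil)) .nil)))) (.cons 323 t62 (.cons 323 t61 (.cons 300 (.cons 273 (.leaf 272 2176 (.cons 301 (.leaf 276 2184 (.leaf 302 2195 .nil)) .nil)) (.cons 273 (.leaf 272 2176 (.cons 276 t60 .nil)) (.cons 301 (.leaf 302 2195 (.cons 298 (.cons 325 (.leaf 326 2384 (.cons 324 (.leaf 297 2376 (.cons 251 (.leaf 227 1820 (.cons 348 (.leaf 276 2015 (.leaf 323 2012 .nil)) .nil)) .nil)) .nil)) (.cons 322 (.leaf 321 2378 (.cons 251 (.leaf 227 1814 (.leaf 346 2005 .nil)) .nil)) (.cons 322 (.leaf 321 2378 (.cons 325 (.leaf 326 2384 (.cons 297 (.leaf 324 2376 (.cons 296 (.leaf 295 2169 (.leaf 276 2177 .nil)) .nil)) .nil)) .nil)) .nil))) .nil))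 (.cons 301 (.leaf 302 2195 (.cons 273 (.leaf 272 2176 (.leaf 298 2187 .nil)) .nil)) .nil)))) (.cons 300 (.cons 301 (.leaf 302 2195 (.cons 273 (.leaf 272 2176 (.leaf 276 2184 .nil)) .nil)) (.cons 273 (.leaf 272 2176 (.cons 250 t59 .nil)) (.cons 301 (.leaf 302 2195 (.cons 298 (.cons 322 (.leaf 321 2378 (.cons 251 (.leaf 227 1814 (.leaf 346 2005 .nil)) .nil)) (.cons 325 (.leaf 326 2384 (.cons 324 (.leaf 297 2376 (.cons 251 (.leaf 227 1820 (.cons 348 (.leaf 276 2015 (.leaf 323 2012 .nil)) .nil)) .nil)) .nil)) (.cons 322 (.leaf 321 2378 (.cons 325 (.leaf 326 2384 (.cons 346 (.leaf 370 2197 (.cons 345 (.leaf 369 2190 (.cons 347 (.leaf 371 2196 (.cons 348 (.leaf 324 2569 (.cons 373 (.leaf 372 2760 (.cons 349 (.leaf 276 2215 (.leaf 374 2768 .nil)) .nil)) .nil)) .nil)) .nil)) .nil)) .nil)) .nil)) .nil))) .nil)) (.cons 301 (.leaf 302 2195 (.cons 273 (.leaf 272 2176 (.leaf 298 2187 .nil)) .nil))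 .nil)))) (.cons 250 (.cons 226 (.leaf 202 1620 (.cons 323 (.leaf 251 1815 (.leaf 347 2007 .nil)) .nil)) (.cons 323 (.leaf 347 2007 (.cons 251 (.cons 322 (.leaf 346 2006 (.cons 298 (.leaf 227 1813 (.cons 321 (.leaf 345 1998 (.cons 300 (.leaf 301 2378 (.leaf 320 2369 .nil)) .nil)) .nil)) .nil)) (.cons 252 (.leaf 228 1821 (.cons 253 (.leaf 254 2002 (.leaf 273 1994 .nil)) .nil)) .nil)) .nil)) (.cons 226 (.leaf 202 1620 (.cons 298 t58 .nil)) (.cons 226 (.leaf 202 1620 (.cons 323 (.leaf 347 2007 (.leaf 298 1812 .nil)) .nil)) .nil)))) (.cons 323 t57 (.cons 250 (.cons 323 (.leaf 347 2007 (.cons 226 (.leaf 202 1620 (.leaf 251 1815 .nil)) .nil)) (.cons 323 (.leaf 347 2007 (.cons 251 (.cons 252 (.leaf 228 1821 (.cons 253 (.leaf 254 2002 (.leaf 273 1994 .nil)) .nil)) (.cons 324 (.leaf 348 2012 (.cons 227 (.leaf 300 1820 (.cons 203 (.leaf 298 1622 (.leaf 179 1430 .nil)) .nil)) .nil)) .nil)) .nil))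 (.cons 226 (.leaf 202 1620 (.cons 298 (.cons 203 (.leaf 227 1621 (.cons 297 (.leaf 321 1806 (.cons 296 (.leaf 295 2169 (.leaf 276 2177 .nil)) .nil)) .nil)) (.cons 297 (.leaf 321 1806 (.cons 296 (.leaf 295 2169 (.leaf 276 2177 .nil)) .nil)) (.cons 227 (.leaf 203 1621 (.cons 251 (.leaf 322 1813 (.cons 225 (.leaf 201 1615 (.cons 224 (.leaf 223 1784 (.leaf 252 1792 .nil)) .nil)) .nil)) .nil)) .nil))) .nil)) (.cons 226 (.leaf 202 1620 (.cons 323 (.leaf 347 2007 (.leaf 298 1812 .nil)) .nil)) .nil)))) (.cons 250 (.cons 323 (.leaf 347 2007 (.cons 251 (.leaf 226 1815 (.cons 252 (.leaf 228 1821 (.cons 253 (.leaf 254 2002 (.leaf 273 1994 .nil)) .nil)) .nil)) .nil)) (.cons 323 (.leaf 347 2007 (.cons 251 (.cons 252 (.leaf 228 1821 (.cons 253 (.leaf 254 2002 (.leaf 273 1994 .nil)) .nil)) (.cons 322 (.leaf 346 2006 (.cons 298 (.leaf 227 1813 (.cons 321 (.leaf 345 1998 (.cons 300 (.leaf 301 2378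 (.leaf 320 2369 .nil)) .nil)) .nil)) .nil)) .nil)) .nil)) (.cons 226 (.leaf 202 1620 (.cons 298 (.cons 297 (.leaf 321 1806 (.cons 296 (.leaf 295 2169 (.leaf 276 2177 .nil)) .nil)) (.cons 227 (.leaf 203 1621 (.cons 251 (.leaf 322 1813 (.cons 225 (.leaf 201 1615 (.cons 224 (.leaf 223 1784 (.leaf 252 1792 .nil)) .nil)) .nil)) .nil)) .nil)) .nil)) (.cons 226 (.leaf 202 1620 (.cons 323 (.leaf 347 2007 (.leaf 298 1812 .nil)) .nil)) .nil)))) .nil))))))))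
noncomputable def t66 : T := .cons 347 (.leaf 250 2007 (.cons 298 (.leaf 371 2199 (.cons 346 (.leaf 370 2198 (.cons 322 (.leaf 251 2005 (.cons 345 (.leaf 369 2190 (.cons 324 (.leaf 325 2570 (.leaf 344 2561 .nil)) .nil)) .nil)) .nil)) .nil)) .nil)) (.cons 251 (.cons 252 (.leaf 228 1821 (.cons 253 (.leaf 254 2002 (.cons 273 (.leaf 272 1985 (.leaf 276 1993 .nil)) .nil)) .nil)) (.cons 226 (.leaf 250 1815 (.cons 227 (.leaf 202 1623 (.cons 298 (.leaf 203 1622 (.leaf 322 1814 .nil)) .nil)) .nil)) .nil)) (.cons 347 (.cons 252 (.leaf 276 2013 (.cons 228 (.leaf 251 1821 (.cons 371 (.leaf 298 2199 (.cons 372 (.leaf 348 2204 (.leaf 396 2396 .nil)) .nil)) .nil)) .nil)) (.cons 252 (.leaf 276 2013 (.cons 251 (.leaf 228 1821 (.cons 346 (.leaf 322 2006 (.leaf 370 2198 .nil)) .nil)) .nil)) (.cons 371 (.leaf 298 2199 (.cons 370 (.leaf 346 2198 (.leaf 394 2390 .nil)) .nil)) .nil))) (.cons 347 (.leaf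 250 2007 (.cons 371 (.leaf 298 2199 (.cons 370 (.leaf 346 2198 (.leaf 394 2390 .nil)) .nil)) .nil)) (.cons 347 (.leaf 250 2007 (.cons 252 (.leaf 276 2013 (.cons 251 (.leaf 228 1821 (.cons 346 (.leaf 322 2006 (.leaf 370 2198 .nil)) .nil)) .nil)) .nil)) .nil))))
noncomputable def t67 : T := .cons 272 (.leaf 273 2176 (.cons 298 (.cons 296 (.leaf 295 2169 (.leaf 276 2177 .nil)) (.cons 321 (.leaf 320 2370 (.cons 250 (.leaf 226 1806 (.cons 345 (.leaf 322 1998 (.leaf 369 2189 .nil)) .nil)) .nil)) .nil)) .nil)) (.cons 298 (.cons 296 (.leaf 295 2169 (.leaf 276 2177 .nil)) (.cons 320 (.leaf 321 2370 (.cons 324 (.leaf 325 2376 (.cons 251 (.leaf 227 1820 (.cons 348 (.leaf 276 2015 (.leaf 372 2207 .nil)) .nil)) .nil)) .nil)) (.cons 295 (.leaf 296 2169 (.cons 321 (.leaf 320 2370 (.cons 250 (.leaf 226 1806 (.cons 345 (.leaf 322 1998 (.leaf 369 2189 .nil)) .nil)) .nil)) .nil)) .nil))) (.cons 273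 (.leaf 272 2176 (.cons 276 (.leaf 296 2178 (.cons 252 (.leaf 253 1993 (.cons 228 (.leaf 204 1630 (.cons 205 (.leaf 229 1637 (.cons 227 (.leaf 203 1631 (.cons 324 (.leaf 251 1820 (.cons 348 (.leaf 372 2207 (.cons 349 (.leaf 325 2020 (.leaf 373 2212 .nil)) .nil)) .nil)) .nil)) .nil)) .nil)) .nil)) .nil)) .nil)) (.cons 273 (.leaf 272 2176 (.cons 324 (.cons 298 (.leaf 325 2376 (.cons 321 (.leaf 320 2370 (.cons 250 (.leaf 226 1806 (.leaf 345 1997 .nil)) .nil)) .nil)) (.cons 251 (.leaf 227 1820 (.cons 348 (.leaf 276 2015 (.leaf 372 2207 .nil)) .nil)) .nil)) .nil)) (.cons 272 (.leaf 273 2176 (.cons 298 (.cons 296 (.leaf 295 2169 (.leaf 271 2171 .nil)) (.cons 321 (.leaf 320 2370 (.cons 250 (.leaf 226 1806 (.cons 345 (.leaf 322 1998 (.leaf 369 2189 .nil)) .nil)) .nil)) .nil)) .nil)) .nil))))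
noncomputable def t68 : T := .cons 250 (.cons 226 (.leaf 202 1620 (.cons 323 (.leaf 251 1815 (.leaf 347 2007 .nil)) .nil)) (.cons 226 (.leaf 202 1620 (.cons 298 (.cons 203 (.leaf 227 1621 (.cons 321 (.leaf 297 1806 (.cons 322 (.leaf 345 1998 (.cons 346 (.leaf 251 2005 (.leaf 370 2197 .nil)) .nil)) .nil)) .nil)) (.cons 201 (.leaf 225 1615 (.cons 297 (.leaf 321 1806 (.cons 296 (.leaf 295 2169 (.leaf 276 2177 .nil)) .nil)) .nil)) (.cons 201 (.leaf 225 1615 (.cons 227 (.leaf 203 1621 (.cons 251 (.leaf 322 1813 (.cons 204 (.leaf 228 1629 (.cons 300 (.leaf 324 1820 (.cons 273 (.leaf 272 2176 (.leaf 301 2187 .nil)) .nil)) .nil)) .nil)) .nil)) .nil)) .nil))) .nil)) (.cons 323 (.leaf 347 2007 (.cons 251 (.cons 322 (.leaf 346 2006 (.cons 298 (.leaf 227 1813 (.cons 321 (.leaf 345 1998 (.cons 300 (.leaf 301 2378 (.leaf 320 2369 .nil)) .nil)) .nil)) .nil)) (.cons 252 (.leaf 228 1821 (.cons 253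 (.leaf 254 2002 (.leaf 273 1994 .nil)) .nil)) .nil)) .nil)) (.cons 226 (.leaf 202 1620 (.cons 323 (.leaf 347 2007 (.leaf 298 1812 .nil)) .nil)) .nil)))) (.cons 300 (.cons 301 (.leaf 302 2195 (.cons 273 (.leaf 272 2176 (.leaf 276 2184 .nil)) .nil)) (.cons 301 (.leaf 302 2195 (.cons 298 (.cons 325 (.leaf 326 2384 (.cons 297 (.leaf 324 2376 (.cons 296 (.leaf 295 2169 (.leaf 276 2177 .nil)) .nil)) .nil)) (.cons 321 (.leaf 322 2378 (.cons 297 (.leaf 320 2370 (.cons 296 (.leaf 295 2169 (.leaf 276 2177 .nil)) .nil)) .nil)) (.cons 322 (.leaf 321 2378 (.cons 251 (.leaf 227 1814 (.leaf 346 2005 .nil)) .nil)) .nil))) .nil)) (.cons 297 t67 (.cons 273 (.leaf 272 2176 (.cons 301 (.leaf 302 2195 (.leaf 298 2187 .nil)) .nil)) .nil)))) (.cons 323 t66 t65))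
noncomputable def t69 : T := .cons 322 (.leaf 346 2005 (.cons 250 (.leaf 227 1813 (.cons 225 (.leaf 249 1807 (.cons 226 (.leaf 201 1615 (.cons 202 (.leaf 178 1428 (.leaf 299 1620 .nil)) .nil)) .nil)) .nil)) .nil)) (.cons 227 (.leaf 203 1622 (.cons 299 (.cons 226 (.leaf 202 1623 (.cons 250 (.leaf 323 1812 (.cons 225 (.leaf 201 1615 (.cons 224 (.leaf 223 1784 (.leaf 252 1792 .nil)) .nil)) .nil)) .nil)) (.cons 300 (.leaf 324 1820 (.cons 273 (.leaf 272 2176 (.leaf 301 2187 .nil)) .nil)) .nil)) .nil)) (.cons 322 (.leaf 346 2005 (.cons 250 (.cons 225 (.leaf 249 1807 (.cons 226 (.leaf 201 1615 (.cons 202 (.leaf 178 1428 (.leaf 299 1620 .nil)) .nil)) .nil)) (.cons 323 (.leaf 347 2004 (.cons 226 (.leaf 299 1812 (.cons 321 (.leaf 297 1806 (.leaf 345 1998 .nil)) .nil)) .nil)) (.cons 249 (.leaf 225 1807 (.cons 248 (.leaf 247 1976 (.leaf 276 1984 .nil)) .nil)) .nil))) .nil)) (.cons 322 (.leaf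 346 2005 (.cons 227 (.leaf 203 1622 (.leaf 299 1814 .nil)) .nil)) (.cons 322 (.leaf 346 2005 (.cons 227 (.leaf 203 1622 (.leaf 250 1813 .nil)) .nil)) .nil))))
noncomputable def t70 : T := .cons 227 (.leaf 203 1622 (.cons 322 (.leaf 299 1814 (.leaf 346 2005 .nil)) .nil)) (.cons 227 (.leaf 203 1622 (.cons 299 (.cons 202 (.leaf 226 1623 (.cons 324 (.leaf 300 1820 (.cons 323 (.leaf 348 2012 (.cons 347 (.leaf 250 2007 (.leaf 371 2199 .nil)) .nil)) .nil)) .nil)) (.cons 300 (.leaf 324 1820 (.cons 273 (.leaf 272 2176 (.leaf 301 2187 .nil)) .nil)) (.cons 226 (.leaf 202 1623 (.cons 250 (.leaf 323 1812 (.cons 225 (.leaf 201 1615 (.cons 224 (.leaf 223 1784 (.leaf 252 1792 .nil)) .nil)) .nil)) .nil)) .nil))) .nil)) (.cons 322 (.leaf 346 2005 (.cons 250 (.cons 249 (.leaf 225 1807 (.cons 248 (.leaf 247 1976 (.cons 223 (.leaf 224 1787 (.cons 272 (.leaf 271 1978 (.cons 252 (.leaf 273 1985 (.cons 228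 (.leaf 229 1801 (.cons 323 (.leaf 299 1821 (.leaf 347 2004 .nil)) .nil)) .nil)) .nil)) .nil)) .nil)) .nil)) (.cons 249 (.leaf 225 1807 (.cons 248 (.leaf 247 1976 (.cons 223 (.leaf 224 1787 (.cons 272 (.leaf 271 1978 (.cons 252 (.leaf 273 1985 (.cons 229 (.leaf 228 1801 (.cons 253 (.leaf 254 2002 (.leaf 230 1809 .nil)) .nil)) .nil)) .nil)) .nil)) .nil)) .nil)) (.cons 321 (.leaf 345 1998 (.cons 323 (.leaf 347 2004 (.cons 299 (.leaf 226 1812 (.cons 300 (.leaf 301 2378 (.leaf 320 2369 .nil)) .nil)) .nil)) .nil)) .nil))) .nil)) (.cons 322 (.leaf 346 2005 (.cons 227 (.leaf 203 1622 (.leaf 250 1813 .nil)) .nil)) .nil)))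
noncomputable def t71 : T := .cons 203 (.leaf 298 1622 (.cons 179 (.leaf 250 1430 (.leaf 276 1436 .nil)) .nil)) (.cons 299 (.cons 204 (.leaf 228 1629 (.cons 298 (.leaf 322 1814 (.cons 300 (.leaf 324 1820 (.leaf 301 2187 .nil)) .nil)) .nil)) (.cons 228 (.leaf 204 1629 (.cons 226 (.leaf 202 1623 (.cons 225 (.leaf 224 1792 (.cons 200 (.leaf 201 1603 (.cons 249 (.leaf 248 1794 (.cons 229 (.leaf 250 1801 (.cons 206 (.leaf 205 1617 (.cons 230 (.leaf 231 1818 (.leaf 207 1625 .nil)) .nil)) .nil)) .nil)) .nil)) .nil)) .nil)) .nil)) (.cons 202 (.leaf 226 1623 (.cons 298 (.leaf 322 1814 (.cons 300 (.leaf 324 1820 (.leaf 301 2187 .nil)) .nil)) .nil)) .nil))) (.cons 203 (.cons 179 (.leaf 250 1430 (.leaf 276 1436 .nil)) (.cons 178 (.leaf 202 1431 (.cons 204 (.leaf 180 1437 (.cons 228 (.leaf 299 1629 (.cons 276 (.leaf 300 1628 (.cons 205 (.leaf 181 1445 (.cons 206 (.leaf 226 1618 (.leaf 207 1626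 .nil)) .nil)) .nil)) .nil)) .nil)) .nil)) (.cons 179 (.leaf 250 1430 (.cons 178 (.leaf 202 1431 (.leaf 154 1239 .nil)) .nil)) .nil))) (.cons 203 (.leaf 298 1622 (.cons 178 (.leaf 202 1431 (.cons 179 (.leaf 154 1239 (.leaf 276 1436 .nil)) .nil)) .nil)) .nil)))
noncomputable def t72 : T := .cons 181 (.leaf 205 1445 (.cons 203 (.leaf 179 1439 (.cons 227 (.leaf 298 1622 (.cons 202 (.leaf 178 1431 (.cons 201 (.leaf 200 1600 (.leaf 229 1608 .nil)) .nil)) .nil)) .nil)) .nil)) (.cons 249 (.leaf 248 1987 (.cons 181 (.leaf 205 1445 (.cons 250 (.leaf 229 1801 (.cons 225 (.leaf 224 1795 (.cons 201 (.leaf 177 1420 (.leaf 298 1612 .nil)) .nil)) .nil)) .nil)) .nil)) (.cons 249 (.leaf 248 1987 (.cons 179 (.leaf 203 1439 (.cons 250 (.leaf 229 1801 (.cons 225 (.leaf 224 1795 (.cons 201 (.leaf 177 1420 (.leaf 298 1612 .nil)) .nil)) .nil)) .nil)) .nil)) (.cons 203 (.leaf 179 1439 (.cons 181 (.leaf 205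 1445 (.cons 227 (.leaf 298 1622 (.cons 202 (.leaf 178 1431 (.cons 201 (.leaf 200 1600 (.cons 177 (.leaf 176 1411 (.cons 225 (.leaf 224 1602 (.cons 249 (.leaf 248 1987 (.leaf 250 1420 .nil)) .nil)) .nil)) .nil)) .nil)) .nil)) .nil)) .nil)) (.cons 249 (.leaf 248 1987 (.cons 179 (.leaf 203 1439 (.cons 250 (.leaf 229 1801 (.cons 225 (.leaf 224 1795 (.cons 201 (.leaf 177 1420 (.cons 200 (.leaf 176 1415 (.cons 202 (.leaf 178 1421 (.cons 226 (.leaf 297 1613 (.leaf 227 1603 .nil)) .nil)) .nil)) .nil)) .nil)) .nil)) .nil)) .nil)) (.cons 249 (.leaf 248 1987 (.cons 179 (.leaf 203 1439 (.cons 250 (.leaf 229 1801 (.cons 225 (.leaf 224 1795 (.cons 205 (.leaf 181 1445 (.cons 226 (.leaf 227 1609 (.cons 202 (.leaf 178 1428 (.leaf 297 1613 .nil)) .nil)) .nil)) .nil)) .nil)) .nil)) .nil)) .nil)))))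
noncomputable def t73 : T := .cons 253 (.leaf 254 2002 (.cons 273 (.leaf 272 1985 (.leaf 276 1993 .nil)) .nil)) (.cons 273 (.leaf 272 1985 (.cons 228 (.cons 204 (.leaf 180 1438 (.cons 299 (.leaf 227 1629 (.leaf 276 1630 .nil)) .nil)) (.cons 299 (.leaf 323 1821 (.cons 227 (.cons 226 (.leaf 202 1623 (.cons 225 (.leaf 224 1792 (.cons 200 (.leaf 201 1603 (.cons 249 (.leaf 248 1794 (.cons 229 (.leaf 250 1801 (.cons 206 (.leaf 205 1617 (.cons 230 (.leaf 231 1818 (.leaf 207 1625 .nil)) .nil)) .nil)) .nil)) .nil)) .nil)) .nil)) (.cons 298 (.leaf 203 1622 (.leaf 322 1814 .nil)) .nil)) .nil)) (.cons 204 (.leaf 180 1438 (.cons 276 t72 .nil)) (.cons 299 (.leaf 323 1821 (.cons 204 (.leaf 180 1438 (.leaf 276 1630 .nil)) .nil)) .nil)))) .nil)) (.cons 253 (.leaf 254 2002 (.cons 250 (.cons 226 (.leaf 225 1803 (.cons 202 (.leaf 178 1428 (.leaf 299 1620 .nil)) .nil)) (.cons 229 (.leaf 230 1809 (.cons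 249 (.leaf 228 1801 (.cons 248 (.leaf 247 1976 (.leaf 276 1984 .nil)) .nil)) .nil)) .nil)) .nil)) (.cons 253 (.leaf 254 2002 (.cons 273 (.leaf 272 1985 (.leaf 250 1994 .nil)) .nil)) .nil)))
noncomputable def t74 : T := .cons 299 (.cons 204 (.leaf 228 1629 (.cons 322 (.leaf 298 1814 (.cons 323 (.leaf 346 2006 (.cons 324 (.leaf 300 1820 (.leaf 348 2012 .nil)) .nil)) .nil)) .nil)) (.cons 204 (.leaf 228 1629 (.cons 300 (.leaf 324 1820 (.cons 273 (.leaf 272 2176 (.cons 301 (.leaf 276 2184 (.leaf 302 2195 .nil)) .nil)) .nil)) .nil)) (.cons 204 (.leaf 228 1629 (.cons 322 (.leaf 298 1814 (.cons 323 (.leaf 346 2006 (.cons 347 (.leaf 250 2007 (.cons 348 (.leaf 324 2012 (.leaf 372 2204 .nil)) .nil)) .nil)) .nil)) .nil)) (.cons 298 (.leaf 203 1622 (.leaf 322 1814 .nil)) .nil)))) (.cons 299 (.cons 204 (.leaf 228 1629 (.cons 322 (.leaf 298 1814 (.cons 323 (.leaf 346 2006 (.cons 324 (.leaf 300 1820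 (.leaf 348 2012 .nil)) .nil)) .nil)) .nil)) (.cons 204 (.leaf 228 1629 (.cons 300 (.leaf 324 1820 (.cons 273 (.leaf 272 2176 (.cons 301 (.leaf 276 2184 (.leaf 302 2195 .nil)) .nil)) .nil)) .nil)) (.cons 204 (.leaf 228 1629 (.cons 322 (.leaf 298 1814 (.cons 323 (.leaf 346 2006 (.cons 347 (.leaf 250 2007 (.cons 348 (.leaf 324 2012 (.leaf 372 2204 .nil)) .nil)) .nil)) .nil)) .nil)) (.cons 298 (.leaf 322 1814 (.cons 300 (.leaf 324 1820 (.cons 273 (.leaf 272 2176 (.leaf 301 2187 .nil)) .nil)) .nil)) (.cons 322 (.leaf 298 1814 (.cons 204 (.leaf 228 1629 (.cons 323 (.leaf 346 2006 (.cons 347 (.leaf 250 2007 (.cons 276 (.leaf 252 2013 (.cons 371 (.leaf 300 2205 (.cons 372 (.leaf 348 2204 (.leaf 396 2396 .nil)) .nil)) .nil)) .nil)) .nil)) .nil)) .nil)) .nil))))) (.cons 203 (.cons 180 (.leaf 204 1437 (.cons 178 (.leaf 202 1431 (.cons 179 (.leaf 250 1430 (.leaf 154 1239 .nil)) .nil)) .nil))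 (.cons 178 (.leaf 202 1431 (.cons 204 (.leaf 180 1437 (.cons 299 (.leaf 228 1629 (.cons 300 (.leaf 276 1628 (.leaf 324 1820 .nil)) .nil)) .nil)) .nil)) (.cons 178 (.leaf 202 1431 (.cons 179 (.leaf 250 1430 (.leaf 154 1239 .nil)) .nil)) (.cons 180 (.leaf 204 1437 (.cons 179 (.leaf 250 1430 (.leaf 156 1245 .nil)) .nil)) .nil)))) (.cons 203 (.leaf 298 1622 (.cons 180 (.leaf 204 1437 (.cons 178 (.leaf 202 1431 (.cons 179 (.leaf 250 1430 (.leaf 154 1239 .nil)) .nil)) .nil)) .nil)) (.cons 203 (.leaf 298 1622 (.cons 180 (.leaf 204 1437 (.cons 178 (.leaf 202 1431 (.cons 179 (.leaf 154 1239 (.leaf 156 1245 .nil)) .nil)) .nil)) .nil)) (.cons 203 (.leaf 298 1622 (.cons 178 (.leaf 202 1431 (.cons 179 (.leaf 250 1430 (.leaf 154 1239 .nil)) .nil)) .nil)) .nil)))))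
noncomputable def t75 : T := .cons 202 (.leaf 226 1623 (.cons 204 (.leaf 228 1629 (.cons 322 (.leaf 298 1814 (.cons 323 (.leaf 346 2006 (.cons 347 (.leaf 250 2007 (.cons 348 (.leaf 324 2012 (.leaf 372 2204 .nil)) .nil)) .nil)) .nil)) .nil)) .nil)) (.cons 322 (.leaf 298 1814 (.cons 204 (.leaf 228 1629 (.cons 323 (.leaf 346 2006 (.cons 324 (.leaf 300 1820 (.leaf 348 2012 .nil)) .nil)) .nil)) .nil)) (.cons 226 (.leaf 202 1623 (.cons 204 (.leaf 228 1629 (.cons 323 (.leaf 250 1815 (.cons 324 (.leaf 300 1820 (.leaf 348 2012 .nil)) .nil)) .nil)) .nil)) (.cons 322 (.leaf 298 1814 (.cons 202 (.leaf 226 1623 (.cons 323 (.leaf 346 2006 (.cons 324 (.leaf 300 1820 (.leaf 348 2012 .nil)) .nil)) .nil)) .nil)) (.cons 298 (.leaf 322 1814 (.cons 226 (.leaf 202 1623 (.cons 228 (.leaf 204 1629 (.cons 300 (.leaf 324 1820 (.cons 301 (.leaf 302 2195 (.cons 325 (.leaf 326 2384 (.cons 252 (.leaf 276 1828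 (.cons 253 (.leaf 254 2002 (.leaf 225 1800 .nil)) .nil)) .nil)) .nil)) .nil)) .nil)) .nil)) .nil)) (.cons 322 (.leaf 298 1814 (.cons 204 (.leaf 228 1629 (.cons 323 (.leaf 346 2006 (.cons 347 (.leaf 250 2007 (.cons 276 (.leaf 252 2013 (.cons 371 (.leaf 300 2205 (.cons 372 (.leaf 348 2204 (.leaf 396 2396 .nil)) .nil)) .nil)) .nil)) .nil)) .nil)) .nil)) .nil)))))
noncomputable def t76 : T := .cons 203 (.leaf 298 1622 (.cons 180 (.leaf 204 1437 (.cons 178 (.leaf 202 1431 (.cons 179 (.leaf 250 1430 (.leaf 154 1239 .nil)) .nil)) .nil)) .nil)) (.cons 299 t75 (.cons 203 (.cons 180 (.leaf 204 1437 (.cons 178 (.leaf 202 1431 (.cons 179 (.leaf 250 1430 (.leaf 154 1239 .nil)) .nil)) .nil)) (.cons 178 (.leaf 202 1431 (.cons 204 (.leaf 180 1437 (.cons 299 (.leaf 228 1629 (.cons 300 (.leaf 276 1628 (.leaf 324 1820 .nil)) .nil)) .nil)) .nil)) (.cons 180 (.leaf 204 1437 (.cons 179 (.leaf 250 1430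 (.leaf 156 1245 .nil)) .nil)) (.cons 178 (.leaf 202 1431 (.cons 179 (.leaf 250 1430 (.leaf 154 1239 .nil)) .nil)) .nil)))) (.cons 203 (.leaf 298 1622 (.cons 180 (.leaf 204 1437 (.cons 178 (.leaf 202 1431 (.cons 179 (.leaf 154 1239 (.leaf 156 1245 .nil)) .nil)) .nil)) .nil)) (.cons 203 (.leaf 298 1622 (.cons 180 (.leaf 204 1437 (.cons 179 (.leaf 250 1430 (.leaf 156 1245 .nil)) .nil)) .nil)) (.cons 203 (.leaf 298 1622 (.cons 178 (.leaf 202 1431 (.cons 179 (.leaf 250 1430 (.leaf 154 1239 .nil)) .nil)) .nil)) .nil)))))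
noncomputable def t77 : T := .cons 300 (.leaf 301 2184 (.cons 248 (.leaf 249 1987 (.cons 324 (.leaf 348 2015 (.leaf 227 1823 .nil)) .nil)) .nil)) (.cons 249 (.leaf 248 1987 (.cons 228 (.cons 180 (.leaf 204 1438 (.cons 250 (.leaf 229 1801 (.cons 225 (.leaf 224 1795 (.cons 201 (.leaf 177 1420 (.cons 200 (.leaf 176 1415 (.cons 202 (.leaf 178 1421 (.cons 226 (.leaf 299 1620 (.leaf 297 1613 .nil)) .nil)) .nil)) .nil)) .nil)) .nil)) .nil)) (.cons 250 (.leaf 229 1801 (.cons 225 (.leaf 224 1795 (.cons 201 (.leaf 177 1420 (.cons 176 (.leaf 200 1415 (.cons 202 (.leaf 178 1421 (.cons 226 (.leaf 299 1620 (.leaf 297 1613 .nil)) .nil)) .nil)) .nil)) .nil)) .nil)) (.cons 180 (.leaf 204 1438 (.cons 250 (.leaf 229 1801 (.cons 225 (.leaf 224 1795 (.cons 201 (.leaf 177 1420 (.cons 200 (.leaf 176 1415 (.cons 202 (.leaf 178 1421 (.cons 226 (.leaf 297 1613 (.leaf 227 1603 .nil)) .nil)) .nil)) .nil)) .nil))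 .nil)) .nil)) (.cons 204 (.leaf 180 1438 (.leaf 299 1630 .nil)) .nil)))) .nil)) (.cons 300 (.leaf 301 2184 (.cons 227 (.leaf 203 1628 (.leaf 324 1823 .nil)) .nil)) (.cons 248 (.leaf 249 1987 (.cons 300 (.leaf 301 2184 (.cons 324 (.leaf 348 2015 (.cons 323 (.leaf 347 2014 (.cons 228 (.leaf 299 1821 (.cons 204 (.leaf 180 1438 (.cons 205 (.leaf 181 1445 (.leaf 229 1637 .nil)) .nil)) .nil)) .nil)) .nil)) .nil)) .nil)) .nil)))
noncomputable def t78 : T := .cons 248 (.leaf 249 1987 (.cons 300 (.leaf 301 2184 (.cons 227 (.leaf 203 1628 (.leaf 324 1823 .nil)) .nil)) .nil)) (.cons 249 (.leaf 248 1987 (.cons 298 (.cons 322 (.leaf 346 2005 (.cons 225 (.leaf 201 1612 (.leaf 250 1807 .nil)) .nil)) (.cons 203 (.leaf 227 1622 (.cons 225 (.leaf 201 1612 (.cons 250 (.leaf 224 1795 (.cons 228 (.leaf 229 1801 (.cons 204 (.leaf 180 1438 (.leaf 179 1439 .nil)) .nil)) .nil)) .nil)) .nil)) (.cons 322 (.leaf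 346 2005 (.cons 227 (.leaf 203 1622 (.leaf 250 1813 .nil)) .nil)) (.cons 322 (.leaf 346 2005 (.cons 225 (.leaf 201 1612 (.leaf 297 1804 .nil)) .nil)) .nil)))) .nil)) (.cons 300 (.leaf 301 2184 (.cons 227 (.leaf 203 1628 (.leaf 324 1823 .nil)) .nil)) (.cons 249 (.leaf 248 1987 (.cons 300 (.leaf 301 2184 (.cons 324 (.leaf 348 2015 (.cons 323 (.leaf 347 2014 (.cons 225 (.cons 224 (.leaf 250 1795 (.cons 200 (.leaf 297 1607 (.cons 176 (.leaf 201 1415 (.leaf 152 1220 .nil)) .nil)) .nil)) (.cons 298 (.leaf 201 1612 (.cons 322 (.leaf 346 2005 (.leaf 297 1804 .nil)) .nil)) (.cons 224 (.leaf 250 1795 (.cons 297 (.leaf 200 1607 (.cons 322 (.leaf 298 1804 (.cons 321 (.leaf 346 1996 (.cons 344 (.leaf 320 1990 (.leaf 345 2562 .nil)) .nil)) .nil)) .nil)) .nil)) (.cons 250 (.leaf 224 1795 (.cons 201 (.leaf 177 1420 (.leaf 298 1612 .nil)) .nil)) .nil)))) .nil)) .nil)) .nil)) .nil)) .nil)))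
noncomputable def t79 : T := .cons 203 (.leaf 298 1622 (.cons 180 (.leaf 204 1437 (.cons 178 (.leaf 202 1431 (.cons 179 (.leaf 154 1239 (.leaf 156 1245 .nil)) .nil)) .nil)) .nil)) (.cons 299 (.cons 202 (.leaf 226 1623 (.cons 204 (.leaf 228 1629 (.cons 300 (.leaf 324 1820 (.cons 273 (.leaf 272 2176 (.cons 301 (.leaf 276 2184 (.leaf 302 2195 .nil)) .nil)) .nil)) .nil)) .nil)) (.cons 202 (.leaf 226 1623 (.cons 228 (.leaf 204 1629 (.cons 298 (.leaf 322 1814 (.cons 252 (.leaf 323 1821 (.cons 253 (.leaf 254 2002 (.cons 273 (.leaf 272 1985 (.leaf 276 1993 .nil)) .nil)) .nil)) .nil)) .nil)) .nil)) (.cons 202 (.leaf 226 1623 (.cons 298 (.leaf 322 1814 (.cons 300 (.leaf 324 1820 (.cons 273 (.leaf 272 2176 (.leaf 301 2187 .nil)) .nil)) .nil)) .nil)) (.cons 204 (.leaf 228 1629 (.cons 300 (.leaf 324 1820 (.cons 273 (.leaf 272 2176 (.cons 301 (.leaf 276 2184 (.leaf 302 2195 .nil)) .nil)) .nil))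 .nil)) (.cons 202 (.leaf 226 1623 (.cons 228 (.leaf 204 1629 (.cons 298 (.leaf 322 1814 (.cons 323 (.leaf 252 1821 (.cons 347 (.leaf 371 2199 (.cons 348 (.leaf 324 2012 (.leaf 372 2204 .nil)) .nil)) .nil)) .nil)) .nil)) .nil)) .nil))))) (.cons 299 (.cons 202 (.leaf 226 1623 (.cons 178 (.leaf 203 1431 (.cons 228 (.leaf 204 1629 (.cons 323 (.leaf 252 1821 (.cons 324 (.leaf 300 1820 (.leaf 348 2012 .nil)) .nil)) .nil)) .nil)) .nil)) (.cons 202 (.leaf 226 1623 (.cons 178 (.leaf 203 1431 (.cons 228 (.leaf 204 1629 (.cons 252 (.leaf 323 1821 (.cons 253 (.leaf 254 2002 (.cons 273 (.leaf 272 1985 (.leaf 276 1993 .nil)) .nil)) .nil)) .nil)) .nil)) .nil)) (.cons 202 (.leaf 226 1623 (.cons 178 (.leaf 203 1431 (.cons 300 (.leaf 324 1820 (.cons 273 (.leaf 272 2176 (.cons 301 (.leaf 276 2184 (.leaf 302 2195 .nil)) .nil)) .nil)) .nil)) .nil)) (.cons 300 (.leaf 324 1820 (.cons 203 (.leaf 276 1628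 (.cons 204 (.leaf 180 1437 (.leaf 228 1629 .nil)) .nil)) .nil)) (.cons 300 (.leaf 324 1820 (.cons 202 (.leaf 226 1623 (.cons 204 (.leaf 228 1629 (.cons 273 (.leaf 272 2176 (.cons 301 (.leaf 276 2184 (.leaf 302 2195 .nil)) .nil)) .nil)) .nil)) .nil)) .nil))))) (.cons 203 (.leaf 298 1622 (.cons 178 (.leaf 202 1431 (.cons 179 (.leaf 154 1239 (.cons 276 (.leaf 300 1628 (.leaf 252 1436 .nil)) .nil)) .nil)) .nil)) (.cons 203 (.leaf 298 1622 (.cons 180 (.leaf 204 1437 (.cons 179 (.leaf 156 1245 (.cons 276 (.leaf 300 1628 (.leaf 252 1436 .nil)) .nil)) .nil)) .nil)) .nil))))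
noncomputable def t80 : T := .cons 227 (.leaf 203 1622 (.cons 322 (.leaf 299 1814 (.leaf 346 2005 .nil)) .nil)) (.cons 227 (.leaf 203 1622 (.cons 299 (.cons 202 (.leaf 226 1623 (.cons 324 (.leaf 300 1820 (.cons 323 (.leaf 348 2012 (.cons 347 (.leaf 250 2007 (.leaf 371 2199 .nil)) .nil)) .nil)) .nil)) (.cons 204 (.leaf 228 1629 (.cons 226 (.leaf 202 1623 (.cons 250 (.leaf 323 1812 (.cons 225 (.leaf 201 1615 (.cons 224 (.leaf 223 1784 (.cons 200 (.leaf 199 1595 (.cons 248 (.leaf 247 1786 (.cons 249 (.leaf 276 1984 (.cons 176 (.leaf 152 1220 (.leaf 273 1412 .nil)) .nil)) .nil)) .nil)) .nil)) .nil)) .nil)) .nil)) .nil)) (.cons 300 (.leaf 324 1820 (.cons 273 (.leaf 272 2176 (.leaf 301 2187 .nil)) .nil)) .nil))) .nil)) (.cons 322 (.leaf 346 2005 (.cons 250 (.cons 249 (.leaf 225 1807 (.cons 248 (.leaf 247 1976 (.leaf 276 1984 .nil)) .nil)) (.cons 321 (.leaf 345 1998 (.cons 323 (.leaf 347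 2004 (.cons 299 (.leaf 226 1812 (.cons 300 (.leaf 301 2378 (.leaf 320 2369 .nil)) .nil)) .nil)) .nil)) .nil)) .nil)) (.cons 322 (.leaf 346 2005 (.cons 227 (.leaf 203 1622 (.leaf 250 1813 .nil)) .nil)) .nil)))
noncomputable def t81 : T := .cons 300 (.leaf 301 2184 (.cons 248 (.leaf 249 1987 (.cons 324 (.leaf 348 2015 (.cons 323 (.leaf 347 2014 (.cons 228 (.leaf 299 1821 (.cons 204 (.leaf 180 1438 (.cons 205 (.leaf 181 1445 (.leaf 229 1637 .nil)) .nil)) .nil)) .nil)) .nil)) .nil)) .nil)) (.cons 249 (.leaf 248 1987 (.cons 228 (.cons 180 (.leaf 204 1438 (.cons 250 (.leaf 229 1801 (.cons 225 (.leaf 224 1795 (.cons 201 (.leaf 177 1420 (.leaf 298 1612 .nil)) .nil)) .nil)) .nil)) (.cons 250 (.leaf 229 1801 (.cons 225 (.leaf 224 1795 (.cons 201 (.leaf 177 1420 (.leaf 298 1612 .nil)) .nil)) .nil)) (.cons 204 (.leaf 180 1438 (.leaf 299 1630 .nil)) .nil))) .nil)) (.cons 300 (.leaf 301 2184 (.cons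 324 (.leaf 348 2015 (.cons 323 (.leaf 347 2014 (.cons 228 (.leaf 299 1821 (.cons 204 (.leaf 180 1438 (.cons 205 (.leaf 181 1445 (.leaf 229 1637 .nil)) .nil)) .nil)) .nil)) .nil)) .nil)) (.cons 249 (.leaf 248 1987 (.cons 300 (.leaf 301 2184 (.cons 324 (.leaf 348 2015 (.cons 323 (.leaf 347 2014 (.cons 225 (.cons 224 (.leaf 250 1795 (.cons 200 (.leaf 297 1607 (.cons 176 (.leaf 201 1415 (.leaf 152 1220 .nil)) .nil)) .nil)) (.cons 201 (.leaf 298 1612 (.cons 176 (.leaf 200 1415 (.cons 177 (.leaf 152 1223 (.cons 178 (.leaf 202 1421 (.leaf 154 1229 .nil)) .nil)) .nil)) .nil)) (.cons 224 (.leaf 250 1795 (.cons 297 (.leaf 200 1607 (.cons 322 (.leaf 298 1804 (.cons 321 (.leaf 346 1996 (.cons 344 (.leaf 320 1990 (.leaf 345 2562 .nil)) .nil)) .nil)) .nil)) .nil)) (.cons 250 (.leaf 224 1795 (.cons 201 (.leaf 177 1420 (.leaf 298 1612 .nil)) .nil)) .nil)))) .nil)) .nil)) .nil)) .nil)) .nil)))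
noncomputable def t82 : T := .cons 298 (.cons 322 (.leaf 346 2005 (.cons 250 (.leaf 227 1813 (.cons 249 (.leaf 225 1807 (.cons 248 (.leaf 247 1976 (.leaf 276 1984 .nil)) .nil)) .nil)) .nil)) (.cons 322 (.leaf 346 2005 (.cons 250 (.cons 249 (.leaf 225 1807 (.cons 248 (.leaf 247 1976 (.leaf 276 1984 .nil)) .nil)) (.cons 321 (.leaf 345 1998 (.cons 323 (.leaf 347 2004 (.cons 299 (.leaf 226 1812 (.cons 300 (.leaf 301 2378 (.leaf 320 2369 .nil)) .nil)) .nil)) .nil)) .nil)) .nil)) (.cons 227 (.leaf 203 1622 (.cons 299 (.cons 228 (.leaf 204 1629 (.cons 226 (.leaf 202 1623 (.cons 252 (.leaf 323 1821 (.cons 253 (.leaf 254 2002 (.leaf 225 1800 .nil)) .nil)) .nil)) .nil)) (.cons 228 (.leaf 204 1629 (.cons 323 (.leaf 252 1821 (.cons 347 (.leaf 250 2007 (.leaf 371 2199 .nil)) .nil)) .nil)) (.cons 300 (.leaf 324 1820 (.cons 226 (.leaf 202 1623 (.cons 273 (.leaf 272 2176 (.leaf 301 2187 .nil)) .nil))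 .nil)) .nil))) .nil)) (.cons 227 (.leaf 203 1622 (.cons 322 (.leaf 299 1814 (.leaf 346 2005 .nil)) .nil)) .nil)))) (.cons 252 (.cons 273 (.leaf 272 1985 (.cons 253 (.leaf 254 2002 (.leaf 276 1993 .nil)) .nil)) (.cons 253 (.leaf 254 2002 (.cons 250 (.cons 226 (.leaf 225 1803 (.cons 202 (.leaf 178 1428 (.leaf 299 1620 .nil)) .nil)) (.cons 229 (.leaf 230 1809 (.cons 249 (.leaf 228 1801 (.cons 248 (.leaf 247 1976 (.leaf 276 1984 .nil)) .nil)) .nil)) .nil)) .nil)) (.cons 273 (.leaf 272 1985 (.cons 276 t81 .nil)) (.cons 273 (.leaf 272 1985 (.cons 253 (.leaf 254 2002 (.leaf 250 1994 .nil)) .nil)) .nil)))) (.cons 298 t80 (.cons 227 t79 (.cons 252 (.cons 273 (.leaf 272 1985 (.cons 253 (.leaf 254 2002 (.leaf 276 1993 .nil)) .nil)) (.cons 273 (.leaf 272 1985 (.cons 276 t78 .nil)) (.cons 253 (.leaf 254 2002 (.cons 250 (.cons 225 (.leaf 226 1803 (.cons 249 (.leaf 224 1795 (.cons 248 (.leaf 247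 1976 (.leaf 276 1984 .nil)) .nil)) .nil)) (.cons 229 (.leaf 230 1809 (.cons 249 (.leaf 228 1801 (.cons 248 (.leaf 247 1976 (.leaf 276 1984 .nil)) .nil)) .nil)) (.cons 226 (.leaf 225 1803 (.cons 202 (.leaf 178 1428 (.cons 177 (.leaf 201 1423 (.cons 203 (.leaf 179 1429 (.cons 298 (.leaf 227 1621 (.cons 321 (.leaf 297 1806 (.cons 322 (.leaf 346 2005 (.leaf 345 1998 .nil)) .nil)) .nil)) .nil)) .nil)) .nil)) .nil)) .nil))) .nil)) (.cons 253 (.leaf 254 2002 (.cons 273 (.leaf 272 1985 (.leaf 250 1994 .nil)) .nil)) .nil)))) (.cons 252 (.cons 253 (.leaf 254 2002 (.cons 273 (.leaf 272 1985 (.leaf 276 1993 .nil)) .nil)) (.cons 273 (.leaf 272 1985 (.cons 276 t77 .nil)) (.cons 253 (.leaf 254 2002 (.cons 250 (.cons 226 (.leaf 225 1803 (.cons 202 (.leaf 178 1428 (.leaf 299 1620 .nil)) .nil)) (.cons 229 (.leaf 230 1809 (.cons 249 (.leaf 228 1801 (.cons 248 (.leaf 247 1976 (.leaf 276 1984 .nil)) .nil))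 .nil)) .nil)) .nil)) (.cons 253 (.leaf 254 2002 (.cons 273 (.leaf 272 1985 (.leaf 250 1994 .nil)) .nil)) .nil)))) (.cons 227 t76 (.cons 227 t74 (.cons 252 t73 (.cons 252 (.cons 253 (.leaf 254 2002 (.cons 273 (.leaf 272 1985 (.leaf 276 1993 .nil)) .nil)) (.cons 253 (.leaf 254 2002 (.cons 250 (.cons 226 (.leaf 225 1803 (.cons 202 (.leaf 178 1428 (.leaf 299 1620 .nil)) .nil)) (.cons 229 (.leaf 230 1809 (.cons 249 (.leaf 228 1801 (.cons 248 (.leaf 247 1976 (.leaf 276 1984 .nil)) .nil)) .nil)) .nil)) .nil)) (.cons 273 (.leaf 272 1985 (.cons 227 t71 .nil)) (.cons 253 (.leaf 254 2002 (.cons 273 (.leaf 272 1985 (.leaf 250 1994 .nil)) .nil)) .nil)))) (.cons 298 t70 (.cons 298 (.cons 322 (.leaf 346 2005 (.cons 227 (.leaf 203 1622 (.leaf 299 1814 .nil)) .nil)) (.cons 227 (.leaf 203 1622 (.cons 299 (.cons 228 (.leaf 204 1629 (.cons 323 (.leaf 252 1821 (.cons 347 (.leaf 250 2007 (.leaf 371 2199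 .nil)) .nil)) .nil)) (.cons 300 (.leaf 324 1820 (.cons 273 (.leaf 272 2176 (.leaf 301 2187 .nil)) .nil)) .nil)) .nil)) (.cons 322 (.leaf 346 2005 (.cons 250 (.cons 249 (.leaf 225 1807 (.cons 248 (.leaf 247 1976 (.leaf 276 1984 .nil)) .nil)) (.cons 321 (.leaf 345 1998 (.cons 323 (.leaf 347 2004 (.cons 299 (.leaf 226 1812 (.cons 300 (.leaf 301 2378 (.leaf 320 2369 .nil)) .nil)) .nil)) .nil)) .nil)) .nil)) (.cons 322 (.leaf 346 2005 (.cons 227 (.leaf 203 1622 (.leaf 250 1813 .nil)) .nil)) .nil)))) (.cons 298 t69 .nil))))))))))))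
noncomputable def t83 : T := .cons 226 (.leaf 202 1620 (.cons 298 (.leaf 323 1812 (.cons 201 (.leaf 225 1615 (.cons 297 (.leaf 321 1806 (.cons 203 (.leaf 227 1621 (.cons 296 (.leaf 295 2169 (.cons 272 (.leaf 271 2171 (.cons 300 (.leaf 273 2176 (.cons 301 (.leaf 302 2195 (.cons 325 (.leaf 324 2376 (.leaf 326 2384 .nil)) .nil)) .nil)) .nil)) .nil)) .nil)) .nil)) .nil)) .nil)) .nil)) (.cons 323 (.leaf 347 2007 (.cons 251 (.cons 252 (.leaf 228 1821 (.cons 253 (.leaf 254 2002 (.leaf 273 1994 .nil)) .nil)) (.cons 322 (.leaf 346 2006 (.cons 298 (.leaf 227 1813 (.cons 321 (.leaf 345 1998 (.cons 300 (.leaf 301 2378 (.leaf 320 2369 .nil)) .nil)) .nil)) .nil)) .nil)) .nil)) (.cons 226 (.leaf 202 1620 (.cons 298 (.cons 201 (.leaf 225 1615 (.cons 297 (.leaf 321 1806 (.cons 203 (.leaf 227 1621 (.cons 296 (.leaf 295 2169 (.cons 272 (.leaf 271 2171 (.cons 300 (.leaf 273 2176 (.cons 301 (.leaf 302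 2195 (.cons 325 (.leaf 324 2376 (.leaf 326 2384 .nil)) .nil)) .nil)) .nil)) .nil)) .nil)) .nil)) .nil)) (.cons 201 (.leaf 225 1615 (.cons 297 (.leaf 321 1806 (.cons 296 (.leaf 295 2169 (.cons 272 (.leaf 271 2171 (.cons 300 (.leaf 273 2176 (.cons 301 (.leaf 302 2195 (.cons 325 (.leaf 324 2376 (.leaf 326 2384 .nil)) .nil)) .nil)) .nil)) .nil)) .nil)) .nil)) (.cons 227 (.leaf 203 1621 (.cons 251 (.leaf 322 1813 (.cons 228 (.leaf 204 1629 (.cons 229 (.leaf 249 1802 (.leaf 230 1810 .nil)) .nil)) .nil)) .nil)) .nil))) .nil)) (.cons 226 (.leaf 202 1620 (.cons 323 (.leaf 251 1815 (.leaf 347 2007 .nil)) .nil)) .nil)))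
noncomputable def t84 : T := .cons 297 (.leaf 296 2178 (.cons 252 (.leaf 253 1993 (.cons 228 (.leaf 204 1630 (.leaf 323 1822 .nil)) .nil)) .nil)) (.cons 297 (.leaf 296 2178 (.cons 250 (.cons 226 (.leaf 202 1620 (.cons 321 (.leaf 298 1806 (.leaf 345 1997 .nil)) .nil)) (.cons 321 (.leaf 345 1997 (.cons 298 (.leaf 320 2370 (.cons 324 (.leaf 325 2376 (.cons 347 (.leaf 323 2007 (.cons 348 (.leaf 251 2015 (.leaf 372 2207 .nil)) .nil)) .nil)) .nil)) .nil)) (.cons 226 (.leaf 202 1620 (.cons 323 (.leaf 251 1815 (.leaf 347 2007 .nil)) .nil)) .nil))) .nil)) (.cons 252 (.leaf 253 1993 (.cons 228 (.leaf 204 1630 (.leaf 323 1822 .nil)) .nil)) (.cons 297 (.leaf 296 2178 (.cons 252 (.leaf 253 1993 (.cons 228 (.leaf 204 1630 (.cons 229 (.leaf 205 1637 (.cons 250 (.cons 226 (.leaf 202 1620 (.cons 321 (.leaf 298 1806 (.leaf 345 1997 .nil)) .nil)) (.cons 251 (.leaf 249 1801 (.cons 230 (.leaf 231 1818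 (.cons 321 (.leaf 345 1997 (.cons 298 (.leaf 320 2370 (.cons 324 (.leaf 348 2015 (.leaf 325 2376 .nil)) .nil)) .nil)) .nil)) .nil)) (.cons 202 (.leaf 226 1620 (.cons 251 (.leaf 249 1801 (.cons 230 (.leaf 231 1818 (.cons 324 (.leaf 348 2015 (.cons 325 (.leaf 298 2376 (.leaf 349 2020 .nil)) .nil)) .nil)) .nil)) .nil)) (.cons 226 (.leaf 202 1620 (.cons 249 (.leaf 321 1805 (.leaf 251 1801 .nil)) .nil)) .nil)))) .nil)) .nil)) .nil)) .nil)) .nil)))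
noncomputable def t85 : T := .cons 226 (.leaf 202 1620 (.cons 323 (.leaf 251 1815 (.leaf 347 2007 .nil)) .nil)) (.cons 323 (.leaf 347 2007 (.cons 251 (.cons 324 (.leaf 227 1820 (.leaf 348 2012 .nil)) (.cons 322 (.leaf 346 2006 (.cons 227 (.leaf 298 1813 (.cons 203 (.leaf 276 1628 (.leaf 179 1430 .nil)) .nil)) .nil)) (.cons 322 (.leaf 346 2006 (.cons 321 (.leaf 320 2369 (.cons 345 (.leaf 297 1997 (.leaf 298 1998 .nil)) .nil)) .nil)) .nil))) .nil)) (.cons 226 (.leaf 202 1620 (.cons 298 (.cons 201 (.leaf 225 1615 (.cons 203 (.leaf 227 1621 (.cons 321 (.leaf 297 1806 (.cons 322 (.leaf 345 1998 (.cons 346 (.leaf 251 2005 (.leaf 370 2197 .nil)) .nil)) .nil)) .nil)) .nil)) (.cons 201 (.leaf 225 1615 (.cons 227 (.leaf 203 1621 (.cons 251 (.leaf 322 1813 (.leaf 324 1820 .nil)) .nil)) .nil)) (.cons 201 (.leaf 225 1615 (.cons 297 (.leaf 321 1806 (.cons 296 (.leaf 276 2177 (.leaf 295 2169 .nil))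 .nil)) .nil)) (.cons 203 (.leaf 227 1621 (.cons 321 (.leaf 297 1806 (.cons 322 (.leaf 345 1998 (.cons 346 (.leaf 251 2005 (.leaf 370 2197 .nil)) .nil)) .nil)) .nil)) .nil)))) .nil)) (.cons 226 (.leaf 202 1620 (.cons 323 (.leaf 347 2007 (.leaf 298 1812 .nil)) .nil)) .nil)))
noncomputable def t86 : T := .cons 347 (.leaf 250 2007 (.cons 371 (.leaf 298 2199 (.cons 276 (.leaf 252 2013 (.leaf 300 2205 .nil)) .nil)) .nil)) (.cons 251 (.cons 226 (.leaf 250 1815 (.cons 252 (.leaf 228 1821 (.cons 253 (.leaf 254 2002 (.cons 273 (.leaf 272 1985 (.leaf 276 1993 .nil)) .nil)) .nil)) .nil)) (.cons 228 (.leaf 252 1821 (.cons 227 (.leaf 204 1629 (.cons 324 (.leaf 300 1820 (.leaf 348 2012 .nil)) .nil)) .nil)) (.cons 226 (.leaf 250 1815 (.cons 227 (.leaf 202 1623 (.cons 324 (.leaf 300 1820 (.leaf 348 2012 .nil)) .nil)) .nil)) .nil))) (.cons 347 (.cons 371 (.leaf 298 2199 (.cons 276 (.leaf 252 2013 (.leaf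 300 2205 .nil)) .nil)) (.cons 252 (.leaf 276 2013 (.cons 251 (.leaf 228 1821 (.cons 348 (.leaf 324 2012 (.leaf 372 2204 .nil)) .nil)) .nil)) (.cons 298 (.leaf 371 2199 (.cons 346 (.leaf 370 2198 (.cons 348 (.leaf 372 2204 (.cons 324 (.leaf 251 2012 (.cons 325 (.leaf 326 2578 (.leaf 345 2569 .nil)) .nil)) .nil)) .nil)) .nil)) .nil))) (.cons 347 (.leaf 250 2007 (.cons 252 (.leaf 276 2013 (.cons 251 (.leaf 228 1821 (.cons 348 (.leaf 324 2012 (.leaf 372 2204 .nil)) .nil)) .nil)) .nil)) (.cons 347 (.leaf 250 2007 (.cons 298 (.leaf 371 2199 (.cons 346 (.leaf 370 2198 (.cons 348 (.leaf 372 2204 (.cons 324 (.leaf 251 2012 (.cons 325 (.leaf 326 2578 (.leaf 345 2569 .nil)) .nil)) .nil)) .nil)) .nil)) .nil)) .nil))))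
noncomputable def t87 : T := .cons 347 (.leaf 250 2007 (.cons 298 (.leaf 371 2199 (.cons 346 (.leaf 370 2198 (.cons 322 (.leaf 251 2005 (.cons 345 (.leaf 369 2190 (.cons 324 (.leaf 325 2570 (.leaf 344 2561 .nil)) .nil)) .nil)) .nil)) .nil)) .nil)) (.cons 251 (.cons 226 (.leaf 250 1815 (.cons 227 (.leaf 202 1623 (.cons 228 (.leaf 204 1629 (.leaf 252 1821 .nil)) .nil)) .nil)) (.cons 228 (.leaf 252 1821 (.cons 227 (.leaf 204 1629 (.cons 298 (.leaf 203 1622 (.leaf 322 1814 .nil)) .nil)) .nil)) (.cons 250 (.leaf 226 1815 (.cons 252 (.leaf 228 1821 (.cons 253 (.leaf 254 2002 (.cons 229 (.leaf 230 1809 (.cons 322 (.leaf 346 2006 (.cons 324 (.leaf 348 2012 (.cons 300 (.leaf 276 1829 (.cons 301 (.leaf 302 2386 (.leaf 321 2377 .nil)) .nil)) .nil)) .nil)) .nil)) .nil)) .nil)) .nil)) (.cons 226 (.leaf 250 1815 (.cons 227 (.leaf 202 1623 (.cons 298 (.leaf 203 1622 (.leaf 322 1814 .nil)) .nil))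 .nil)) .nil)))) (.cons 347 (.cons 298 (.leaf 371 2199 (.cons 346 (.leaf 370 2198 (.cons 322 (.leaf 251 2005 (.cons 345 (.leaf 369 2190 (.cons 324 (.leaf 325 2570 (.leaf 344 2561 .nil)) .nil)) .nil)) .nil)) .nil)) (.cons 346 (.leaf 370 2198 (.cons 251 (.leaf 322 2006 (.cons 348 (.leaf 324 2012 (.leaf 372 2204 .nil)) .nil)) .nil)) (.cons 371 (.leaf 298 2199 (.cons 276 (.leaf 252 2013 (.leaf 300 2205 .nil)) .nil)) .nil))) (.cons 347 (.leaf 250 2007 (.cons 371 (.leaf 298 2199 (.cons 276 (.leaf 252 2013 (.leaf 300 2205 .nil)) .nil)) .nil)) (.cons 347 (.leaf 250 2007 (.cons 252 (.leaf 276 2013 (.cons 370 (.leaf 346 2198 (.cons 371 (.leaf 394 2390 (.cons 372 (.leaf 348 2204 (.leaf 396 2396 .nil)) .nil)) .nil)) .nil)) .nil)) .nil))))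
noncomputable def t88 : T := .cons 273 (.leaf 272 2176 (.cons 301 (.leaf 276 2184 (.leaf 302 2195 .nil)) .nil)) (.cons 273 (.leaf 272 2176 (.cons 276 (.cons 297 (.leaf 296 2178 (.cons 324 (.cons 227 (.leaf 251 1820 (.cons 298 (.leaf 325 2376 (.cons 321 (.leaf 320 2370 (.cons 345 (.leaf 369 2189 (.cons 344 (.leaf 368 2182 (.cons 322 (.leaf 323 2562 (.cons 346 (.leaf 370 2188 (.leaf 249 1996 .nil)) .nil)) .nil)) .nil)) .nil)) .nil)) .nil)) (.cons 298 (.leaf 325 2376 (.cons 321 (.leaf 320 2370 (.cons 345 (.leaf 369 2189 (.cons 344 (.leaf 368 2182 (.cons 322 (.leaf 323 2562 (.cons 346 (.leaf 370 2188 (.leaf 249 1996 .nil)) .nil)) .nil)) .nil)) .nil)) .nil)) (.cons 251 (.leaf 227 1820 (.leaf 348 2015 .nil)) .nil))) .nil)) (.cons 252 (.leaf 253 1993 (.cons 228 (.leaf 204 1630 (.leaf 323 1822 .nil)) .nil)) (.cons 252 (.leaf 253 1993 (.cons 228 (.leaf 204 1630 (.cons 205 (.leaf 229 1637 (.cons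 227 (.leaf 203 1631 (.cons 324 (.leaf 251 1820 (.cons 296 (.leaf 297 2178 (.cons 348 (.leaf 372 2207 (.cons 349 (.leaf 325 2020 (.leaf 373 2212 .nil)) .nil)) .nil)) .nil)) .nil)) .nil)) .nil)) .nil)) .nil))) .nil)) (.cons 301 (.leaf 302 2195 (.cons 298 (.cons 321 (.leaf 322 2378 (.cons 297 (.leaf 320 2370 (.cons 296 (.leaf 295 2169 (.leaf 276 2177 .nil)) .nil)) .nil)) (.cons 325 (.leaf 326 2384 (.cons 324 (.leaf 297 2376 (.cons 251 (.leaf 227 1820 (.cons 348 (.leaf 276 2015 (.leaf 323 2012 .nil)) .nil)) .nil)) .nil)) (.cons 322 (.leaf 321 2378 (.cons 251 (.leaf 227 1814 (.leaf 346 2005 .nil)) .nil)) .nil))) .nil)) (.cons 301 (.leaf 302 2195 (.cons 273 (.leaf 272 2176 (.leaf 298 2187 .nil)) .nil)) .nil)))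
noncomputable def t89 : T := .cons 297 (.leaf 296 2178 (.cons 250 (.cons 226 (.leaf 202 1620 (.cons 321 (.leaf 298 1806 (.leaf 345 1997 .nil)) .nil)) (.cons 321 (.leaf 345 1997 (.cons 298 (.leaf 320 2370 (.cons 324 (.leaf 325 2376 (.cons 347 (.leaf 323 2007 (.cons 348 (.leaf 372 2207 (.leaf 371 2206 .nil)) .nil)) .nil)) .nil)) .nil)) (.cons 226 (.leaf 202 1620 (.cons 323 (.leaf 347 2007 (.leaf 298 1812 .nil)) .nil)) (.cons 226 (.leaf 202 1620 (.cons 321 (.leaf 345 1997 (.leaf 249 1805 .nil)) .nil)) .nil)))) .nil)) (.cons 252 (.leaf 253 1993 (.cons 228 (.leaf 204 1630 (.leaf 323 1822 .nil)) .nil)) (.cons 297 (.leaf 296 2178 (.cons 252 (.leaf 253 1993 (.cons 228 (.leaf 204 1630 (.cons 227 (.leaf 203 1631 (.cons 321 (.cons 298 (.leaf 320 2370 (.cons 226 (.leaf 250 1806 (.cons 229 (.leaf 205 1637 (.cons 201 (.leaf 202 1611 (.cons 225 (.leaf 249 1612 (.leaf 200 1603 .nil)) .nil)) .nil))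 .nil)) .nil)) (.cons 250 (.leaf 345 1997 (.cons 226 (.leaf 202 1620 (.leaf 249 1805 .nil)) .nil)) (.cons 320 (.leaf 298 2370 (.cons 344 (.leaf 249 1990 (.cons 368 (.leaf 345 2182 (.leaf 392 2373 .nil)) .nil)) .nil)) (.cons 298 (.leaf 320 2370 (.cons 250 (.leaf 226 1806 (.leaf 345 1997 .nil)) .nil)) .nil)))) .nil)) .nil)) .nil)) .nil)) .nil))
noncomputable def t90 : T := .cons 273 (.leaf 272 2176 (.cons 276 (.leaf 301 2184 (.cons 297 (.leaf 296 2178 (.cons 250 (.cons 226 (.leaf 202 1620 (.cons 321 (.leaf 298 1806 (.leaf 345 1997 .nil)) .nil)) (.cons 321 (.leaf 345 1997 (.cons 298 (.leaf 320 2370 (.cons 324 (.leaf 325 2376 (.cons 347 (.leaf 323 2007 (.cons 348 (.leaf 372 2207 (.leaf 371 2206 .nil)) .nil)) .nil)) .nil)) .nil)) (.cons 226 (.leaf 202 1620 (.cons 323 (.leaf 347 2007 (.leaf 298 1812 .nil)) .nil)) (.cons 226 (.leaf 202 1620 (.cons 321 (.leaf 345 1997 (.leaf 249 1805 .nil))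 .nil)) .nil)))) .nil)) .nil)) .nil)) (.cons 273 (.leaf 272 2176 (.cons 276 t89 .nil)) (.cons 301 (.leaf 302 2195 (.cons 298 (.cons 321 (.leaf 322 2378 (.cons 297 (.leaf 320 2370 (.cons 296 (.leaf 295 2169 (.leaf 276 2177 .nil)) .nil)) .nil)) (.cons 325 (.leaf 326 2384 (.cons 297 (.leaf 324 2376 (.cons 296 (.leaf 295 2169 (.leaf 276 2177 .nil)) .nil)) .nil)) (.cons 322 (.leaf 321 2378 (.cons 325 (.leaf 326 2384 (.cons 346 (.leaf 370 2197 (.cons 345 (.leaf 369 2190 (.cons 347 (.leaf 371 2196 (.cons 348 (.leaf 324 2569 (.cons 373 (.leaf 372 2760 (.cons 349 (.leaf 276 2215 (.leaf 374 2768 .nil)) .nil)) .nil)) .nil)) .nil)) .nil)) .nil)) .nil)) (.cons 322 (.leaf 321 2378 (.cons 325 (.leaf 326 2384 (.cons 346 (.leaf 370 2197 (.cons 345 (.leaf 369 2190 (.cons 323 (.leaf 324 2570 (.cons 347 (.leaf 250 2004 (.leaf 371 2196 .nil)) .nil)) .nil)) .nil)) .nil)) .nil)) .nil)))) .nil)) (.cons 273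 (.leaf 272 2176 (.cons 301 (.leaf 276 2184 (.leaf 302 2195 .nil)) .nil)) (.cons 301 (.leaf 302 2195 (.cons 273 (.leaf 272 2176 (.leaf 298 2187 .nil)) .nil)) .nil))))
noncomputable def t91 : T := .cons 251 (.cons 322 (.leaf 346 2006 (.cons 250 (.leaf 226 1815 (.leaf 347 2007 .nil)) .nil)) (.cons 322 (.leaf 346 2006 (.cons 324 (.leaf 348 2012 (.cons 227 (.leaf 300 1820 (.cons 228 (.leaf 204 1629 (.leaf 252 1821 .nil)) .nil)) .nil)) .nil)) (.cons 252 (.leaf 228 1821 (.cons 253 (.leaf 254 2002 (.cons 273 (.leaf 272 1985 (.leaf 276 1993 .nil)) .nil)) .nil)) .nil))) (.cons 251 (.cons 322 (.leaf 346 2006 (.cons 324 (.leaf 348 2012 (.cons 227 (.leaf 300 1820 (.cons 228 (.leaf 204 1629 (.leaf 252 1821 .nil)) .nil)) .nil)) .nil)) (.cons 322 (.leaf 346 2006 (.cons 324 (.leaf 348 2012 (.cons 227 (.leaf 300 1820 (.cons 202 (.leaf 226 1623 (.cons 203 (.leaf 178 1431 (.cons 204 (.leaf 180 1437 (.leaf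 228 1629 .nil)) .nil)) .nil)) .nil)) .nil)) .nil)) (.cons 252 (.leaf 228 1821 (.cons 253 (.leaf 254 2002 (.cons 273 (.leaf 272 1985 (.leaf 276 1993 .nil)) .nil)) .nil)) (.cons 322 (.leaf 346 2006 (.cons 324 (.leaf 348 2012 (.cons 300 (.leaf 227 1820 (.cons 301 (.leaf 302 2386 (.leaf 321 2377 .nil)) .nil)) .nil)) .nil)) .nil)))) (.cons 347 (.leaf 250 2007 (.cons 252 (.leaf 276 2013 (.cons 370 (.leaf 346 2198 (.cons 371 (.leaf 394 2390 (.cons 372 (.leaf 348 2204 (.leaf 396 2396 .nil)) .nil)) .nil)) .nil)) .nil)) (.cons 250 (.leaf 347 2007 (.cons 226 (.leaf 202 1620 (.leaf 251 1815 .nil)) .nil)) .nil)))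
noncomputable def t92 : T := .cons 323 (.leaf 347 2007 (.cons 226 (.leaf 202 1620 (.leaf 251 1815 .nil)) .nil)) (.cons 323 (.leaf 347 2007 (.cons 251 (.cons 322 (.leaf 346 2006 (.cons 298 (.leaf 227 1813 (.cons 225 (.leaf 249 1807 (.cons 321 (.leaf 345 1998 (.cons 319 (.leaf 320 2361 (.cons 324 (.leaf 348 2012 (.cons 297 (.leaf 296 2368 (.leaf 325 2379 .nil)) .nil)) .nil)) .nil)) .nil)) .nil)) .nil)) (.cons 252 (.leaf 228 1821 (.cons 253 (.leaf 254 2002 (.leaf 273 1994 .nil)) .nil)) .nil)) .nil)) (.cons 226 (.leaf 202 1620 (.cons 298 (.cons 203 (.leaf 227 1621 (.cons 321 (.leaf 297 1806 (.cons 322 (.leaf 345 1998 (.cons 346 (.leaf 251 2005 (.leaf 370 2197 .nil)) .nil)) .nil)) .nil)) (.cons 297 (.leaf 321 1806 (.cons 296 (.leaf 295 2169 (.leaf 276 2177 .nil)) .nil)) (.cons 201 (.leaf 225 1615 (.cons 227 (.leaf 203 1621 (.cons 251 (.leaf 322 1813 (.cons 228 (.leaf 204 1629 (.cons 229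 (.leaf 249 1802 (.leaf 230 1810 .nil)) .nil)) .nil)) .nil)) .nil)) .nil))) .nil)) (.cons 226 (.leaf 202 1620 (.cons 323 (.leaf 347 2007 (.leaf 298 1812 .nil)) .nil)) .nil)))
noncomputable def t93 : T := .cons 297 (.leaf 296 2178 (.cons 252 (.leaf 253 1993 (.cons 228 (.leaf 204 1630 (.cons 229 (.leaf 205 1637 (.cons 250 (.cons 226 (.leaf 202 1620 (.cons 321 (.leaf 298 1806 (.leaf 345 1997 .nil)) .nil)) (.cons 251 (.leaf 249 1801 (.cons 230 (.leaf 231 1818 (.leaf 227 1810 .nil)) .nil)) .nil)) .nil)) .nil)) .nil)) .nil)) (.cons 297 (.leaf 296 2178 (.cons 324 (.cons 298 (.leaf 325 2376 (.cons 321 (.leaf 320 2370 (.cons 250 (.leaf 226 1806 (.leaf 345 1997 .nil)) .nil)) .nil)) (.cons 251 (.leaf 227 1820 (.leaf 348 2015 .nil)) .nil)) .nil)) (.cons 252 (.leaf 253 1993 (.cons 228 (.leaf 204 1630 (.cons 205 (.leaf 229 1637 (.cons 227 (.leaf 203 1631 (.cons 251 (.leaf 324 1820 (.cons 226 (.leaf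 202 1623 (.cons 225 (.leaf 224 1792 (.cons 201 (.leaf 200 1603 (.cons 298 (.leaf 322 1814 (.leaf 250 1615 .nil)) .nil)) .nil)) .nil)) .nil)) .nil)) .nil)) .nil)) .nil)) (.cons 297 (.leaf 296 2178 (.cons 252 (.leaf 253 1993 (.cons 228 (.leaf 204 1630 (.cons 227 (.leaf 203 1631 (.cons 321 (.cons 205 (.leaf 229 1637 (.cons 250 (.leaf 345 1997 (.cons 226 (.leaf 202 1620 (.leaf 298 1806 .nil)) .nil)) .nil)) (.cons 250 (.leaf 345 1997 (.cons 226 (.leaf 202 1620 (.leaf 249 1805 .nil)) .nil)) (.cons 320 (.leaf 298 2370 (.cons 344 (.leaf 249 1990 (.cons 368 (.leaf 345 2182 (.leaf 392 2373 .nil)) .nil)) .nil)) (.cons 298 (.leaf 320 2370 (.cons 226 (.leaf 250 1806 (.cons 229 (.leaf 205 1637 (.cons 201 (.leaf 202 1611 (.cons 225 (.leaf 249 1612 (.leaf 200 1603 .nil)) .nil)) .nil)) .nil)) .nil)) .nil)))) .nil)) .nil)) .nil)) .nil)) (.cons 297 (.leaf 296 2178 (.cons 252 (.leaf 253 1993 (.cons 228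 (.leaf 204 1630 (.cons 229 (.leaf 205 1637 (.cons 250 (.cons 226 (.leaf 202 1620 (.cons 321 (.leaf 298 1806 (.leaf 345 1997 .nil)) .nil)) (.cons 251 (.leaf 249 1801 (.cons 230 (.leaf 231 1818 (.cons 321 (.leaf 345 1997 (.cons 298 (.leaf 320 2370 (.cons 324 (.leaf 348 2015 (.leaf 325 2376 .nil)) .nil)) .nil)) .nil)) .nil)) (.cons 202 (.leaf 226 1620 (.cons 251 (.leaf 249 1801 (.cons 230 (.leaf 231 1818 (.cons 324 (.leaf 348 2015 (.cons 325 (.leaf 298 2376 (.leaf 349 2020 .nil)) .nil)) .nil)) .nil)) .nil)) (.cons 226 (.leaf 202 1620 (.cons 249 (.leaf 321 1805 (.leaf 251 1801 .nil)) .nil)) .nil)))) .nil)) .nil)) .nil)) .nil)) (.cons 252 (.leaf 253 1993 (.cons 228 (.leaf 204 1630 (.cons 205 (.leaf 229 1637 (.cons 227 (.leaf 203 1631 (.cons 324 (.leaf 251 1820 (.cons 296 (.leaf 297 2178 (.cons 348 (.leaf 372 2207 (.cons 349 (.leaf 325 2020 (.leaf 373 2212 .nil)) .nil)) .nil)) .nil)) .nil))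 .nil)) .nil)) .nil)) .nil)))))
noncomputable def t94 : T := .cons 300 (.cons 301 (.leaf 302 2195 (.cons 298 (.leaf 273 2187 (.cons 322 (.leaf 321 2378 (.cons 227 (.leaf 251 1814 (.cons 325 (.leaf 326 2384 (.cons 297 (.leaf 324 2376 (.cons 296 (.leaf 295 2169 (.leaf 276 2177 .nil)) .nil)) .nil)) .nil)) .nil)) .nil)) .nil)) (.cons 301 (.leaf 302 2195 (.cons 298 (.cons 322 (.leaf 321 2378 (.cons 227 (.leaf 251 1814 (.cons 325 (.leaf 326 2384 (.cons 297 (.leaf 324 2376 (.cons 296 (.leaf 295 2169 (.leaf 276 2177 .nil)) .nil)) .nil)) .nil)) .nil)) (.cons 325 (.leaf 326 2384 (.cons 297 (.leaf 324 2376 (.cons 296 (.leaf 295 2169 (.leaf 276 2177 .nil)) .nil)) .nil)) (.cons 322 (.leaf 321 2378 (.cons 251 (.leaf 227 1814 (.leaf 346 2005 .nil)) .nil)) .nil))) .nil)) (.cons 273 (.leaf 272 2176 (.cons 276 t93 .nil)) (.cons 273 (.leaf 272 2176 (.cons 301 (.leaf 276 2184 (.leaf 302 2195 .nil)) .nil))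 (.cons 273 (.leaf 272 2176 (.cons 301 (.leaf 302 2195 (.leaf 298 2187 .nil)) .nil)) .nil))))) (.cons 250 t92 (.cons 323 t91 (.cons 300 t90 (.cons 300 t88 (.cons 323 t87 (.cons 323 t86 (.cons 300 (.cons 301 (.leaf 302 2195 (.cons 273 (.leaf 272 2176 (.leaf 276 2184 .nil)) .nil)) (.cons 273 (.leaf 272 2176 (.cons 250 t85 .nil)) (.cons 301 (.leaf 302 2195 (.cons 298 (.cons 325 (.leaf 326 2384 (.cons 324 (.leaf 297 2376 (.cons 251 (.leaf 227 1820 (.cons 348 (.leaf 276 2015 (.leaf 323 2012 .nil)) .nil)) .nil)) .nil)) (.cons 322 (.leaf 321 2378 (.cons 251 (.leaf 227 1814 (.leaf 346 2005 .nil)) .nil)) (.cons 322 (.leaf 321 2378 (.cons 325 (.leaf 326 2384 (.cons 346 (.leaf 370 2197 (.cons 345 (.leaf 369 2190 (.cons 347 (.leaf 371 2196 (.cons 348 (.leaf 324 2569 (.cons 373 (.leaf 372 2760 (.cons 349 (.leaf 276 2215 (.leaf 374 2768 .nil)) .nil)) .nil)) .nil)) .nil)) .nil)) .nil)) .nil)) .nil)))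 .nil)) (.cons 301 (.leaf 302 2195 (.cons 273 (.leaf 272 2176 (.leaf 298 2187 .nil)) .nil)) .nil)))) (.cons 300 (.cons 301 (.leaf 302 2195 (.cons 273 (.leaf 272 2176 (.leaf 276 2184 .nil)) .nil)) (.cons 301 (.leaf 302 2195 (.cons 298 (.cons 325 (.leaf 326 2384 (.cons 297 (.leaf 324 2376 (.cons 296 (.leaf 295 2169 (.leaf 276 2177 .nil)) .nil)) .nil)) (.cons 321 (.leaf 322 2378 (.cons 297 (.leaf 320 2370 (.cons 296 (.leaf 295 2169 (.leaf 276 2177 .nil)) .nil)) .nil)) (.cons 322 (.leaf 321 2378 (.cons 325 (.leaf 326 2384 (.cons 346 (.leaf 251 2005 (.leaf 370 2197 .nil)) .nil)) .nil)) .nil))) .nil)) (.cons 273 (.leaf 272 2176 (.cons 276 t84 .nil)) (.cons 301 (.leaf 302 2195 (.cons 273 (.leaf 272 2176 (.leaf 298 2187 .nil)) .nil)) .nil)))) (.cons 250 t83 (.cons 250 (.cons 323 (.leaf 347 2007 (.cons 226 (.leaf 202 1620 (.leaf 251 1815 .nil)) .nil)) (.cons 323 (.leaf 347 2007 (.cons 251 (.cons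 252 (.leaf 228 1821 (.cons 253 (.leaf 254 2002 (.leaf 273 1994 .nil)) .nil)) (.cons 324 (.leaf 348 2012 (.cons 227 (.leaf 300 1820 (.cons 203 (.leaf 298 1622 (.leaf 179 1430 .nil)) .nil)) .nil)) .nil)) .nil)) (.cons 226 (.leaf 202 1620 (.cons 298 (.cons 201 (.leaf 225 1615 (.cons 297 (.leaf 321 1806 (.cons 203 (.leaf 227 1621 (.cons 296 (.leaf 295 2169 (.leaf 276 2177 .nil)) .nil)) .nil)) .nil)) (.cons 201 (.leaf 225 1615 (.cons 297 (.leaf 321 1806 (.cons 296 (.leaf 295 2169 (.leaf 276 2177 .nil)) .nil)) .nil)) (.cons 227 (.leaf 203 1621 (.cons 251 (.leaf 322 1813 (.cons 228 (.leaf 204 1629 (.cons 229 (.leaf 249 1802 (.leaf 230 1810 .nil)) .nil)) .nil)) .nil)) .nil))) .nil)) (.cons 226 (.leaf 202 1620 (.cons 323 (.leaf 347 2007 (.leaf 298 1812 .nil)) .nil)) .nil)))) (.cons 250 (.cons 323 (.leaf 347 2007 (.cons 251 (.leaf 226 1815 (.cons 322 (.leaf 346 2006 (.cons 298 (.leaf 227 1813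 (.cons 321 (.leaf 345 1998 (.cons 300 (.leaf 301 2378 (.leaf 320 2369 .nil)) .nil)) .nil)) .nil)) .nil)) .nil)) (.cons 323 (.leaf 347 2007 (.cons 251 (.cons 322 (.leaf 346 2006 (.cons 298 (.leaf 227 1813 (.cons 321 (.leaf 345 1998 (.cons 300 (.leaf 301 2378 (.leaf 320 2369 .nil)) .nil)) .nil)) .nil)) (.cons 252 (.leaf 228 1821 (.cons 253 (.leaf 254 2002 (.leaf 273 1994 .nil)) .nil)) .nil)) .nil)) (.cons 226 (.leaf 202 1620 (.cons 298 (.cons 201 (.leaf 225 1615 (.cons 297 (.leaf 321 1806 (.cons 296 (.leaf 295 2169 (.leaf 276 2177 .nil)) .nil)) .nil)) (.cons 227 (.leaf 203 1621 (.cons 251 (.leaf 322 1813 (.cons 228 (.leaf 204 1629 (.cons 229 (.leaf 249 1802 (.leaf 230 1810 .nil)) .nil)) .nil)) .nil)) .nil)) .nil)) (.cons 226 (.leaf 202 1620 (.cons 323 (.leaf 251 1815 (.leaf 347 2007 .nil)) .nil)) (.cons 226 (.leaf 202 1620 (.cons 323 (.leaf 347 2007 (.leaf 298 1812 .nil)) .nil)) .nil)))))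 .nil)))))))))))
noncomputable def t95 : T := .cons 226 (.leaf 202 1620 (.cons 298 (.leaf 323 1812 (.cons 203 (.leaf 227 1621 (.cons 321 (.leaf 297 1806 (.cons 322 (.leaf 345 1998 (.cons 346 (.leaf 251 2005 (.leaf 370 2197 .nil)) .nil)) .nil)) .nil)) .nil)) .nil)) (.cons 226 (.leaf 202 1620 (.cons 298 (.cons 203 (.leaf 227 1621 (.cons 321 (.leaf 297 1806 (.cons 322 (.leaf 345 1998 (.cons 346 (.leaf 251 2005 (.leaf 370 2197 .nil)) .nil)) .nil)) .nil)) (.cons 201 (.leaf 225 1615 (.cons 297 (.leaf 321 1806 (.cons 296 (.leaf 295 2169 (.leaf 276 2177 .nil)) .nil)) .nil)) (.cons 201 (.leaf 225 1615 (.cons 227 (.leaf 203 1621 (.cons 251 (.leaf 322 1813 (.cons 204 (.leaf 228 1629 (.cons 300 (.leaf 324 1820 (.cons 273 (.leaf 272 2176 (.leaf 301 2187 .nil)) .nil)) .nil)) .nil)) .nil)) .nil)) .nil))) .nil)) (.cons 323 (.leaf 347 2007 (.cons 251 (.cons 322 (.leaf 346 2006 (.cons 298 (.leaf 227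 1813 (.cons 321 (.leaf 345 1998 (.cons 300 (.leaf 301 2378 (.leaf 320 2369 .nil)) .nil)) .nil)) .nil)) (.cons 252 (.leaf 228 1821 (.cons 253 (.leaf 254 2002 (.leaf 273 1994 .nil)) .nil)) .nil)) .nil)) (.cons 323 (.leaf 347 2007 (.cons 226 (.leaf 202 1620 (.leaf 251 1815 .nil)) .nil)) (.cons 226 (.leaf 202 1620 (.cons 323 (.leaf 347 2007 (.leaf 298 1812 .nil)) .nil)) .nil))))
noncomputable def t96 : T := .cons 248 (.leaf 247 1979 (.cons 249 (.leaf 276 1987 (.cons 251 (.leaf 252 1985 (.cons 250 (.leaf 271 1977 (.cons 223 (.leaf 224 1787 (.cons 227 (.leaf 228 1793 (.cons 203 (.leaf 298 1622 (.leaf 179 1430 .nil)) .nil)) .nil)) .nil)) .nil)) .nil)) .nil)) (.cons 248 (.leaf 247 1979 (.cons 249 (.leaf 276 1987 (.cons 271 (.cons 270 (.leaf 250 1969 (.leaf 269 1961 .nil)) (.cons 298 (.leaf 299 2168 (.cons 225 (.leaf 201 1612 (.cons 322 (.leaf 250 1807 (.leaf 346 1999 .nil)) .nil)) .nil))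 (.cons 269 (.leaf 270 1961 (.cons 298 (.leaf 299 2168 (.cons 225 (.leaf 201 1612 (.cons 322 (.leaf 346 1999 (.leaf 297 1804 .nil)) .nil)) .nil)) .nil)) .nil))) .nil)) .nil)) (.cons 251 (.leaf 252 1985 (.cons 271 (.leaf 250 1977 (.cons 294 (.leaf 295 2162 (.cons 270 (.leaf 293 2154 (.cons 298 (.leaf 299 2168 (.leaf 297 2160 .nil)) .nil)) .nil)) .nil)) .nil)) (.cons 296 (.leaf 295 2170 (.cons 248 (.leaf 247 1979 (.cons 251 (.leaf 252 1985 (.cons 224 (.cons 199 (.leaf 223 1599 (.cons 175 (.leaf 200 1407 (.cons 225 (.leaf 201 1605 (.cons 320 (.leaf 249 1797 (.cons 343 (.leaf 319 1982 (.cons 344 (.leaf 367 2174 (.cons 345 (.leaf 321 1988 (.leaf 369 2180 .nil)) .nil)) .nil)) .nil)) .nil)) .nil)) .nil)) (.cons 199 (.leaf 223 1599 (.cons 200 (.leaf 297 1604 (.leaf 175 1407 .nil)) .nil)) (.cons 199 (.leaf 223 1599 (.cons 201 (.leaf 225 1605 (.cons 321 (.leaf 297 1796 (.cons 320 (.leaf 345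 1988 (.cons 343 (.leaf 319 1982 (.cons 344 (.leaf 249 1989 (.leaf 367 2174 .nil)) .nil)) .nil)) .nil)) .nil)) .nil)) (.cons 297 (.leaf 276 2178 (.leaf 200 1604 .nil)) .nil)))) .nil)) .nil)) .nil)) .nil)))
noncomputable def t97 : T := .cons 247 (.leaf 248 1979 (.cons 252 (.leaf 251 1985 (.cons 271 (.leaf 246 1971 (.cons 276 (.leaf 253 1993 (.cons 297 (.leaf 296 2178 (.cons 298 (.leaf 299 2168 (.leaf 270 2160 .nil)) .nil)) .nil)) .nil)) .nil)) .nil)) (.cons 251 (.leaf 252 1985 (.cons 271 (.leaf 250 1977 (.cons 298 (.leaf 299 2168 (.cons 203 (.leaf 227 1622 (.cons 270 (.leaf 297 2160 (.cons 245 (.leaf 246 1963 (.cons 269 (.leaf 244 1955 (.cons 293 (.leaf 294 2154 (.leaf 292 2146 .nil)) .nil)) .nil)) .nil)) .nil)) .nil)) .nil)) .nil)) (.cons 248 (.leaf 247 1979 (.cons 249 (.leaf 276 1987 (.cons 271 (.cons 270 (.leaf 250 1969 (.leaf 269 1961 .nil)) (.cons 298 (.leaf 299 2168 (.cons 225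 (.leaf 201 1612 (.cons 322 (.leaf 250 1807 (.leaf 346 1999 .nil)) .nil)) .nil)) (.cons 269 (.leaf 270 1961 (.cons 298 (.leaf 299 2168 (.cons 225 (.leaf 201 1612 (.cons 322 (.leaf 346 1999 (.leaf 297 1804 .nil)) .nil)) .nil)) .nil)) .nil))) .nil)) .nil)) (.cons 248 (.leaf 247 1979 (.cons 252 (.leaf 251 1985 (.cons 276 (.leaf 249 1987 (.leaf 253 1993 .nil)) .nil)) .nil)) .nil)))
noncomputable def t98 : T := .cons 251 (.leaf 252 1985 (.cons 271 (.leaf 250 1977 (.cons 294 (.leaf 295 2162 (.cons 270 (.leaf 293 2154 (.cons 298 (.leaf 299 2168 (.leaf 297 2160 .nil)) .nil)) .nil)) .nil)) .nil)) (.cons 247 (.leaf 248 1979 (.cons 271 (.leaf 246 1971 (.cons 294 (.leaf 295 2162 (.cons 270 (.leaf 293 2154 (.cons 298 (.leaf 299 2168 (.leaf 297 2160 .nil)) .nil)) .nil)) .nil)) .nil)) (.cons 251 (.leaf 252 1985 (.cons 271 (.leaf 250 1977 (.cons 298 (.leaf 299 2168 (.cons 203 (.leaf 227 1622 (.cons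 270 (.leaf 297 2160 (.cons 245 (.leaf 246 1963 (.cons 269 (.leaf 244 1955 (.cons 293 (.leaf 294 2154 (.leaf 292 2146 .nil)) .nil)) .nil)) .nil)) .nil)) .nil)) .nil)) .nil)) (.cons 248 (.leaf 247 1979 (.cons 296 (.leaf 295 2170 (.cons 251 (.leaf 252 1985 (.cons 224 (.cons 199 (.leaf 223 1599 (.cons 175 (.leaf 200 1407 (.cons 225 (.leaf 201 1605 (.cons 320 (.leaf 249 1797 (.cons 343 (.leaf 319 1982 (.cons 344 (.leaf 367 2174 (.cons 345 (.leaf 321 1988 (.leaf 369 2180 .nil)) .nil)) .nil)) .nil)) .nil)) .nil)) .nil)) (.cons 199 (.leaf 223 1599 (.cons 200 (.leaf 297 1604 (.leaf 175 1407 .nil)) .nil)) (.cons 199 (.leaf 223 1599 (.cons 201 (.leaf 225 1605 (.cons 321 (.leaf 297 1796 (.cons 320 (.leaf 345 1988 (.cons 343 (.leaf 319 1982 (.cons 344 (.leaf 249 1989 (.leaf 367 2174 .nil)) .nil)) .nil)) .nil)) .nil)) .nil)) (.cons 297 (.leaf 200 1604 (.leaf 321 1796 .nil)) .nil)))) .nil)) .nil))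 .nil)) (.cons 251 (.leaf 252 1985 (.cons 271 (.leaf 250 1977 (.cons 295 (.leaf 296 2170 (.leaf 294 2162 .nil)) .nil)) .nil)) .nil))))
noncomputable def t99 : T := .cons 295 (.leaf 296 2170 (.cons 271 (.leaf 294 2162 (.cons 246 (.leaf 247 1971 (.cons 270 (.leaf 245 1963 (.cons 298 (.leaf 299 2168 (.leaf 297 2160 .nil)) .nil)) .nil)) .nil)) .nil)) (.cons 247 (.leaf 248 1979 (.cons 271 (.leaf 246 1971 (.cons 294 (.leaf 295 2162 (.cons 270 (.leaf 293 2154 (.cons 298 (.leaf 299 2168 (.leaf 297 2160 .nil)) .nil)) .nil)) .nil)) .nil)) (.cons 295 (.leaf 296 2170 (.cons 271 (.leaf 294 2162 (.cons 298 (.leaf 299 2168 (.cons 270 (.leaf 297 2160 (.cons 245 (.leaf 246 1963 (.cons 249 (.leaf 250 1969 (.cons 248 (.leaf 276 1987 (.leaf 269 1961 .nil)) .nil)) .nil)) .nil)) .nil)) .nil)) .nil)) (.cons 248 (.leaf 247 1979 (.cons 249 (.leaf 276 1987 (.cons 271 (.cons 270 (.leaf 250 1969 (.leaf 269 1961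 .nil)) (.cons 298 (.leaf 299 2168 (.cons 225 (.leaf 201 1612 (.cons 322 (.leaf 250 1807 (.leaf 346 1999 .nil)) .nil)) .nil)) (.cons 269 (.leaf 270 1961 (.cons 298 (.leaf 299 2168 (.cons 225 (.leaf 201 1612 (.cons 322 (.leaf 346 1999 (.leaf 297 1804 .nil)) .nil)) .nil)) .nil)) .nil))) .nil)) .nil)) (.cons 296 (.leaf 295 2170 (.cons 248 (.leaf 247 1979 (.cons 249 (.leaf 276 1987 (.cons 225 (.leaf 201 1606 (.leaf 320 1797 .nil)) .nil)) .nil)) .nil)) .nil))))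
noncomputable def t100 : T := .cons 247 (.leaf 248 1979 (.cons 252 (.leaf 251 1985 (.cons 276 (.leaf 253 1993 (.cons 271 (.leaf 246 1971 (.cons 294 (.leaf 295 2162 (.cons 270 (.leaf 293 2154 (.cons 298 (.leaf 299 2168 (.leaf 297 2160 .nil)) .nil)) .nil)) .nil)) .nil)) .nil)) .nil)) (.cons 296 (.leaf 295 2170 (.cons 247 (.leaf 248 1979 (.cons 271 (.leaf 246 1971 (.cons 199 (.leaf 223 1596 (.cons 297 (.leaf 276 2178 (.cons 270 (.leaf 298 2160 (.leaf 269 2152 .nil)) .nil)) .nil)) .nil)) .nil)) .nil)) (.cons 251 (.leaf 252 1985 (.cons 271 (.leaf 250 1977 (.cons 298 (.leaf 299 2168 (.cons 203 (.leaf 227 1622 (.cons 270 (.leaf 297 2160 (.cons 245 (.leaf 246 1963 (.cons 269 (.leaf 244 1955 (.cons 293 (.leaf 294 2154 (.leaf 292 2146 .nil)) .nil)) .nil)) .nil)) .nil)) .nil)) .nil)) .nil)) (.cons 247 (.leaf 248 1979 (.cons 252 (.leaf 251 1985 (.cons 276 (.leaf 253 1993 (.cons 296 (.leaf 295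 2170 (.leaf 297 2178 .nil)) .nil)) .nil)) .nil)) (.cons 251 (.leaf 252 1985 (.cons 271 (.leaf 250 1977 (.cons 295 (.leaf 296 2170 (.leaf 294 2162 .nil)) .nil)) .nil)) .nil))))
noncomputable def t101 : T := .cons 276 (.leaf 248 1987 (.cons 297 (.leaf 296 2178 (.cons 252 (.leaf 253 1993 (.cons 321 (.cons 226 (.leaf 250 1805 (.cons 225 (.leaf 202 1613 (.cons 298 (.leaf 201 1612 (.leaf 322 1804 .nil)) .nil)) .nil)) (.cons 322 (.leaf 346 1996 (.cons 344 (.leaf 320 1990 (.cons 345 (.leaf 368 2182 (.cons 323 (.leaf 324 2562 (.cons 299 (.leaf 347 2013 (.cons 228 (.leaf 204 1630 (.leaf 251 1821 .nil)) .nil)) .nil)) .nil)) .nil)) .nil)) (.cons 226 (.leaf 250 1805 (.cons 225 (.leaf 202 1613 (.cons 200 (.leaf 224 1607 (.cons 201 (.leaf 298 1612 (.leaf 176 1415 .nil)) .nil)) .nil)) .nil)) .nil))) .nil)) .nil)) .nil)) (.cons 298 (.cons 322 (.leaf 346 1999 (.cons 225 (.leaf 201 1612 (.leaf 250 1807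 .nil)) .nil)) (.cons 225 (.leaf 201 1612 (.cons 297 (.cons 200 (.leaf 224 1607 (.cons 226 (.leaf 202 1613 (.cons 250 (.leaf 321 1805 (.cons 227 (.leaf 203 1621 (.cons 228 (.leaf 229 1802 (.cons 204 (.leaf 205 1609 (.cons 299 (.leaf 251 1629 (.leaf 323 1812 .nil)) .nil)) .nil)) .nil)) .nil)) .nil)) .nil)) (.cons 296 (.leaf 276 2178 (.leaf 295 2169 .nil)) .nil)) .nil)) (.cons 322 (.leaf 346 1999 (.cons 250 (.cons 251 (.leaf 227 1813 (.cons 252 (.leaf 253 1994 (.cons 228 (.leaf 229 1801 (.cons 323 (.leaf 299 1821 (.leaf 347 2004 .nil)) .nil)) .nil)) .nil)) (.cons 321 (.leaf 345 1998 (.cons 226 (.leaf 297 1805 (.cons 202 (.leaf 299 1620 (.leaf 178 1422 .nil)) .nil)) .nil)) (.cons 227 (.leaf 251 1813 (.cons 226 (.leaf 203 1621 (.cons 202 (.leaf 297 1614 (.leaf 178 1422 .nil)) .nil)) .nil)) .nil))) .nil)) (.cons 322 (.leaf 346 1999 (.cons 225 (.leaf 201 1612 (.leaf 297 1804 .nil)) .nil))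 .nil)))) (.cons 298 (.cons 322 (.leaf 346 1999 (.cons 225 (.leaf 201 1612 (.leaf 250 1807 .nil)) .nil)) (.cons 225 (.leaf 201 1612 (.cons 297 (.cons 224 (.leaf 200 1607 (.cons 226 (.leaf 202 1613 (.cons 248 (.leaf 321 1799 (.cons 247 (.leaf 250 1976 (.leaf 246 1968 .nil)) .nil)) .nil)) .nil)) (.cons 296 (.leaf 295 2169 (.leaf 320 1798 .nil)) .nil)) .nil)) (.cons 322 (.leaf 346 1999 (.cons 250 (.cons 251 (.leaf 227 1813 (.cons 247 (.leaf 248 1976 (.cons 252 (.leaf 253 1994 (.cons 228 (.leaf 229 1801 (.cons 323 (.leaf 299 1821 (.leaf 347 2004 .nil)) .nil)) .nil)) .nil)) .nil)) (.cons 321 (.leaf 345 1998 (.cons 226 (.leaf 297 1805 (.cons 202 (.leaf 299 1620 (.leaf 178 1422 .nil)) .nil)) .nil)) (.cons 227 (.leaf 251 1813 (.cons 226 (.leaf 203 1621 (.cons 202 (.leaf 297 1614 (.leaf 178 1422 .nil)) .nil)) .nil)) .nil))) .nil)) (.cons 322 (.leaf 346 1999 (.cons 225 (.leaf 201 1612 (.leaf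 297 1804 .nil)) .nil)) .nil)))) (.cons 276 (.leaf 248 1987 (.cons 297 (.leaf 296 2178 (.cons 252 (.leaf 253 1993 (.cons 225 (.cons 200 (.leaf 224 1607 (.cons 322 (.leaf 298 1804 (.cons 321 (.leaf 346 1996 (.cons 344 (.leaf 320 1990 (.cons 345 (.leaf 368 2182 (.cons 323 (.leaf 324 2562 (.cons 299 (.leaf 347 2013 (.cons 228 (.leaf 204 1630 (.leaf 251 1821 .nil)) .nil)) .nil)) .nil)) .nil)) .nil)) .nil)) .nil)) (.cons 200 (.leaf 224 1607 (.cons 201 (.leaf 176 1415 (.cons 202 (.leaf 178 1421 (.leaf 226 1613 .nil)) .nil)) .nil)) (.cons 298 (.leaf 201 1612 (.leaf 322 1804 .nil)) .nil))) .nil)) .nil)) .nil)) (.cons 248 (.leaf 276 1987 (.cons 247 (.leaf 250 1976 (.leaf 246 1968 .nil)) .nil)) .nil))))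
noncomputable def t102 : T := .cons 249 t101 (.cons 272 t100 (.cons 272 t99 (.cons 272 (.cons 295 (.leaf 296 2170 (.cons 271 (.leaf 294 2162 (.cons 246 (.leaf 247 1971 (.cons 250 (.leaf 251 1977 (.cons 270 (.leaf 245 1963 (.leaf 249 1969 .nil)) .nil)) .nil)) .nil)) .nil)) (.cons 295 (.leaf 296 2170 (.cons 271 (.leaf 294 2162 (.cons 246 (.leaf 247 1971 (.cons 270 (.leaf 245 1963 (.cons 298 (.leaf 299 2168 (.leaf 297 2160 .nil)) .nil)) .nil)) .nil)) .nil)) (.cons 251 (.leaf 252 1985 (.cons 271 (.leaf 250 1977 (.cons 294 (.leaf 295 2162 (.cons 270 (.leaf 293 2154 (.cons 298 (.leaf 299 2168 (.leaf 297 2160 .nil)) .nil)) .nil)) .nil)) .nil)) (.cons 251 (.leaf 252 1985 (.cons 271 (.leaf 250 1977 (.cons 298 (.leaf 299 2168 (.cons 203 (.leaf 227 1622 (.cons 270 (.leaf 297 2160 (.cons 245 (.leaf 246 1963 (.cons 269 (.leaf 244 1955 (.cons 293 (.leaf 294 2154 (.leaf 292 2146 .nil)) .nil)) .nil))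 .nil)) .nil)) .nil)) .nil)) .nil)) (.cons 252 (.leaf 251 1985 (.cons 276 (.leaf 253 1993 (.cons 296 (.leaf 295 2170 (.leaf 297 2178 .nil)) .nil)) .nil)) .nil))))) (.cons 272 (.cons 248 (.leaf 247 1979 (.cons 249 (.leaf 276 1987 (.cons 251 (.leaf 252 1985 (.cons 250 (.leaf 271 1977 (.cons 223 (.leaf 224 1787 (.cons 227 (.leaf 228 1793 (.cons 203 (.leaf 298 1622 (.leaf 179 1430 .nil)) .nil)) .nil)) .nil)) .nil)) .nil)) .nil)) (.cons 247 (.leaf 248 1979 (.cons 271 (.leaf 246 1971 (.cons 295 (.leaf 296 2170 (.leaf 294 2162 .nil)) .nil)) .nil)) (.cons 251 (.leaf 252 1985 (.cons 271 (.leaf 250 1977 (.cons 295 (.leaf 296 2170 (.leaf 294 2162 .nil)) .nil)) .nil)) (.cons 248 (.leaf 247 1979 (.cons 249 (.leaf 276 1987 (.cons 251 (.leaf 252 1985 (.cons 296 (.leaf 295 2170 (.cons 225 (.leaf 201 1606 (.leaf 320 1797 .nil)) .nil)) .nil)) .nil)) .nil)) .nil)))) (.cons 272 t98 (.cons 272 (.cons 247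 (.leaf 248 1979 (.cons 252 (.leaf 251 1985 (.cons 276 (.leaf 253 1993 (.cons 271 (.leaf 246 1971 (.cons 294 (.leaf 295 2162 (.cons 270 (.leaf 293 2154 (.cons 298 (.leaf 299 2168 (.leaf 297 2160 .nil)) .nil)) .nil)) .nil)) .nil)) .nil)) .nil)) (.cons 296 (.leaf 295 2170 (.cons 252 (.leaf 251 1985 (.cons 276 (.leaf 253 1993 (.leaf 297 2178 .nil)) .nil)) .nil)) (.cons 248 (.leaf 247 1979 (.cons 252 (.leaf 251 1985 (.cons 276 (.leaf 249 1987 (.leaf 253 1993 .nil)) .nil)) .nil)) (.cons 247 (.leaf 248 1979 (.cons 271 (.leaf 246 1971 (.cons 294 (.leaf 295 2162 (.cons 270 (.leaf 293 2154 (.cons 298 (.leaf 299 2168 (.leaf 297 2160 .nil)) .nil)) .nil)) .nil)) .nil)) .nil)))) (.cons 272 (.cons 247 (.leaf 248 1979 (.cons 252 (.leaf 251 1985 (.cons 276 (.leaf 253 1993 (.cons 296 (.leaf 295 2170 (.leaf 297 2178 .nil)) .nil)) .nil)) .nil)) (.cons 296 (.leaf 295 2170 (.cons 252 (.leaf 251 1985 (.cons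 276 (.leaf 253 1993 (.leaf 297 2178 .nil)) .nil)) .nil)) (.cons 248 (.leaf 247 1979 (.cons 252 (.leaf 251 1985 (.cons 276 (.leaf 249 1987 (.leaf 253 1993 .nil)) .nil)) .nil)) (.cons 247 (.leaf 248 1979 (.cons 271 (.leaf 246 1971 (.cons 295 (.leaf 296 2170 (.leaf 294 2162 .nil)) .nil)) .nil)) .nil)))) (.cons 272 (.cons 251 (.leaf 252 1985 (.cons 271 (.leaf 250 1977 (.cons 294 (.leaf 295 2162 (.cons 270 (.leaf 293 2154 (.cons 298 (.leaf 299 2168 (.leaf 297 2160 .nil)) .nil)) .nil)) .nil)) .nil)) (.cons 295 (.leaf 296 2170 (.cons 271 (.leaf 294 2162 (.cons 298 (.leaf 299 2168 (.cons 270 (.leaf 297 2160 (.cons 245 (.leaf 246 1963 (.cons 249 (.leaf 250 1969 (.cons 248 (.leaf 276 1987 (.leaf 269 1961 .nil)) .nil)) .nil)) .nil)) .nil)) .nil)) .nil)) (.cons 251 (.leaf 252 1985 (.cons 271 (.leaf 250 1977 (.cons 298 (.leaf 299 2168 (.cons 203 (.leaf 227 1622 (.cons 270 (.leaf 297 2160 (.cons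 245 (.leaf 246 1963 (.cons 269 (.leaf 244 1955 (.cons 293 (.leaf 294 2154 (.leaf 292 2146 .nil)) .nil)) .nil)) .nil)) .nil)) .nil)) .nil)) .nil)) (.cons 296 (.leaf 295 2170 (.cons 252 (.leaf 251 1985 (.cons 276 (.leaf 253 1993 (.leaf 297 2178 .nil)) .nil)) .nil)) (.cons 251 (.leaf 252 1985 (.cons 271 (.leaf 250 1977 (.cons 295 (.leaf 296 2170 (.leaf 294 2162 .nil)) .nil)) .nil)) .nil))))) (.cons 272 t97 (.cons 272 t96 .nil))))))))))
noncomputable def t103 : T := .cons 299 (.leaf 300 2176 (.cons 271 (.leaf 298 2168 (.cons 250 (.leaf 251 1977 (.cons 202 (.leaf 226 1620 (.cons 270 (.leaf 249 1969 (.cons 294 (.leaf 295 2162 (.leaf 293 2154 .nil)) .nil)) .nil)) .nil)) .nil)) .nil)) (.cons 296 (.leaf 295 2170 (.cons 297 (.leaf 276 2178 (.cons 250 (.cons 271 (.leaf 251 1977 (.cons 270 (.leaf 249 1969 (.leaf 298 2160 .nil)) .nil)) (.cons 202 (.leaf 226 1614 (.cons 271 (.leaf 251 1977 (.cons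 270 (.leaf 298 2160 (.leaf 269 2152 .nil)) .nil)) .nil)) (.cons 321 (.leaf 345 1997 (.cons 226 (.leaf 202 1614 (.leaf 298 1806 .nil)) .nil)) (.cons 271 (.leaf 251 1977 (.cons 270 (.leaf 249 1969 (.leaf 269 2152 .nil)) .nil)) .nil)))) .nil)) .nil)) (.cons 299 (.leaf 300 2176 (.cons 271 (.leaf 298 2168 (.cons 250 (.leaf 251 1977 (.cons 202 (.leaf 226 1620 (.cons 270 (.leaf 249 1969 (.cons 245 (.leaf 246 1963 (.cons 269 (.leaf 244 1955 (.cons 293 (.leaf 294 2154 (.leaf 292 2146 .nil)) .nil)) .nil)) .nil)) .nil)) .nil)) .nil)) .nil)) (.cons 296 (.leaf 295 2170 (.cons 276 (.leaf 297 2178 (.cons 300 (.leaf 299 2176 (.leaf 301 2184 .nil)) .nil)) .nil)) .nil)))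
noncomputable def t104 : T := .cons 299 (.leaf 300 2176 (.cons 247 (.leaf 248 1979 (.cons 271 (.leaf 246 1971 (.leaf 298 2168 .nil)) .nil)) .nil)) (.cons 247 (.leaf 248 1979 (.cons 271 (.leaf 246 1971 (.cons 250 (.leaf 251 1977 (.cons 270 (.leaf 249 1969 (.cons 294 (.leaf 295 2162 (.leaf 293 2154 .nil)) .nil)) .nil)) .nil)) .nil)) (.cons 299 (.leaf 300 2176 (.cons 271 (.leaf 298 2168 (.cons 246 (.leaf 247 1971 (.cons 270 (.leaf 245 1963 (.cons 294 (.leaf 295 2162 (.leaf 293 2154 .nil)) .nil)) .nil)) .nil)) .nil)) (.cons 299 (.leaf 300 2176 (.cons 271 (.leaf 298 2168 (.cons 250 (.leaf 251 1977 (.cons 202 (.leaf 226 1620 (.cons 270 (.leaf 249 1969 (.cons 294 (.leaf 295 2162 (.leaf 293 2154 .nil)) .nil)) .nil)) .nil)) .nil)) .nil)) (.cons 248 (.leaf 247 1979 (.cons 296 (.leaf 295 2170 (.cons 299 (.leaf 300 2176 (.cons 224 (.cons 199 (.leaf 223 1599 (.cons 175 (.leaf 200 1407 (.cons 225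 (.leaf 201 1605 (.cons 320 (.leaf 249 1797 (.cons 343 (.leaf 319 1982 (.cons 344 (.leaf 367 2174 (.cons 345 (.leaf 321 1988 (.leaf 369 2180 .nil)) .nil)) .nil)) .nil)) .nil)) .nil)) .nil)) (.cons 199 (.leaf 223 1599 (.cons 201 (.leaf 225 1605 (.cons 321 (.leaf 297 1796 (.cons 320 (.leaf 345 1988 (.cons 319 (.leaf 343 1982 (.cons 322 (.leaf 298 2361 (.cons 347 (.leaf 346 2552 (.cons 323 (.leaf 250 2007 (.leaf 348 2560 .nil)) .nil)) .nil)) .nil)) .nil)) .nil)) .nil)) .nil)) (.cons 199 (.leaf 223 1599 (.cons 200 (.leaf 297 1604 (.leaf 175 1407 .nil)) .nil)) (.cons 297 (.leaf 200 1604 (.leaf 321 1796 .nil)) .nil)))) .nil)) .nil)) .nil)) .nil))))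
noncomputable def t105 : T := .cons 272 (.cons 296 (.leaf 295 2170 (.cons 276 (.leaf 297 2178 (.cons 300 (.leaf 299 2176 (.leaf 301 2184 .nil)) .nil)) .nil)) (.cons 295 (.leaf 296 2170 (.cons 271 (.leaf 294 2162 (.cons 246 (.leaf 247 1971 (.cons 250 (.leaf 251 1977 (.cons 270 (.leaf 245 1963 (.leaf 249 1969 .nil)) .nil)) .nil)) .nil)) .nil)) (.cons 299 (.leaf 300 2176 (.cons 271 (.leaf 298 2168 (.cons 246 (.leaf 247 1971 (.cons 270 (.leaf 245 1963 (.cons 294 (.leaf 295 2162 (.leaf 293 2154 .nil)) .nil)) .nil)) .nil)) .nil)) (.cons 299 (.leaf 300 2176 (.cons 271 (.leaf 298 2168 (.cons 246 (.leaf 247 1971 (.cons 250 (.leaf 251 1977 (.cons 270 (.leaf 245 1963 (.leaf 249 1969 .nil)) .nil)) .nil)) .nil)) .nil)) .nil)))) (.cons 272 (.cons 248 (.leaf 247 1979 (.cons 276 (.leaf 249 1987 (.cons 300 (.leaf 299 2176 (.leaf 301 2184 .nil)) .nil)) .nil)) (.cons 247 (.leaf 248 1979 (.cons 271 (.leaf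 246 1971 (.cons 250 (.leaf 251 1977 (.cons 270 (.leaf 249 1969 (.cons 294 (.leaf 295 2162 (.leaf 293 2154 .nil)) .nil)) .nil)) .nil)) .nil)) (.cons 299 (.leaf 300 2176 (.cons 271 (.leaf 298 2168 (.cons 246 (.leaf 247 1971 (.cons 270 (.leaf 245 1963 (.cons 294 (.leaf 295 2162 (.leaf 293 2154 .nil)) .nil)) .nil)) .nil)) .nil)) (.cons 299 (.leaf 300 2176 (.cons 271 (.leaf 298 2168 (.cons 250 (.leaf 251 1977 (.cons 202 (.leaf 226 1620 (.cons 270 (.leaf 249 1969 (.cons 294 (.leaf 295 2162 (.leaf 293 2154 .nil)) .nil)) .nil)) .nil)) .nil)) .nil)) .nil)))) (.cons 272 (.cons 247 (.leaf 248 1979 (.cons 271 (.leaf 246 1971 (.cons 295 (.leaf 296 2170 (.leaf 294 2162 .nil)) .nil)) .nil)) (.cons 299 (.leaf 300 2176 (.cons 247 (.leaf 248 1979 (.cons 271 (.leaf 246 1971 (.leaf 298 2168 .nil)) .nil)) .nil)) (.cons 295 (.leaf 296 2170 (.cons 271 (.leaf 294 2162 (.cons 299 (.leaf 300 2176 (.leaf 298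 2168 .nil)) .nil)) .nil)) (.cons 247 (.leaf 248 1979 (.cons 296 (.leaf 295 2170 (.cons 276 (.leaf 297 2178 (.cons 300 (.leaf 299 2176 (.leaf 301 2184 .nil)) .nil)) .nil)) .nil)) .nil)))) (.cons 272 t104 (.cons 272 (.cons 295 (.leaf 296 2170 (.cons 271 (.leaf 294 2162 (.cons 250 (.leaf 251 1977 (.cons 246 (.leaf 247 1971 (.cons 270 (.leaf 245 1963 (.leaf 249 1969 .nil)) .nil)) .nil)) .nil)) .nil)) (.cons 248 (.leaf 247 1979 (.cons 276 (.leaf 249 1987 (.cons 300 (.leaf 299 2176 (.leaf 301 2184 .nil)) .nil)) .nil)) (.cons 296 (.leaf 295 2170 (.cons 276 (.leaf 297 2178 (.cons 300 (.leaf 299 2176 (.leaf 301 2184 .nil)) .nil)) .nil)) .nil))) (.cons 272 t103 (.cons 272 (.cons 247 (.leaf 248 1979 (.cons 271 (.leaf 246 1971 (.cons 299 (.leaf 300 2176 (.leaf 298 2168 .nil)) .nil)) .nil)) (.cons 299 (.leaf 300 2176 (.cons 271 (.leaf 298 2168 (.cons 246 (.leaf 247 1971 (.cons 250 (.leaf 251 1977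 (.cons 270 (.leaf 245 1963 (.leaf 249 1969 .nil)) .nil)) .nil)) .nil)) .nil)) (.cons 247 (.leaf 248 1979 (.cons 271 (.leaf 246 1971 (.cons 250 (.leaf 251 1977 (.cons 270 (.leaf 249 1969 (.cons 293 (.leaf 294 2154 (.cons 269 (.leaf 292 2146 (.cons 297 (.leaf 298 2160 (.leaf 296 2152 .nil)) .nil)) .nil)) .nil)) .nil)) .nil)) .nil)) (.cons 299 (.leaf 300 2176 (.cons 271 (.leaf 298 2168 (.cons 250 (.leaf 251 1977 (.cons 202 (.leaf 226 1620 (.cons 270 (.leaf 249 1969 (.cons 245 (.leaf 246 1963 (.cons 269 (.leaf 244 1955 (.cons 293 (.leaf 294 2154 (.leaf 292 2146 .nil)) .nil)) .nil)) .nil)) .nil)) .nil)) .nil)) .nil)) (.cons 248 (.leaf 247 1979 (.cons 276 (.leaf 249 1987 (.cons 300 (.leaf 299 2176 (.leaf 301 2184 .nil)) .nil)) .nil)) .nil))))) (.cons 272 (.cons 248 (.leaf 247 1979 (.cons 276 (.leaf 249 1987 (.cons 296 (.leaf 295 2170 (.leaf 297 2178 .nil)) .nil)) .nil)) (.cons 248 (.leaf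 247 1979 (.cons 276 (.leaf 249 1987 (.cons 300 (.leaf 299 2176 (.leaf 301 2184 .nil)) .nil)) .nil)) (.cons 295 (.leaf 296 2170 (.cons 271 (.leaf 294 2162 (.cons 299 (.leaf 300 2176 (.leaf 298 2168 .nil)) .nil)) .nil)) .nil))) (.cons 272 (.cons 247 (.leaf 248 1979 (.cons 271 (.leaf 246 1971 (.cons 299 (.leaf 300 2176 (.leaf 298 2168 .nil)) .nil)) .nil)) (.cons 296 (.leaf 295 2170 (.cons 276 (.leaf 297 2178 (.cons 300 (.leaf 299 2176 (.leaf 301 2184 .nil)) .nil)) .nil)) (.cons 248 (.leaf 247 1979 (.cons 249 (.leaf 276 1987 (.cons 296 (.leaf 295 2170 (.cons 225 (.leaf 201 1606 (.leaf 320 1797 .nil)) .nil)) .nil)) .nil)) .nil))) .nil))))))))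
noncomputable def t106 : T := .cons 296 (.leaf 295 2170 (.cons 247 (.leaf 248 1979 (.cons 271 (.leaf 246 1971 (.cons 199 (.leaf 223 1596 (.cons 297 (.leaf 276 2178 (.cons 270 (.leaf 298 2160 (.leaf 269 2152 .nil)) .nil)) .nil)) .nil)) .nil)) .nil)) (.cons 295 (.leaf 296 2170 (.cons 271 (.leaf 294 2162 (.cons 246 (.leaf 247 1971 (.cons 250 (.leaf 251 1977 (.cons 270 (.leaf 245 1963 (.leaf 249 1969 .nil)) .nil)) .nil)) .nil)) .nil)) (.cons 247 (.leaf 248 1979 (.cons 271 (.leaf 246 1971 (.cons 250 (.leaf 251 1977 (.cons 270 (.leaf 249 1969 (.cons 294 (.leaf 295 2162 (.leaf 293 2154 .nil)) .nil)) .nil)) .nil)) .nil)) (.cons 296 (.leaf 295 2170 (.cons 297 (.leaf 276 2178 (.cons 250 (.cons 271 (.leaf 251 1977 (.cons 270 (.leaf 249 1969 (.leaf 298 2160 .nil)) .nil)) (.cons 202 (.leaf 226 1614 (.cons 271 (.leaf 251 1977 (.cons 270 (.leaf 298 2160 (.leaf 269 2152 .nil)) .nil)) .nil)) (.cons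 321 (.leaf 345 1997 (.cons 226 (.leaf 202 1614 (.leaf 298 1806 .nil)) .nil)) (.cons 271 (.leaf 251 1977 (.cons 270 (.leaf 249 1969 (.leaf 269 2152 .nil)) .nil)) .nil)))) .nil)) .nil)) (.cons 247 (.leaf 248 1979 (.cons 271 (.leaf 246 1971 (.cons 250 (.leaf 251 1977 (.cons 270 (.leaf 249 1969 (.cons 293 (.leaf 294 2154 (.cons 269 (.leaf 292 2146 (.cons 297 (.leaf 298 2160 (.leaf 296 2152 .nil)) .nil)) .nil)) .nil)) .nil)) .nil)) .nil)) (.cons 248 (.leaf 247 1979 (.cons 249 (.leaf 276 1987 (.cons 296 (.leaf 295 2170 (.cons 225 (.leaf 201 1606 (.leaf 320 1797 .nil)) .nil)) .nil)) .nil)) .nil)))))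
noncomputable def t107 : T := .cons 225 (.leaf 201 1612 (.cons 322 (.leaf 250 1807 (.leaf 346 1999 .nil)) .nil)) (.cons 225 (.leaf 201 1612 (.cons 297 (.cons 224 (.leaf 200 1607 (.cons 226 (.leaf 202 1613 (.cons 248 (.leaf 321 1799 (.cons 247 (.leaf 250 1976 (.leaf 246 1968 .nil)) .nil)) .nil)) .nil)) (.cons 296 (.leaf 295 2169 (.leaf 320 1798 .nil)) .nil)) .nil)) (.cons 322 (.leaf 346 1999 (.cons 250 (.cons 227 (.leaf 251 1813 (.cons 226 (.leaf 203 1621 (.cons 202 (.leaf 299 1620 (.leaf 297 1614 .nil)) .nil)) .nil)) (.cons 227 (.leaf 251 1813 (.cons 248 (.leaf 247 1976 (.cons 321 (.leaf 345 1998 (.cons 297 (.leaf 224 1799 (.cons 295 (.leaf 296 2169 (.cons 320 (.leaf 344 1990 (.cons 319 (.leaf 318 2353 (.leaf 299 2361 .nil)) .nil)) .nil)) .nil)) .nil)) .nil)) .nil)) (.cons 321 (.leaf 345 1998 (.cons 226 (.leaf 297 1805 (.cons 202 (.leaf 299 1620 (.leaf 178 1422 .nil)) .nil)) .nil))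 (.cons 227 (.leaf 251 1813 (.cons 226 (.leaf 203 1621 (.cons 202 (.leaf 299 1620 (.leaf 178 1422 .nil)) .nil)) .nil)) (.cons 227 (.leaf 251 1813 (.cons 226 (.leaf 203 1621 (.cons 202 (.leaf 297 1614 (.leaf 178 1422 .nil)) .nil)) .nil)) .nil))))) .nil)) (.cons 322 (.leaf 346 1999 (.cons 225 (.leaf 201 1612 (.leaf 297 1804 .nil)) .nil)) .nil)))
noncomputable def t108 : T := .cons 296 (.leaf 276 2178 (.cons 225 (.leaf 320 1798 (.cons 200 (.leaf 224 1607 (.cons 201 (.leaf 298 1612 (.leaf 176 1415 .nil)) .nil)) .nil)) .nil)) (.cons 225 (.cons 200 (.leaf 224 1607 (.cons 226 (.leaf 202 1613 (.cons 321 (.leaf 250 1805 (.cons 344 (.leaf 320 1990 (.cons 345 (.leaf 368 2182 (.cons 369 (.leaf 298 2189 (.cons 370 (.leaf 346 2188 (.leaf 394 2380 .nil)) .nil)) .nil)) .nil)) .nil)) .nil)) .nil)) (.cons 200 (.leaf 224 1607 (.cons 226 (.leaf 202 1613 (.cons 321 (.leaf 250 1805 (.cons 344 (.leaf 320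 1990 (.cons 345 (.leaf 368 2182 (.cons 346 (.leaf 322 1996 (.leaf 370 2188 .nil)) .nil)) .nil)) .nil)) .nil)) .nil)) (.cons 200 (.leaf 224 1607 (.cons 322 (.leaf 298 1804 (.cons 321 (.leaf 346 1996 (.cons 344 (.leaf 320 1990 (.cons 345 (.leaf 250 1997 (.leaf 368 2182 .nil)) .nil)) .nil)) .nil)) .nil)) (.cons 298 (.leaf 201 1612 (.leaf 322 1804 .nil)) .nil)))) (.cons 296 (.leaf 276 2178 (.cons 225 (.leaf 320 1798 (.cons 200 (.leaf 224 1607 (.cons 201 (.leaf 176 1415 (.cons 202 (.leaf 178 1421 (.leaf 226 1613 .nil)) .nil)) .nil)) .nil)) .nil)) (.cons 296 (.leaf 276 2178 (.cons 295 (.leaf 298 2169 (.leaf 294 2161 .nil)) .nil)) .nil)))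
noncomputable def t109 : T := .cons 298 (.cons 322 (.leaf 346 1999 (.cons 225 (.leaf 201 1612 (.leaf 250 1807 .nil)) .nil)) (.cons 248 (.leaf 276 1987 (.cons 247 (.leaf 250 1976 (.leaf 246 1968 .nil)) .nil)) (.cons 322 (.leaf 346 1999 (.cons 225 (.leaf 201 1612 (.leaf 297 1804 .nil)) .nil)) .nil))) (.cons 297 t108 (.cons 298 t107 (.cons 248 (.leaf 276 1987 (.cons 247 (.leaf 250 1976 (.leaf 246 1968 .nil)) .nil)) (.cons 276 (.leaf 248 1987 (.cons 297 (.leaf 296 2178 (.cons 300 (.leaf 301 2184 (.cons 225 (.cons 200 (.leaf 224 1607 (.cons 201 (.leaf 298 1612 (.leaf 176 1415 .nil)) .nil)) (.cons 200 (.leaf 224 1607 (.cons 201 (.leaf 176 1415 (.cons 202 (.leaf 178 1421 (.leaf 226 1613 .nil)) .nil)) .nil)) (.cons 200 (.leaf 224 1607 (.cons 202 (.leaf 226 1613 (.cons 322 (.leaf 298 1804 (.cons 321 (.leaf 346 1996 (.cons 320 (.leaf 344 1990 (.cons 323 (.leaf 299 2369 (.cons 348 (.leaf 347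 2560 (.cons 324 (.leaf 251 2015 (.leaf 349 2568 .nil)) .nil)) .nil)) .nil)) .nil)) .nil)) .nil)) .nil)) (.cons 298 (.leaf 201 1612 (.leaf 322 1804 .nil)) .nil)))) .nil)) .nil)) .nil)) .nil))))
noncomputable def t110 : T := .cons 226 (.leaf 202 1620 (.cons 323 (.leaf 251 1815 (.leaf 347 2007 .nil)) .nil)) (.cons 226 (.leaf 202 1620 (.cons 298 (.cons 297 (.leaf 321 1806 (.cons 296 (.leaf 295 2169 (.cons 272 (.leaf 271 2171 (.cons 273 (.leaf 300 2176 (.cons 247 (.leaf 248 1979 (.cons 251 (.leaf 252 1985 (.cons 320 (.leaf 319 2362 (.cons 344 (.leaf 368 2181 (.leaf 249 1989 .nil)) .nil)) .nil)) .nil)) .nil)) .nil)) .nil)) .nil)) (.cons 227 (.leaf 203 1621 (.cons 251 (.leaf 322 1813 (.cons 228 (.leaf 204 1629 (.cons 229 (.leaf 249 1802 (.leaf 230 1810 .nil)) .nil)) .nil)) .nil)) (.cons 203 (.leaf 227 1621 (.cons 297 (.leaf 321 1806 (.cons 296 (.leaf 295 2169 (.cons 272 (.leaf 271 2171 (.cons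 273 (.leaf 300 2176 (.cons 248 (.leaf 247 1979 (.cons 224 (.leaf 200 1604 (.cons 320 (.leaf 319 2362 (.cons 344 (.leaf 368 2181 (.leaf 249 1989 .nil)) .nil)) .nil)) .nil)) .nil)) .nil)) .nil)) .nil)) .nil)) (.cons 203 (.leaf 227 1621 (.cons 321 (.leaf 297 1806 (.cons 322 (.leaf 345 1998 (.cons 346 (.leaf 251 2005 (.leaf 370 2197 .nil)) .nil)) .nil)) .nil)) .nil)))) .nil)) (.cons 323 (.leaf 347 2007 (.cons 251 (.cons 252 (.leaf 228 1821 (.cons 253 (.leaf 254 2002 (.leaf 273 1994 .nil)) .nil)) (.cons 324 (.leaf 348 2012 (.cons 227 (.leaf 300 1820 (.cons 203 (.leaf 298 1622 (.leaf 179 1430 .nil)) .nil)) .nil)) .nil)) .nil)) (.cons 226 (.leaf 202 1620 (.cons 323 (.leaf 347 2007 (.leaf 298 1812 .nil)) .nil)) .nil)))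
noncomputable def t111 : T := .cons 225 (.leaf 201 1615 (.cons 322 (.leaf 249 1807 (.cons 203 (.leaf 227 1621 (.cons 345 (.leaf 321 1998 (.cons 346 (.leaf 251 2005 (.leaf 370 2197 .nil)) .nil)) .nil)) .nil)) .nil)) (.cons 225 (.leaf 201 1615 (.cons 322 (.leaf 249 1807 (.cons 346 (.leaf 251 2005 (.leaf 370 2197 .nil)) .nil)) .nil)) (.cons 227 (.leaf 203 1621 (.cons 225 (.leaf 201 1615 (.cons 251 (.cons 224 (.leaf 223 1784 (.leaf 252 1792 .nil)) (.cons 204 (.leaf 228 1629 (.cons 223 (.leaf 224 1784 (.cons 300 (.leaf 324 1820 (.cons 273 (.leaf 272 2176 (.leaf 301 2187 .nil)) .nil)) .nil)) .nil)) (.cons 204 (.leaf 228 1629 (.cons 252 (.leaf 253 1803 (.cons 273 (.leaf 272 1985 (.cons 300 (.leaf 324 1820 (.leaf 301 2187 .nil)) .nil)) .nil)) .nil)) .nil))) .nil)) .nil)) (.cons 227 (.leaf 203 1621 (.cons 251 (.leaf 322 1813 (.cons 228 (.leaf 204 1629 (.cons 229 (.leaf 249 1802 (.leaf 230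 1810 .nil)) .nil)) .nil)) .nil)) (.cons 225 (.leaf 201 1615 (.cons 227 (.leaf 203 1621 (.cons 249 (.leaf 322 1807 (.cons 248 (.leaf 247 1976 (.leaf 228 1794 .nil)) .nil)) .nil)) .nil)) .nil))))
noncomputable def t112 : T := .leaf 202 1620 (.cons 298 (.cons 297 (.leaf 321 1806 (.cons 296 (.leaf 295 2169 (.cons 272 (.leaf 271 2171 (.cons 273 (.leaf 300 2176 (.cons 247 (.leaf 248 1979 (.cons 251 (.leaf 252 1985 (.cons 320 (.leaf 319 2362 (.cons 344 (.leaf 368 2181 (.leaf 249 1989 .nil)) .nil)) .nil)) .nil)) .nil)) .nil)) .nil)) .nil)) (.cons 225 (.leaf 201 1615 (.cons 322 (.leaf 249 1807 (.cons 346 (.leaf 251 2005 (.leaf 370 2197 .nil)) .nil)) .nil)) (.cons 201 (.leaf 225 1615 (.cons 297 (.leaf 321 1806 (.cons 296 (.leaf 295 2169 (.cons 272 (.leaf 271 2171 (.cons 273 (.leaf 300 2176 (.cons 248 (.leaf 247 1979 (.cons 224 (.leaf 200 1604 (.cons 320 (.leaf 319 2362 (.cons 344 (.leaf 368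 2181 (.leaf 249 1989 .nil)) .nil)) .nil)) .nil)) .nil)) .nil)) .nil)) .nil)) .nil)) (.cons 201 (.leaf 225 1615 (.cons 297 (.leaf 321 1806 (.cons 296 (.leaf 295 2169 (.cons 272 (.leaf 271 2171 (.cons 300 (.leaf 273 2176 (.cons 301 (.leaf 302 2195 (.cons 325 (.leaf 324 2376 (.leaf 326 2384 .nil)) .nil)) .nil)) .nil)) .nil)) .nil)) .nil)) .nil)))) .nil)
noncomputable def t113 : T := .cons 201 (.leaf 225 1615 (.cons 323 (.leaf 299 1812 (.cons 322 (.leaf 347 2004 (.cons 346 (.leaf 251 2005 (.cons 273 (.leaf 249 1999 (.cons 369 (.leaf 345 2190 (.cons 370 (.leaf 297 2191 (.leaf 393 2382 .nil)) .nil)) .nil)) .nil)) .nil)) .nil)) .nil)) (.cons 225 (.leaf 201 1615 (.cons 321 (.leaf 297 1806 (.cons 322 (.leaf 249 1807 (.leaf 345 1998 .nil)) .nil)) .nil)) (.cons 323 (.leaf 299 1812 (.cons 201 (.leaf 225 1615 (.cons 322 (.leaf 347 2004 (.cons 345 (.leaf 321 1998 (.cons 346 (.leaf 251 2005 (.leaf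 369 2190 .nil)) .nil)) .nil)) .nil)) .nil)) (.cons 323 (.leaf 299 1812 (.cons 297 (.leaf 321 1806 (.cons 295 (.leaf 296 2169 (.cons 322 (.leaf 347 2004 (.cons 324 (.leaf 325 2379 (.cons 346 (.leaf 251 2005 (.cons 273 (.leaf 249 1999 (.leaf 370 2191 .nil)) .nil)) .nil)) .nil)) .nil)) .nil)) .nil)) (.cons 299 (.leaf 323 1812 (.cons 201 (.leaf 225 1615 (.cons 297 (.leaf 321 1806 (.cons 296 (.leaf 295 2169 (.cons 272 (.leaf 271 2171 (.cons 273 (.leaf 300 2176 (.cons 247 (.leaf 248 1979 (.cons 251 (.leaf 252 1985 (.cons 320 (.leaf 319 2362 (.cons 344 (.leaf 368 2181 (.leaf 249 1989 .nil)) .nil)) .nil)) .nil)) .nil)) .nil)) .nil)) .nil)) .nil)) .nil)) .nil))))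
noncomputable def t114 : T := .cons 202 (.leaf 299 1620 (.cons 179 (.leaf 203 1429 (.cons 201 (.leaf 177 1423 (.cons 178 (.leaf 251 1428 (.leaf 155 1237 .nil)) .nil)) .nil)) .nil)) (.cons 298 t113 (.cons 202 (.cons 179 (.leaf 203 1429 (.cons 201 (.leaf 177 1423 (.cons 178 (.leaf 251 1428 (.leaf 155 1237 .nil)) .nil)) .nil)) (.cons 179 (.leaf 203 1429 (.cons 201 (.leaf 177 1423 (.cons 298 (.leaf 225 1615 (.cons 321 (.leaf 297 1806 (.cons 322 (.leaf 345 1998 (.cons 346 (.leaf 251 2005 (.cons 347 (.leaf 323 2004 (.leaf 371 2196 .nil)) .nil)) .nil)) .nil)) .nil)) .nil)) .nil)) (.cons 178 (.leaf 251 1428 (.cons 179 (.leaf 203 1429 (.leaf 155 1237 .nil)) .nil)) (.cons 177 (.leaf 201 1423 (.cons 178 (.leaf 153 1231 (.cons 179 (.leaf 203 1429 (.leaf 155 1237 .nil)) .nil)) .nil)) (.cons 178 (.leaf 251 1428 (.cons 177 (.leaf 201 1423 (.leaf 153 1231 .nil)) .nil)) .nil))))) (.cons 202 (.leaf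 299 1620 (.cons 177 (.leaf 201 1423 (.cons 178 (.leaf 153 1231 (.cons 179 (.leaf 203 1429 (.leaf 155 1237 .nil)) .nil)) .nil)) .nil)) (.cons 202 (.leaf 299 1620 (.cons 178 (.leaf 251 1428 (.cons 179 (.leaf 203 1429 (.leaf 155 1237 .nil)) .nil)) .nil)) .nil))))
noncomputable def t115 : T := .cons 203 (.leaf 227 1621 (.cons 297 (.leaf 321 1806 (.cons 296 (.leaf 295 2169 (.cons 272 (.leaf 271 2171 (.cons 273 (.leaf 300 2176 (.cons 248 (.leaf 247 1979 (.cons 224 (.leaf 200 1604 (.cons 320 (.leaf 319 2362 (.cons 344 (.leaf 368 2181 (.leaf 249 1989 .nil)) .nil)) .nil)) .nil)) .nil)) .nil)) .nil)) .nil)) .nil)) (.cons 201 (.leaf 225 1615 (.cons 297 (.leaf 321 1806 (.cons 296 (.leaf 295 2169 (.cons 272 (.leaf 271 2171 (.cons 273 (.leaf 300 2176 (.cons 247 (.leaf 248 1979 (.cons 251 (.leaf 252 1985 (.cons 320 (.leaf 319 2362 (.cons 344 (.leaf 368 2181 (.leaf 249 1989 .nil)) .nil)) .nil)) .nil))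 .nil)) .nil)) .nil)) .nil)) .nil)) (.cons 227 (.leaf 203 1621 (.cons 225 (.leaf 201 1615 (.cons 251 (.cons 224 (.leaf 223 1784 (.leaf 252 1792 .nil)) (.cons 204 (.leaf 228 1629 (.cons 223 (.leaf 224 1784 (.cons 300 (.leaf 324 1820 (.cons 273 (.leaf 272 2176 (.leaf 301 2187 .nil)) .nil)) .nil)) .nil)) (.cons 204 (.leaf 228 1629 (.cons 252 (.leaf 253 1803 (.cons 273 (.leaf 272 1985 (.cons 300 (.leaf 324 1820 (.leaf 301 2187 .nil)) .nil)) .nil)) .nil)) .nil))) .nil)) .nil)) (.cons 227 (.leaf 203 1621 (.cons 225 (.leaf 201 1615 (.cons 297 (.leaf 321 1806 (.cons 296 (.leaf 295 2169 (.cons 251 (.cons 224 (.leaf 223 1784 (.leaf 252 1792 .nil)) (.cons 204 (.leaf 228 1629 (.cons 223 (.leaf 224 1784 (.cons 272 (.leaf 271 2171 (.cons 320 (.leaf 319 2362 (.cons 248 (.leaf 249 1797 (.leaf 247 1791 .nil)) .nil)) .nil)) .nil)) .nil)) (.cons 228 (.leaf 204 1629 (.cons 249 (.leaf 229 1802 (.leaf 248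 1793 .nil)) .nil)) .nil))) .nil)) .nil)) .nil)) .nil)) (.cons 227 (.leaf 203 1621 (.cons 225 (.leaf 201 1615 (.cons 297 (.leaf 321 1806 (.cons 296 (.leaf 295 2169 (.cons 320 (.leaf 319 2362 (.cons 249 (.leaf 273 1798 (.cons 248 (.leaf 247 1976 (.leaf 228 1794 .nil)) .nil)) .nil)) .nil)) .nil)) .nil)) .nil)) .nil))))
noncomputable def t116 : T := .cons 202 (.leaf 299 1620 (.cons 177 (.leaf 201 1423 (.cons 203 (.leaf 179 1429 (.cons 178 (.leaf 251 1428 (.leaf 153 1231 .nil)) .nil)) .nil)) .nil)) (.cons 298 (.cons 227 (.leaf 203 1621 (.cons 225 (.leaf 201 1615 (.cons 249 (.leaf 322 1807 (.cons 248 (.leaf 247 1976 (.leaf 228 1794 .nil)) .nil)) .nil)) .nil)) (.cons 225 (.leaf 201 1615 (.cons 321 (.leaf 297 1806 (.cons 322 (.leaf 249 1807 (.leaf 345 1998 .nil)) .nil)) .nil)) (.cons 227 (.leaf 203 1621 (.cons 321 (.leaf 297 1806 (.cons 322 (.leaf 251 1813 (.leaf 345 1998 .nil)) .nil)) .nil))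 (.cons 227 (.leaf 203 1621 (.cons 225 (.leaf 201 1615 (.cons 297 (.leaf 321 1806 (.cons 296 (.leaf 295 2169 (.cons 224 (.cons 251 (.leaf 223 1784 (.leaf 252 1792 .nil)) (.cons 199 (.leaf 200 1595 (.cons 223 (.leaf 198 1587 (.cons 247 (.leaf 246 1778 (.leaf 248 1786 .nil)) .nil)) .nil)) (.cons 199 (.leaf 200 1595 (.cons 248 (.leaf 247 1786 (.cons 228 (.leaf 249 1794 (.cons 252 (.leaf 251 1792 (.leaf 253 1800 .nil)) .nil)) .nil)) .nil)) .nil))) .nil)) .nil)) .nil)) .nil)) .nil)))) (.cons 202 (.leaf 299 1620 (.cons 177 (.leaf 201 1423 (.cons 203 (.leaf 179 1429 (.cons 297 (.leaf 273 1614 (.cons 298 (.leaf 227 1621 (.leaf 321 1806 .nil)) .nil)) .nil)) .nil)) .nil)) (.cons 202 (.leaf 299 1620 (.cons 177 (.leaf 201 1423 (.cons 178 (.leaf 251 1428 (.leaf 153 1231 .nil)) .nil)) .nil)) (.cons 202 (.leaf 299 1620 (.cons 178 (.leaf 251 1428 (.cons 179 (.leaf 203 1429 (.leaf 155 1237 .nil)) .nil))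 .nil)) .nil))))
noncomputable def t117 : T := .cons 299 (.leaf 323 1812 (.cons 203 (.leaf 227 1621 (.cons 297 (.leaf 321 1806 (.cons 296 (.leaf 295 2169 (.cons 272 (.leaf 271 2171 (.cons 273 (.leaf 300 2176 (.cons 248 (.leaf 247 1979 (.cons 224 (.leaf 200 1604 (.cons 320 (.leaf 319 2362 (.cons 344 (.leaf 368 2181 (.leaf 249 1989 .nil)) .nil)) .nil)) .nil)) .nil)) .nil)) .nil)) .nil)) .nil)) .nil)) (.cons 227 (.leaf 203 1621 (.cons 225 (.leaf 201 1615 (.cons 297 (.leaf 321 1806 (.cons 296 (.leaf 295 2169 (.cons 224 (.cons 251 (.leaf 223 1784 (.leaf 252 1792 .nil)) (.cons 199 (.leaf 200 1595 (.cons 223 (.leaf 198 1587 (.cons 247 (.leaf 246 1778 (.leaf 248 1786 .nil)) .nil)) .nil)) (.cons 199 (.leaf 200 1595 (.cons 248 (.leaf 247 1786 (.cons 228 (.leaf 249 1794 (.cons 252 (.leaf 251 1792 (.leaf 253 1800 .nil)) .nil)) .nil)) .nil)) .nil))) .nil)) .nil)) .nil)) .nil)) (.cons 299 (.leaf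 323 1812 (.cons 201 (.leaf 225 1615 (.cons 297 (.leaf 321 1806 (.cons 296 (.leaf 295 2169 (.cons 272 (.leaf 271 2171 (.cons 273 (.leaf 300 2176 (.cons 247 (.leaf 248 1979 (.cons 251 (.leaf 252 1985 (.cons 320 (.leaf 319 2362 (.cons 344 (.leaf 368 2181 (.leaf 249 1989 .nil)) .nil)) .nil)) .nil)) .nil)) .nil)) .nil)) .nil)) .nil)) .nil)) (.cons 299 (.leaf 323 1812 (.cons 227 (.leaf 203 1621 (.cons 225 (.leaf 201 1615 (.cons 251 (.cons 224 (.leaf 223 1784 (.leaf 252 1792 .nil)) (.cons 204 (.leaf 228 1629 (.cons 223 (.leaf 224 1784 (.cons 300 (.leaf 324 1820 (.cons 273 (.leaf 272 2176 (.leaf 301 2187 .nil)) .nil)) .nil)) .nil)) (.cons 204 (.leaf 228 1629 (.cons 252 (.leaf 253 1803 (.cons 273 (.leaf 272 1985 (.cons 300 (.leaf 324 1820 (.leaf 301 2187 .nil)) .nil)) .nil)) .nil)) .nil))) .nil)) .nil)) .nil)) .nil)))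
noncomputable def t118 : T := .cons 322 (.cons 225 (.leaf 249 1807 (.cons 226 (.leaf 201 1615 (.cons 227 (.leaf 203 1621 (.leaf 251 1813 .nil)) .nil)) .nil)) (.cons 225 (.leaf 249 1807 (.cons 201 (.leaf 226 1615 (.cons 347 (.leaf 323 2004 (.cons 345 (.leaf 321 1998 (.cons 346 (.leaf 369 2190 (.leaf 371 2196 .nil)) .nil)) .nil)) .nil)) .nil)) (.cons 251 (.leaf 346 2005 (.leaf 227 1813 .nil)) .nil))) (.cons 226 t117 (.cons 226 (.cons 203 (.leaf 227 1621 (.cons 297 (.leaf 321 1806 (.cons 296 (.leaf 295 2169 (.cons 299 (.leaf 323 1812 (.cons 272 (.leaf 271 2171 (.cons 273 (.leaf 300 2176 (.cons 248 (.leaf 247 1979 (.cons 224 (.leaf 200 1604 (.cons 320 (.leaf 319 2362 (.cons 344 (.leaf 368 2181 (.leaf 249 1989 .nil)) .nil)) .nil)) .nil)) .nil)) .nil)) .nil)) .nil)) .nil)) .nil)) (.cons 203 (.leaf 227 1621 (.cons 225 (.leaf 201 1615 (.cons 321 (.leaf 297 1806 (.cons 322 (.leaf 249 1807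 (.leaf 345 1998 .nil)) .nil)) .nil)) .nil)) (.cons 203 (.leaf 227 1621 (.cons 225 (.leaf 201 1615 (.cons 322 (.leaf 249 1807 (.cons 323 (.leaf 299 1812 (.leaf 347 2004 .nil)) .nil)) .nil)) .nil)) (.cons 323 (.leaf 299 1812 (.cons 201 (.leaf 225 1615 (.cons 321 (.leaf 297 1806 (.cons 322 (.leaf 345 1998 (.leaf 347 2004 .nil)) .nil)) .nil)) .nil)) .nil)))) (.cons 322 (.cons 249 (.leaf 225 1807 (.cons 248 (.leaf 247 1976 (.cons 251 (.leaf 346 2005 (.leaf 227 1813 .nil)) .nil)) .nil)) (.cons 225 (.leaf 249 1807 (.cons 321 (.leaf 345 1998 (.cons 347 (.leaf 323 2004 (.cons 346 (.leaf 371 2196 (.cons 299 (.leaf 370 2197 (.cons 320 (.leaf 319 2552 (.cons 300 (.leaf 297 2370 (.leaf 301 2378 .nil)) .nil)) .nil)) .nil)) .nil)) .nil)) .nil)) (.cons 249 (.leaf 225 1807 (.cons 248 (.leaf 247 1976 (.cons 251 (.leaf 227 1813 (.cons 223 (.leaf 224 1787 (.cons 272 (.leaf 271 1978 (.cons 252 (.leaf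 273 1985 (.cons 228 (.leaf 229 1801 (.cons 323 (.leaf 299 1821 (.leaf 347 2004 .nil)) .nil)) .nil)) .nil)) .nil)) .nil)) .nil)) .nil)) (.cons 251 (.leaf 346 2005 (.leaf 227 1813 .nil)) .nil)))) (.cons 322 (.cons 249 (.leaf 225 1807 (.cons 248 (.leaf 247 1976 (.cons 251 (.leaf 346 2005 (.leaf 227 1813 .nil)) .nil)) .nil)) (.cons 225 (.leaf 249 1807 (.cons 201 (.leaf 226 1615 (.cons 345 (.leaf 321 1998 (.cons 346 (.leaf 369 2190 (.cons 370 (.leaf 299 2197 (.cons 371 (.leaf 347 2196 (.leaf 395 2388 .nil)) .nil)) .nil)) .nil)) .nil)) .nil)) (.cons 249 (.leaf 225 1807 (.cons 248 (.leaf 247 1976 (.cons 251 (.leaf 227 1813 (.cons 223 (.leaf 224 1787 (.cons 272 (.leaf 271 1978 (.cons 252 (.leaf 273 1985 (.cons 229 (.leaf 228 1801 (.cons 253 (.leaf 254 2002 (.leaf 230 1809 .nil)) .nil)) .nil)) .nil)) .nil)) .nil)) .nil)) .nil)) (.cons 251 (.leaf 346 2005 (.leaf 227 1813 .nil)) .nil)))) (.cons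 322 (.cons 225 (.leaf 249 1807 (.cons 201 (.leaf 226 1615 (.cons 347 (.leaf 323 2004 (.cons 345 (.leaf 321 1998 (.cons 346 (.leaf 251 2005 (.leaf 369 2190 .nil)) .nil)) .nil)) .nil)) .nil)) (.cons 323 (.leaf 347 2004 (.cons 225 (.leaf 249 1807 (.cons 226 (.leaf 201 1615 (.leaf 299 1812 .nil)) .nil)) .nil)) (.cons 346 (.leaf 251 2005 (.cons 249 (.leaf 225 1807 (.leaf 273 1999 .nil)) .nil)) (.cons 346 (.leaf 251 2005 (.cons 347 (.leaf 323 2004 (.leaf 371 2196 .nil)) .nil)) .nil)))) (.cons 322 (.cons 251 (.leaf 346 2005 (.leaf 227 1813 .nil)) (.cons 321 (.leaf 345 1998 (.cons 226 (.leaf 297 1806 (.cons 323 (.leaf 299 1812 (.leaf 347 2004 .nil)) .nil)) .nil)) .nil)) (.cons 322 (.cons 251 (.leaf 346 2005 (.leaf 227 1813 .nil)) (.cons 225 (.leaf 249 1807 (.cons 323 (.leaf 347 2004 (.cons 226 (.leaf 201 1615 (.leaf 299 1812 .nil)) .nil)) .nil)) .nil)) .nil)))))))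
noncomputable def t119 : T := .cons 226 (.leaf 202 1620 (.cons 323 (.leaf 251 1815 (.leaf 347 2007 .nil)) .nil)) (.cons 323 (.leaf 347 2007 (.cons 251 (.cons 322 (.leaf 346 2006 (.cons 324 (.leaf 348 2012 (.cons 227 (.leaf 298 1813 (.leaf 300 1820 .nil)) .nil)) .nil)) (.cons 228 (.leaf 252 1821 (.cons 227 (.leaf 204 1629 (.cons 203 (.leaf 298 1622 (.leaf 179 1430 .nil)) .nil)) .nil)) (.cons 252 (.leaf 228 1821 (.cons 253 (.leaf 254 2002 (.leaf 273 1994 .nil)) .nil)) .nil))) .nil)) (.cons 226 (.leaf 202 1620 (.cons 298 (.cons 201 (.leaf 225 1615 (.cons 227 (.leaf 203 1621 (.cons 251 (.leaf 322 1813 (.cons 204 (.leaf 228 1629 (.cons 300 (.leaf 324 1820 (.cons 273 (.leaf 272 2176 (.leaf 301 2187 .nil)) .nil)) .nil)) .nil)) .nil)) .nil)) (.cons 201 (.leaf 225 1615 (.cons 297 (.leaf 321 1806 (.cons 296 (.leaf 295 2169 (.cons 272 (.leaf 271 2171 (.cons 300 (.leaf 273 2176 (.cons 301 (.leaf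 302 2195 (.cons 325 (.leaf 324 2376 (.leaf 326 2384 .nil)) .nil)) .nil)) .nil)) .nil)) .nil)) .nil)) (.cons 203 (.leaf 227 1621 (.cons 321 (.leaf 297 1806 (.cons 322 (.leaf 345 1998 (.cons 346 (.leaf 251 2005 (.leaf 370 2197 .nil)) .nil)) .nil)) .nil)) .nil))) .nil)) (.cons 226 (.leaf 202 1620 (.cons 323 (.leaf 347 2007 (.leaf 298 1812 .nil)) .nil)) .nil)))
noncomputable def t120 : T := .cons 201 (.leaf 225 1615 (.cons 203 (.leaf 227 1621 (.cons 323 (.leaf 299 1812 (.cons 322 (.leaf 347 2004 (.cons 345 (.leaf 321 1998 (.cons 346 (.leaf 251 2005 (.leaf 369 2190 .nil)) .nil)) .nil)) .nil)) .nil)) .nil)) (.cons 225 (.leaf 201 1615 (.cons 321 (.leaf 297 1806 (.cons 322 (.leaf 249 1807 (.leaf 345 1998 .nil)) .nil)) .nil)) (.cons 323 (.leaf 299 1812 (.cons 203 (.leaf 227 1621 (.cons 321 (.leaf 297 1806 (.cons 322 (.leaf 345 1998 (.leaf 347 2004 .nil)) .nil)) .nil)) .nil)) (.cons 299 (.leaf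 323 1812 (.cons 225 (.leaf 201 1615 (.cons 297 (.leaf 321 1806 (.cons 296 (.leaf 295 2169 (.cons 272 (.leaf 271 2171 (.cons 320 (.leaf 319 2362 (.cons 248 (.leaf 249 1797 (.cons 223 (.leaf 247 1791 (.cons 224 (.leaf 251 1784 (.leaf 199 1599 .nil)) .nil)) .nil)) .nil)) .nil)) .nil)) .nil)) .nil)) .nil)) (.cons 201 (.leaf 225 1615 (.cons 227 (.leaf 203 1621 (.cons 251 (.leaf 322 1813 (.cons 299 (.leaf 323 1812 (.cons 228 (.leaf 204 1629 (.cons 229 (.leaf 249 1802 (.leaf 230 1810 .nil)) .nil)) .nil)) .nil)) .nil)) .nil)) .nil))))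
noncomputable def t121 : T := .cons 202 (.leaf 299 1620 (.cons 177 (.leaf 201 1423 (.cons 203 (.leaf 179 1429 (.cons 298 (.leaf 227 1621 (.cons 321 (.leaf 297 1806 (.cons 322 (.leaf 345 1998 (.cons 225 (.leaf 249 1807 (.cons 204 (.leaf 205 1610 (.cons 223 (.leaf 224 1593 (.cons 346 (.leaf 251 2005 (.cons 347 (.leaf 323 2004 (.leaf 371 2196 .nil)) .nil)) .nil)) .nil)) .nil)) .nil)) .nil)) .nil)) .nil)) .nil)) .nil)) (.cons 298 t120 (.cons 202 (.cons 177 (.leaf 201 1423 (.cons 203 (.leaf 179 1429 (.cons 298 (.leaf 227 1621 (.cons 321 (.leaf 297 1806 (.cons 322 (.leaf 345 1998 (.cons 225 (.leaf 249 1807 (.cons 204 (.leaf 205 1610 (.cons 223 (.leaf 224 1593 (.cons 346 (.leaf 251 2005 (.cons 347 (.leaf 323 2004 (.leaf 371 2196 .nil)) .nil)) .nil)) .nil)) .nil)) .nil)) .nil)) .nil)) .nil)) .nil)) (.cons 177 (.leaf 201 1423 (.cons 178 (.leaf 251 1428 (.leaf 153 1231 .nil)) .nil)) (.cons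 178 (.leaf 251 1428 (.cons 179 (.leaf 203 1429 (.leaf 155 1237 .nil)) .nil)) (.cons 201 (.leaf 177 1423 (.cons 179 (.leaf 203 1429 (.cons 178 (.leaf 155 1237 (.cons 180 (.leaf 181 1418 (.cons 199 (.leaf 200 1401 (.cons 225 (.leaf 298 1615 (.cons 154 (.leaf 249 1230 (.leaf 130 1038 .nil)) .nil)) .nil)) .nil)) .nil)) .nil)) .nil)) .nil)))) (.cons 299 (.leaf 202 1620 (.cons 323 (.leaf 251 1815 (.leaf 347 2007 .nil)) .nil)) (.cons 202 (.leaf 299 1620 (.cons 201 (.leaf 177 1423 (.cons 179 (.leaf 203 1429 (.cons 178 (.leaf 155 1237 (.cons 180 (.leaf 181 1418 (.cons 199 (.leaf 200 1401 (.cons 225 (.leaf 298 1615 (.cons 154 (.leaf 249 1230 (.leaf 130 1038 .nil)) .nil)) .nil)) .nil)) .nil)) .nil)) .nil)) .nil)) .nil))))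
noncomputable def t122 : T := .cons 227 (.cons 226 (.leaf 202 1620 (.leaf 323 1815 .nil)) (.cons 203 (.leaf 179 1430 (.cons 178 (.leaf 202 1431 (.cons 180 (.leaf 204 1437 (.cons 323 (.leaf 347 2007 (.cons 324 (.leaf 300 1820 (.leaf 348 2012 .nil)) .nil)) .nil)) .nil)) .nil)) (.cons 226 (.leaf 202 1620 (.cons 228 (.leaf 204 1629 (.cons 229 (.leaf 230 1810 (.cons 179 (.leaf 203 1430 (.cons 205 (.leaf 206 1617 (.cons 253 (.leaf 254 1808 (.cons 252 (.leaf 273 1994 (.leaf 225 1800 .nil)) .nil)) .nil)) .nil)) .nil)) .nil)) .nil)) (.cons 203 (.leaf 179 1430 (.cons 204 (.leaf 180 1437 (.leaf 228 1629 .nil)) .nil)) .nil)))) (.cons 227 (.cons 226 (.leaf 202 1620 (.cons 228 (.leaf 204 1629 (.cons 229 (.leaf 230 1810 (.cons 179 (.leaf 203 1430 (.cons 205 (.leaf 206 1617 (.cons 253 (.leaf 254 1808 (.cons 252 (.leaf 273 1994 (.leaf 225 1800 .nil)) .nil)) .nil)) .nil)) .nil)) .nil)) .nil)) (.cons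 203 (.leaf 179 1430 (.cons 204 (.leaf 180 1437 (.leaf 228 1629 .nil)) .nil)) (.cons 226 (.leaf 202 1620 (.cons 228 (.leaf 204 1629 (.cons 229 (.leaf 230 1810 (.cons 253 (.leaf 254 1808 (.cons 252 (.leaf 273 1994 (.leaf 225 1800 .nil)) .nil)) .nil)) .nil)) .nil)) (.cons 202 (.leaf 226 1620 (.cons 203 (.leaf 178 1431 (.leaf 179 1430 .nil)) .nil)) .nil)))) (.cons 323 (.leaf 347 2007 (.cons 228 (.leaf 252 1821 (.cons 227 (.leaf 204 1629 (.cons 324 (.leaf 300 1820 (.leaf 348 2012 .nil)) .nil)) .nil)) .nil)) (.cons 323 (.leaf 226 1815 (.leaf 347 2007 .nil)) .nil)))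
noncomputable def t123 : T := .cons 252 (.cons 253 (.leaf 254 2002 (.leaf 273 1994 .nil)) (.cons 253 (.leaf 254 2002 (.cons 229 (.leaf 230 1809 (.cons 249 (.leaf 228 1801 (.cons 224 (.leaf 225 1795 (.cons 248 (.leaf 247 1976 (.leaf 223 1787 .nil)) .nil)) .nil)) .nil)) .nil)) (.cons 249 (.cons 273 (.leaf 272 1985 (.cons 224 (.leaf 225 1795 (.cons 248 (.leaf 247 1976 (.leaf 223 1787 .nil)) .nil)) .nil)) (.cons 224 (.leaf 225 1795 (.cons 248 (.leaf 247 1976 (.leaf 223 1787 .nil)) .nil)) (.cons 273 (.leaf 272 1985 (.cons 225 (.leaf 224 1795 (.cons 201 (.leaf 177 1420 (.cons 176 (.leaf 200 1415 (.cons 202 (.leaf 178 1421 (.cons 226 (.leaf 299 1620 (.leaf 297 1613 .nil)) .nil)) .nil)) .nil)) .nil)) .nil)) (.cons 272 (.leaf 273 1985 (.cons 248 (.leaf 247 1976 (.leaf 271 1978 .nil)) .nil)) .nil)))) .nil))) (.cons 252 (.cons 273 (.leaf 272 1985 (.leaf 253 1994 .nil)) (.cons 253 (.leaf 254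 2002 (.cons 229 (.leaf 230 1809 (.cons 249 (.leaf 228 1801 (.cons 224 (.leaf 225 1795 (.cons 248 (.leaf 247 1976 (.leaf 223 1787 .nil)) .nil)) .nil)) .nil)) .nil)) (.cons 273 (.leaf 272 1985 (.cons 228 (.cons 229 (.leaf 249 1801 (.cons 230 (.leaf 227 1810 (.leaf 231 1818 .nil)) .nil)) (.cons 204 (.leaf 180 1438 (.cons 299 (.leaf 227 1629 (.leaf 323 1821 .nil)) .nil)) (.cons 180 (.leaf 204 1438 (.cons 249 (.leaf 229 1801 (.cons 224 (.leaf 225 1795 (.cons 248 (.leaf 247 1976 (.leaf 223 1787 .nil)) .nil)) .nil)) .nil)) .nil))) .nil)) .nil))) (.cons 252 (.cons 273 (.leaf 272 1985 (.leaf 253 1994 .nil)) (.cons 253 (.leaf 254 2002 (.cons 229 (.leaf 230 1809 (.cons 249 (.leaf 228 1801 (.cons 224 (.leaf 225 1795 (.cons 248 (.leaf 247 1976 (.leaf 223 1787 .nil)) .nil)) .nil)) .nil)) .nil)) (.cons 273 (.leaf 272 1985 (.cons 249 (.cons 224 (.leaf 225 1795 (.cons 248 (.leaf 247 1976 (.leaf 223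 1787 .nil)) .nil)) (.cons 225 (.leaf 224 1795 (.cons 201 (.leaf 177 1420 (.cons 176 (.leaf 200 1415 (.cons 202 (.leaf 178 1421 (.cons 226 (.leaf 297 1613 (.cons 228 (.leaf 229 1801 (.cons 203 (.leaf 179 1429 (.cons 204 (.leaf 180 1438 (.leaf 205 1610 .nil)) .nil)) .nil)) .nil)) .nil)) .nil)) .nil)) .nil)) (.cons 248 (.leaf 247 1976 (.cons 228 (.leaf 227 1793 (.leaf 229 1801 .nil)) .nil)) .nil))) .nil)) .nil))) (.cons 299 (.cons 227 (.cons 202 (.leaf 226 1620 (.cons 203 (.leaf 178 1431 (.leaf 179 1430 .nil)) .nil)) (.cons 203 (.leaf 179 1430 (.cons 178 (.leaf 202 1431 (.cons 180 (.leaf 204 1437 (.cons 323 (.leaf 347 2007 (.cons 324 (.leaf 300 1820 (.leaf 348 2012 .nil)) .nil)) .nil)) .nil)) .nil)) (.cons 203 (.leaf 179 1430 (.cons 204 (.leaf 180 1437 (.leaf 228 1629 .nil)) .nil)) (.cons 226 (.leaf 202 1620 (.leaf 323 1815 .nil)) .nil)))) (.cons 227 (.cons 202 (.leaf 226 1620 (.cons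 203 (.leaf 178 1431 (.leaf 179 1430 .nil)) .nil)) (.cons 203 (.leaf 179 1430 (.cons 204 (.leaf 180 1437 (.leaf 228 1629 .nil)) .nil)) (.cons 226 (.leaf 202 1620 (.cons 228 (.leaf 204 1629 (.cons 229 (.leaf 249 1802 (.leaf 230 1810 .nil)) .nil)) .nil)) .nil))) (.cons 323 (.leaf 347 2007 (.cons 228 (.leaf 252 1821 (.cons 227 (.leaf 204 1629 (.cons 324 (.leaf 300 1820 (.leaf 348 2012 .nil)) .nil)) .nil)) .nil)) (.cons 323 (.leaf 226 1815 (.leaf 347 2007 .nil)) .nil)))) (.cons 299 (.cons 323 (.leaf 226 1815 (.leaf 347 2007 .nil)) (.cons 323 (.leaf 347 2007 (.cons 322 (.leaf 346 2006 (.cons 324 (.leaf 348 2012 (.cons 227 (.leaf 300 1820 (.cons 203 (.leaf 179 1430 (.cons 204 (.leaf 180 1437 (.leaf 228 1629 .nil)) .nil)) .nil)) .nil)) .nil)) .nil)) (.cons 227 (.cons 226 (.leaf 202 1620 (.cons 228 (.leaf 204 1629 (.cons 229 (.leaf 249 1802 (.leaf 230 1810 .nil)) .nil)) .nil)) (.cons 203 (.leaf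 179 1430 (.cons 204 (.leaf 180 1437 (.leaf 228 1629 .nil)) .nil)) (.cons 202 (.leaf 226 1620 (.cons 203 (.leaf 178 1431 (.leaf 179 1430 .nil)) .nil)) .nil))) .nil))) (.cons 299 t122 (.cons 252 (.cons 249 (.cons 273 (.leaf 272 1985 (.leaf 253 1994 .nil)) (.cons 224 (.leaf 225 1795 (.cons 248 (.leaf 247 1976 (.leaf 223 1787 .nil)) .nil)) .nil)) (.cons 253 (.leaf 254 2002 (.cons 226 (.leaf 225 1803 (.cons 202 (.leaf 178 1428 (.leaf 299 1620 .nil)) .nil)) .nil)) (.cons 249 (.cons 273 (.leaf 272 1985 (.cons 224 (.leaf 225 1795 (.cons 248 (.leaf 247 1976 (.leaf 223 1787 .nil)) .nil)) .nil)) (.cons 224 (.leaf 225 1795 (.cons 248 (.leaf 247 1976 (.leaf 223 1787 .nil)) .nil)) (.cons 273 (.leaf 272 1985 (.cons 225 (.leaf 224 1795 (.cons 201 (.leaf 177 1420 (.cons 176 (.leaf 200 1415 (.cons 202 (.leaf 178 1421 (.cons 226 (.leaf 299 1620 (.leaf 297 1613 .nil)) .nil)) .nil)) .nil)) .nil)) .nil))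 (.cons 272 (.leaf 273 1985 (.cons 248 (.leaf 247 1976 (.leaf 271 1978 .nil)) .nil)) .nil)))) (.cons 253 (.leaf 254 2002 (.leaf 273 1994 .nil)) .nil)))) .nil))))))
noncomputable def t124 : T := .cons 202 (.leaf 299 1620 (.cons 177 (.leaf 201 1423 (.cons 203 (.leaf 179 1429 (.cons 297 (.leaf 273 1614 (.cons 298 (.leaf 227 1621 (.leaf 321 1806 .nil)) .nil)) .nil)) .nil)) .nil)) (.cons 298 (.cons 203 (.leaf 227 1621 (.cons 297 (.leaf 321 1806 (.cons 296 (.leaf 295 2169 (.cons 299 (.leaf 323 1812 (.cons 272 (.leaf 271 2171 (.cons 273 (.leaf 300 2176 (.cons 248 (.leaf 247 1979 (.cons 224 (.leaf 200 1604 (.cons 320 (.leaf 319 2362 (.cons 344 (.leaf 368 2181 (.leaf 249 1989 .nil)) .nil)) .nil)) .nil)) .nil)) .nil)) .nil)) .nil)) .nil)) .nil)) (.cons 203 (.leaf 227 1621 (.cons 225 (.leaf 201 1615 (.cons 321 (.leaf 297 1806 (.cons 322 (.leaf 249 1807 (.leaf 345 1998 .nil)) .nil)) .nil)) .nil))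 (.cons 323 (.leaf 299 1812 (.cons 203 (.leaf 227 1621 (.cons 225 (.leaf 201 1615 (.cons 322 (.leaf 249 1807 (.leaf 347 2004 .nil)) .nil)) .nil)) .nil)) (.cons 323 (.leaf 299 1812 (.cons 201 (.leaf 225 1615 (.cons 321 (.leaf 297 1806 (.cons 322 (.leaf 345 1998 (.leaf 347 2004 .nil)) .nil)) .nil)) .nil)) .nil)))) (.cons 298 (.cons 201 (.leaf 225 1615 (.cons 202 (.leaf 177 1423 (.cons 203 (.leaf 179 1429 (.leaf 227 1621 .nil)) .nil)) .nil)) (.cons 203 (.leaf 227 1621 (.cons 202 (.leaf 179 1429 (.cons 297 (.leaf 273 1614 (.leaf 321 1806 .nil)) .nil)) .nil)) (.cons 201 (.leaf 225 1615 (.cons 202 (.leaf 177 1423 (.cons 297 (.leaf 273 1614 (.leaf 321 1806 .nil)) .nil)) .nil)) (.cons 203 (.leaf 227 1621 (.cons 225 (.leaf 201 1615 (.cons 321 (.leaf 297 1806 (.cons 322 (.leaf 249 1807 (.leaf 345 1998 .nil)) .nil)) .nil)) .nil)) .nil)))) (.cons 202 (.leaf 299 1620 (.cons 179 (.leaf 203 1429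 (.cons 178 (.leaf 155 1237 (.cons 273 (.leaf 297 1614 (.leaf 249 1422 .nil)) .nil)) .nil)) .nil)) (.cons 202 (.leaf 299 1620 (.cons 177 (.leaf 201 1423 (.cons 178 (.leaf 153 1231 (.cons 179 (.leaf 203 1429 (.leaf 155 1237 .nil)) .nil)) .nil)) .nil)) (.cons 202 (.leaf 299 1620 (.cons 177 (.leaf 201 1423 (.cons 178 (.leaf 153 1231 (.cons 273 (.leaf 297 1614 (.leaf 249 1422 .nil)) .nil)) .nil)) .nil)) .nil)))))
noncomputable def t125 : T := .cons 322 (.cons 225 (.leaf 249 1807 (.cons 226 (.leaf 201 1615 (.cons 227 (.leaf 203 1621 (.leaf 251 1813 .nil)) .nil)) .nil)) (.cons 249 (.leaf 225 1807 (.cons 247 (.leaf 248 1976 (.cons 273 (.leaf 346 1999 (.cons 321 (.leaf 345 1998 (.cons 226 (.leaf 297 1805 (.cons 202 (.leaf 178 1422 (.cons 203 (.leaf 179 1429 (.leaf 227 1621 .nil)) .nil)) .nil)) .nil)) .nil)) .nil)) .nil)) (.cons 227 (.leaf 251 1813 (.cons 226 (.leaf 203 1621 (.cons 321 (.leaf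 297 1806 (.leaf 345 1998 .nil)) .nil)) .nil)) (.cons 249 (.leaf 225 1807 (.cons 346 (.leaf 251 2005 (.leaf 273 1999 .nil)) .nil)) .nil)))) (.cons 226 (.cons 203 (.leaf 227 1621 (.cons 201 (.leaf 225 1615 (.cons 202 (.leaf 177 1423 (.leaf 179 1429 .nil)) .nil)) .nil)) (.cons 297 (.leaf 321 1806 (.cons 201 (.leaf 225 1615 (.cons 202 (.leaf 177 1423 (.leaf 273 1614 .nil)) .nil)) .nil)) (.cons 297 (.leaf 321 1806 (.cons 202 (.leaf 273 1614 (.cons 203 (.leaf 179 1429 (.leaf 227 1621 .nil)) .nil)) .nil)) (.cons 227 (.leaf 203 1621 (.cons 225 (.leaf 201 1615 (.cons 297 (.leaf 321 1806 (.cons 296 (.leaf 295 2169 (.cons 224 (.cons 251 (.leaf 223 1784 (.leaf 252 1792 .nil)) (.cons 199 (.leaf 200 1595 (.cons 223 (.leaf 198 1587 (.cons 247 (.leaf 246 1778 (.leaf 248 1786 .nil)) .nil)) .nil)) (.cons 199 (.leaf 200 1595 (.cons 248 (.leaf 247 1786 (.cons 228 (.leaf 249 1794 (.cons 252 (.leaf 251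 1792 (.leaf 253 1800 .nil)) .nil)) .nil)) .nil)) .nil))) .nil)) .nil)) .nil)) .nil)) .nil)))) (.cons 226 (.cons 227 (.leaf 203 1621 (.cons 225 (.leaf 201 1615 (.cons 249 (.leaf 322 1807 (.cons 248 (.leaf 247 1976 (.leaf 228 1794 .nil)) .nil)) .nil)) .nil)) (.cons 297 (.leaf 321 1806 (.cons 202 (.leaf 273 1614 (.cons 203 (.leaf 179 1429 (.leaf 227 1621 .nil)) .nil)) .nil)) (.cons 297 (.leaf 321 1806 (.cons 201 (.leaf 225 1615 (.cons 202 (.leaf 177 1423 (.leaf 273 1614 .nil)) .nil)) .nil)) .nil))) (.cons 322 (.cons 249 (.leaf 225 1807 (.cons 248 (.leaf 247 1976 (.cons 251 (.leaf 346 2005 (.leaf 227 1813 .nil)) .nil)) .nil)) (.cons 249 (.leaf 225 1807 (.cons 247 (.leaf 248 1976 (.cons 346 (.leaf 273 1999 (.cons 347 (.leaf 323 2004 (.leaf 371 2196 .nil)) .nil)) .nil)) .nil)) (.cons 249 (.leaf 225 1807 (.cons 248 (.leaf 247 1976 (.cons 251 (.leaf 227 1813 (.cons 223 (.leaf 224 1787 (.cons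 272 (.leaf 271 1978 (.cons 252 (.leaf 273 1985 (.cons 229 (.leaf 228 1801 (.cons 253 (.leaf 254 2002 (.leaf 230 1809 .nil)) .nil)) .nil)) .nil)) .nil)) .nil)) .nil)) .nil)) (.cons 251 (.leaf 346 2005 (.leaf 227 1813 .nil)) .nil)))) (.cons 322 (.cons 249 (.leaf 225 1807 (.cons 346 (.leaf 251 2005 (.leaf 273 1999 .nil)) .nil)) (.cons 225 (.leaf 249 1807 (.cons 226 (.leaf 201 1615 (.cons 321 (.leaf 297 1806 (.leaf 345 1998 .nil)) .nil)) .nil)) (.cons 251 (.leaf 346 2005 (.cons 321 (.leaf 345 1998 (.cons 297 (.leaf 226 1806 (.cons 296 (.leaf 295 2169 (.cons 323 (.leaf 347 2004 (.leaf 324 2371 .nil)) .nil)) .nil)) .nil)) .nil)) .nil))) (.cons 322 (.cons 321 (.leaf 345 1998 (.cons 226 (.leaf 297 1806 (.cons 227 (.leaf 203 1621 (.leaf 251 1813 .nil)) .nil)) .nil)) (.cons 321 (.leaf 345 1998 (.cons 226 (.leaf 297 1806 (.cons 347 (.leaf 323 2004 (.cons 201 (.leaf 225 1615 (.cons 202 (.leaf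 177 1423 (.cons 203 (.leaf 179 1429 (.leaf 227 1621 .nil)) .nil)) .nil)) .nil)) .nil)) .nil)) (.cons 251 (.leaf 346 2005 (.leaf 227 1813 .nil)) (.cons 251 (.leaf 346 2005 (.cons 321 (.leaf 345 1998 (.cons 297 (.leaf 226 1806 (.cons 296 (.leaf 295 2169 (.cons 323 (.leaf 347 2004 (.leaf 324 2371 .nil)) .nil)) .nil)) .nil)) .nil)) .nil)))) (.cons 322 (.cons 227 (.leaf 251 1813 (.cons 226 (.leaf 203 1621 (.cons 321 (.leaf 297 1806 (.leaf 345 1998 .nil)) .nil)) .nil)) (.cons 321 (.leaf 345 1998 (.cons 297 (.leaf 226 1806 (.cons 295 (.leaf 296 2169 (.cons 347 (.leaf 323 2004 (.cons 346 (.leaf 371 2196 (.cons 273 (.leaf 249 1996 (.leaf 370 2191 .nil)) .nil)) .nil)) .nil)) .nil)) .nil)) (.cons 251 (.leaf 346 2005 (.leaf 227 1813 .nil)) .nil))) .nil))))))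
noncomputable def t126 : T := .cons 248 (.leaf 247 1976 (.cons 224 (.leaf 223 1787 (.cons 225 (.leaf 252 1795 (.cons 201 (.leaf 177 1420 (.cons 298 (.leaf 273 1612 (.leaf 322 1807 .nil)) .nil)) .nil)) .nil)) .nil)) (.cons 273 (.cons 252 (.leaf 272 1985 (.leaf 253 1994 .nil)) (.cons 252 (.leaf 253 1994 (.cons 225 (.leaf 224 1795 (.cons 201 (.leaf 177 1420 (.leaf 298 1612 .nil)) .nil)) .nil)) (.cons 272 (.leaf 271 1977 (.cons 295 (.leaf 296 2170 (.cons 299 (.leaf 300 2176 (.cons 323 (.leaf 347 2007 (.cons 322 (.leaf 346 2006 (.cons 298 (.leaf 227 1813 (.leaf 225 1807 .nil)) .nil)) .nil)) .nil)) .nil)) .nil)) .nil))) (.cons 248 (.leaf 247 1976 (.cons 224 (.leaf 223 1787 (.cons 225 (.leaf 252 1795 (.cons 177 (.leaf 201 1420 (.cons 272 (.leaf 271 1978 (.cons 296 (.leaf 320 1797 (.cons 295 (.leaf 319 1790 (.cons 297 (.leaf 298 2169 (.leaf 321 1796 .nil)) .nil)) .nil)) .nil)) .nil)) .nil))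 .nil)) .nil)) (.cons 248 (.leaf 247 1976 (.cons 223 (.leaf 224 1787 (.cons 272 (.leaf 271 1978 (.cons 273 (.leaf 252 1985 (.cons 296 (.leaf 295 2170 (.cons 225 (.leaf 201 1606 (.leaf 320 1797 .nil)) .nil)) .nil)) .nil)) .nil)) .nil)) (.cons 248 (.leaf 247 1976 (.cons 272 (.leaf 271 1978 (.cons 224 (.leaf 223 1787 (.cons 225 (.cons 201 (.leaf 177 1420 (.leaf 296 1605 .nil)) (.cons 296 (.leaf 320 1797 (.cons 295 (.leaf 273 2170 (.leaf 319 1790 .nil)) .nil)) (.cons 201 (.leaf 177 1420 (.cons 298 (.leaf 273 1612 (.leaf 322 1807 .nil)) .nil)) .nil))) .nil)) .nil)) .nil)) (.cons 248 (.leaf 247 1976 (.cons 223 (.leaf 224 1787 (.cons 272 (.leaf 271 1978 (.cons 273 (.leaf 252 1985 (.cons 295 (.leaf 296 2170 (.cons 299 (.leaf 300 2176 (.cons 323 (.leaf 347 2007 (.cons 322 (.leaf 346 2006 (.cons 298 (.leaf 227 1813 (.cons 324 (.leaf 348 2012 (.cons 325 (.leaf 326 2387 (.leaf 297 2379 .nil))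 .nil)) .nil)) .nil)) .nil)) .nil)) .nil)) .nil)) .nil)) .nil)) .nil)) (.cons 248 (.leaf 247 1976 (.cons 272 (.leaf 271 1978 (.cons 273 (.leaf 252 1985 (.cons 295 (.leaf 296 2170 (.cons 299 (.leaf 300 2176 (.cons 323 (.leaf 347 2007 (.cons 322 (.leaf 346 2006 (.cons 298 (.leaf 227 1813 (.leaf 225 1807 .nil)) .nil)) .nil)) .nil)) .nil)) .nil)) .nil)) .nil)) .nil))))))
noncomputable def t127 : T := .cons 252 (.cons 273 (.leaf 272 1985 (.leaf 253 1994 .nil)) (.cons 253 (.leaf 254 2002 (.cons 229 (.leaf 230 1809 (.cons 249 (.leaf 228 1801 (.cons 224 (.leaf 225 1795 (.cons 248 (.leaf 247 1976 (.leaf 223 1787 .nil)) .nil)) .nil)) .nil)) .nil)) (.cons 249 (.cons 272 (.leaf 273 1985 (.cons 248 (.leaf 247 1976 (.leaf 271 1978 .nil)) .nil)) (.cons 224 (.leaf 225 1795 (.cons 248 (.leaf 247 1976 (.leaf 223 1787 .nil)) .nil)) (.cons 273 (.leaf 272 1985 (.cons 225 (.leaf 224 1795 (.cons 201 (.leaf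 177 1420 (.leaf 298 1612 .nil)) .nil)) .nil)) .nil))) .nil))) (.cons 227 (.cons 203 (.leaf 298 1622 (.leaf 179 1430 .nil)) (.cons 203 (.leaf 179 1430 (.cons 178 (.leaf 202 1431 (.cons 204 (.leaf 180 1437 (.cons 228 (.leaf 299 1629 (.cons 229 (.leaf 230 1810 (.cons 249 (.leaf 248 1793 (.leaf 252 1801 .nil)) .nil)) .nil)) .nil)) .nil)) .nil)) (.cons 298 (.leaf 322 1813 (.cons 228 (.cons 204 (.leaf 299 1629 (.cons 180 (.leaf 252 1438 (.leaf 156 1246 .nil)) .nil)) (.cons 249 (.leaf 248 1793 (.cons 229 (.leaf 230 1810 (.leaf 252 1801 .nil)) .nil)) (.cons 299 (.leaf 204 1629 (.cons 229 (.leaf 230 1810 (.cons 248 (.leaf 249 1793 (.cons 323 (.leaf 347 2007 (.cons 324 (.leaf 300 1820 (.leaf 348 2012 .nil)) .nil)) .nil)) .nil)) .nil)) .nil))) .nil)) .nil))) (.cons 252 (.cons 273 (.leaf 272 1985 (.leaf 253 1994 .nil)) (.cons 253 (.leaf 254 2002 (.cons 229 (.leaf 230 1809 (.cons 249 (.leaf 228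 1801 (.cons 224 (.leaf 225 1795 (.cons 248 (.leaf 247 1976 (.leaf 223 1787 .nil)) .nil)) .nil)) .nil)) .nil)) (.cons 273 (.leaf 272 1985 (.cons 228 (.cons 229 (.leaf 249 1801 (.cons 230 (.leaf 227 1810 (.leaf 231 1818 .nil)) .nil)) (.cons 204 (.leaf 180 1438 (.cons 299 (.leaf 227 1629 (.leaf 323 1821 .nil)) .nil)) (.cons 180 (.leaf 204 1438 (.cons 249 (.leaf 229 1801 (.cons 224 (.leaf 225 1795 (.cons 248 (.leaf 247 1976 (.leaf 223 1787 .nil)) .nil)) .nil)) .nil)) .nil))) .nil)) .nil))) (.cons 227 (.cons 203 (.leaf 298 1622 (.leaf 179 1430 .nil)) (.cons 203 (.leaf 179 1430 (.cons 178 (.leaf 202 1431 (.cons 204 (.leaf 180 1437 (.cons 299 (.leaf 228 1629 (.cons 323 (.leaf 347 2007 (.cons 324 (.leaf 300 1820 (.leaf 348 2012 .nil)) .nil)) .nil)) .nil)) .nil)) .nil)) (.cons 299 (.cons 298 (.leaf 322 1813 (.cons 204 (.leaf 228 1629 (.cons 300 (.leaf 324 1820 (.cons 273 (.leaf 272 2176 (.leaf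 301 2187 .nil)) .nil)) .nil)) .nil)) (.cons 204 (.leaf 228 1629 (.cons 323 (.leaf 347 2007 (.cons 324 (.leaf 300 1820 (.leaf 348 2012 .nil)) .nil)) .nil)) (.cons 322 (.leaf 298 1813 (.cons 323 (.leaf 347 2007 (.leaf 346 2006 .nil)) .nil)) .nil))) .nil))) (.cons 249 t126 .nil))))
noncomputable def t128 : T := .cons 225 (.leaf 201 1615 (.cons 203 (.leaf 227 1621 (.cons 322 (.leaf 249 1807 (.cons 345 (.leaf 321 1998 (.cons 346 (.leaf 251 2005 (.leaf 370 2197 .nil)) .nil)) .nil)) .nil)) .nil)) (.cons 225 (.leaf 201 1615 (.cons 322 (.leaf 249 1807 (.cons 346 (.leaf 251 2005 (.leaf 370 2197 .nil)) .nil)) .nil)) (.cons 297 (.leaf 321 1806 (.cons 201 (.leaf 225 1615 (.cons 203 (.leaf 227 1621 (.cons 296 (.leaf 295 2169 (.cons 272 (.leaf 271 2171 (.cons 273 (.leaf 300 2176 (.cons 248 (.leaf 247 1979 (.cons 224 (.leaf 200 1604 (.cons 251 (.leaf 252 1985 (.cons 223 (.leaf 249 1787 (.leaf 199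 1599 .nil)) .nil)) .nil)) .nil)) .nil)) .nil)) .nil)) .nil)) .nil)) .nil)) (.cons 227 (.leaf 203 1621 (.cons 251 (.leaf 322 1813 (.cons 228 (.leaf 204 1629 (.cons 229 (.leaf 249 1802 (.leaf 230 1810 .nil)) .nil)) .nil)) .nil)) (.cons 297 (.leaf 321 1806 (.cons 201 (.leaf 225 1615 (.cons 203 (.leaf 227 1621 (.cons 296 (.leaf 295 2169 (.cons 272 (.leaf 271 2171 (.cons 273 (.leaf 300 2176 (.cons 248 (.leaf 247 1979 (.cons 224 (.leaf 200 1604 (.cons 320 (.leaf 319 2362 (.cons 344 (.leaf 368 2181 (.leaf 249 1989 .nil)) .nil)) .nil)) .nil)) .nil)) .nil)) .nil)) .nil)) .nil)) .nil)) (.cons 297 (.leaf 321 1806 (.cons 201 (.leaf 225 1615 (.cons 203 (.leaf 227 1621 (.cons 296 (.leaf 295 2169 (.cons 272 (.leaf 271 2171 (.cons 300 (.leaf 273 2176 (.cons 301 (.leaf 302 2195 (.cons 325 (.leaf 324 2376 (.leaf 326 2384 .nil)) .nil)) .nil)) .nil)) .nil)) .nil)) .nil)) .nil)) .nil)))))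
noncomputable def t129 : T := .cons 299 (.cons 323 (.leaf 347 2007 (.cons 251 (.leaf 226 1815 (.cons 322 (.leaf 346 2006 (.cons 324 (.leaf 348 2012 (.cons 227 (.leaf 298 1813 (.leaf 300 1820 .nil)) .nil)) .nil)) .nil)) .nil)) (.cons 323 (.leaf 347 2007 (.cons 251 (.cons 322 (.leaf 346 2006 (.cons 324 (.leaf 348 2012 (.cons 227 (.leaf 298 1813 (.leaf 300 1820 .nil)) .nil)) .nil)) (.cons 228 (.leaf 252 1821 (.cons 227 (.leaf 204 1629 (.cons 203 (.leaf 298 1622 (.leaf 179 1430 .nil)) .nil)) .nil)) (.cons 252 (.leaf 228 1821 (.cons 253 (.leaf 254 2002 (.leaf 273 1994 .nil)) .nil)) .nil))) .nil)) (.cons 226 (.leaf 202 1620 (.cons 298 t128 .nil)) (.cons 226 (.leaf 202 1620 (.cons 323 (.leaf 347 2007 (.leaf 298 1812 .nil)) .nil)) (.cons 226 (.leaf 202 1620 (.cons 323 (.leaf 251 1815 (.leaf 347 2007 .nil)) .nil)) .nil))))) (.cons 251 t127 (.cons 298 t125 (.cons 226 t124 (.cons 251 (t123)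 (.cons 226 t121 (.cons 299 t119 (.cons 298 t118 (.cons 226 t116 (.cons 299 (.cons 226 (.leaf 202 1620 (.cons 298 (.leaf 323 1812 (.cons 203 (.leaf 227 1621 (.cons 297 (.leaf 321 1806 (.cons 296 (.leaf 295 2169 (.cons 272 (.leaf 271 2171 (.cons 273 (.leaf 300 2176 (.cons 248 (.leaf 247 1979 (.cons 224 (.leaf 200 1604 (.cons 320 (.leaf 319 2362 (.cons 344 (.leaf 368 2181 (.leaf 249 1989 .nil)) .nil)) .nil)) .nil)) .nil)) .nil)) .nil)) .nil)) .nil)) .nil)) .nil)) (.cons 323 (.leaf 347 2007 (.cons 251 (.cons 252 (.leaf 228 1821 (.cons 253 (.leaf 254 2002 (.leaf 273 1994 .nil)) .nil)) (.cons 324 (.leaf 348 2012 (.cons 227 (.leaf 300 1820 (.cons 203 (.leaf 298 1622 (.leaf 179 1430 .nil)) .nil)) .nil)) .nil)) .nil)) (.cons 226 (.leaf 202 1620 (.cons 298 t115 .nil)) (.cons 226 (.leaf 202 1620 (.cons 323 (.leaf 251 1815 (.leaf 347 2007 .nil)) .nil)) .nil)))) (.cons 226 t114 (.cons 299 (.cons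 323 (.leaf 347 2007 (.cons 251 (.leaf 226 1815 (.cons 252 (.leaf 228 1821 (.cons 253 (.leaf 254 2002 (.leaf 273 1994 .nil)) .nil)) .nil)) .nil)) (.cons 226 t112 (.cons 323 (.leaf 347 2007 (.cons 251 (.cons 252 (.leaf 228 1821 (.cons 253 (.leaf 254 2002 (.leaf 273 1994 .nil)) .nil)) (.cons 322 (.leaf 346 2006 (.cons 227 (.leaf 298 1813 (.cons 324 (.leaf 300 1820 (.leaf 348 2012 .nil)) .nil)) .nil)) .nil)) .nil)) (.cons 323 (.leaf 347 2007 (.cons 226 (.leaf 202 1620 (.leaf 298 1812 .nil)) .nil)) .nil)))) (.cons 299 (.cons 323 (.leaf 347 2007 (.cons 251 (.leaf 226 1815 (.cons 252 (.leaf 228 1821 (.cons 253 (.leaf 254 2002 (.leaf 273 1994 .nil)) .nil)) .nil)) .nil)) (.cons 226 (.leaf 202 1620 (.cons 298 t111 .nil)) (.cons 323 (.leaf 347 2007 (.cons 251 (.cons 252 (.leaf 228 1821 (.cons 253 (.leaf 254 2002 (.leaf 273 1994 .nil)) .nil)) (.cons 324 (.leaf 348 2012 (.cons 227 (.leaf 300 1820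 (.cons 203 (.leaf 298 1622 (.leaf 179 1430 .nil)) .nil)) .nil)) .nil)) .nil)) (.cons 226 (.leaf 202 1620 (.cons 323 (.leaf 347 2007 (.leaf 298 1812 .nil)) .nil)) .nil)))) (.cons 299 t110 .nil)))))))))))))
noncomputable def t130 : T := .cons 323 (.leaf 347 2007 (.cons 226 (.leaf 202 1620 (.leaf 251 1815 .nil)) .nil)) (.cons 226 (.leaf 202 1620 (.cons 298 (.cons 225 (.leaf 201 1615 (.cons 322 (.leaf 249 1807 (.cons 346 (.leaf 251 2005 (.leaf 370 2197 .nil)) .nil)) .nil)) (.cons 227 (.leaf 203 1621 (.cons 251 (.leaf 322 1813 (.cons 228 (.leaf 204 1629 (.cons 229 (.leaf 249 1802 (.leaf 230 1810 .nil)) .nil)) .nil)) .nil)) (.cons 225 (.leaf 201 1615 (.cons 227 (.leaf 203 1621 (.cons 249 (.leaf 322 1807 (.cons 248 (.leaf 247 1976 (.leaf 228 1794 .nil)) .nil)) .nil)) .nil)) (.cons 227 (.leaf 203 1621 (.cons 225 (.leaf 201 1615 (.cons 228 (.cons 204 (.leaf 251 1629 (.leaf 205 1609 .nil))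 (.cons 249 (.leaf 229 1802 (.leaf 248 1794 .nil)) .nil)) .nil)) .nil)) (.cons 227 (.leaf 203 1621 (.cons 251 (.leaf 322 1813 (.cons 201 (.leaf 225 1615 (.cons 204 (.leaf 228 1629 (.cons 300 (.leaf 324 1820 (.cons 301 (.leaf 302 2195 (.leaf 273 2187 .nil)) .nil)) .nil)) .nil)) .nil)) .nil)) .nil))))) .nil)) (.cons 323 (.leaf 347 2007 (.cons 251 (.cons 252 (.leaf 228 1821 (.cons 253 (.leaf 254 2002 (.leaf 273 1994 .nil)) .nil)) (.cons 324 (.leaf 348 2012 (.cons 227 (.leaf 300 1820 (.cons 203 (.leaf 298 1622 (.leaf 179 1430 .nil)) .nil)) .nil)) .nil)) .nil)) (.cons 323 (.leaf 347 2007 (.cons 226 (.leaf 202 1620 (.leaf 298 1812 .nil)) .nil)) .nil)))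
noncomputable def t131 : T := .cons 227 (.leaf 203 1621 (.cons 225 (.leaf 201 1615 (.cons 228 (.cons 204 (.leaf 251 1629 (.leaf 205 1609 .nil)) (.cons 249 (.leaf 322 1807 (.leaf 229 1802 .nil)) .nil)) .nil)) .nil)) (.cons 225 (.leaf 201 1615 (.cons 322 (.leaf 249 1807 (.cons 346 (.leaf 251 2005 (.leaf 370 2197 .nil)) .nil)) .nil)) (.cons 227 (.leaf 203 1621 (.cons 225 (.leaf 201 1615 (.cons 228 (.cons 204 (.leaf 251 1629 (.leaf 205 1609 .nil)) (.cons 249 (.leaf 229 1802 (.leaf 248 1794 .nil)) .nil)) .nil)) .nil)) (.cons 227 (.leaf 203 1621 (.cons 251 (.leaf 322 1813 (.cons 228 (.leaf 204 1629 (.cons 229 (.leaf 249 1802 (.leaf 230 1810 .nil)) .nil)) .nil)) .nil)) (.cons 225 (.leaf 201 1615 (.cons 227 (.leaf 203 1621 (.cons 249 (.leaf 322 1807 (.cons 248 (.leaf 247 1976 (.leaf 228 1794 .nil)) .nil)) .nil)) .nil)) (.cons 227 (.leaf 203 1621 (.cons 251 (.leaf 322 1813 (.cons 201 (.leaf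 225 1615 (.cons 204 (.leaf 228 1629 (.cons 300 (.leaf 324 1820 (.cons 301 (.leaf 302 2195 (.leaf 273 2187 .nil)) .nil)) .nil)) .nil)) .nil)) .nil)) .nil)))))
noncomputable def t132 : T := .cons 201 (.leaf 225 1615 (.cons 321 (.leaf 297 1806 (.cons 322 (.leaf 345 1998 (.cons 346 (.leaf 251 2005 (.cons 347 (.leaf 323 2004 (.leaf 371 2196 .nil)) .nil)) .nil)) .nil)) .nil)) (.cons 297 (.leaf 321 1806 (.cons 201 (.leaf 225 1615 (.cons 296 (.leaf 295 2169 (.cons 276 (.leaf 273 2178 (.leaf 299 2177 .nil)) .nil)) .nil)) .nil)) (.cons 323 (.leaf 299 1812 (.cons 201 (.leaf 225 1615 (.cons 322 (.leaf 347 2004 (.cons 345 (.leaf 321 1998 (.cons 346 (.leaf 251 2005 (.leaf 369 2190 .nil)) .nil)) .nil)) .nil)) .nil)) (.cons 323 (.leaf 299 1812 (.cons 297 (.leaf 321 1806 (.cons 295 (.leaf 296 2169 (.cons 322 (.leaf 347 2004 (.cons 324 (.leaf 325 2379 (.cons 346 (.leaf 251 2005 (.cons 273 (.leaf 249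 1999 (.leaf 370 2191 .nil)) .nil)) .nil)) .nil)) .nil)) .nil)) .nil)) (.cons 323 (.leaf 299 1812 (.cons 201 (.leaf 225 1615 (.cons 322 (.leaf 347 2004 (.cons 346 (.leaf 251 2005 (.cons 273 (.leaf 249 1999 (.cons 297 (.leaf 370 2191 (.cons 296 (.leaf 276 2178 (.leaf 295 2360 .nil)) .nil)) .nil)) .nil)) .nil)) .nil)) .nil)) .nil))))
noncomputable def t133 : T := .cons 298 (.cons 297 (.leaf 321 1806 (.cons 296 (.leaf 295 2169 (.cons 299 (.leaf 202 1620 (.leaf 276 2177 .nil)) .nil)) .nil)) (.cons 297 (.leaf 321 1806 (.cons 201 (.leaf 225 1615 (.cons 202 (.leaf 177 1423 (.leaf 273 1614 .nil)) .nil)) .nil)) (.cons 297 (.leaf 321 1806 (.cons 296 (.leaf 295 2169 (.cons 299 (.leaf 276 2177 (.leaf 323 1812 .nil)) .nil)) .nil)) (.cons 299 (.leaf 202 1620 (.leaf 323 1812 .nil)) .nil)))) (.cons 298 t132 (.cons 202 (.cons 179 (.leaf 203 1429 (.cons 201 (.leaf 177 1423 (.cons 178 (.leaf 251 1428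 (.leaf 155 1237 .nil)) .nil)) .nil)) (.cons 179 (.leaf 203 1429 (.cons 201 (.leaf 177 1423 (.cons 298 (.leaf 225 1615 (.cons 321 (.leaf 297 1806 (.cons 322 (.leaf 345 1998 (.cons 346 (.leaf 251 2005 (.cons 347 (.leaf 323 2004 (.leaf 371 2196 .nil)) .nil)) .nil)) .nil)) .nil)) .nil)) .nil)) (.cons 178 (.leaf 251 1428 (.cons 179 (.leaf 203 1429 (.leaf 155 1237 .nil)) .nil)) (.cons 177 (.leaf 201 1423 (.cons 178 (.leaf 251 1428 (.leaf 153 1231 .nil)) .nil)) (.cons 177 (.leaf 201 1423 (.cons 178 (.leaf 153 1231 (.cons 179 (.leaf 203 1429 (.leaf 155 1237 .nil)) .nil)) .nil)) .nil))))) (.cons 202 (.leaf 299 1620 (.cons 178 (.leaf 251 1428 (.cons 179 (.leaf 203 1429 (.leaf 155 1237 .nil)) .nil)) .nil)) .nil)))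
noncomputable def t134 : T := .cons 226 (.leaf 202 1620 (.cons 323 (.leaf 251 1815 (.leaf 347 2007 .nil)) .nil)) (.cons 226 (.leaf 202 1620 (.cons 298 (.cons 297 (.leaf 321 1806 (.cons 296 (.leaf 295 2169 (.leaf 276 2177 .nil)) .nil)) (.cons 227 (.leaf 203 1621 (.cons 225 (.leaf 201 1615 (.cons 228 (.cons 204 (.leaf 251 1629 (.leaf 205 1609 .nil)) (.cons 249 (.leaf 322 1807 (.leaf 229 1802 .nil)) .nil)) .nil)) .nil)) .nil)) .nil)) (.cons 323 (.leaf 347 2007 (.cons 251 (.cons 228 (.leaf 252 1821 (.cons 227 (.leaf 204 1629 (.cons 203 (.leaf 298 1622 (.leaf 179 1430 .nil)) .nil)) .nil)) (.cons 252 (.leaf 228 1821 (.cons 253 (.leaf 254 2002 (.cons 229 (.leaf 230 1809 (.cons 322 (.leaf 346 2006 (.cons 324 (.leaf 348 2012 (.cons 276 (.leaf 300 1829 (.cons 249 (.leaf 248 1984 (.cons 225 (.leaf 298 1807 (.leaf 224 1795 .nil)) .nil)) .nil)) .nil)) .nil)) .nil)) .nil)) .nil)) (.cons 322 (.leaf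 346 2006 (.cons 298 (.leaf 227 1813 (.cons 321 (.leaf 345 1998 (.cons 300 (.leaf 301 2378 (.leaf 320 2369 .nil)) .nil)) .nil)) .nil)) (.cons 252 (.leaf 228 1821 (.cons 253 (.leaf 254 2002 (.cons 229 (.leaf 230 1809 (.cons 322 (.leaf 346 2006 (.cons 324 (.leaf 348 2012 (.cons 300 (.leaf 227 1820 (.leaf 276 1829 .nil)) .nil)) .nil)) .nil)) .nil)) .nil)) .nil)))) .nil)) (.cons 323 (.leaf 347 2007 (.cons 226 (.leaf 202 1620 (.leaf 298 1812 .nil)) .nil)) .nil)))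
noncomputable def t135 : T := .cons 297 (.cons 296 (.leaf 295 2169 (.cons 299 (.leaf 276 2177 (.cons 323 (.leaf 347 2007 (.leaf 226 1812 .nil)) .nil)) .nil)) (.cons 296 (.leaf 295 2169 (.cons 299 (.leaf 276 2177 (.cons 323 (.leaf 347 2007 (.leaf 324 2368 .nil)) .nil)) .nil)) (.cons 321 (.leaf 226 1806 (.cons 345 (.leaf 273 1997 (.leaf 322 1998 .nil)) .nil)) .nil))) (.cons 297 (.cons 296 (.leaf 295 2169 (.cons 299 (.leaf 276 2177 (.cons 323 (.leaf 347 2007 (.leaf 226 1812 .nil)) .nil)) .nil)) (.cons 296 (.leaf 295 2169 (.cons 299 (.leaf 276 2177 (.cons 323 (.leaf 347 2007 (.leaf 324 2368 .nil)) .nil)) .nil)) (.cons 321 (.leaf 226 1806 (.cons 345 (.leaf 273 1997 (.leaf 369 2189 .nil)) .nil)) .nil))) (.cons 322 (.cons 225 (.leaf 249 1807 (.cons 226 (.leaf 201 1615 (.cons 227 (.leaf 203 1621 (.leaf 251 1813 .nil)) .nil)) .nil)) (.cons 225 (.leaf 249 1807 (.cons 226 (.leaf 201 1615 (.cons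 321 (.leaf 297 1806 (.leaf 345 1998 .nil)) .nil)) .nil)) (.cons 251 (.leaf 346 2005 (.leaf 227 1813 .nil)) .nil))) (.cons 322 (.cons 251 (.leaf 346 2005 (.leaf 227 1813 .nil)) (.cons 249 (.leaf 225 1807 (.cons 247 (.leaf 248 1976 (.cons 346 (.leaf 273 1999 (.cons 347 (.leaf 323 2004 (.leaf 371 2196 .nil)) .nil)) .nil)) .nil)) (.cons 251 (.leaf 227 1813 (.cons 249 (.leaf 225 1807 (.cons 248 (.leaf 247 1976 (.leaf 276 1984 .nil)) .nil)) .nil)) .nil))) .nil)))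
noncomputable def t136 : T := .cons 226 (.leaf 202 1620 (.cons 298 (.leaf 323 1812 (.cons 201 (.leaf 225 1615 (.cons 203 (.leaf 227 1621 (.cons 297 (.leaf 321 1806 (.cons 296 (.leaf 295 2169 (.leaf 276 2177 .nil)) .nil)) .nil)) .nil)) .nil)) .nil)) (.cons 226 (.leaf 202 1620 (.cons 298 (.cons 201 (.leaf 225 1615 (.cons 203 (.leaf 227 1621 (.cons 297 (.leaf 321 1806 (.cons 296 (.leaf 295 2169 (.leaf 276 2177 .nil)) .nil)) .nil)) .nil)) (.cons 297 (.leaf 321 1806 (.cons 296 (.leaf 295 2169 (.leaf 276 2177 .nil)) .nil)) (.cons 201 (.leaf 225 1615 (.cons 227 (.leaf 203 1621 (.cons 251 (.leaf 322 1813 (.cons 204 (.leaf 228 1629 (.cons 300 (.leaf 324 1820 (.cons 301 (.leaf 302 2195 (.leaf 273 2187 .nil)) .nil)) .nil)) .nil)) .nil)) .nil)) .nil))) .nil)) (.cons 323 (.leaf 347 2007 (.cons 251 (.cons 228 (.leaf 252 1821 (.cons 227 (.leaf 204 1629 (.cons 203 (.leaf 298 1622 (.leaf 179 1430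 .nil)) .nil)) .nil)) (.cons 322 (.leaf 346 2006 (.cons 298 (.leaf 227 1813 (.cons 321 (.leaf 345 1998 (.cons 300 (.leaf 301 2378 (.leaf 320 2369 .nil)) .nil)) .nil)) .nil)) (.cons 252 (.leaf 228 1821 (.cons 253 (.leaf 254 2002 (.leaf 273 1994 .nil)) .nil)) .nil))) .nil)) (.cons 323 (.leaf 347 2007 (.cons 226 (.leaf 202 1620 (.leaf 251 1815 .nil)) .nil)) .nil)))
noncomputable def t137 : T := .cons 248 (.leaf 247 1976 (.leaf 276 1987 .nil)) (.cons 297 (.cons 202 (.leaf 226 1614 (.cons 296 (.leaf 276 2178 (.cons 225 (.leaf 320 1798 (.cons 201 (.leaf 177 1420 (.leaf 178 1421 .nil)) .nil)) .nil)) .nil)) (.cons 276 (.leaf 296 2178 (.cons 300 (.leaf 301 2184 (.cons 321 (.leaf 345 1997 (.cons 320 (.leaf 344 1990 (.cons 322 (.leaf 346 1996 (.cons 323 (.leaf 299 2369 (.cons 252 (.leaf 253 1993 (.cons 347 (.leaf 324 2014 (.leaf 348 2560 .nil)) .nil)) .nil)) .nil)) .nil)) .nil)) .nil)) .nil))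 (.cons 226 (.leaf 202 1614 (.leaf 321 1805 .nil)) .nil))) (.cons 247 (.leaf 248 1976 (.cons 297 (.cons 226 (.leaf 202 1614 (.leaf 321 1805 .nil)) (.cons 321 (.leaf 345 1997 (.cons 320 (.leaf 344 1990 (.cons 225 (.leaf 296 1798 (.cons 200 (.leaf 224 1607 (.cons 201 (.leaf 177 1420 (.leaf 176 1415 .nil)) .nil)) .nil)) .nil)) .nil)) (.cons 225 (.cons 226 (.leaf 202 1613 (.cons 177 (.leaf 201 1420 (.cons 224 (.leaf 200 1607 (.cons 223 (.leaf 222 1776 (.leaf 246 1778 .nil)) .nil)) .nil)) .nil)) (.cons 200 (.leaf 224 1607 (.cons 201 (.leaf 177 1420 (.leaf 176 1415 .nil)) .nil)) (.cons 226 (.leaf 202 1613 (.cons 224 (.leaf 200 1607 (.cons 223 (.leaf 222 1776 (.leaf 246 1778 .nil)) .nil)) .nil)) (.cons 202 (.leaf 226 1613 (.cons 201 (.leaf 177 1420 (.leaf 178 1421 .nil)) .nil)) .nil)))) .nil))) .nil)) .nil))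
noncomputable def t138 : T := .cons 252 (.cons 253 (.leaf 254 2002 (.leaf 273 1994 .nil)) (.cons 228 (.leaf 229 1801 (.cons 204 (.leaf 180 1438 (.cons 299 (.leaf 227 1629 (.leaf 276 1630 .nil)) .nil)) .nil)) .nil)) (.cons 226 (.cons 202 (.leaf 178 1428 (.leaf 299 1620 .nil)) (.cons 299 (.leaf 323 1815 (.cons 227 (.cons 228 (.leaf 204 1629 (.leaf 229 1802 .nil)) (.cons 203 (.leaf 179 1430 (.cons 300 (.leaf 276 1628 (.leaf 324 1820 .nil)) .nil)) .nil)) .nil)) (.cons 202 (.leaf 178 1428 (.cons 273 (.leaf 297 1614 (.cons 203 (.leaf 179 1429 (.cons 201 (.leaf 177 1423 (.cons 227 (.cons 228 (.leaf 229 1802 (.leaf 200 1600 .nil)) (.cons 180 (.leaf 204 1437 (.cons 200 (.leaf 199 1592 (.cons 176 (.leaf 225 1415 (.leaf 175 1403 .nil)) .nil)) .nil)) (.cons 228 (.leaf 229 1802 (.cons 204 (.leaf 180 1437 (.cons 225 (.leaf 205 1609 (.leaf 224 1601 .nil)) .nil)) .nil)) .nil))) .nil)) .nil)) .nil))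 .nil)) .nil))) (.cons 252 (.cons 253 (.leaf 254 2002 (.leaf 273 1994 .nil)) (.cons 225 (.leaf 224 1795 (.cons 228 (.leaf 229 1801 (.cons 201 (.leaf 177 1420 (.cons 204 (.leaf 180 1438 (.cons 226 (.cons 227 (.leaf 200 1603 (.leaf 205 1609 .nil)) (.cons 202 (.leaf 178 1428 (.cons 203 (.leaf 179 1429 (.leaf 205 1610 .nil)) .nil)) (.cons 200 (.leaf 227 1603 (.cons 176 (.leaf 273 1415 (.cons 128 (.leaf 152 1028 (.cons 202 (.leaf 178 1428 (.cons 203 (.leaf 179 1429 (.leaf 175 1403 .nil)) .nil)) .nil)) .nil)) .nil)) .nil))) .nil)) .nil)) .nil)) .nil)) (.cons 253 (.leaf 254 2002 (.cons 225 (.leaf 224 1795 (.leaf 226 1803 .nil)) .nil)) .nil))) (.cons 252 (.cons 253 (.leaf 254 2002 (.leaf 273 1994 .nil)) (.cons 228 (.leaf 229 1801 (.cons 204 (.leaf 180 1438 (.cons 299 (.leaf 276 1630 (.leaf 323 1821 .nil)) .nil)) .nil)) .nil)) (.cons 252 (.cons 253 (.leaf 254 2002 (.cons 225 (.leaf 224 1795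 (.leaf 226 1803 .nil)) .nil)) (.cons 228 (.leaf 229 1801 (.cons 204 (.leaf 180 1438 (.cons 299 (.leaf 227 1629 (.leaf 276 1630 .nil)) .nil)) .nil)) .nil)) (.cons 299 (.cons 226 (.leaf 202 1620 (.leaf 323 1815 .nil)) (.cons 323 (.leaf 347 2007 (.cons 322 (.leaf 346 2006 (.cons 324 (.leaf 348 2012 (.cons 300 (.leaf 227 1820 (.cons 301 (.leaf 302 2386 (.leaf 321 2377 .nil)) .nil)) .nil)) .nil)) .nil)) (.cons 202 (.leaf 226 1620 (.cons 300 (.cons 301 (.leaf 302 2195 (.cons 273 (.leaf 276 2184 (.cons 252 (.leaf 253 1994 (.cons 225 (.leaf 224 1795 (.cons 201 (.leaf 177 1420 (.leaf 178 1421 .nil)) .nil)) .nil)) .nil)) .nil)) (.cons 227 (.leaf 324 1820 (.cons 203 (.leaf 178 1431 (.leaf 276 1628 .nil)) .nil)) (.cons 227 (.leaf 324 1820 (.cons 203 (.leaf 178 1431 (.leaf 179 1430 .nil)) .nil)) (.cons 227 (.leaf 324 1820 (.cons 203 (.leaf 276 1628 (.leaf 179 1430 .nil)) .nil)) .nil)))) .nil))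 .nil))) .nil)))))
noncomputable def t139 : T := .cons 248 (.leaf 247 1976 (.cons 251 (.leaf 276 1984 (.cons 224 (.leaf 223 1787 (.cons 252 (.leaf 225 1795 (.cons 253 (.leaf 254 2002 (.leaf 273 1994 .nil)) .nil)) .nil)) .nil)) .nil)) (.cons 251 t138 (.cons 273 t137 (.cons 248 (.leaf 247 1976 (.cons 251 (.leaf 276 1984 (.cons 223 (.leaf 224 1787 (.cons 227 (.leaf 228 1793 (.cons 203 (.leaf 179 1430 (.cons 180 (.leaf 204 1437 (.cons 202 (.leaf 178 1431 (.cons 299 (.leaf 226 1620 (.cons 323 (.leaf 347 2007 (.cons 324 (.leaf 300 1820 (.leaf 348 2012 .nil)) .nil)) .nil)) .nil)) .nil)) .nil)) .nil)) .nil)) .nil)) .nil)) (.cons 248 (.leaf 247 1976 (.cons 251 (.cons 224 (.leaf 223 1787 (.cons 252 (.leaf 225 1795 (.cons 253 (.leaf 254 2002 (.leaf 273 1994 .nil)) .nil)) .nil)) (.cons 227 (.leaf 228 1793 (.cons 203 (.leaf 179 1430 (.cons 180 (.leaf 204 1437 (.cons 202 (.leaf 178 1431 (.cons 226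 (.leaf 299 1620 (.cons 201 (.leaf 177 1423 (.cons 200 (.leaf 199 1592 (.cons 176 (.leaf 175 1403 (.cons 273 (.leaf 297 1614 (.leaf 225 1415 .nil)) .nil)) .nil)) .nil)) .nil)) .nil)) .nil)) .nil)) .nil)) (.cons 223 (.leaf 224 1787 (.cons 227 (.leaf 228 1793 (.cons 203 (.leaf 179 1430 (.cons 180 (.leaf 204 1437 (.cons 202 (.leaf 178 1431 (.cons 299 (.leaf 226 1620 (.cons 323 (.leaf 347 2007 (.cons 324 (.leaf 300 1820 (.leaf 348 2012 .nil)) .nil)) .nil)) .nil)) .nil)) .nil)) .nil)) .nil)) .nil))) .nil)) (.cons 248 (.leaf 247 1976 (.cons 276 (.leaf 251 1984 (.leaf 273 1987 .nil)) .nil)) .nil)))))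
noncomputable def t140 : T := .cons 202 (.leaf 299 1620 (.cons 177 (.leaf 201 1423 (.cons 178 (.leaf 153 1231 (.cons 179 (.leaf 203 1429 (.leaf 155 1237 .nil)) .nil)) .nil)) .nil)) (.cons 298 (.cons 203 (.leaf 227 1621 (.cons 225 (.leaf 201 1615 (.cons 321 (.leaf 297 1806 (.cons 322 (.leaf 249 1807 (.leaf 345 1998 .nil)) .nil)) .nil)) .nil)) (.cons 323 (.leaf 299 1812 (.cons 203 (.leaf 227 1621 (.cons 225 (.leaf 201 1615 (.cons 322 (.leaf 249 1807 (.leaf 347 2004 .nil)) .nil)) .nil)) .nil)) (.cons 203 (.leaf 227 1621 (.cons 297 (.leaf 321 1806 (.cons 296 (.leaf 295 2169 (.cons 299 (.leaf 276 2177 (.leaf 323 1812 .nil)) .nil)) .nil)) .nil)) (.cons 201 (.leaf 225 1615 (.cons 297 (.leaf 321 1806 (.cons 296 (.leaf 295 2169 (.cons 299 (.leaf 276 2177 (.leaf 323 1812 .nil)) .nil)) .nil)) .nil)) .nil)))) (.cons 298 (.cons 201 (.leaf 225 1615 (.cons 202 (.leaf 177 1423 (.cons 203 (.leaf 179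 1429 (.leaf 227 1621 .nil)) .nil)) .nil)) (.cons 203 (.leaf 227 1621 (.cons 202 (.leaf 179 1429 (.cons 297 (.leaf 273 1614 (.leaf 321 1806 .nil)) .nil)) .nil)) (.cons 201 (.leaf 225 1615 (.cons 202 (.leaf 177 1423 (.cons 297 (.leaf 273 1614 (.leaf 321 1806 .nil)) .nil)) .nil)) (.cons 203 (.leaf 227 1621 (.cons 225 (.leaf 201 1615 (.cons 321 (.leaf 297 1806 (.cons 322 (.leaf 249 1807 (.leaf 345 1998 .nil)) .nil)) .nil)) .nil)) .nil)))) (.cons 202 (.leaf 299 1620 (.cons 179 (.leaf 203 1429 (.cons 178 (.leaf 155 1237 (.cons 273 (.leaf 297 1614 (.leaf 249 1422 .nil)) .nil)) .nil)) .nil)) (.cons 202 (.leaf 299 1620 (.cons 177 (.leaf 201 1423 (.cons 178 (.leaf 153 1231 (.cons 273 (.leaf 297 1614 (.leaf 249 1422 .nil)) .nil)) .nil)) .nil)) .nil))))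
noncomputable def t141 : T := .cons 322 (.leaf 225 1807 (.cons 273 (.leaf 346 1999 (.cons 321 (.leaf 345 1998 (.cons 226 (.leaf 297 1805 (.cons 202 (.leaf 178 1422 (.cons 203 (.leaf 179 1429 (.leaf 227 1621 .nil)) .nil)) .nil)) .nil)) .nil)) .nil)) (.cons 226 (.cons 201 (.leaf 225 1615 (.cons 202 (.leaf 177 1423 (.cons 178 (.leaf 251 1428 (.leaf 273 1422 .nil)) .nil)) .nil)) (.cons 203 (.leaf 227 1621 (.cons 202 (.leaf 179 1429 (.cons 178 (.leaf 251 1428 (.leaf 273 1422 .nil)) .nil)) .nil)) (.cons 225 (.leaf 201 1615 (.cons 203 (.leaf 227 1621 (.cons 297 (.leaf 321 1806 (.cons 296 (.leaf 295 2169 (.cons 273 (.leaf 276 2178 (.leaf 320 1798 .nil)) .nil)) .nil)) .nil)) .nil)) (.cons 227 (.leaf 203 1621 (.cons 225 (.leaf 201 1615 (.cons 228 (.leaf 229 1802 (.cons 204 (.leaf 205 1609 (.cons 252 (.leaf 253 1800 (.cons 251 (.leaf 180 1438 (.leaf 224 1792 .nil)) .nil)) .nil)) .nil)) .nil))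 .nil)) .nil)))) (.cons 322 (.cons 273 (.leaf 346 1999 (.cons 321 (.leaf 345 1998 (.cons 226 (.leaf 297 1805 (.cons 202 (.leaf 178 1422 (.cons 203 (.leaf 179 1429 (.leaf 227 1621 .nil)) .nil)) .nil)) .nil)) .nil)) (.cons 227 (.leaf 251 1813 (.cons 226 (.leaf 203 1621 (.cons 321 (.leaf 297 1806 (.leaf 345 1998 .nil)) .nil)) .nil)) (.cons 346 (.leaf 251 2005 (.leaf 273 1999 .nil)) .nil))) (.cons 322 (.leaf 225 1807 (.cons 346 (.leaf 251 2005 (.leaf 273 1999 .nil)) .nil)) (.cons 322 (.leaf 225 1807 (.cons 227 (.leaf 251 1813 (.cons 226 (.leaf 203 1621 (.cons 321 (.leaf 297 1806 (.leaf 345 1998 .nil)) .nil)) .nil)) .nil)) .nil))))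
noncomputable def t142 : T := .cons 248 (.leaf 247 1976 (.cons 251 (.leaf 276 1984 (.cons 224 (.leaf 223 1787 (.cons 225 (.leaf 252 1795 (.cons 201 (.leaf 177 1420 (.cons 298 (.leaf 226 1615 (.leaf 273 1612 .nil)) .nil)) .nil)) .nil)) .nil)) .nil)) (.cons 298 t141 (.cons 248 (.leaf 247 1976 (.cons 251 (.leaf 276 1984 (.cons 227 (.leaf 228 1793 (.cons 203 (.leaf 298 1622 (.leaf 179 1430 .nil)) .nil)) .nil)) .nil)) (.cons 248 (.leaf 247 1976 (.cons 273 (.leaf 276 1987 (.cons 225 (.cons 298 (.leaf 201 1612 (.leaf 322 1807 .nil)) (.cons 298 (.leaf 322 1807 (.cons 297 (.cons 224 (.leaf 200 1607 (.leaf 321 1799 .nil)) (.cons 296 (.leaf 295 2169 (.leaf 320 1798 .nil)) .nil)) .nil)) (.cons 201 (.leaf 177 1420 (.cons 178 (.leaf 202 1421 (.cons 200 (.leaf 176 1415 (.cons 297 (.leaf 224 1607 (.cons 320 (.leaf 296 1798 (.cons 321 (.leaf 345 1997 (.leaf 226 1805 .nil)) .nil)) .nil)) .nil)) .nil))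 .nil)) .nil))) .nil)) .nil)) (.cons 248 (.leaf 247 1976 (.cons 276 (.leaf 251 1984 (.leaf 273 1987 .nil)) .nil)) (.cons 248 (.leaf 247 1976 (.cons 251 (.cons 224 (.leaf 223 1787 (.cons 225 (.leaf 252 1795 (.cons 201 (.leaf 177 1420 (.cons 298 (.leaf 226 1615 (.leaf 273 1612 .nil)) .nil)) .nil)) .nil)) (.cons 227 (.leaf 228 1793 (.cons 203 (.leaf 298 1622 (.leaf 179 1430 .nil)) .nil)) (.cons 227 (.leaf 228 1793 (.cons 179 (.leaf 203 1430 (.cons 224 (.leaf 223 1787 (.cons 252 (.leaf 225 1795 (.cons 253 (.leaf 254 2002 (.leaf 273 1994 .nil)) .nil)) .nil)) .nil)) .nil)) .nil))) .nil)) .nil)))))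
noncomputable def t143 : T := .cons 252 (.cons 225 (.leaf 224 1795 (.cons 201 (.leaf 177 1420 (.cons 298 (.leaf 273 1612 (.leaf 322 1807 .nil)) .nil)) .nil)) (.cons 253 (.leaf 254 2002 (.leaf 273 1994 .nil)) (.cons 224 (.leaf 225 1795 (.cons 228 (.leaf 229 1801 (.cons 204 (.leaf 180 1438 (.cons 299 (.leaf 227 1629 (.leaf 276 1630 .nil)) .nil)) .nil)) .nil)) .nil))) (.cons 252 (.cons 224 (.leaf 225 1795 (.cons 228 (.leaf 229 1801 (.cons 204 (.leaf 180 1438 (.cons 299 (.leaf 227 1629 (.leaf 276 1630 .nil)) .nil)) .nil)) .nil)) (.cons 253 (.leaf 254 2002 (.leaf 273 1994 .nil)) .nil)) (.cons 227 (.cons 203 (.leaf 298 1622 (.leaf 179 1430 .nil)) (.cons 203 (.leaf 179 1430 (.cons 178 (.leaf 202 1431 (.cons 204 (.leaf 180 1437 (.cons 299 (.leaf 228 1629 (.cons 300 (.leaf 276 1628 (.leaf 324 1820 .nil)) .nil)) .nil)) .nil)) .nil)) (.cons 299 (.cons 298 (.leaf 322 1813 (.cons 204 (.leaf 228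 1629 (.cons 300 (.leaf 324 1820 (.cons 301 (.leaf 302 2195 (.leaf 273 2187 .nil)) .nil)) .nil)) .nil)) (.cons 204 (.leaf 228 1629 (.cons 323 (.leaf 347 2007 (.cons 324 (.leaf 300 1820 (.leaf 348 2012 .nil)) .nil)) .nil)) (.cons 322 (.leaf 298 1813 (.cons 323 (.leaf 347 2007 (.leaf 346 2006 .nil)) .nil)) .nil))) .nil))) (.cons 252 (.cons 225 (.leaf 224 1795 (.cons 201 (.leaf 177 1420 (.cons 298 (.leaf 273 1612 (.leaf 322 1807 .nil)) .nil)) .nil)) (.cons 253 (.leaf 254 2002 (.leaf 273 1994 .nil)) (.cons 224 (.leaf 225 1795 (.cons 228 (.leaf 229 1801 (.cons 204 (.leaf 180 1438 (.cons 299 (.leaf 276 1630 (.leaf 323 1821 .nil)) .nil)) .nil)) .nil)) .nil))) (.cons 252 (.cons 225 (.leaf 224 1795 (.cons 201 (.leaf 177 1420 (.cons 298 (.leaf 273 1612 (.leaf 322 1807 .nil)) .nil)) .nil)) (.cons 253 (.leaf 254 2002 (.leaf 273 1994 .nil)) (.cons 225 (.leaf 224 1795 (.cons 177 (.leaf 201 1420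 (.cons 228 (.leaf 229 1801 (.cons 204 (.leaf 180 1438 (.cons 298 (.leaf 322 1807 (.cons 203 (.leaf 227 1622 (.cons 179 (.leaf 276 1439 (.cons 131 (.leaf 155 1052 (.cons 178 (.leaf 176 1408 (.cons 205 (.leaf 202 1419 (.leaf 206 1427 .nil)) .nil)) .nil)) .nil)) .nil)) .nil)) .nil)) .nil)) .nil)) .nil)) .nil))) (.cons 298 (.cons 322 (.leaf 346 2005 (.leaf 225 1807 .nil)) (.cons 227 (.leaf 203 1622 (.cons 228 (.cons 204 (.leaf 299 1629 (.cons 180 (.leaf 252 1438 (.leaf 156 1246 .nil)) .nil)) (.cons 229 (.leaf 230 1810 (.cons 299 (.leaf 204 1629 (.cons 323 (.leaf 347 2007 (.cons 324 (.leaf 300 1820 (.leaf 348 2012 .nil)) .nil)) .nil)) .nil)) (.cons 229 (.leaf 230 1810 (.leaf 252 1801 .nil)) .nil))) .nil)) .nil)) (.cons 225 (.cons 201 (.leaf 177 1420 (.cons 224 (.leaf 252 1795 (.cons 298 (.leaf 273 1612 (.leaf 322 1807 .nil)) .nil)) .nil)) (.cons 252 (.leaf 224 1795 (.cons 253 (.leaf 254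 2002 (.leaf 273 1994 .nil)) .nil)) (.cons 201 (.leaf 177 1420 (.cons 298 (.leaf 273 1612 (.leaf 322 1807 .nil)) .nil)) (.cons 201 (.leaf 177 1420 (.cons 224 (.leaf 252 1795 (.cons 298 (.leaf 322 1807 (.cons 203 (.leaf 227 1622 (.cons 202 (.leaf 204 1602 (.cons 223 (.leaf 222 1776 (.leaf 200 1594 .nil)) .nil)) .nil)) .nil)) .nil)) .nil)) .nil)))) (.cons 252 (.cons 225 (.leaf 224 1795 (.cons 201 (.leaf 177 1420 (.cons 298 (.leaf 273 1612 (.leaf 322 1807 .nil)) .nil)) .nil)) (.cons 253 (.leaf 254 2002 (.leaf 273 1994 .nil)) (.cons 224 (.leaf 225 1795 (.cons 229 (.leaf 228 1801 (.cons 253 (.leaf 254 2002 (.leaf 230 1809 .nil)) .nil)) .nil)) .nil))) .nil)))))))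
noncomputable def t144 : T := .cons 248 (.leaf 247 1976 (.cons 251 (.leaf 276 1984 (.cons 223 (.leaf 224 1787 (.cons 227 (.leaf 228 1793 (.cons 203 (.leaf 298 1622 (.leaf 179 1430 .nil)) .nil)) .nil)) .nil)) .nil)) (.cons 251 t143 (.cons 248 (.leaf 247 1976 (.cons 273 (.leaf 276 1987 (.cons 225 (.cons 298 (.leaf 201 1612 (.leaf 322 1807 .nil)) (.cons 201 (.leaf 177 1420 (.cons 178 (.leaf 202 1421 (.cons 200 (.leaf 176 1415 (.cons 297 (.leaf 224 1607 (.cons 320 (.leaf 296 1798 (.cons 321 (.leaf 345 1997 (.leaf 344 1990 .nil)) .nil)) .nil)) .nil)) .nil)) .nil)) (.cons 298 (.leaf 322 1807 (.cons 297 (.cons 224 (.leaf 200 1607 (.leaf 321 1799 .nil)) (.cons 296 (.leaf 295 2169 (.leaf 320 1798 .nil)) .nil)) .nil)) .nil))) .nil)) .nil)) (.cons 248 (.leaf 247 1976 (.cons 276 (.leaf 251 1984 (.leaf 273 1987 .nil)) .nil)) (.cons 248 (.leaf 247 1976 (.cons 251 (.cons 223 (.leaf 224 1787 (.cons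 227 (.leaf 228 1793 (.cons 203 (.leaf 298 1622 (.leaf 179 1430 .nil)) .nil)) .nil)) (.cons 224 (.leaf 223 1787 (.cons 225 (.leaf 252 1795 (.cons 201 (.leaf 177 1420 (.cons 298 (.leaf 273 1612 (.leaf 322 1807 .nil)) .nil)) .nil)) .nil)) (.cons 227 (.leaf 228 1793 (.cons 203 (.leaf 298 1622 (.leaf 179 1430 .nil)) .nil)) (.cons 227 (.leaf 228 1793 (.cons 179 (.leaf 203 1430 (.cons 224 (.leaf 223 1787 (.cons 252 (.leaf 225 1795 (.cons 253 (.leaf 254 2002 (.leaf 273 1994 .nil)) .nil)) .nil)) .nil)) .nil)) .nil)))) .nil)) .nil))))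
noncomputable def t145 : T := .cons 323 (.leaf 347 2007 (.cons 251 (.leaf 226 1815 (.cons 322 (.leaf 346 2006 (.cons 298 (.leaf 227 1813 (.cons 321 (.leaf 345 1998 (.cons 300 (.leaf 301 2378 (.leaf 320 2369 .nil)) .nil)) .nil)) .nil)) .nil)) .nil)) (.cons 323 (.leaf 347 2007 (.cons 251 (.cons 322 (.leaf 346 2006 (.cons 298 (.leaf 227 1813 (.cons 321 (.leaf 345 1998 (.cons 300 (.leaf 301 2378 (.leaf 320 2369 .nil)) .nil)) .nil)) .nil)) (.cons 228 (.leaf 252 1821 (.cons 227 (.leaf 204 1629 (.cons 203 (.leaf 298 1622 (.leaf 179 1430 .nil)) .nil)) .nil)) (.cons 252 (.leaf 228 1821 (.cons 253 (.leaf 254 2002 (.leaf 273 1994 .nil)) .nil)) .nil))) .nil)) (.cons 226 (.leaf 202 1620 (.cons 298 (.cons 225 (.leaf 201 1615 (.cons 203 (.leaf 227 1621 (.cons 322 (.leaf 249 1807 (.cons 345 (.leaf 321 1998 (.cons 346 (.leaf 251 2005 (.leaf 370 2197 .nil)) .nil)) .nil)) .nil)) .nil)) (.cons 225 (.leaf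 201 1615 (.cons 322 (.leaf 249 1807 (.cons 346 (.leaf 251 2005 (.leaf 370 2197 .nil)) .nil)) .nil)) (.cons 297 (.leaf 321 1806 (.cons 296 (.leaf 295 2169 (.leaf 276 2177 .nil)) .nil)) .nil))) .nil)) (.cons 323 (.leaf 347 2007 (.cons 226 (.leaf 202 1620 (.leaf 298 1812 .nil)) .nil)) (.cons 323 (.leaf 347 2007 (.cons 226 (.leaf 202 1620 (.leaf 251 1815 .nil)) .nil)) .nil))))
noncomputable def t146 : T := .cons 299 t145 (.cons 249 t144 (.cons 249 t142 (.cons 226 t140 (.cons 249 t139 (.cons 299 t136 (.cons 298 t135 (.cons 299 t134 (.cons 226 t133 (.cons 299 (.cons 226 (.leaf 202 1620 (.cons 323 (.leaf 251 1815 (.leaf 347 2007 .nil)) .nil)) (.cons 323 (.leaf 347 2007 (.cons 251 (.cons 252 (.leaf 228 1821 (.cons 253 (.leaf 254 2002 (.leaf 273 1994 .nil)) .nil)) (.cons 324 (.leaf 348 2012 (.cons 227 (.leaf 300 1820 (.cons 203 (.leaf 298 1622 (.leaf 179 1430 .nil)) .nil)) .nil)) .nil)) .nil))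 (.cons 226 (.leaf 202 1620 (.cons 298 (.cons 297 (.leaf 321 1806 (.cons 296 (.leaf 295 2169 (.leaf 276 2177 .nil)) .nil)) (.cons 227 (.leaf 203 1621 (.cons 225 (.leaf 201 1615 (.cons 228 (.cons 204 (.leaf 251 1629 (.leaf 205 1609 .nil)) (.cons 249 (.leaf 229 1802 (.leaf 248 1794 .nil)) .nil)) .nil)) .nil)) .nil)) .nil)) (.cons 226 (.leaf 202 1620 (.cons 323 (.leaf 347 2007 (.leaf 298 1812 .nil)) .nil)) .nil)))) (.cons 299 (.cons 323 (.leaf 347 2007 (.cons 251 (.leaf 226 1815 (.cons 252 (.leaf 228 1821 (.cons 253 (.leaf 254 2002 (.leaf 273 1994 .nil)) .nil)) .nil)) .nil)) (.cons 226 (.leaf 202 1620 (.cons 298 t131 .nil)) (.cons 323 (.leaf 347 2007 (.cons 251 (.cons 252 (.leaf 228 1821 (.cons 253 (.leaf 254 2002 (.leaf 273 1994 .nil)) .nil)) (.cons 322 (.leaf 346 2006 (.cons 298 (.leaf 227 1813 (.cons 321 (.leaf 345 1998 (.cons 300 (.leaf 301 2378 (.leaf 320 2369 .nil)) .nil)) .nil))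 .nil)) .nil)) .nil)) (.cons 323 (.leaf 347 2007 (.cons 226 (.leaf 202 1620 (.leaf 298 1812 .nil)) .nil)) .nil)))) (.cons 299 (.cons 323 (.leaf 347 2007 (.cons 226 (.leaf 202 1620 (.leaf 251 1815 .nil)) .nil)) (.cons 226 (.leaf 202 1620 (.cons 298 (.cons 297 (.leaf 321 1806 (.cons 296 (.leaf 295 2169 (.leaf 276 2177 .nil)) .nil)) (.cons 225 (.leaf 201 1615 (.cons 322 (.leaf 249 1807 (.cons 346 (.leaf 251 2005 (.leaf 370 2197 .nil)) .nil)) .nil)) .nil)) .nil)) (.cons 323 (.leaf 347 2007 (.cons 251 (.cons 252 (.leaf 228 1821 (.cons 253 (.leaf 254 2002 (.leaf 273 1994 .nil)) .nil)) (.cons 322 (.leaf 346 2006 (.cons 298 (.leaf 227 1813 (.cons 321 (.leaf 345 1998 (.cons 300 (.leaf 301 2378 (.leaf 320 2369 .nil)) .nil)) .nil)) .nil)) .nil)) .nil)) (.cons 323 (.leaf 347 2007 (.cons 226 (.leaf 202 1620 (.leaf 298 1812 .nil)) .nil)) .nil)))) (.cons 299 (.cons 323 (.leaf 347 2007 (.cons 226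 (.leaf 202 1620 (.leaf 251 1815 .nil)) .nil)) (.cons 226 (.leaf 202 1620 (.cons 298 (.cons 297 (.leaf 321 1806 (.cons 296 (.leaf 295 2169 (.leaf 276 2177 .nil)) .nil)) (.cons 227 (.leaf 203 1621 (.cons 251 (.leaf 322 1813 (.cons 228 (.leaf 204 1629 (.cons 229 (.leaf 249 1802 (.leaf 230 1810 .nil)) .nil)) .nil)) .nil)) .nil)) .nil)) (.cons 323 (.leaf 347 2007 (.cons 251 (.cons 252 (.leaf 228 1821 (.cons 253 (.leaf 254 2002 (.leaf 273 1994 .nil)) .nil)) (.cons 322 (.leaf 346 2006 (.cons 298 (.leaf 227 1813 (.cons 321 (.leaf 345 1998 (.cons 300 (.leaf 301 2378 (.leaf 320 2369 .nil)) .nil)) .nil)) .nil)) .nil)) .nil)) (.cons 323 (.leaf 347 2007 (.cons 226 (.leaf 202 1620 (.leaf 298 1812 .nil)) .nil)) .nil)))) (.cons 299 t130 .nil)))))))))))))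
noncomputable def t147 : T := .cons 251 (.leaf 252 1985 (.cons 247 (.leaf 248 1979 (.cons 271 (.leaf 246 1971 (.leaf 250 1977 .nil)) .nil)) .nil)) (.cons 247 (.leaf 248 1979 (.cons 271 (.leaf 246 1971 (.cons 295 (.leaf 296 2170 (.leaf 294 2162 .nil)) .nil)) .nil)) (.cons 251 (.leaf 252 1985 (.cons 250 (.leaf 271 1977 (.cons 295 (.leaf 296 2170 (.cons 299 (.leaf 300 2176 (.cons 226 (.leaf 202 1620 (.leaf 323 1815 .nil)) .nil)) .nil)) .nil)) .nil)) (.cons 248 (.leaf 247 1979 (.cons 296 (.leaf 295 2170 (.cons 251 (.leaf 252 1985 (.cons 224 (.cons 199 (.leaf 223 1599 (.cons 175 (.leaf 200 1407 (.cons 225 (.leaf 201 1605 (.cons 320 (.leaf 249 1797 (.cons 343 (.leaf 319 1982 (.cons 344 (.leaf 367 2174 (.cons 345 (.leaf 321 1988 (.leaf 369 2180 .nil)) .nil)) .nil)) .nil)) .nil)) .nil)) .nil)) (.cons 199 (.leaf 223 1599 (.cons 201 (.leaf 225 1605 (.cons 321 (.leaf 297 1796 (.cons 320 (.leaf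 345 1988 (.cons 343 (.leaf 319 1982 (.cons 344 (.leaf 249 1989 (.leaf 367 2174 .nil)) .nil)) .nil)) .nil)) .nil)) .nil)) (.cons 199 (.leaf 223 1599 (.cons 200 (.leaf 297 1604 (.leaf 175 1407 .nil)) .nil)) (.cons 297 (.leaf 200 1604 (.leaf 321 1796 .nil)) .nil)))) .nil)) .nil)) .nil)) .nil)))
noncomputable def t148 : T := .cons 252 (.leaf 253 1993 (.cons 300 (.leaf 301 2184 (.cons 249 (.leaf 248 1987 (.cons 228 (.cons 299 (.leaf 204 1630 (.leaf 323 1822 .nil)) (.cons 203 (.leaf 227 1631 (.cons 204 (.leaf 179 1439 (.cons 205 (.leaf 181 1445 (.leaf 229 1637 .nil)) .nil)) .nil)) (.cons 203 (.leaf 227 1631 (.cons 205 (.leaf 229 1637 (.cons 323 (.leaf 299 1822 (.cons 324 (.leaf 347 2014 (.cons 348 (.leaf 251 2015 (.cons 349 (.leaf 325 2020 (.leaf 373 2212 .nil)) .nil)) .nil)) .nil)) .nil)) .nil)) .nil))) .nil)) .nil)) .nil)) (.cons 300 (.leaf 301 2184 (.cons 249 (.leaf 248 1987 (.cons 297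 (.leaf 296 2178 (.cons 321 (.cons 250 (.leaf 345 1997 (.leaf 226 1805 .nil)) (.cons 320 (.leaf 344 1990 (.cons 322 (.leaf 346 1996 (.cons 323 (.leaf 299 2369 (.cons 348 (.leaf 347 2560 (.cons 324 (.leaf 251 2015 (.leaf 349 2568 .nil)) .nil)) .nil)) .nil)) .nil)) .nil)) .nil)) .nil)) .nil)) (.cons 252 (.leaf 253 1993 (.cons 249 (.leaf 248 1987 (.cons 297 (.leaf 296 2178 (.cons 321 (.cons 226 (.leaf 250 1805 (.cons 225 (.leaf 202 1613 (.cons 200 (.leaf 224 1607 (.cons 201 (.leaf 176 1415 (.cons 198 (.leaf 199 1584 (.cons 228 (.leaf 227 1603 (.cons 299 (.leaf 204 1630 (.cons 323 (.leaf 251 1821 (.leaf 347 2013 .nil)) .nil)) .nil)) .nil)) .nil)) .nil)) .nil)) .nil)) (.cons 322 (.leaf 346 1996 (.cons 344 (.leaf 320 1990 (.cons 345 (.leaf 368 2182 (.cons 323 (.leaf 324 2562 (.cons 299 (.leaf 347 2013 (.cons 228 (.leaf 204 1630 (.leaf 251 1821 .nil)) .nil)) .nil)) .nil)) .nil)) .nil)) (.cons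 250 (.leaf 345 1997 (.leaf 226 1805 .nil)) .nil))) .nil)) .nil)) .nil)) (.cons 252 (.leaf 253 1993 (.cons 300 (.leaf 301 2184 (.cons 297 (.leaf 296 2178 (.cons 228 (.cons 299 (.leaf 204 1630 (.leaf 323 1822 .nil)) (.cons 203 (.leaf 227 1631 (.cons 204 (.leaf 179 1439 (.cons 205 (.leaf 181 1445 (.leaf 229 1637 .nil)) .nil)) .nil)) (.cons 203 (.leaf 227 1631 (.cons 205 (.leaf 229 1637 (.cons 323 (.leaf 299 1822 (.cons 324 (.leaf 347 2014 (.cons 348 (.leaf 251 2015 (.cons 349 (.leaf 325 2020 (.leaf 373 2212 .nil)) .nil)) .nil)) .nil)) .nil)) .nil)) .nil))) .nil)) .nil)) .nil)) (.cons 252 (.leaf 253 1993 (.cons 300 (.leaf 301 2184 (.cons 297 (.leaf 296 2178 (.cons 249 (.leaf 248 1987 (.cons 228 (.cons 203 (.leaf 227 1631 (.cons 204 (.leaf 299 1630 (.leaf 179 1439 .nil)) .nil)) (.cons 203 (.leaf 227 1631 (.cons 204 (.leaf 179 1439 (.cons 205 (.leaf 181 1445 (.leaf 229 1637 .nil)) .nil))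 .nil)) (.cons 227 (.leaf 203 1631 (.cons 229 (.leaf 205 1637 (.cons 226 (.leaf 250 1802 (.cons 202 (.leaf 225 1613 (.leaf 201 1611 .nil)) .nil)) .nil)) .nil)) (.cons 299 (.leaf 204 1630 (.leaf 323 1822 .nil)) .nil)))) .nil)) .nil)) .nil)) .nil)) (.cons 249 (.leaf 248 1987 (.cons 297 (.leaf 296 2178 (.cons 252 (.leaf 253 1993 (.cons 300 (.leaf 301 2184 (.cons 321 (.cons 320 (.leaf 344 1990 (.cons 346 (.leaf 322 1996 (.cons 345 (.leaf 250 1997 (.leaf 370 2188 .nil)) .nil)) .nil)) (.cons 320 (.leaf 344 1990 (.cons 346 (.leaf 322 1996 (.cons 345 (.leaf 370 2188 (.cons 348 (.leaf 347 2563 (.cons 324 (.leaf 251 2015 (.cons 349 (.leaf 325 2020 (.leaf 373 2212 .nil)) .nil)) .nil)) .nil)) .nil)) .nil)) (.cons 226 (.leaf 250 1805 (.cons 225 (.leaf 202 1613 (.cons 200 (.leaf 224 1607 (.cons 201 (.leaf 176 1415 (.cons 198 (.leaf 199 1584 (.cons 227 (.leaf 228 1603 (.cons 251 (.leaf 203 1628 (.leaf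 324 1823 .nil)) .nil)) .nil)) .nil)) .nil)) .nil)) .nil)) .nil))) .nil)) .nil)) .nil)) .nil)) .nil)))))
noncomputable def t149 : T := .cons 272 (.cons 251 (.leaf 252 1985 (.cons 247 (.leaf 248 1979 (.cons 271 (.leaf 246 1971 (.leaf 250 1977 .nil)) .nil)) .nil)) (.cons 251 (.leaf 252 1985 (.cons 250 (.leaf 271 1977 (.cons 295 (.leaf 296 2170 (.cons 299 (.leaf 300 2176 (.cons 226 (.leaf 202 1620 (.leaf 323 1815 .nil)) .nil)) .nil)) .nil)) .nil)) (.cons 248 (.leaf 247 1979 (.cons 276 (.leaf 249 1987 (.cons 296 (.leaf 295 2170 (.leaf 297 2178 .nil)) .nil)) .nil)) .nil))) (.cons 276 t148 (.cons 272 t147 (.cons 272 (.cons 251 (.leaf 252 1985 (.cons 250 (.leaf 271 1977 (.cons 295 (.leaf 296 2170 (.cons 299 (.leaf 300 2176 (.cons 226 (.leaf 202 1620 (.leaf 323 1815 .nil)) .nil)) .nil)) .nil)) .nil)) (.cons 296 (.leaf 295 2170 (.cons 276 (.leaf 297 2178 (.cons 300 (.leaf 299 2176 (.leaf 301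 2184 .nil)) .nil)) .nil)) (.cons 251 (.leaf 252 1985 (.cons 250 (.leaf 271 1977 (.cons 299 (.leaf 300 2176 (.cons 226 (.leaf 202 1620 (.leaf 323 1815 .nil)) .nil)) .nil)) .nil)) (.cons 251 (.leaf 252 1985 (.cons 250 (.leaf 271 1977 (.cons 296 (.leaf 295 2170 (.cons 297 (.leaf 276 2178 (.cons 226 (.leaf 202 1614 (.cons 321 (.leaf 345 1997 (.leaf 249 1805 .nil)) .nil)) .nil)) .nil)) .nil)) .nil)) .nil)))) (.cons 272 (.cons 247 (.leaf 248 1979 (.cons 271 (.leaf 246 1971 (.cons 250 (.leaf 251 1977 (.cons 270 (.leaf 249 1969 (.cons 294 (.leaf 295 2162 (.leaf 293 2154 .nil)) .nil)) .nil)) .nil)) .nil)) (.cons 296 (.leaf 295 2170 (.cons 276 (.leaf 297 2178 (.cons 300 (.leaf 299 2176 (.leaf 301 2184 .nil)) .nil)) .nil)) (.cons 247 (.leaf 248 1979 (.cons 271 (.leaf 246 1971 (.cons 250 (.leaf 251 1977 (.cons 249 (.leaf 270 1969 (.cons 299 (.leaf 300 2176 (.cons 226 (.leaf 202 1620 (.cons 297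 (.leaf 321 1805 (.cons 296 (.leaf 276 2178 (.cons 320 (.leaf 225 1798 (.leaf 344 1989 .nil)) .nil)) .nil)) .nil)) .nil)) .nil)) .nil)) .nil)) .nil)) .nil))) (.cons 272 (.cons 248 (.leaf 247 1979 (.cons 276 (.leaf 249 1987 (.cons 296 (.leaf 295 2170 (.leaf 297 2178 .nil)) .nil)) .nil)) (.cons 296 (.leaf 295 2170 (.cons 276 (.leaf 297 2178 (.cons 300 (.leaf 299 2176 (.leaf 301 2184 .nil)) .nil)) .nil)) (.cons 248 (.leaf 247 1979 (.cons 276 (.leaf 249 1987 (.cons 300 (.leaf 299 2176 (.leaf 301 2184 .nil)) .nil)) .nil)) (.cons 247 (.leaf 248 1979 (.cons 271 (.leaf 246 1971 (.cons 295 (.leaf 296 2170 (.leaf 294 2162 .nil)) .nil)) .nil)) .nil)))) (.cons 272 (.cons 247 (.leaf 248 1979 (.cons 271 (.leaf 246 1971 (.cons 250 (.leaf 251 1977 (.cons 270 (.leaf 249 1969 (.cons 294 (.leaf 295 2162 (.leaf 293 2154 .nil)) .nil)) .nil)) .nil)) .nil)) (.cons 251 (.leaf 252 1985 (.cons 250 (.leaf 271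 1977 (.cons 299 (.leaf 300 2176 (.cons 226 (.leaf 202 1620 (.leaf 323 1815 .nil)) .nil)) .nil)) .nil)) (.cons 248 (.leaf 247 1979 (.cons 276 (.leaf 249 1987 (.cons 300 (.leaf 299 2176 (.leaf 301 2184 .nil)) .nil)) .nil)) .nil))) (.cons 272 (.cons 247 (.leaf 248 1979 (.cons 252 (.leaf 251 1985 (.cons 276 (.leaf 253 1993 (.cons 296 (.leaf 295 2170 (.leaf 297 2178 .nil)) .nil)) .nil)) .nil)) (.cons 296 (.leaf 295 2170 (.cons 252 (.leaf 251 1985 (.cons 276 (.leaf 253 1993 (.leaf 297 2178 .nil)) .nil)) .nil)) (.cons 247 (.leaf 248 1979 (.cons 251 (.leaf 252 1985 (.cons 271 (.leaf 246 1971 (.leaf 250 1977 .nil)) .nil)) .nil)) (.cons 248 (.leaf 247 1979 (.cons 249 (.leaf 276 1987 (.cons 296 (.leaf 295 2170 (.cons 225 (.leaf 201 1606 (.leaf 320 1797 .nil)) .nil)) .nil)) .nil)) .nil)))) (.cons 272 (.cons 247 (.leaf 248 1979 (.cons 252 (.leaf 251 1985 (.cons 276 (.leaf 253 1993 (.cons 296 (.leaf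 295 2170 (.leaf 297 2178 .nil)) .nil)) .nil)) .nil)) (.cons 247 (.leaf 248 1979 (.cons 251 (.leaf 252 1985 (.cons 271 (.leaf 246 1971 (.leaf 250 1977 .nil)) .nil)) .nil)) (.cons 247 (.leaf 248 1979 (.cons 271 (.leaf 246 1971 (.cons 295 (.leaf 296 2170 (.leaf 294 2162 .nil)) .nil)) .nil)) (.cons 251 (.leaf 252 1985 (.cons 250 (.leaf 271 1977 (.cons 295 (.leaf 296 2170 (.cons 299 (.leaf 300 2176 (.cons 226 (.leaf 202 1620 (.leaf 323 1815 .nil)) .nil)) .nil)) .nil)) .nil)) .nil)))) .nil))))))))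
noncomputable def t150 : T := .cons 249 (.leaf 248 1987 (.cons 297 (.leaf 296 2178 (.cons 300 (.leaf 301 2184 (.cons 252 (.leaf 253 1993 (.cons 225 (.cons 224 (.leaf 200 1607 (.cons 226 (.leaf 202 1613 (.cons 227 (.leaf 251 1792 (.cons 203 (.leaf 228 1631 (.leaf 204 1601 .nil)) .nil)) .nil)) .nil)) (.cons 298 (.leaf 201 1612 (.leaf 322 1804 .nil)) .nil)) .nil)) .nil)) .nil)) .nil)) (.cons 252 (.leaf 253 1993 (.cons 297 (.leaf 296 2178 (.cons 249 (.leaf 248 1987 (.cons 225 (.cons 200 (.leaf 224 1607 (.cons 322 (.leaf 298 1804 (.cons 321 (.leaf 346 1996 (.cons 344 (.leaf 320 1990 (.cons 345 (.leaf 368 2182 (.cons 323 (.leaf 324 2562 (.cons 299 (.leaf 347 2013 (.cons 228 (.leaf 204 1630 (.leaf 251 1821 .nil)) .nil)) .nil)) .nil)) .nil)) .nil)) .nil)) .nil)) (.cons 200 (.leaf 224 1607 (.cons 201 (.leaf 176 1415 (.cons 202 (.leaf 178 1421 (.leaf 226 1613 .nil)) .nil)) .nil)) (.cons 298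 (.leaf 201 1612 (.leaf 322 1804 .nil)) .nil))) .nil)) .nil)) .nil)) (.cons 300 (.leaf 301 2184 (.cons 297 (.leaf 296 2178 (.cons 249 (.leaf 248 1987 (.cons 225 (.cons 200 (.leaf 224 1607 (.cons 201 (.leaf 298 1612 (.leaf 176 1415 .nil)) .nil)) (.cons 200 (.leaf 224 1607 (.cons 201 (.leaf 176 1415 (.cons 202 (.leaf 178 1421 (.leaf 226 1613 .nil)) .nil)) .nil)) (.cons 200 (.leaf 224 1607 (.cons 202 (.leaf 226 1613 (.cons 322 (.leaf 298 1804 (.cons 321 (.leaf 346 1996 (.cons 320 (.leaf 344 1990 (.cons 323 (.leaf 299 2369 (.cons 348 (.leaf 347 2560 (.cons 324 (.leaf 251 2015 (.leaf 349 2568 .nil)) .nil)) .nil)) .nil)) .nil)) .nil)) .nil)) .nil)) (.cons 298 (.leaf 201 1612 (.leaf 322 1804 .nil)) .nil)))) .nil)) .nil)) .nil)) (.cons 300 (.leaf 301 2184 (.cons 252 (.leaf 253 1993 (.cons 249 (.leaf 248 1987 (.cons 228 (.cons 299 (.leaf 204 1630 (.leaf 323 1822 .nil)) (.cons 203 (.leaf 227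 1631 (.cons 204 (.leaf 179 1439 (.cons 205 (.leaf 181 1445 (.leaf 229 1637 .nil)) .nil)) .nil)) (.cons 203 (.leaf 227 1631 (.cons 205 (.leaf 229 1637 (.cons 323 (.leaf 299 1822 (.cons 324 (.leaf 347 2014 (.cons 348 (.leaf 251 2015 (.cons 349 (.leaf 325 2020 (.leaf 373 2212 .nil)) .nil)) .nil)) .nil)) .nil)) .nil)) .nil))) .nil)) .nil)) .nil)) (.cons 300 (.leaf 301 2184 (.cons 252 (.leaf 253 1993 (.cons 297 (.leaf 296 2178 (.cons 228 (.cons 299 (.leaf 204 1630 (.leaf 323 1822 .nil)) (.cons 203 (.leaf 227 1631 (.cons 204 (.leaf 179 1439 (.cons 205 (.leaf 181 1445 (.leaf 229 1637 .nil)) .nil)) .nil)) (.cons 203 (.leaf 227 1631 (.cons 205 (.leaf 229 1637 (.cons 323 (.leaf 299 1822 (.cons 324 (.leaf 347 2014 (.cons 348 (.leaf 251 2015 (.cons 349 (.leaf 325 2020 (.leaf 373 2212 .nil)) .nil)) .nil)) .nil)) .nil)) .nil)) .nil))) .nil)) .nil)) .nil)) (.cons 297 (.leaf 296 2178 (.cons 249 (.leaf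 248 1987 (.cons 300 (.leaf 301 2184 (.cons 252 (.leaf 253 1993 (.cons 225 (.cons 200 (.leaf 224 1607 (.cons 322 (.leaf 298 1804 (.cons 321 (.leaf 346 1996 (.cons 320 (.leaf 344 1990 (.cons 323 (.leaf 299 2369 (.cons 347 (.leaf 324 2014 (.leaf 348 2560 .nil)) .nil)) .nil)) .nil)) .nil)) .nil)) (.cons 200 (.leaf 224 1607 (.cons 201 (.leaf 176 1415 (.cons 202 (.leaf 178 1421 (.leaf 226 1613 .nil)) .nil)) .nil)) (.cons 298 (.leaf 201 1612 (.leaf 322 1804 .nil)) .nil))) .nil)) .nil)) .nil)) .nil)) .nil)))))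
noncomputable def t151 : T := .cons 272 (.cons 295 (.leaf 296 2170 (.cons 271 (.leaf 294 2162 (.cons 299 (.leaf 300 2176 (.leaf 298 2168 .nil)) .nil)) .nil)) (.cons 248 (.leaf 247 1979 (.cons 252 (.leaf 251 1985 (.cons 276 (.leaf 249 1987 (.leaf 253 1993 .nil)) .nil)) .nil)) .nil)) (.cons 276 t150 (.cons 272 (.cons 299 (.leaf 300 2176 (.cons 251 (.leaf 252 1985 (.cons 298 (.leaf 271 2168 (.cons 227 (.leaf 203 1622 (.leaf 322 1814 .nil)) .nil)) .nil)) .nil)) (.cons 247 (.leaf 248 1979 (.cons 271 (.leaf 246 1971 (.cons 295 (.leaf 296 2170 (.leaf 294 2162 .nil)) .nil)) .nil)) (.cons 296 (.leaf 295 2170 (.cons 248 (.leaf 247 1979 (.cons 251 (.leaf 252 1985 (.cons 299 (.leaf 300 2176 (.cons 320 (.cons 249 (.leaf 344 1989 (.leaf 225 1797 .nil)) (.cons 319 (.leaf 343 1982 (.cons 297 (.leaf 298 2362 (.cons 321 (.leaf 345 1988 (.leaf 224 1796 .nil)) .nil)) .nil)) .nil)) .nil)) .nil)) .nil))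 .nil)) .nil))) (.cons 272 (.cons 251 (.leaf 252 1985 (.cons 299 (.leaf 300 2176 (.cons 298 (.leaf 271 2168 (.cons 227 (.leaf 203 1622 (.leaf 322 1814 .nil)) .nil)) .nil)) .nil)) (.cons 248 (.leaf 247 1979 (.cons 252 (.leaf 251 1985 (.cons 276 (.leaf 249 1987 (.leaf 253 1993 .nil)) .nil)) .nil)) (.cons 248 (.leaf 247 1979 (.cons 249 (.leaf 276 1987 (.cons 299 (.leaf 300 2176 (.cons 271 (.leaf 298 2168 (.cons 270 (.leaf 269 1961 (.cons 294 (.leaf 295 2162 (.leaf 293 2154 .nil)) .nil)) .nil)) .nil)) .nil)) .nil)) .nil))) (.cons 272 (.cons 247 (.leaf 248 1979 (.cons 252 (.leaf 251 1985 (.cons 276 (.leaf 253 1993 (.cons 271 (.leaf 246 1971 (.cons 294 (.leaf 295 2162 (.cons 270 (.leaf 293 2154 (.cons 298 (.leaf 299 2168 (.leaf 297 2160 .nil)) .nil)) .nil)) .nil)) .nil)) .nil)) .nil)) (.cons 296 (.leaf 295 2170 (.cons 252 (.leaf 251 1985 (.cons 276 (.leaf 253 1993 (.leaf 297 2178 .nil))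 .nil)) .nil)) (.cons 248 (.leaf 247 1979 (.cons 252 (.leaf 251 1985 (.cons 276 (.leaf 249 1987 (.leaf 253 1993 .nil)) .nil)) .nil)) (.cons 247 (.leaf 248 1979 (.cons 271 (.leaf 246 1971 (.cons 295 (.leaf 296 2170 (.leaf 294 2162 .nil)) .nil)) .nil)) .nil)))) (.cons 272 (.cons 295 (.leaf 296 2170 (.cons 271 (.leaf 294 2162 (.cons 299 (.leaf 300 2176 (.leaf 298 2168 .nil)) .nil)) .nil)) (.cons 251 (.leaf 252 1985 (.cons 299 (.leaf 300 2176 (.cons 298 (.leaf 271 2168 (.cons 227 (.leaf 203 1622 (.leaf 322 1814 .nil)) .nil)) .nil)) .nil)) (.cons 296 (.leaf 295 2170 (.cons 252 (.leaf 251 1985 (.cons 276 (.leaf 253 1993 (.leaf 297 2178 .nil)) .nil)) .nil)) .nil))) (.cons 272 (.cons 247 (.leaf 248 1979 (.cons 271 (.leaf 246 1971 (.cons 295 (.leaf 296 2170 (.leaf 294 2162 .nil)) .nil)) .nil)) (.cons 248 (.leaf 247 1979 (.cons 252 (.leaf 251 1985 (.cons 276 (.leaf 249 1987 (.leaf 253 1993 .nil))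 .nil)) .nil)) (.cons 296 (.leaf 295 2170 (.cons 252 (.leaf 251 1985 (.cons 276 (.leaf 253 1993 (.leaf 297 2178 .nil)) .nil)) .nil)) .nil))) (.cons 272 (.cons 247 (.leaf 248 1979 (.cons 296 (.leaf 295 2170 (.cons 276 (.leaf 297 2178 (.cons 300 (.leaf 299 2176 (.leaf 301 2184 .nil)) .nil)) .nil)) .nil)) (.cons 247 (.leaf 248 1979 (.cons 271 (.leaf 246 1971 (.cons 299 (.leaf 300 2176 (.leaf 298 2168 .nil)) .nil)) .nil)) (.cons 295 (.leaf 296 2170 (.cons 271 (.leaf 294 2162 (.cons 299 (.leaf 300 2176 (.leaf 298 2168 .nil)) .nil)) .nil)) (.cons 296 (.leaf 295 2170 (.cons 247 (.leaf 248 1979 (.cons 271 (.leaf 246 1971 (.cons 199 (.leaf 223 1596 (.cons 297 (.leaf 276 2178 (.cons 270 (.leaf 298 2160 (.leaf 269 2152 .nil)) .nil)) .nil)) .nil)) .nil)) .nil)) .nil)))) .nil)))))))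
noncomputable def t152 : T := .cons 296 (.leaf 295 2170 (.cons 247 (.leaf 248 1979 (.cons 271 (.leaf 246 1971 (.cons 199 (.leaf 223 1596 (.cons 297 (.leaf 276 2178 (.cons 270 (.leaf 298 2160 (.leaf 269 2152 .nil)) .nil)) .nil)) .nil)) .nil)) .nil)) (.cons 271 (.cons 295 (.leaf 296 2170 (.leaf 294 2162 .nil)) (.cons 246 (.leaf 247 1971 (.cons 270 (.leaf 245 1963 (.cons 297 (.leaf 298 2160 (.cons 296 (.leaf 276 2178 (.leaf 269 2152 .nil)) .nil)) .nil)) .nil)) (.cons 246 (.leaf 247 1971 (.cons 270 (.leaf 245 1963 (.cons 294 (.leaf 295 2162 (.leaf 293 2154 .nil)) .nil)) .nil)) .nil))) (.cons 271 (.cons 248 (.leaf 247 1979 (.cons 249 (.leaf 276 1987 (.cons 270 (.leaf 250 1969 (.leaf 269 1961 .nil)) .nil)) .nil)) (.cons 294 (.leaf 295 2162 (.cons 270 (.leaf 293 2154 (.cons 245 (.leaf 246 1963 (.cons 244 (.leaf 269 1955 (.cons 249 (.leaf 250 1969 (.cons 248 (.leaf 276 1987 (.cons 297 (.leaf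 298 2160 (.cons 224 (.leaf 200 1604 (.leaf 321 1799 .nil)) .nil)) .nil)) .nil)) .nil)) .nil)) .nil)) .nil)) (.cons 246 (.leaf 247 1971 (.cons 270 (.leaf 245 1963 (.cons 294 (.leaf 295 2162 (.leaf 293 2154 .nil)) .nil)) .nil)) (.cons 247 (.leaf 248 1979 (.leaf 246 1971 .nil)) .nil)))) (.cons 296 (.leaf 295 2170 (.cons 249 (.cons 225 (.leaf 201 1606 (.cons 248 (.leaf 276 1987 (.leaf 320 1797 .nil)) .nil)) (.cons 225 (.leaf 201 1606 (.cons 320 (.leaf 297 1798 (.leaf 344 1989 .nil)) .nil)) (.cons 276 (.leaf 248 1987 (.leaf 297 2178 .nil)) .nil))) .nil)) (.cons 248 (.leaf 247 1979 (.cons 297 (.cons 321 (.leaf 345 1991 (.cons 224 (.leaf 200 1604 (.leaf 249 1799 .nil)) .nil)) (.cons 276 (.leaf 249 1987 (.leaf 296 2178 .nil)) (.cons 224 (.leaf 200 1604 (.cons 296 (.leaf 276 2178 (.leaf 321 1796 .nil)) .nil)) .nil))) .nil)) (.cons 247 (.leaf 248 1979 (.cons 271 (.leaf 246 1971 (.cons 295 (.leaf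 296 2170 (.leaf 294 2162 .nil)) .nil)) .nil)) .nil)))))
noncomputable def t153 : T := .cons 271 (.cons 248 (.leaf 247 1979 (.cons 249 (.leaf 276 1987 (.cons 270 (.leaf 250 1969 (.leaf 269 1961 .nil)) .nil)) .nil)) (.cons 294 (.leaf 295 2162 (.cons 270 (.leaf 293 2154 (.cons 245 (.leaf 246 1963 (.cons 244 (.leaf 269 1955 (.cons 249 (.leaf 250 1969 (.cons 248 (.leaf 276 1987 (.cons 297 (.leaf 298 2160 (.cons 224 (.leaf 200 1604 (.leaf 321 1799 .nil)) .nil)) .nil)) .nil)) .nil)) .nil)) .nil)) .nil)) (.cons 251 (.leaf 252 1985 (.leaf 250 1977 .nil)) (.cons 247 (.leaf 248 1979 (.leaf 246 1971 .nil)) .nil)))) (.cons 251 (.leaf 252 1985 (.cons 271 (.leaf 250 1977 (.cons 246 (.leaf 247 1971 (.cons 270 (.leaf 245 1963 (.cons 294 (.leaf 295 2162 (.leaf 293 2154 .nil)) .nil)) .nil)) .nil)) .nil)) (.cons 271 (.cons 248 (.leaf 247 1979 (.cons 249 (.leaf 276 1987 (.cons 270 (.leaf 250 1969 (.leaf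 269 1961 .nil)) .nil)) .nil)) (.cons 294 (.leaf 295 2162 (.cons 270 (.leaf 293 2154 (.cons 245 (.leaf 246 1963 (.cons 244 (.leaf 269 1955 (.cons 249 (.leaf 250 1969 (.cons 248 (.leaf 276 1987 (.cons 297 (.leaf 298 2160 (.cons 224 (.leaf 200 1604 (.leaf 321 1799 .nil)) .nil)) .nil)) .nil)) .nil)) .nil)) .nil)) .nil)) (.cons 246 (.leaf 247 1971 (.cons 270 (.leaf 245 1963 (.cons 294 (.leaf 295 2162 (.leaf 293 2154 .nil)) .nil)) .nil)) (.cons 247 (.leaf 248 1979 (.leaf 246 1971 .nil)) .nil)))) (.cons 251 (.leaf 252 1985 (.cons 250 (.leaf 271 1977 (.cons 298 (.cons 227 (.leaf 203 1622 (.leaf 322 1813 .nil)) (.cons 227 (.leaf 203 1622 (.cons 226 (.cons 202 (.leaf 178 1428 (.leaf 297 1614 .nil)) (.cons 225 (.leaf 201 1615 (.cons 224 (.leaf 223 1784 (.cons 200 (.leaf 199 1595 (.cons 297 (.leaf 321 1806 (.leaf 249 1607 .nil)) .nil)) .nil)) .nil)) (.cons 201 (.leaf 225 1615 (.cons 202 (.leaf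 178 1428 (.leaf 177 1423 .nil)) .nil)) .nil))) .nil)) (.cons 322 (.leaf 346 2005 (.cons 249 (.leaf 225 1807 (.cons 248 (.leaf 276 1984 (.cons 224 (.leaf 223 1787 (.cons 200 (.leaf 176 1412 (.leaf 297 1604 .nil)) .nil)) .nil)) .nil)) .nil)) .nil))) .nil)) .nil)) (.cons 248 (.leaf 247 1979 (.cons 252 (.leaf 251 1985 (.cons 276 (.leaf 249 1987 (.leaf 253 1993 .nil)) .nil)) .nil)) .nil))))
noncomputable def t154 : T := .cons 251 (.leaf 252 1985 (.cons 271 (.leaf 250 1977 (.cons 246 (.leaf 247 1971 (.cons 270 (.leaf 245 1963 (.cons 295 (.leaf 296 2170 (.leaf 294 2162 .nil)) .nil)) .nil)) .nil)) .nil)) (.cons 251 (.leaf 252 1985 (.cons 271 (.leaf 250 1977 (.cons 246 (.leaf 247 1971 (.cons 270 (.leaf 245 1963 (.cons 294 (.leaf 295 2162 (.leaf 293 2154 .nil)) .nil)) .nil)) .nil)) .nil)) (.cons 271 (.cons 246 (.leaf 247 1971 (.cons 270 (.leaf 245 1963 (.cons 294 (.leaf 295 2162 (.leaf 293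 2154 .nil)) .nil)) .nil)) (.cons 246 (.leaf 247 1971 (.cons 270 (.leaf 245 1963 (.cons 297 (.leaf 298 2160 (.cons 296 (.leaf 276 2178 (.leaf 269 2152 .nil)) .nil)) .nil)) .nil)) (.cons 295 (.leaf 296 2170 (.leaf 294 2162 .nil)) .nil))) (.cons 251 (.leaf 252 1985 (.cons 271 (.leaf 250 1977 (.cons 246 (.leaf 247 1971 (.cons 270 (.leaf 245 1963 (.cons 297 (.leaf 298 2160 (.cons 296 (.leaf 276 2178 (.leaf 269 2152 .nil)) .nil)) .nil)) .nil)) .nil)) .nil)) (.cons 296 (.leaf 295 2170 (.cons 252 (.leaf 251 1985 (.cons 276 (.leaf 253 1993 (.leaf 297 2178 .nil)) .nil)) .nil)) .nil))))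
noncomputable def t155 : T := .cons 251 (.leaf 252 1985 (.cons 271 (.leaf 250 1977 (.cons 246 (.leaf 247 1971 (.cons 270 (.leaf 245 1963 (.cons 295 (.leaf 296 2170 (.leaf 294 2162 .nil)) .nil)) .nil)) .nil)) .nil)) (.cons 247 (.leaf 248 1979 (.cons 271 (.leaf 246 1971 (.cons 295 (.leaf 296 2170 (.leaf 294 2162 .nil)) .nil)) .nil)) (.cons 251 (.leaf 252 1985 (.cons 271 (.leaf 250 1977 (.cons 295 (.leaf 296 2170 (.leaf 294 2162 .nil)) .nil)) .nil)) (.cons 251 (.leaf 252 1985 (.cons 247 (.leaf 248 1979 (.cons 271 (.leaf 246 1971 (.leaf 250 1977 .nil)) .nil)) .nil)) (.cons 248 (.leaf 247 1979 (.cons 296 (.leaf 295 2170 (.cons 251 (.leaf 252 1985 (.cons 224 (.cons 199 (.leaf 223 1599 (.cons 175 (.leaf 200 1407 (.cons 225 (.leaf 201 1605 (.cons 320 (.leaf 249 1797 (.cons 343 (.leaf 319 1982 (.cons 344 (.leaf 367 2174 (.cons 345 (.leaf 321 1988 (.leaf 369 2180 .nil)) .nil)) .nil)) .nil))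 .nil)) .nil)) .nil)) (.cons 199 (.leaf 223 1599 (.cons 200 (.leaf 297 1604 (.leaf 175 1407 .nil)) .nil)) (.cons 199 (.leaf 223 1599 (.cons 201 (.leaf 225 1605 (.cons 321 (.leaf 297 1796 (.cons 320 (.leaf 345 1988 (.cons 343 (.leaf 319 1982 (.cons 344 (.leaf 249 1989 (.leaf 367 2174 .nil)) .nil)) .nil)) .nil)) .nil)) .nil)) (.cons 297 (.leaf 200 1604 (.leaf 321 1796 .nil)) .nil)))) .nil)) .nil)) .nil)) .nil))))
noncomputable def t156 : T := .cons 297 (.leaf 296 2178 (.cons 252 (.leaf 253 1993 (.cons 300 (.leaf 301 2184 (.cons 324 (.cons 323 (.leaf 347 2014 (.cons 325 (.leaf 349 2020 (.cons 251 (.leaf 348 2015 (.leaf 227 1823 .nil)) .nil)) .nil)) (.cons 323 (.leaf 347 2014 (.cons 325 (.leaf 349 2020 (.cons 322 (.leaf 298 2379 (.cons 345 (.leaf 346 2570 (.cons 321 (.leaf 250 1997 (.leaf 344 2562 .nil)) .nil)) .nil)) .nil)) .nil)) (.cons 251 (.leaf 348 2015 (.leaf 227 1823 .nil)) .nil)))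 .nil)) .nil)) .nil)) (.cons 249 (.leaf 248 1987 (.cons 252 (.leaf 253 1993 (.cons 300 (.leaf 301 2184 (.cons 324 (.cons 251 (.leaf 348 2015 (.leaf 227 1823 .nil)) (.cons 347 (.leaf 323 2014 (.cons 348 (.leaf 371 2206 (.cons 349 (.leaf 325 2020 (.leaf 373 2212 .nil)) .nil)) .nil)) (.cons 227 (.leaf 251 1823 (.cons 228 (.leaf 203 1631 (.cons 205 (.leaf 229 1637 (.cons 204 (.leaf 181 1445 (.cons 206 (.leaf 207 1626 (.cons 225 (.leaf 226 1609 (.cons 298 (.leaf 201 1612 (.cons 322 (.leaf 250 1807 (.leaf 346 1999 .nil)) .nil)) .nil)) .nil)) .nil)) .nil)) .nil)) .nil)) .nil))) .nil)) .nil)) .nil)) (.cons 249 (.leaf 248 1987 (.cons 297 (.leaf 296 2178 (.cons 300 (.leaf 301 2184 (.cons 225 (.cons 201 (.leaf 298 1612 (.cons 202 (.leaf 178 1421 (.leaf 226 1613 .nil)) .nil)) (.cons 226 (.leaf 202 1613 (.cons 200 (.leaf 224 1607 (.cons 321 (.leaf 250 1805 (.cons 344 (.leaf 320 1990 (.cons 345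 (.leaf 368 2182 (.cons 346 (.leaf 322 1996 (.leaf 370 2188 .nil)) .nil)) .nil)) .nil)) .nil)) .nil)) (.cons 298 (.leaf 201 1612 (.leaf 322 1804 .nil)) .nil))) .nil)) .nil)) .nil)) (.cons 249 (.leaf 248 1987 (.cons 297 (.leaf 296 2178 (.cons 252 (.leaf 253 1993 (.cons 225 (.cons 226 (.leaf 202 1613 (.cons 298 (.leaf 201 1612 (.leaf 322 1804 .nil)) .nil)) (.cons 226 (.leaf 202 1613 (.cons 200 (.leaf 224 1607 (.cons 176 (.leaf 201 1415 (.cons 321 (.leaf 250 1805 (.cons 344 (.leaf 320 1990 (.cons 345 (.leaf 368 2182 (.cons 346 (.leaf 322 1996 (.leaf 370 2188 .nil)) .nil)) .nil)) .nil)) .nil)) .nil)) .nil)) (.cons 322 (.leaf 298 1804 (.cons 200 (.leaf 224 1607 (.cons 202 (.leaf 226 1613 (.cons 321 (.leaf 346 1996 (.cons 345 (.leaf 250 1997 (.cons 344 (.leaf 320 1990 (.leaf 368 2182 .nil)) .nil)) .nil)) .nil)) .nil)) .nil)) (.cons 200 (.leaf 224 1607 (.cons 201 (.leaf 298 1612 (.leaf 176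 1415 .nil)) .nil)) .nil)))) .nil)) .nil)) .nil)) (.cons 249 (.leaf 248 1987 (.cons 297 (.leaf 296 2178 (.cons 300 (.leaf 301 2184 (.cons 252 (.leaf 253 1993 (.cons 225 (.cons 200 (.leaf 224 1607 (.cons 322 (.leaf 298 1804 (.cons 321 (.leaf 346 1996 (.cons 344 (.leaf 320 1990 (.cons 345 (.leaf 368 2182 (.cons 324 (.leaf 323 2562 (.cons 251 (.leaf 348 2015 (.leaf 227 1823 .nil)) .nil)) .nil)) .nil)) .nil)) .nil)) .nil)) (.cons 200 (.leaf 224 1607 (.cons 201 (.leaf 176 1415 (.cons 202 (.leaf 178 1421 (.leaf 226 1613 .nil)) .nil)) .nil)) (.cons 298 (.leaf 201 1612 (.leaf 322 1804 .nil)) .nil))) .nil)) .nil)) .nil)) .nil)) (.cons 249 (.leaf 248 1987 (.cons 297 (.leaf 296 2178 (.cons 252 (.leaf 253 1993 (.cons 300 (.leaf 301 2184 (.cons 321 (.cons 226 (.leaf 250 1805 (.cons 225 (.leaf 202 1613 (.cons 200 (.leaf 224 1607 (.cons 201 (.leaf 176 1415 (.cons 198 (.leaf 199 1584 (.cons 227 (.leaf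 228 1603 (.cons 251 (.leaf 203 1628 (.leaf 324 1823 .nil)) .nil)) .nil)) .nil)) .nil)) .nil)) .nil)) (.cons 344 (.leaf 320 1990 (.cons 322 (.leaf 346 1996 (.cons 345 (.leaf 368 2182 (.cons 324 (.leaf 323 2562 (.cons 251 (.leaf 348 2015 (.leaf 227 1823 .nil)) .nil)) .nil)) .nil)) .nil)) (.cons 250 (.leaf 345 1997 (.leaf 226 1805 .nil)) .nil))) .nil)) .nil)) .nil)) .nil)) (.cons 249 (.leaf 248 1987 (.cons 297 (.leaf 296 2178 (.cons 252 (.leaf 253 1993 (.cons 300 (.leaf 301 2184 (.cons 324 (.cons 325 (.leaf 349 2020 (.cons 347 (.leaf 323 2014 (.cons 348 (.leaf 251 2015 (.leaf 371 2206 .nil)) .nil)) .nil)) (.cons 325 (.leaf 349 2020 (.cons 347 (.leaf 323 2014 (.cons 348 (.leaf 371 2206 (.cons 345 (.leaf 346 2569 (.cons 321 (.leaf 250 1997 (.cons 344 (.leaf 320 1990 (.leaf 368 2182 .nil)) .nil)) .nil)) .nil)) .nil)) .nil)) (.cons 227 (.leaf 251 1823 (.cons 228 (.leaf 203 1631 (.cons 229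 (.leaf 205 1637 (.cons 226 (.leaf 250 1802 (.cons 202 (.leaf 225 1613 (.leaf 201 1611 .nil)) .nil)) .nil)) .nil)) .nil)) .nil))) .nil)) .nil)) .nil)) .nil)) .nil))))))
noncomputable def t157 : T := .cons 272 (.cons 252 (.leaf 251 1985 (.cons 248 (.leaf 247 1979 (.cons 276 (.leaf 249 1987 (.leaf 253 1993 .nil)) .nil)) .nil)) (.cons 252 (.leaf 251 1985 (.cons 276 (.leaf 253 1993 (.cons 296 (.leaf 295 2170 (.leaf 297 2178 .nil)) .nil)) .nil)) (.cons 248 (.leaf 247 1979 (.cons 249 (.leaf 276 1987 (.cons 296 (.leaf 295 2170 (.cons 225 (.leaf 201 1606 (.leaf 320 1797 .nil)) .nil)) .nil)) .nil)) (.cons 251 (.leaf 252 1985 (.cons 271 (.leaf 250 1977 (.cons 246 (.leaf 247 1971 (.cons 270 (.leaf 245 1963 (.cons 295 (.leaf 296 2170 (.leaf 294 2162 .nil)) .nil)) .nil)) .nil)) .nil)) .nil)))) (.cons 276 (.cons 249 (.leaf 248 1987 (.cons 297 (.leaf 296 2178 (.cons 252 (.leaf 253 1993 (.cons 300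 (.leaf 301 2184 (.cons 225 (.cons 298 (.leaf 201 1612 (.leaf 322 1804 .nil)) (.cons 200 (.leaf 224 1607 (.cons 201 (.leaf 176 1415 (.cons 202 (.leaf 178 1421 (.leaf 226 1613 .nil)) .nil)) .nil)) (.cons 202 (.leaf 226 1613 (.cons 224 (.leaf 200 1607 (.cons 251 (.leaf 250 1795 (.cons 227 (.leaf 203 1628 (.leaf 324 1823 .nil)) .nil)) .nil)) .nil)) .nil))) .nil)) .nil)) .nil)) .nil)) t156) (.cons 272 t155 (.cons 272 (.cons 247 (.leaf 248 1979 (.cons 252 (.leaf 251 1985 (.cons 276 (.leaf 253 1993 (.cons 296 (.leaf 295 2170 (.leaf 297 2178 .nil)) .nil)) .nil)) .nil)) (.cons 251 (.leaf 252 1985 (.cons 247 (.leaf 248 1979 (.cons 271 (.leaf 246 1971 (.leaf 250 1977 .nil)) .nil)) .nil)) (.cons 247 (.leaf 248 1979 (.cons 271 (.leaf 246 1971 (.cons 295 (.leaf 296 2170 (.leaf 294 2162 .nil)) .nil)) .nil)) (.cons 251 (.leaf 252 1985 (.cons 271 (.leaf 250 1977 (.cons 295 (.leaf 296 2170 (.leaf 294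 2162 .nil)) .nil)) .nil)) .nil)))) (.cons 272 t154 (.cons 272 t153 (.cons 272 (.cons 247 (.leaf 248 1979 (.cons 271 (.leaf 246 1971 (.cons 295 (.leaf 296 2170 (.leaf 294 2162 .nil)) .nil)) .nil)) (.cons 251 (.leaf 252 1985 (.cons 271 (.leaf 250 1977 (.cons 246 (.leaf 247 1971 (.cons 270 (.leaf 245 1963 (.cons 295 (.leaf 296 2170 (.leaf 294 2162 .nil)) .nil)) .nil)) .nil)) .nil)) (.cons 251 (.leaf 252 1985 (.cons 271 (.leaf 250 1977 (.cons 295 (.leaf 296 2170 (.leaf 294 2162 .nil)) .nil)) .nil)) (.cons 251 (.leaf 252 1985 (.cons 247 (.leaf 248 1979 (.cons 271 (.leaf 246 1971 (.leaf 250 1977 .nil)) .nil)) .nil)) (.cons 248 (.leaf 247 1979 (.cons 249 (.leaf 276 1987 (.cons 296 (.leaf 295 2170 (.cons 225 (.leaf 201 1606 (.leaf 320 1797 .nil)) .nil)) .nil)) .nil)) .nil))))) (.cons 272 t152 (.cons 272 (.cons 248 (.leaf 247 1979 (.cons 252 (.leaf 251 1985 (.cons 276 (.leaf 249 1987 (.leaf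 253 1993 .nil)) .nil)) .nil)) (.cons 252 (.leaf 251 1985 (.cons 276 (.leaf 253 1993 (.cons 296 (.leaf 295 2170 (.leaf 297 2178 .nil)) .nil)) .nil)) (.cons 247 (.leaf 248 1979 (.cons 271 (.leaf 246 1971 (.cons 295 (.leaf 296 2170 (.leaf 294 2162 .nil)) .nil)) .nil)) .nil))) .nil))))))))
noncomputable def t158 : T := .cons 248 (.leaf 247 1979 (.cons 249 (.leaf 276 1987 (.cons 296 (.leaf 295 2170 (.cons 225 (.leaf 201 1606 (.leaf 320 1797 .nil)) .nil)) .nil)) .nil)) (.cons 271 (.cons 246 (.leaf 247 1971 (.cons 270 (.leaf 245 1963 (.cons 294 (.leaf 295 2162 (.leaf 293 2154 .nil)) .nil)) .nil)) (.cons 246 (.leaf 247 1971 (.cons 270 (.leaf 245 1963 (.cons 297 (.leaf 298 2160 (.cons 296 (.leaf 276 2178 (.leaf 269 2152 .nil)) .nil)) .nil)) .nil)) (.cons 295 (.leaf 296 2170 (.leaf 294 2162 .nil)) .nil))) (.cons 271 (.cons 247 (.leaf 248 1979 (.leaf 246 1971 .nil)) (.cons 294 (.leaf 295 2162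 (.cons 270 (.leaf 293 2154 (.cons 245 (.leaf 246 1963 (.cons 244 (.leaf 269 1955 (.cons 249 (.leaf 250 1969 (.cons 248 (.leaf 276 1987 (.cons 297 (.leaf 298 2160 (.cons 224 (.leaf 200 1604 (.leaf 321 1799 .nil)) .nil)) .nil)) .nil)) .nil)) .nil)) .nil)) .nil)) (.cons 246 (.leaf 247 1971 (.cons 270 (.leaf 245 1963 (.cons 294 (.leaf 295 2162 (.leaf 293 2154 .nil)) .nil)) .nil)) (.cons 248 (.leaf 247 1979 (.cons 249 (.leaf 276 1987 (.cons 270 (.leaf 250 1969 (.leaf 269 1961 .nil)) .nil)) .nil)) .nil)))) (.cons 296 (.leaf 295 2170 (.cons 249 (.cons 276 (.leaf 248 1987 (.leaf 297 2178 .nil)) (.cons 225 (.leaf 201 1606 (.cons 320 (.leaf 297 1798 (.leaf 344 1989 .nil)) .nil)) (.cons 225 (.leaf 201 1606 (.cons 248 (.leaf 276 1987 (.leaf 320 1797 .nil)) .nil)) .nil))) .nil)) (.cons 248 (.leaf 247 1979 (.cons 297 (.cons 276 (.leaf 249 1987 (.leaf 296 2178 .nil)) (.cons 321 (.leaf 345 1991 (.cons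 224 (.leaf 200 1604 (.leaf 249 1799 .nil)) .nil)) (.cons 224 (.leaf 200 1604 (.cons 296 (.leaf 276 2178 (.leaf 321 1796 .nil)) .nil)) .nil))) .nil)) (.cons 247 (.leaf 248 1979 (.cons 271 (.leaf 246 1971 (.cons 295 (.leaf 296 2170 (.leaf 294 2162 .nil)) .nil)) .nil)) .nil)))))
noncomputable def t159 : T := .cons 271 (.cons 295 (.leaf 296 2170 (.leaf 294 2162 .nil)) (.cons 246 (.leaf 247 1971 (.cons 270 (.leaf 245 1963 (.cons 299 (.leaf 300 2176 (.leaf 298 2168 .nil)) .nil)) .nil)) .nil)) (.cons 299 (.leaf 300 2176 (.cons 271 (.leaf 298 2168 (.cons 246 (.leaf 247 1971 (.cons 270 (.leaf 245 1963 (.cons 294 (.leaf 295 2162 (.leaf 293 2154 .nil)) .nil)) .nil)) .nil)) .nil)) (.cons 271 (.cons 295 (.leaf 296 2170 (.leaf 294 2162 .nil)) (.cons 246 (.leaf 247 1971 (.cons 270 (.leaf 245 1963 (.cons 297 (.leaf 298 2160 (.cons 296 (.leaf 276 2178 (.leaf 269 2152 .nil)) .nil)) .nil)) .nil)) (.cons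 246 (.leaf 247 1971 (.cons 270 (.leaf 245 1963 (.cons 294 (.leaf 295 2162 (.leaf 293 2154 .nil)) .nil)) .nil)) .nil))) (.cons 299 (.leaf 300 2176 (.cons 298 (.leaf 271 2168 (.cons 250 (.cons 226 (.leaf 202 1620 (.leaf 323 1812 .nil)) (.cons 323 (.leaf 347 2007 (.cons 322 (.cons 249 (.leaf 225 1807 (.leaf 346 1999 .nil)) (.cons 249 (.leaf 225 1807 (.cons 321 (.leaf 345 1998 (.cons 320 (.leaf 319 2361 (.cons 344 (.leaf 296 1989 (.leaf 297 1990 .nil)) .nil)) .nil)) .nil)) (.cons 345 (.leaf 321 1998 (.cons 346 (.leaf 370 2197 (.leaf 369 2190 .nil)) .nil)) .nil))) .nil)) (.cons 226 (.leaf 202 1620 (.cons 201 (.leaf 225 1615 (.cons 203 (.leaf 227 1621 (.cons 321 (.leaf 297 1806 (.cons 322 (.leaf 345 1998 (.cons 346 (.leaf 370 2197 (.leaf 249 1999 .nil)) .nil)) .nil)) .nil)) .nil)) .nil)) .nil))) .nil)) .nil)) (.cons 296 (.leaf 295 2170 (.cons 276 (.leaf 297 2178 (.cons 300 (.leaf 299 2176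 (.leaf 301 2184 .nil)) .nil)) .nil)) .nil))))
noncomputable def t160 : T := .cons 299 (.leaf 300 2176 (.cons 271 (.leaf 298 2168 (.cons 246 (.leaf 247 1971 (.cons 270 (.leaf 245 1963 (.cons 294 (.leaf 295 2162 (.leaf 293 2154 .nil)) .nil)) .nil)) .nil)) .nil)) (.cons 271 (.cons 294 (.leaf 295 2162 (.cons 270 (.leaf 293 2154 (.cons 245 (.leaf 246 1963 (.cons 244 (.leaf 269 1955 (.cons 249 (.leaf 250 1969 (.cons 248 (.leaf 247 1979 (.leaf 276 1987 .nil)) .nil)) .nil)) .nil)) .nil)) .nil)) (.cons 294 (.leaf 295 2162 (.cons 270 (.leaf 293 2154 (.cons 245 (.leaf 246 1963 (.cons 244 (.leaf 269 1955 (.cons 249 (.leaf 250 1969 (.cons 248 (.leaf 276 1987 (.cons 297 (.leaf 298 2160 (.cons 224 (.leaf 200 1604 (.leaf 321 1799 .nil)) .nil)) .nil)) .nil)) .nil)) .nil)) .nil)) .nil)) (.cons 246 (.leaf 247 1971 (.cons 270 (.leaf 245 1963 (.cons 294 (.leaf 295 2162 (.leaf 293 2154 .nil)) .nil)) .nil))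 (.cons 248 (.leaf 247 1979 (.cons 249 (.leaf 276 1987 (.cons 270 (.leaf 250 1969 (.leaf 269 1961 .nil)) .nil)) .nil)) (.cons 247 (.leaf 248 1979 (.leaf 246 1971 .nil)) .nil))))) (.cons 299 (.leaf 300 2176 (.cons 271 (.leaf 298 2168 (.cons 294 (.leaf 295 2162 (.cons 270 (.leaf 293 2154 (.cons 245 (.leaf 246 1963 (.cons 249 (.leaf 250 1969 (.cons 248 (.leaf 276 1987 (.leaf 269 1961 .nil)) .nil)) .nil)) .nil)) .nil)) .nil)) .nil)) (.cons 248 (.leaf 247 1979 (.cons 276 (.leaf 249 1987 (.cons 300 (.leaf 299 2176 (.leaf 301 2184 .nil)) .nil)) .nil)) .nil)))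
noncomputable def t161 : T := .cons 299 (.leaf 300 2176 (.cons 298 (.leaf 271 2168 (.cons 250 (.cons 226 (.leaf 202 1620 (.leaf 323 1812 .nil)) (.cons 323 (.leaf 347 2007 (.cons 247 (.leaf 248 1979 (.cons 296 (.leaf 295 2170 (.cons 297 (.leaf 324 2368 (.cons 320 (.leaf 319 2362 (.cons 249 (.leaf 225 1798 (.leaf 344 1989 .nil)) .nil)) .nil)) .nil)) .nil)) .nil)) (.cons 226 (.leaf 202 1620 (.cons 201 (.leaf 225 1615 (.cons 203 (.leaf 227 1621 (.cons 321 (.leaf 297 1806 (.cons 248 (.leaf 247 1979 (.cons 296 (.leaf 295 2170 (.cons 345 (.leaf 322 1998 (.leaf 320 1988 .nil)) .nil)) .nil)) .nil)) .nil)) .nil)) .nil)) .nil))) .nil)) .nil)) (.cons 247 (.leaf 248 1979 (.cons 271 (.leaf 246 1971 (.cons 295 (.leaf 296 2170 (.leaf 294 2162 .nil)) .nil)) .nil)) (.cons 247 (.leaf 248 1979 (.cons 271 (.leaf 246 1971 (.cons 299 (.leaf 300 2176 (.leaf 298 2168 .nil)) .nil)) .nil)) (.cons 299 (.leaf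 300 2176 (.cons 298 (.leaf 271 2168 (.cons 250 (.cons 226 (.leaf 202 1620 (.leaf 323 1812 .nil)) (.cons 323 (.leaf 347 2007 (.cons 296 (.leaf 295 2170 (.cons 297 (.leaf 324 2368 (.cons 320 (.leaf 319 2362 (.cons 249 (.leaf 225 1798 (.leaf 344 1989 .nil)) .nil)) .nil)) .nil)) .nil)) (.cons 226 (.leaf 202 1620 (.cons 201 (.leaf 225 1615 (.cons 203 (.leaf 227 1621 (.cons 321 (.leaf 297 1806 (.cons 322 (.leaf 345 1998 (.cons 346 (.leaf 370 2197 (.leaf 249 1999 .nil)) .nil)) .nil)) .nil)) .nil)) .nil)) .nil))) .nil)) .nil)) (.cons 248 (.leaf 247 1979 (.cons 296 (.leaf 295 2170 (.cons 299 (.leaf 300 2176 (.cons 224 (.cons 199 (.leaf 223 1599 (.cons 175 (.leaf 200 1407 (.cons 225 (.leaf 201 1605 (.cons 320 (.leaf 249 1797 (.cons 343 (.leaf 319 1982 (.cons 344 (.leaf 367 2174 (.cons 345 (.leaf 321 1988 (.leaf 369 2180 .nil)) .nil)) .nil)) .nil)) .nil)) .nil)) .nil)) (.cons 199 (.leaf 223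 1599 (.cons 201 (.leaf 225 1605 (.cons 321 (.leaf 297 1796 (.cons 320 (.leaf 345 1988 (.cons 319 (.leaf 343 1982 (.cons 322 (.leaf 298 2361 (.cons 347 (.leaf 346 2552 (.cons 323 (.leaf 250 2007 (.leaf 348 2560 .nil)) .nil)) .nil)) .nil)) .nil)) .nil)) .nil)) .nil)) (.cons 199 (.leaf 223 1599 (.cons 200 (.leaf 297 1604 (.leaf 175 1407 .nil)) .nil)) (.cons 297 (.leaf 200 1604 (.leaf 321 1796 .nil)) .nil)))) .nil)) .nil)) .nil)) .nil))))
noncomputable def t162 : T := .cons 252 (.leaf 253 1993 (.cons 300 (.leaf 301 2184 (.cons 297 (.leaf 296 2178 (.cons 228 (.cons 299 (.leaf 204 1630 (.leaf 323 1822 .nil)) (.cons 249 (.leaf 248 1987 (.cons 203 (.leaf 227 1631 (.cons 204 (.leaf 179 1439 (.cons 205 (.leaf 181 1445 (.leaf 229 1637 .nil)) .nil)) .nil)) .nil)) (.cons 323 (.leaf 299 1822 (.cons 203 (.leaf 227 1631 (.cons 205 (.leaf 229 1637 (.cons 324 (.leaf 347 2014 (.cons 325 (.leaf 349 2020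 (.cons 322 (.leaf 298 2379 (.cons 345 (.leaf 346 2570 (.cons 321 (.leaf 250 1997 (.leaf 344 2562 .nil)) .nil)) .nil)) .nil)) .nil)) .nil)) .nil)) .nil)) .nil))) .nil)) .nil)) .nil)) (.cons 249 (.leaf 248 1987 (.cons 300 (.leaf 301 2184 (.cons 252 (.leaf 253 1993 (.cons 228 (.cons 299 (.leaf 204 1630 (.leaf 323 1822 .nil)) (.cons 203 (.leaf 227 1631 (.cons 204 (.leaf 179 1439 (.cons 205 (.leaf 181 1445 (.leaf 229 1637 .nil)) .nil)) .nil)) (.cons 203 (.leaf 227 1631 (.cons 323 (.leaf 299 1822 (.cons 324 (.leaf 347 2014 (.cons 349 (.leaf 325 2020 (.cons 348 (.leaf 373 2212 (.cons 322 (.leaf 321 2568 (.cons 298 (.leaf 346 1999 (.cons 225 (.leaf 201 1612 (.leaf 250 1807 .nil)) .nil)) .nil)) .nil)) .nil)) .nil)) .nil)) .nil)) .nil))) .nil)) .nil)) .nil)) (.cons 297 (.leaf 296 2178 (.cons 300 (.leaf 301 2184 (.cons 252 (.leaf 253 1993 (.cons 228 (.cons 323 (.leaf 299 1822 (.cons 203 (.leaf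 227 1631 (.cons 205 (.leaf 229 1637 (.cons 324 (.leaf 347 2014 (.cons 325 (.leaf 349 2020 (.cons 322 (.leaf 298 2379 (.cons 345 (.leaf 346 2570 (.cons 321 (.leaf 250 1997 (.leaf 344 2562 .nil)) .nil)) .nil)) .nil)) .nil)) .nil)) .nil)) .nil)) (.cons 203 (.leaf 227 1631 (.cons 204 (.leaf 179 1439 (.cons 205 (.leaf 181 1445 (.leaf 229 1637 .nil)) .nil)) .nil)) (.cons 299 (.leaf 204 1630 (.leaf 323 1822 .nil)) .nil))) .nil)) .nil)) .nil)) (.cons 297 (.leaf 296 2178 (.cons 249 (.leaf 248 1987 (.cons 252 (.leaf 253 1993 (.cons 225 (.cons 200 (.leaf 224 1607 (.cons 201 (.leaf 298 1612 (.leaf 176 1415 .nil)) .nil)) (.cons 226 (.leaf 202 1613 (.cons 200 (.leaf 224 1607 (.cons 176 (.leaf 201 1415 (.cons 321 (.leaf 250 1805 (.cons 344 (.leaf 320 1990 (.cons 345 (.leaf 368 2182 (.cons 346 (.leaf 322 1996 (.leaf 370 2188 .nil)) .nil)) .nil)) .nil)) .nil)) .nil)) .nil)) (.cons 200 (.leaf 224 1607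 (.cons 202 (.leaf 226 1613 (.cons 322 (.leaf 298 1804 (.cons 321 (.leaf 346 1996 (.cons 345 (.leaf 250 1997 (.cons 344 (.leaf 320 1990 (.leaf 368 2182 .nil)) .nil)) .nil)) .nil)) .nil)) .nil)) (.cons 298 (.leaf 201 1612 (.leaf 322 1804 .nil)) .nil)))) .nil)) .nil)) .nil)) (.cons 297 (.leaf 296 2178 (.cons 249 (.leaf 248 1987 (.cons 300 (.leaf 301 2184 (.cons 225 (.cons 298 (.leaf 201 1612 (.leaf 322 1804 .nil)) (.cons 226 (.leaf 202 1613 (.cons 200 (.leaf 224 1607 (.cons 321 (.leaf 250 1805 (.cons 344 (.leaf 320 1990 (.cons 345 (.leaf 368 2182 (.cons 346 (.leaf 322 1996 (.leaf 370 2188 .nil)) .nil)) .nil)) .nil)) .nil)) .nil)) (.cons 201 (.leaf 298 1612 (.cons 202 (.leaf 178 1421 (.leaf 226 1613 .nil)) .nil)) .nil))) .nil)) .nil)) .nil)) (.cons 252 (.leaf 253 1993 (.cons 300 (.leaf 301 2184 (.cons 297 (.leaf 296 2178 (.cons 249 (.leaf 248 1987 (.cons 228 (.cons 203 (.leaf 227 1631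 (.cons 204 (.leaf 299 1630 (.leaf 179 1439 .nil)) .nil)) (.cons 203 (.leaf 227 1631 (.cons 204 (.leaf 179 1439 (.cons 205 (.leaf 181 1445 (.leaf 229 1637 .nil)) .nil)) .nil)) (.cons 227 (.leaf 203 1631 (.cons 229 (.leaf 205 1637 (.cons 226 (.leaf 250 1802 (.cons 202 (.leaf 225 1613 (.leaf 201 1611 .nil)) .nil)) .nil)) .nil)) (.cons 299 (.leaf 204 1630 (.leaf 323 1822 .nil)) .nil)))) .nil)) .nil)) .nil)) .nil)) (.cons 297 (.leaf 296 2178 (.cons 249 (.leaf 248 1987 (.cons 300 (.leaf 301 2184 (.cons 252 (.leaf 253 1993 (.cons 225 (.cons 200 (.leaf 224 1607 (.cons 322 (.leaf 298 1804 (.cons 321 (.leaf 346 1996 (.cons 320 (.leaf 344 1990 (.cons 323 (.leaf 299 2369 (.cons 347 (.leaf 324 2014 (.leaf 348 2560 .nil)) .nil)) .nil)) .nil)) .nil)) .nil)) (.cons 200 (.leaf 224 1607 (.cons 201 (.leaf 176 1415 (.cons 202 (.leaf 178 1421 (.leaf 226 1613 .nil)) .nil)) .nil)) (.cons 298 (.leaf 201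 1612 (.leaf 322 1804 .nil)) .nil))) .nil)) .nil)) .nil)) .nil)) .nil))))))
noncomputable def t163 : T := .cons 272 (.cons 247 (.leaf 248 1979 (.cons 271 (.leaf 246 1971 (.cons 299 (.leaf 300 2176 (.leaf 298 2168 .nil)) .nil)) .nil)) (.cons 296 (.leaf 295 2170 (.cons 276 (.leaf 297 2178 (.cons 300 (.leaf 299 2176 (.leaf 301 2184 .nil)) .nil)) .nil)) (.cons 247 (.leaf 248 1979 (.cons 271 (.leaf 246 1971 (.cons 295 (.leaf 296 2170 (.leaf 294 2162 .nil)) .nil)) .nil)) .nil))) (.cons 276 (t162) (.cons 272 t161 (.cons 272 (.cons 248 (.leaf 247 1979 (.cons 276 (.leaf 249 1987 (.cons 300 (.leaf 299 2176 (.leaf 301 2184 .nil)) .nil)) .nil)) (.cons 299 (.leaf 300 2176 (.cons 271 (.leaf 298 2168 (.cons 246 (.leaf 247 1971 (.cons 270 (.leaf 245 1963 (.cons 294 (.leaf 295 2162 (.leaf 293 2154 .nil)) .nil)) .nil)) .nil)) .nil)) (.cons 248 (.leaf 247 1979 (.cons 249 (.leaf 276 1987 (.cons 296 (.leaf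 295 2170 (.cons 225 (.leaf 201 1606 (.leaf 320 1797 .nil)) .nil)) .nil)) .nil)) (.cons 299 (.leaf 300 2176 (.cons 271 (.leaf 298 2168 (.cons 294 (.leaf 295 2162 (.cons 270 (.leaf 293 2154 (.cons 245 (.leaf 246 1963 (.cons 249 (.leaf 250 1969 (.cons 248 (.leaf 276 1987 (.leaf 269 1961 .nil)) .nil)) .nil)) .nil)) .nil)) .nil)) .nil)) .nil)))) (.cons 272 t160 (.cons 272 t159 (.cons 272 t158 (.cons 272 (.cons 296 (.leaf 295 2170 (.cons 276 (.leaf 297 2178 (.cons 300 (.leaf 299 2176 (.leaf 301 2184 .nil)) .nil)) .nil)) (.cons 248 (.leaf 247 1979 (.cons 276 (.leaf 249 1987 (.cons 300 (.leaf 299 2176 (.leaf 301 2184 .nil)) .nil)) .nil)) (.cons 247 (.leaf 248 1979 (.cons 271 (.leaf 246 1971 (.cons 295 (.leaf 296 2170 (.leaf 294 2162 .nil)) .nil)) .nil)) .nil))) .nil)))))))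
noncomputable def t164 : T := .cons 202 (.leaf 299 1620 (.cons 178 (.leaf 251 1428 (.cons 179 (.leaf 203 1429 (.leaf 155 1237 .nil)) .nil)) .nil)) (.cons 298 (.cons 201 (.leaf 225 1615 (.cons 227 (.leaf 203 1621 (.cons 322 (.leaf 251 1813 (.cons 323 (.leaf 299 1812 (.leaf 347 2004 .nil)) .nil)) .nil)) .nil)) (.cons 227 (.leaf 203 1621 (.cons 321 (.leaf 297 1806 (.cons 322 (.leaf 251 1813 (.leaf 345 1998 .nil)) .nil)) .nil)) (.cons 323 (.leaf 299 1812 (.cons 201 (.leaf 225 1615 (.cons 322 (.leaf 347 2004 (.cons 345 (.leaf 321 1998 (.cons 346 (.leaf 251 2005 (.leaf 369 2190 .nil)) .nil)) .nil)) .nil)) .nil)) (.cons 323 (.leaf 299 1812 (.cons 201 (.leaf 225 1615 (.cons 321 (.leaf 297 1806 (.cons 322 (.leaf 345 1998 (.leaf 347 2004 .nil)) .nil)) .nil)) .nil)) (.cons 299 (.leaf 323 1812 (.cons 201 (.leaf 225 1615 (.cons 297 (.leaf 321 1806 (.cons 296 (.leaf 295 2169 (.leaf 276 2177 .nil))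 .nil)) .nil)) .nil)) .nil))))) (.cons 202 (.cons 178 (.leaf 251 1428 (.cons 179 (.leaf 203 1429 (.leaf 155 1237 .nil)) .nil)) (.cons 177 (.leaf 201 1423 (.cons 178 (.leaf 251 1428 (.leaf 153 1231 .nil)) .nil)) (.cons 203 (.leaf 179 1429 (.cons 201 (.leaf 177 1423 (.cons 200 (.cons 228 (.leaf 227 1600 (.cons 175 (.leaf 176 1403 (.cons 204 (.leaf 229 1608 (.cons 224 (.leaf 223 1594 (.leaf 225 1602 .nil)) .nil)) .nil)) .nil)) (.cons 224 (.leaf 223 1594 (.cons 175 (.leaf 176 1403 (.cons 174 (.leaf 199 1395 (.cons 204 (.leaf 225 1602 (.cons 181 (.leaf 180 1417 (.cons 205 (.leaf 182 1425 (.cons 229 (.leaf 228 1608 (.leaf 230 1616 .nil)) .nil)) .nil)) .nil)) .nil)) .nil)) .nil)) (.cons 227 (.leaf 298 1621 (.leaf 199 1592 .nil)) .nil))) .nil)) .nil)) .nil))) (.cons 299 (.leaf 202 1620 (.cons 323 (.leaf 347 2007 (.leaf 298 1812 .nil)) .nil)) .nil)))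
noncomputable def t165 : T := .cons 202 (.leaf 299 1620 (.cons 177 (.leaf 201 1423 (.cons 178 (.leaf 251 1428 (.leaf 153 1231 .nil)) .nil)) .nil)) (.cons 298 (.cons 227 (.leaf 203 1621 (.cons 225 (.leaf 201 1615 (.cons 249 (.leaf 322 1807 (.cons 248 (.leaf 247 1976 (.leaf 228 1794 .nil)) .nil)) .nil)) .nil)) (.cons 225 (.leaf 201 1615 (.cons 321 (.leaf 297 1806 (.cons 322 (.leaf 249 1807 (.leaf 345 1998 .nil)) .nil)) .nil)) (.cons 227 (.leaf 203 1621 (.cons 321 (.leaf 297 1806 (.cons 322 (.leaf 251 1813 (.leaf 345 1998 .nil)) .nil)) .nil)) (.cons 227 (.leaf 203 1621 (.cons 225 (.leaf 201 1615 (.cons 297 (.leaf 321 1806 (.cons 296 (.leaf 295 2169 (.cons 224 (.cons 251 (.leaf 223 1784 (.leaf 252 1792 .nil)) (.cons 199 (.leaf 200 1595 (.cons 223 (.leaf 198 1587 (.cons 247 (.leaf 246 1778 (.leaf 248 1786 .nil)) .nil)) .nil)) (.cons 199 (.leaf 200 1595 (.cons 248 (.leaf 247 1786 (.cons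 228 (.leaf 249 1794 (.cons 252 (.leaf 251 1792 (.leaf 253 1800 .nil)) .nil)) .nil)) .nil)) .nil))) .nil)) .nil)) .nil)) .nil)) .nil)))) (.cons 299 (.leaf 202 1620 (.cons 323 (.leaf 347 2007 (.leaf 298 1812 .nil)) .nil)) .nil))
noncomputable def t166 : T := .cons 299 (.leaf 202 1620 (.cons 323 (.leaf 251 1815 (.leaf 347 2007 .nil)) .nil)) (.cons 298 (.cons 203 (.leaf 227 1621 (.cons 179 (.leaf 202 1429 (.cons 321 (.leaf 297 1806 (.cons 225 (.leaf 201 1615 (.cons 322 (.leaf 249 1807 (.leaf 345 1998 .nil)) .nil)) .nil)) .nil)) .nil)) (.cons 225 (.leaf 201 1615 (.cons 321 (.leaf 297 1806 (.cons 322 (.leaf 249 1807 (.leaf 345 1998 .nil)) .nil)) .nil)) (.cons 227 (.leaf 203 1621 (.cons 321 (.leaf 297 1806 (.cons 322 (.leaf 251 1813 (.leaf 345 1998 .nil)) .nil)) .nil)) (.cons 203 (.leaf 227 1621 (.cons 202 (.leaf 179 1429 (.cons 178 (.leaf 251 1428 (.cons 225 (.leaf 201 1615 (.cons 154 (.leaf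 249 1230 (.cons 129 (.leaf 153 1039 (.cons 130 (.leaf 105 847 (.cons 131 (.leaf 155 1045 (.leaf 107 853 .nil)) .nil)) .nil)) .nil)) .nil)) .nil)) .nil)) .nil)) .nil)))) (.cons 298 (.cons 201 (.leaf 225 1615 (.cons 203 (.leaf 227 1621 (.cons 297 (.leaf 321 1806 (.cons 296 (.leaf 295 2169 (.cons 299 (.leaf 276 2177 (.leaf 323 1812 .nil)) .nil)) .nil)) .nil)) .nil)) (.cons 227 (.leaf 203 1621 (.cons 225 (.leaf 201 1615 (.cons 249 (.leaf 322 1807 (.cons 248 (.leaf 247 1976 (.leaf 228 1794 .nil)) .nil)) .nil)) .nil)) (.cons 323 (.leaf 299 1812 (.cons 201 (.leaf 225 1615 (.cons 322 (.leaf 347 2004 (.cons 345 (.leaf 321 1998 (.cons 346 (.leaf 251 2005 (.leaf 369 2190 .nil)) .nil)) .nil)) .nil)) .nil)) (.cons 323 (.leaf 299 1812 (.cons 321 (.leaf 297 1806 (.cons 322 (.leaf 345 1998 (.leaf 347 2004 .nil)) .nil)) .nil)) .nil)))) (.cons 299 (.leaf 202 1620 (.cons 323 (.leaf 347 2007 (.leaf 298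 1812 .nil)) .nil)) .nil)))
noncomputable def t167 : T := .cons 299 (.leaf 202 1620 (.cons 323 (.leaf 251 1815 (.leaf 347 2007 .nil)) .nil)) (.cons 298 (.cons 201 (.leaf 225 1615 (.cons 203 (.leaf 227 1621 (.cons 321 (.leaf 297 1806 (.cons 322 (.leaf 345 1998 (.cons 346 (.leaf 251 2005 (.cons 347 (.leaf 323 2004 (.leaf 371 2196 .nil)) .nil)) .nil)) .nil)) .nil)) .nil)) (.cons 225 (.leaf 201 1615 (.cons 321 (.leaf 297 1806 (.cons 322 (.leaf 249 1807 (.leaf 345 1998 .nil)) .nil)) .nil)) (.cons 227 (.leaf 203 1621 (.cons 321 (.leaf 297 1806 (.cons 322 (.leaf 251 1813 (.leaf 345 1998 .nil)) .nil)) .nil)) (.cons 203 (.leaf 227 1621 (.cons 201 (.leaf 225 1615 (.cons 202 (.leaf 177 1423 (.leaf 179 1429 .nil)) .nil)) .nil)) .nil)))) (.cons 298 (.cons 201 (.leaf 225 1615 (.cons 227 (.leaf 203 1621 (.cons 251 (.leaf 322 1813 (.cons 299 (.leaf 323 1812 (.cons 297 (.leaf 321 1806 (.cons 296 (.leaf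 295 2169 (.leaf 276 2177 .nil)) .nil)) .nil)) .nil)) .nil)) .nil)) (.cons 227 (.leaf 203 1621 (.cons 225 (.leaf 201 1615 (.cons 249 (.leaf 322 1807 (.cons 248 (.leaf 247 1976 (.leaf 228 1794 .nil)) .nil)) .nil)) .nil)) (.cons 323 (.leaf 299 1812 (.cons 201 (.leaf 225 1615 (.cons 322 (.leaf 347 2004 (.cons 345 (.leaf 321 1998 (.cons 346 (.leaf 251 2005 (.leaf 369 2190 .nil)) .nil)) .nil)) .nil)) .nil)) (.cons 323 (.leaf 299 1812 (.cons 321 (.leaf 297 1806 (.cons 322 (.leaf 345 1998 (.leaf 347 2004 .nil)) .nil)) .nil)) (.cons 299 (.leaf 323 1812 (.cons 201 (.leaf 225 1615 (.cons 297 (.leaf 321 1806 (.cons 296 (.leaf 295 2169 (.leaf 276 2177 .nil)) .nil)) .nil)) .nil)) .nil))))) (.cons 202 (.leaf 299 1620 (.cons 203 (.leaf 179 1429 (.cons 201 (.leaf 177 1423 (.cons 200 (.cons 228 (.leaf 227 1600 (.cons 175 (.leaf 176 1403 (.cons 204 (.leaf 229 1608 (.cons 224 (.leaf 223 1594 (.leaf 225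 1602 .nil)) .nil)) .nil)) .nil)) (.cons 224 (.leaf 223 1594 (.cons 175 (.leaf 176 1403 (.cons 174 (.leaf 199 1395 (.cons 204 (.leaf 225 1602 (.cons 181 (.leaf 180 1417 (.cons 205 (.leaf 182 1425 (.cons 229 (.leaf 228 1608 (.leaf 230 1616 .nil)) .nil)) .nil)) .nil)) .nil)) .nil)) .nil)) (.cons 227 (.leaf 298 1621 (.leaf 199 1592 .nil)) .nil))) .nil)) .nil)) .nil)) .nil)))
noncomputable def t168 : T := .cons 248 (.leaf 247 1976 (.cons 251 (.leaf 276 1984 (.cons 178 (.leaf 202 1428 (.cons 223 (.leaf 224 1787 (.cons 228 (.leaf 227 1793 (.cons 252 (.leaf 229 1801 (.cons 253 (.leaf 254 2002 (.leaf 225 1803 .nil)) .nil)) .nil)) .nil)) .nil)) .nil)) .nil)) (.cons 298 (.cons 203 (.leaf 227 1621 (.cons 179 (.leaf 202 1429 (.cons 321 (.leaf 297 1806 (.cons 322 (.leaf 225 1807 (.leaf 345 1998 .nil)) .nil)) .nil)) .nil)) (.cons 203 (.leaf 227 1621 (.cons 202 (.leaf 179 1429 (.cons 178 (.leaf 251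 1428 (.cons 153 (.leaf 177 1231 (.cons 154 (.leaf 129 1039 (.leaf 225 1230 .nil)) .nil)) .nil)) .nil)) .nil)) (.cons 322 (.leaf 225 1807 (.cons 321 (.leaf 297 1806 (.leaf 345 1998 .nil)) .nil)) (.cons 227 (.leaf 203 1621 (.cons 228 (.leaf 229 1802 (.cons 321 (.leaf 297 1806 (.cons 322 (.leaf 251 1813 (.leaf 345 1998 .nil)) .nil)) .nil)) .nil)) .nil)))) (.cons 248 (.leaf 247 1976 (.cons 227 (.cons 228 (.leaf 225 1794 (.leaf 229 1802 .nil)) (.cons 203 (.leaf 298 1621 (.cons 179 (.leaf 202 1429 (.leaf 155 1238 .nil)) .nil)) .nil)) .nil)) (.cons 248 (.leaf 247 1976 (.cons 251 (.leaf 276 1984 (.cons 178 (.leaf 202 1428 (.cons 224 (.leaf 223 1787 (.cons 225 (.leaf 252 1795 (.cons 272 (.leaf 271 1978 (.cons 296 (.leaf 320 1797 (.cons 295 (.leaf 319 1790 (.cons 297 (.leaf 298 2169 (.leaf 321 1796 .nil)) .nil)) .nil)) .nil)) .nil)) .nil)) .nil)) .nil)) .nil)) (.cons 248 (.leaf 247 1976 (.cons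 251 (.leaf 276 1984 (.cons 178 (.leaf 202 1428 (.cons 223 (.leaf 224 1787 (.cons 227 (.leaf 228 1793 (.cons 203 (.leaf 298 1621 (.leaf 179 1430 .nil)) .nil)) .nil)) .nil)) .nil)) .nil)) (.cons 248 (.leaf 247 1976 (.cons 251 (.leaf 276 1984 (.cons 223 (.leaf 224 1787 (.cons 228 (.leaf 227 1793 (.cons 252 (.leaf 229 1801 (.cons 253 (.leaf 254 2002 (.leaf 225 1803 .nil)) .nil)) .nil)) .nil)) .nil)) .nil)) .nil)))))
noncomputable def t169 : T := .cons 298 (.cons 203 (.leaf 227 1621 (.cons 323 (.leaf 299 1812 (.cons 322 (.leaf 347 2004 (.cons 249 (.leaf 225 1807 (.cons 248 (.leaf 247 1976 (.cons 251 (.leaf 276 1984 (.leaf 346 2005 .nil)) .nil)) .nil)) .nil)) .nil)) .nil)) (.cons 227 (.leaf 203 1621 (.cons 321 (.leaf 297 1806 (.cons 322 (.leaf 251 1813 (.leaf 345 1998 .nil)) .nil)) .nil)) (.cons 299 (.leaf 202 1620 (.leaf 323 1812 .nil)) .nil))) (.cons 249 t168 (.cons 298 (.cons 297 (.leaf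 321 1806 (.cons 296 (.leaf 295 2169 (.cons 299 (.leaf 276 2177 (.leaf 323 1812 .nil)) .nil)) .nil)) (.cons 227 (.leaf 203 1621 (.cons 321 (.leaf 297 1806 (.cons 322 (.leaf 251 1813 (.leaf 345 1998 .nil)) .nil)) .nil)) (.cons 323 (.leaf 299 1812 (.cons 203 (.leaf 227 1621 (.cons 322 (.leaf 347 2004 (.cons 249 (.leaf 225 1807 (.cons 248 (.leaf 247 1976 (.cons 251 (.leaf 276 1984 (.leaf 346 2005 .nil)) .nil)) .nil)) .nil)) .nil)) .nil)) .nil))) (.cons 299 (.leaf 202 1620 (.cons 323 (.leaf 347 2007 (.leaf 298 1812 .nil)) .nil)) (.cons 202 (.leaf 299 1620 (.cons 178 (.leaf 251 1428 (.cons 179 (.leaf 203 1429 (.leaf 155 1237 .nil)) .nil)) .nil)) .nil))))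
noncomputable def t170 : T := .cons 177 (.leaf 201 1423 (.cons 203 (.leaf 179 1429 (.cons 178 (.leaf 251 1428 (.leaf 153 1231 .nil)) .nil)) .nil)) (.cons 177 (.leaf 201 1423 (.cons 203 (.leaf 179 1429 (.cons 298 (.leaf 227 1621 (.cons 321 (.leaf 297 1806 (.cons 322 (.leaf 345 1998 (.cons 346 (.leaf 251 2005 (.cons 347 (.leaf 323 2004 (.leaf 371 2196 .nil)) .nil)) .nil)) .nil)) .nil)) .nil)) .nil)) (.cons 178 (.leaf 251 1428 (.cons 153 (.leaf 177 1231 (.cons 154 (.leaf 129 1039 (.cons 155 (.leaf 131 1045 (.leaf 179 1237 .nil)) .nil)) .nil)) .nil)) (.cons 177 (.leaf 201 1423 (.cons 178 (.leaf 153 1231 (.cons 179 (.leaf 203 1429 (.leaf 155 1237 .nil)) .nil)) .nil)) (.cons 178 (.leaf 251 1428 (.cons 177 (.leaf 201 1423 (.leaf 153 1231 .nil)) .nil)) (.cons 203 (.leaf 179 1429 (.cons 227 (.leaf 298 1621 (.cons 251 (.leaf 178 1428 (.cons 204 (.leaf 180 1437 (.cons 205 (.leaf 206 1618 (.cons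 181 (.leaf 182 1425 (.cons 229 (.leaf 230 1616 (.cons 228 (.leaf 201 1608 (.leaf 249 1802 .nil)) .nil)) .nil)) .nil)) .nil)) .nil)) .nil)) .nil)) .nil)))))
noncomputable def t171 : T := .cons 202 (.leaf 299 1620 (.cons 177 (.leaf 201 1423 (.cons 203 (.leaf 179 1429 (.cons 178 (.leaf 251 1428 (.leaf 153 1231 .nil)) .nil)) .nil)) .nil)) (.cons 202 t170 (.cons 298 (.cons 203 (.leaf 227 1621 (.cons 323 (.leaf 299 1812 (.cons 322 (.leaf 347 2004 (.cons 345 (.leaf 321 1998 (.cons 346 (.leaf 251 2005 (.leaf 369 2190 .nil)) .nil)) .nil)) .nil)) .nil)) (.cons 227 (.leaf 203 1621 (.cons 321 (.leaf 297 1806 (.cons 322 (.leaf 251 1813 (.leaf 345 1998 .nil)) .nil)) .nil)) (.cons 323 (.leaf 299 1812 (.cons 321 (.leaf 297 1806 (.cons 322 (.leaf 345 1998 (.leaf 347 2004 .nil)) .nil)) .nil)) (.cons 227 (.leaf 203 1621 (.cons 251 (.leaf 322 1813 (.cons 299 (.leaf 323 1812 (.cons 228 (.leaf 204 1629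 (.cons 229 (.leaf 249 1802 (.leaf 230 1810 .nil)) .nil)) .nil)) .nil)) .nil)) (.cons 299 (.leaf 323 1812 (.cons 203 (.leaf 227 1621 (.cons 297 (.leaf 321 1806 (.cons 296 (.leaf 295 2169 (.leaf 276 2177 .nil)) .nil)) .nil)) .nil)) .nil))))) (.cons 202 (.leaf 299 1620 (.cons 203 (.leaf 179 1429 (.cons 201 (.leaf 177 1423 (.cons 227 (.leaf 298 1621 (.cons 200 (.leaf 199 1592 (.leaf 228 1600 .nil)) .nil)) .nil)) .nil)) .nil)) (.cons 299 (.leaf 202 1620 (.cons 323 (.leaf 251 1815 (.leaf 347 2007 .nil)) .nil)) .nil))))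
noncomputable def t172 : T := .cons 298 (.cons 201 (.leaf 225 1615 (.cons 297 (.leaf 321 1806 (.cons 296 (.leaf 295 2169 (.cons 299 (.leaf 202 1620 (.leaf 276 2177 .nil)) .nil)) .nil)) .nil)) (.cons 225 (.leaf 201 1615 (.cons 321 (.leaf 297 1806 (.cons 322 (.leaf 249 1807 (.leaf 345 1998 .nil)) .nil)) .nil)) (.cons 299 (.leaf 202 1620 (.leaf 323 1812 .nil)) .nil))) (.cons 298 (.cons 225 (.leaf 201 1615 (.cons 321 (.leaf 297 1806 (.cons 322 (.leaf 249 1807 (.leaf 345 1998 .nil)) .nil)) .nil)) (.cons 321 (.leaf 297 1806 (.cons 322 (.leaf 345 1998 (.cons 251 (.leaf 346 2005 (.leaf 227 1813 .nil)) .nil)) .nil)) (.cons 297 (.leaf 321 1806 (.cons 296 (.leaf 295 2169 (.cons 202 (.cons 201 (.leaf 177 1423 (.leaf 225 1615 .nil)) (.cons 178 (.leaf 251 1428 (.cons 153 (.leaf 177 1231 (.cons 154 (.leaf 129 1039 (.cons 155 (.leaf 131 1045 (.leaf 179 1237 .nil)) .nil)) .nil)) .nil)) (.cons 178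 (.leaf 251 1428 (.cons 155 (.leaf 179 1237 (.cons 154 (.leaf 131 1045 (.cons 225 (.leaf 201 1615 (.leaf 249 1230 .nil)) .nil)) .nil)) .nil)) .nil))) .nil)) .nil)) (.cons 225 (.leaf 201 1615 (.cons 249 (.leaf 322 1807 (.cons 248 (.leaf 247 1976 (.cons 227 (.leaf 228 1794 (.cons 251 (.leaf 276 1984 (.cons 224 (.leaf 223 1784 (.leaf 252 1792 .nil)) .nil)) .nil)) .nil)) .nil)) .nil)) .nil)))) (.cons 298 (.cons 225 (.leaf 201 1615 (.cons 321 (.leaf 297 1806 (.cons 322 (.leaf 249 1807 (.leaf 345 1998 .nil)) .nil)) .nil)) (.cons 321 (.leaf 297 1806 (.cons 322 (.leaf 345 1998 (.cons 251 (.leaf 346 2005 (.leaf 227 1813 .nil)) .nil)) .nil)) (.cons 299 (.leaf 323 1812 (.cons 201 (.leaf 225 1615 (.cons 297 (.leaf 321 1806 (.cons 296 (.leaf 295 2169 (.leaf 276 2177 .nil)) .nil)) .nil)) .nil)) (.cons 225 (.leaf 201 1615 (.cons 249 (.leaf 322 1807 (.cons 248 (.leaf 247 1976 (.cons 227 (.leaf 228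 1794 (.cons 251 (.leaf 276 1984 (.cons 224 (.leaf 223 1784 (.leaf 252 1792 .nil)) .nil)) .nil)) .nil)) .nil)) .nil)) .nil)))) (.cons 202 (.leaf 299 1620 (.cons 177 (.leaf 201 1423 (.cons 178 (.leaf 251 1428 (.leaf 153 1231 .nil)) .nil)) .nil)) (.cons 299 (.leaf 202 1620 (.cons 323 (.leaf 251 1815 (.leaf 347 2007 .nil)) .nil)) .nil))))
noncomputable def t173 : T := .cons 298 (.cons 201 (.leaf 225 1615 (.cons 321 (.leaf 297 1806 (.cons 322 (.leaf 345 1998 (.cons 346 (.leaf 251 2005 (.cons 299 (.leaf 202 1620 (.leaf 370 2197 .nil)) .nil)) .nil)) .nil)) .nil)) (.cons 225 (.leaf 201 1615 (.cons 321 (.leaf 297 1806 (.cons 322 (.leaf 249 1807 (.leaf 345 1998 .nil)) .nil)) .nil)) (.cons 297 (.leaf 321 1806 (.cons 296 (.leaf 295 2169 (.cons 299 (.leaf 202 1620 (.leaf 276 2177 .nil)) .nil)) .nil)) (.cons 201 (.leaf 225 1615 (.cons 323 (.leaf 299 1812 (.cons 322 (.leaf 347 2004 (.cons 345 (.leaf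 321 1998 (.cons 346 (.leaf 251 2005 (.leaf 369 2190 .nil)) .nil)) .nil)) .nil)) .nil)) (.cons 225 (.leaf 201 1615 (.cons 249 (.leaf 322 1807 (.cons 248 (.leaf 247 1976 (.cons 251 (.leaf 276 1984 (.cons 224 (.leaf 223 1784 (.leaf 252 1795 .nil)) .nil)) .nil)) .nil)) .nil)) .nil))))) (.cons 298 (.cons 201 (.leaf 225 1615 (.cons 321 (.leaf 297 1806 (.cons 322 (.leaf 345 1998 (.cons 346 (.leaf 251 2005 (.cons 347 (.leaf 323 2004 (.leaf 371 2196 .nil)) .nil)) .nil)) .nil)) .nil)) (.cons 225 (.leaf 201 1615 (.cons 321 (.leaf 297 1806 (.cons 322 (.leaf 249 1807 (.leaf 345 1998 .nil)) .nil)) .nil)) (.cons 297 (.leaf 321 1806 (.cons 296 (.leaf 295 2169 (.cons 299 (.leaf 276 2177 (.leaf 323 1812 .nil)) .nil)) .nil)) (.cons 201 (.leaf 225 1615 (.cons 323 (.leaf 299 1812 (.cons 322 (.leaf 347 2004 (.cons 345 (.leaf 321 1998 (.cons 346 (.leaf 251 2005 (.leaf 369 2190 .nil)) .nil)) .nil)) .nil))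 .nil)) (.cons 225 (.leaf 201 1615 (.cons 249 (.leaf 322 1807 (.cons 248 (.leaf 247 1976 (.cons 251 (.leaf 276 1984 (.cons 224 (.leaf 223 1784 (.leaf 252 1795 .nil)) .nil)) .nil)) .nil)) .nil)) .nil))))) (.cons 202 (.cons 178 (.leaf 251 1428 (.cons 179 (.leaf 203 1429 (.leaf 155 1237 .nil)) .nil)) (.cons 179 (.leaf 203 1429 (.cons 201 (.leaf 177 1423 (.cons 298 (.leaf 225 1615 (.cons 321 (.leaf 297 1806 (.cons 322 (.leaf 345 1998 (.cons 346 (.leaf 251 2005 (.cons 347 (.leaf 323 2004 (.leaf 371 2196 .nil)) .nil)) .nil)) .nil)) .nil)) .nil)) .nil)) (.cons 177 (.leaf 201 1423 (.cons 178 (.leaf 251 1428 (.leaf 153 1231 .nil)) .nil)) (.cons 201 (.leaf 177 1423 (.cons 179 (.leaf 203 1429 (.cons 178 (.leaf 155 1237 (.cons 180 (.leaf 181 1418 (.cons 199 (.leaf 200 1401 (.cons 225 (.leaf 298 1615 (.cons 154 (.leaf 249 1230 (.leaf 130 1038 .nil)) .nil)) .nil)) .nil)) .nil)) .nil)) .nil)) .nil))))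 (.cons 202 (.leaf 299 1620 (.cons 178 (.leaf 251 1428 (.cons 179 (.leaf 203 1429 (.leaf 155 1237 .nil)) .nil)) .nil)) (.cons 202 (.leaf 299 1620 (.cons 201 (.leaf 177 1423 (.cons 179 (.leaf 203 1429 (.cons 178 (.leaf 155 1237 (.cons 180 (.leaf 181 1418 (.cons 199 (.leaf 200 1401 (.cons 225 (.leaf 298 1615 (.cons 154 (.leaf 249 1230 (.leaf 130 1038 .nil)) .nil)) .nil)) .nil)) .nil)) .nil)) .nil)) .nil)) .nil))))
noncomputable def t174 : T := .cons 229 (.leaf 201 1611 (.cons 205 (.leaf 206 1617 (.cons 204 (.leaf 225 1609 (.cons 180 (.leaf 252 1438 (.leaf 156 1246 .nil)) .nil)) .nil)) .nil)) (.cons 225 (.cons 252 (.leaf 224 1792 (.leaf 253 1800 .nil)) (.cons 200 (.leaf 201 1603 (.cons 204 (.leaf 205 1609 (.cons 156 (.leaf 180 1246 (.cons 224 (.leaf 199 1595 (.cons 248 (.leaf 247 1786 (.leaf 249 1794 .nil)) .nil)) .nil)) .nil)) .nil)) (.cons 200 (.leaf 201 1603 (.cons 204 (.leaf 205 1609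 (.cons 180 (.leaf 252 1438 (.leaf 156 1246 .nil)) .nil)) .nil)) .nil))) (.cons 204 (.cons 180 (.leaf 252 1438 (.leaf 156 1246 .nil)) (.cons 205 (.leaf 225 1609 (.cons 206 (.leaf 229 1617 (.leaf 207 1626 .nil)) .nil)) .nil)) (.cons 201 (.leaf 229 1611 (.cons 200 (.leaf 199 1592 (.leaf 225 1603 .nil)) .nil)) (.cons 229 (.leaf 201 1611 (.cons 205 (.leaf 206 1617 (.cons 254 (.leaf 253 1808 (.cons 230 (.leaf 255 1816 (.cons 157 (.leaf 181 1260 (.cons 231 (.leaf 252 1818 (.cons 232 (.leaf 204 1635 (.cons 208 (.leaf 207 1633 (.leaf 209 1641 .nil)) .nil)) .nil)) .nil)) .nil)) .nil)) .nil)) .nil)) .nil))))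
noncomputable def t175 : T := .cons 175 (.leaf 176 1403 (.cons 178 (.leaf 251 1431 (.cons 130 (.leaf 154 1044 (.cons 179 (.leaf 180 1409 (.cons 155 (.leaf 131 1046 (.cons 224 (.leaf 223 1594 (.cons 204 (.leaf 225 1601 (.cons 205 (.leaf 206 1618 (.leaf 177 1419 .nil)) .nil)) .nil)) .nil)) .nil)) .nil)) .nil)) .nil)) (.cons 175 (.leaf 176 1403 (.cons 178 (.leaf 251 1431 (.cons 154 (.leaf 130 1044 (.cons 129 (.leaf 153 1039 (.cons 131 (.leaf 155 1045 (.cons 180 (.leaf 179 1409 (.cons 204 (.leaf 181 1417 (.cons 205 (.leaf 225 1610 (.leaf 206 1618 .nil)) .nil)) .nil)) .nil)) .nil)) .nil)) .nil)) .nil)) (.cons 175 (.leaf 176 1403 (.cons 179 (.leaf 180 1409 (.cons 131 (.leaf 155 1046 (.cons 224 (.leaf 223 1594 (.cons 225 (.leaf 204 1601 (.cons 248 (.leaf 247 1786 (.cons 177 (.leaf 153 1222 (.leaf 272 1413 .nil)) .nil)) .nil)) .nil)) .nil)) .nil)) .nil)) (.cons 175 (.leaf 176 1403 (.cons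 178 (.leaf 251 1431 (.cons 154 (.leaf 130 1044 (.cons 129 (.leaf 153 1039 (.cons 155 (.leaf 131 1045 (.cons 179 (.leaf 180 1409 (.cons 156 (.leaf 132 1053 (.cons 157 (.leaf 177 1226 (.leaf 158 1234 .nil)) .nil)) .nil)) .nil)) .nil)) .nil)) .nil)) .nil)) (.cons 175 (.leaf 176 1403 (.cons 178 (.leaf 251 1431 (.cons 130 (.leaf 154 1044 (.cons 224 (.leaf 223 1594 (.cons 204 (.leaf 225 1601 (.cons 205 (.leaf 206 1618 (.leaf 177 1419 .nil)) .nil)) .nil)) .nil)) .nil)) .nil)) (.cons 178 (.leaf 251 1431 (.cons 130 (.leaf 154 1044 (.cons 179 (.leaf 180 1409 (.cons 155 (.leaf 131 1046 (.cons 156 (.leaf 132 1053 (.cons 224 (.leaf 223 1594 (.cons 204 (.leaf 225 1601 (.cons 205 (.leaf 206 1618 (.leaf 177 1419 .nil)) .nil)) .nil)) .nil)) .nil)) .nil)) .nil)) .nil)) .nil)))))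
noncomputable def t176 : T := .cons 200 (.leaf 199 1592 (.cons 228 (.leaf 225 1603 (.leaf 229 1611 .nil)) .nil)) (.cons 228 (.leaf 229 1611 (.cons 225 (.cons 204 (.leaf 205 1609 (.cons 203 (.leaf 224 1601 (.cons 177 (.leaf 176 1411 (.cons 153 (.leaf 129 1036 (.cons 128 (.leaf 152 1031 (.cons 154 (.leaf 130 1037 (.cons 249 (.leaf 178 1229 (.leaf 248 1794 .nil)) .nil)) .nil)) .nil)) .nil)) .nil)) .nil)) (.cons 248 (.leaf 249 1794 (.cons 224 (.leaf 247 1786 (.cons 223 (.leaf 203 1593 (.leaf 222 1585 .nil)) .nil)) .nil)) (.cons 204 (.leaf 205 1609 (.cons 248 (.leaf 249 1794 (.cons 224 (.leaf 247 1786 (.cons 252 (.leaf 251 1792 (.leaf 253 1800 .nil)) .nil)) .nil)) .nil)) (.cons 204 (.leaf 205 1609 (.cons 248 (.leaf 249 1794 (.cons 252 (.leaf 253 1800 (.cons 180 (.leaf 251 1438 (.cons 181 (.leaf 203 1417 (.leaf 157 1253 .nil)) .nil)) .nil)) .nil)) .nil)) (.cons 204 (.leaf 205 1609 (.cons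 203 (.leaf 224 1601 (.cons 180 (.leaf 251 1437 (.leaf 181 1417 .nil)) .nil)) .nil)) .nil))))) .nil)) (.cons 200 (.leaf 199 1592 (.cons 203 t175 .nil)) (.cons 200 (.leaf 199 1592 (.cons 228 (.leaf 229 1611 (.leaf 203 1600 .nil)) .nil)) .nil)))
noncomputable def t177 : T := .cons 229 (.leaf 201 1611 (.cons 230 (.leaf 203 1619 (.cons 254 (.leaf 253 1808 (.leaf 255 1816 .nil)) .nil)) .nil)) (.cons 225 (.cons 204 (.leaf 205 1609 (.cons 203 (.leaf 224 1601 (.cons 229 (.leaf 230 1619 (.cons 253 (.leaf 252 1800 (.leaf 254 1808 .nil)) .nil)) .nil)) .nil)) (.cons 248 (.leaf 249 1794 (.cons 224 (.leaf 247 1786 (.cons 199 (.leaf 200 1595 (.cons 223 (.leaf 198 1587 (.leaf 203 1593 .nil)) .nil)) .nil)) .nil)) (.cons 205 (.leaf 204 1609 (.cons 229 (.leaf 206 1617 (.cons 253 (.leaf 252 1800 (.leaf 254 1808 .nil)) .nil)) .nil)) .nil))) (.cons 225 (.cons 248 (.leaf 249 1794 (.cons 224 (.leaf 247 1786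 (.cons 199 (.leaf 200 1595 (.cons 223 (.leaf 198 1587 (.leaf 203 1593 .nil)) .nil)) .nil)) .nil)) (.cons 204 (.leaf 205 1609 (.cons 203 (.leaf 224 1601 (.cons 248 (.leaf 249 1794 (.cons 252 (.leaf 253 1800 (.cons 276 (.leaf 299 1630 (.leaf 300 1631 .nil)) .nil)) .nil)) .nil)) .nil)) (.cons 200 (.leaf 201 1603 (.cons 204 (.leaf 205 1609 (.cons 224 (.leaf 199 1595 (.cons 248 (.leaf 247 1786 (.leaf 249 1794 .nil)) .nil)) .nil)) .nil)) (.cons 200 (.leaf 201 1603 (.cons 199 (.leaf 224 1595 (.cons 204 (.leaf 205 1609 (.cons 252 (.leaf 253 1800 (.cons 276 (.leaf 299 1630 (.cons 203 (.leaf 300 1631 (.leaf 179 1439 .nil)) .nil)) .nil)) .nil)) .nil)) .nil)) (.cons 200 (.leaf 201 1603 (.cons 204 (.leaf 205 1609 (.cons 248 (.leaf 249 1794 (.cons 252 (.leaf 253 1800 (.cons 276 (.leaf 299 1630 (.cons 203 (.leaf 300 1631 (.leaf 179 1439 .nil)) .nil)) .nil)) .nil)) .nil)) .nil)) .nil))))) (.cons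 229 (.leaf 201 1611 (.cons 205 (.leaf 206 1617 (.cons 225 (.leaf 204 1609 (.cons 253 (.leaf 252 1800 (.leaf 254 1808 .nil)) .nil)) .nil)) .nil)) (.cons 201 (.leaf 229 1611 (.cons 200 (.leaf 199 1592 (.leaf 225 1603 .nil)) .nil)) .nil))))
noncomputable def t178 : T := .cons 250 (.leaf 299 1620 (.cons 178 (.leaf 251 1428 (.cons 179 (.leaf 203 1429 (.leaf 155 1237 .nil)) .nil)) .nil)) (.cons 227 (.cons 251 (.leaf 299 1623 (.cons 178 (.leaf 203 1431 (.leaf 154 1236 .nil)) .nil)) (.cons 228 t177 (.cons 201 t176 (.cons 251 (.leaf 299 1623 (.cons 178 (.leaf 154 1236 (.cons 228 t174 .nil)) .nil)) .nil)))) (.cons 250 (.cons 178 (.leaf 251 1428 (.cons 179 (.leaf 203 1429 (.leaf 155 1237 .nil)) .nil)) (.cons 203 (.leaf 179 1429 (.cons 201 (.leaf 177 1423 (.cons 200 (.cons 227 (.leaf 199 1592 (.leaf 228 1600 .nil)) (.cons 224 (.leaf 223 1594 (.cons 175 (.leaf 176 1403 (.cons 174 (.leaf 199 1395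 (.cons 204 (.leaf 225 1602 (.cons 181 (.leaf 180 1417 (.cons 205 (.leaf 182 1425 (.cons 229 (.leaf 228 1608 (.leaf 230 1616 .nil)) .nil)) .nil)) .nil)) .nil)) .nil)) .nil)) (.cons 228 (.leaf 227 1600 (.cons 175 (.leaf 176 1403 (.cons 204 (.leaf 229 1608 (.cons 224 (.leaf 223 1594 (.leaf 225 1602 .nil)) .nil)) .nil)) .nil)) (.cons 199 (.leaf 227 1592 (.cons 175 (.leaf 174 1395 (.leaf 176 1403 .nil)) .nil)) .nil)))) .nil)) .nil)) (.cons 178 (.leaf 251 1428 (.cons 153 (.leaf 177 1231 (.cons 154 (.leaf 129 1039 (.cons 155 (.leaf 131 1045 (.leaf 179 1237 .nil)) .nil)) .nil)) .nil)) (.cons 178 (.leaf 251 1428 (.cons 177 (.leaf 201 1423 (.leaf 153 1231 .nil)) .nil)) .nil)))) (.cons 250 (.leaf 299 1620 (.cons 177 (.leaf 201 1423 (.cons 178 (.leaf 153 1231 (.cons 179 (.leaf 203 1429 (.leaf 155 1237 .nil)) .nil)) .nil)) .nil)) (.cons 250 (.leaf 299 1620 (.cons 203 (.leaf 179 1429 (.cons 201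 (.leaf 177 1423 (.cons 200 (.cons 228 (.leaf 227 1600 (.cons 175 (.leaf 176 1403 (.cons 204 (.leaf 229 1608 (.cons 224 (.leaf 223 1594 (.leaf 225 1602 .nil)) .nil)) .nil)) .nil)) (.cons 224 (.leaf 223 1594 (.cons 175 (.leaf 176 1403 (.cons 174 (.leaf 199 1395 (.cons 204 (.leaf 225 1602 (.cons 181 (.leaf 180 1417 (.cons 205 (.leaf 182 1425 (.cons 229 (.leaf 228 1608 (.leaf 230 1616 .nil)) .nil)) .nil)) .nil)) .nil)) .nil)) .nil)) (.cons 199 (.leaf 227 1592 (.cons 175 (.leaf 174 1395 (.leaf 176 1403 .nil)) .nil)) (.cons 227 (.leaf 199 1592 (.leaf 228 1600 .nil)) .nil)))) .nil)) .nil)) .nil)) (.cons 250 (.leaf 299 1620 (.cons 178 (.leaf 251 1428 (.cons 153 (.leaf 177 1231 (.cons 154 (.leaf 129 1039 (.cons 155 (.leaf 131 1045 (.leaf 179 1237 .nil)) .nil)) .nil)) .nil)) .nil)) (.cons 250 (.leaf 299 1620 (.cons 178 (.leaf 251 1428 (.cons 177 (.leaf 201 1423 (.leaf 153 1231 .nil)) .nil))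 .nil)) .nil))))))
noncomputable def t179 : T := .cons 298 (.leaf 227 1621 (.cons 225 (.leaf 201 1615 (.cons 321 (.leaf 297 1806 (.cons 322 (.leaf 249 1807 (.leaf 345 1998 .nil)) .nil)) .nil)) .nil)) (.cons 202 (.leaf 179 1429 (.cons 201 (.leaf 177 1423 (.cons 200 (.cons 224 (.leaf 223 1594 (.cons 175 (.leaf 176 1403 (.cons 174 (.leaf 199 1395 (.cons 204 (.leaf 225 1602 (.cons 181 (.leaf 180 1417 (.cons 205 (.leaf 182 1425 (.cons 227 (.leaf 206 1618 (.leaf 228 1600 .nil)) .nil)) .nil)) .nil)) .nil)) .nil)) .nil)) (.cons 224 (.leaf 223 1594 (.cons 175 (.leaf 176 1403 (.cons 174 (.leaf 199 1395 (.cons 204 (.leaf 225 1602 (.cons 181 (.leaf 180 1417 (.cons 205 (.leaf 182 1425 (.cons 229 (.leaf 228 1608 (.leaf 230 1616 .nil)) .nil)) .nil)) .nil)) .nil)) .nil)) .nil)) (.cons 228 (.leaf 227 1600 (.cons 175 (.leaf 176 1403 (.cons 204 (.leaf 229 1608 (.cons 224 (.leaf 223 1594 (.leaf 225 1602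 .nil)) .nil)) .nil)) .nil)) (.cons 227 (.leaf 199 1592 (.leaf 228 1600 .nil)) (.cons 199 (.leaf 227 1592 (.cons 175 (.leaf 176 1403 (.leaf 174 1395 .nil)) .nil)) .nil))))) .nil)) .nil)) (.cons 202 (.leaf 179 1429 (.cons 201 (.leaf 177 1423 (.cons 225 (.leaf 298 1615 (.cons 204 (.leaf 205 1610 (.leaf 224 1602 .nil)) .nil)) .nil)) .nil)) (.cons 227 (.leaf 298 1621 (.cons 179 (.leaf 202 1429 (.leaf 155 1238 .nil)) .nil)) .nil)))
noncomputable def t180 : T := .cons 202 (.leaf 299 1620 (.cons 203 (.leaf 179 1429 (.cons 201 (.leaf 177 1423 (.cons 200 (.cons 224 (.leaf 223 1594 (.cons 175 (.leaf 176 1403 (.cons 174 (.leaf 199 1395 (.cons 204 (.leaf 225 1602 (.cons 181 (.leaf 180 1417 (.cons 205 (.leaf 182 1425 (.cons 227 (.leaf 298 1621 (.leaf 206 1618 .nil)) .nil)) .nil)) .nil)) .nil)) .nil)) .nil)) (.cons 224 (.leaf 223 1594 (.cons 175 (.leaf 176 1403 (.cons 174 (.leaf 199 1395 (.cons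 204 (.leaf 225 1602 (.cons 181 (.leaf 180 1417 (.cons 205 (.leaf 182 1425 (.cons 229 (.leaf 228 1608 (.leaf 230 1616 .nil)) .nil)) .nil)) .nil)) .nil)) .nil)) .nil)) (.cons 199 (.leaf 227 1592 (.cons 175 (.leaf 174 1395 (.leaf 176 1403 .nil)) .nil)) (.cons 227 (.leaf 298 1621 (.leaf 228 1600 .nil)) .nil)))) .nil)) .nil)) .nil)) (.cons 298 (.cons 203 (.leaf 227 1621 (.cons 225 (.leaf 201 1615 (.cons 321 (.leaf 297 1806 (.cons 322 (.leaf 249 1807 (.leaf 345 1998 .nil)) .nil)) .nil)) .nil)) (.cons 203 (.leaf 227 1621 (.cons 297 (.leaf 321 1806 (.cons 296 (.leaf 295 2169 (.cons 299 (.leaf 276 2177 (.leaf 323 1812 .nil)) .nil)) .nil)) .nil)) (.cons 203 (.leaf 227 1621 (.cons 225 (.leaf 201 1615 (.cons 322 (.leaf 249 1807 (.cons 323 (.leaf 299 1812 (.leaf 347 2004 .nil)) .nil)) .nil)) .nil)) (.cons 323 (.leaf 299 1812 (.cons 201 (.leaf 225 1615 (.cons 321 (.leaf 297 1806 (.cons 322 (.leaf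 345 1998 (.leaf 347 2004 .nil)) .nil)) .nil)) .nil)) .nil)))) (.cons 203 t179 (.cons 202 (.leaf 299 1620 (.cons 177 (.leaf 201 1423 (.cons 178 (.leaf 153 1231 (.cons 179 (.leaf 203 1429 (.leaf 155 1237 .nil)) .nil)) .nil)) .nil)) (.cons 299 (.leaf 202 1620 (.cons 323 (.leaf 347 2007 (.leaf 298 1812 .nil)) .nil)) .nil))))
noncomputable def t181 : T := .cons 322 (.leaf 346 2005 (.cons 250 (.leaf 227 1813 (.cons 321 (.leaf 297 1806 (.leaf 345 1998 .nil)) .nil)) .nil)) (.cons 322 (.leaf 346 2005 (.cons 250 (.cons 321 (.leaf 297 1806 (.leaf 345 1998 .nil)) (.cons 323 (.leaf 299 1812 (.leaf 347 2004 .nil)) .nil)) .nil)) (.cons 227 (.leaf 203 1622 (.cons 299 (.cons 250 (.leaf 323 1812 (.cons 297 (.leaf 321 1806 (.cons 296 (.leaf 295 2169 (.leaf 276 2177 .nil)) .nil)) .nil)) (.cons 300 (.leaf 324 1820 (.cons 301 (.leaf 302 2195 (.cons 325 (.leaf 326 2384 (.cons 297 (.cons 296 (.leaf 295 2169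 (.leaf 276 2177 .nil)) (.cons 321 (.leaf 250 1806 (.leaf 320 2370 .nil)) .nil)) .nil)) .nil)) .nil)) (.cons 300 (.leaf 324 1820 (.cons 228 (.leaf 204 1629 (.cons 252 (.leaf 323 1821 (.cons 253 (.leaf 254 2002 (.cons 301 (.leaf 302 2195 (.cons 325 (.leaf 326 2384 (.leaf 276 1828 .nil)) .nil)) .nil)) .nil)) .nil)) .nil)) (.cons 250 (.leaf 323 1812 (.cons 228 (.leaf 204 1629 (.cons 229 (.leaf 249 1802 (.leaf 230 1810 .nil)) .nil)) .nil)) .nil)))) .nil)) (.cons 227 (.leaf 203 1622 (.cons 322 (.leaf 299 1814 (.leaf 346 2005 .nil)) .nil)) .nil)))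
noncomputable def t182 : T := .cons 252 (.leaf 224 1792 (.cons 253 (.leaf 254 2002 (.leaf 228 1800 .nil)) .nil)) (.cons 224 (.cons 199 (.leaf 200 1595 (.cons 223 (.leaf 198 1587 (.leaf 250 1784 .nil)) .nil)) (.cons 199 (.leaf 200 1595 (.cons 223 (.leaf 198 1587 (.cons 247 (.leaf 246 1778 (.leaf 248 1786 .nil)) .nil)) .nil)) (.cons 199 (.leaf 200 1595 (.cons 248 (.leaf 247 1786 (.cons 228 (.leaf 249 1794 (.cons 205 (.leaf 204 1609 (.cons 229 (.leaf 206 1617 (.cons 230 (.leaf 250 1810 (.cons 254 (.leaf 253 1808 (.leaf 255 1816 .nil)) .nil)) .nil)) .nil)) .nil)) .nil)) .nil)) (.cons 223 (.leaf 250 1784 (.cons 247 (.leaf 246 1778 (.leaf 248 1786 .nil)) .nil)) .nil)))) (.cons 228 (.cons 204 (.leaf 205 1609 (.cons 180 (.leaf 252 1438 (.leaf 156 1246 .nil)) .nil)) (.cons 200 (.leaf 201 1603 (.cons 205 (.leaf 204 1609 (.cons 229 (.leaf 206 1617 (.cons 249 (.leaf 248 1794 (.leaf 250 1802 .nil))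 .nil)) .nil)) .nil)) (.cons 200 (.leaf 201 1603 (.cons 249 (.leaf 248 1794 (.cons 229 (.leaf 250 1802 (.cons 253 (.leaf 252 1800 (.leaf 254 1808 .nil)) .nil)) .nil)) .nil)) .nil))) (.cons 224 (.leaf 252 1792 (.cons 199 (.leaf 200 1595 (.cons 223 (.leaf 198 1587 (.leaf 250 1784 .nil)) .nil)) .nil)) .nil)))
noncomputable def t183 : T := .cons 204 (.leaf 228 1629 (.cons 203 (.leaf 180 1437 (.cons 300 (.leaf 276 1628 (.leaf 324 1820 .nil)) .nil)) .nil)) (.cons 300 (.leaf 324 1820 (.cons 203 (.leaf 276 1628 (.cons 179 (.leaf 250 1430 (.cons 180 (.leaf 204 1437 (.leaf 156 1245 .nil)) .nil)) .nil)) .nil)) (.cons 228 (.leaf 204 1629 (.cons 225 (.cons 200 (.leaf 201 1603 (.cons 224 (.leaf 199 1595 (.leaf 252 1792 .nil)) .nil)) (.cons 200 (.leaf 201 1603 (.cons 224 (.leaf 199 1595 (.cons 248 (.leaf 247 1786 (.leaf 249 1794 .nil)) .nil)) .nil)) (.cons 200 (.leaf 201 1603 (.cons 248 (.leaf 249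 1794 (.cons 253 (.leaf 252 1800 (.cons 229 (.leaf 254 1808 (.cons 206 (.leaf 205 1617 (.cons 230 (.leaf 250 1810 (.leaf 207 1625 .nil)) .nil)) .nil)) .nil)) .nil)) .nil)) (.cons 252 (.leaf 224 1792 (.leaf 253 1800 .nil)) .nil)))) .nil)) (.cons 300 (.leaf 324 1820 (.cons 203 (.leaf 276 1628 (.cons 179 (.leaf 250 1430 (.cons 154 (.leaf 178 1239 (.cons 155 (.leaf 130 1047 (.cons 156 (.leaf 180 1245 (.leaf 132 1053 .nil)) .nil)) .nil)) .nil)) .nil)) .nil)) .nil)))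
noncomputable def t184 : T := .cons 203 (.leaf 298 1622 (.cons 180 (.leaf 204 1437 (.cons 179 (.leaf 156 1245 (.cons 276 (.leaf 300 1628 (.leaf 252 1436 .nil)) .nil)) .nil)) .nil)) (.cons 299 (.cons 228 (.leaf 204 1629 (.cons 252 (.leaf 323 1821 (.cons 253 (.leaf 254 2002 (.leaf 225 1800 .nil)) .nil)) .nil)) (.cons 322 (.leaf 298 1814 (.cons 323 (.leaf 346 2006 (.cons 324 (.leaf 300 1820 (.leaf 348 2012 .nil)) .nil)) .nil)) (.cons 228 (.leaf 204 1629 (.cons 298 (.leaf 322 1814 (.cons 300 (.leaf 324 1820 (.cons 301 (.leaf 302 2195 (.cons 325 (.leaf 326 2384 (.cons 252 (.leaf 276 1828 (.cons 253 (.leaf 254 2002 (.leaf 225 1800 .nil)) .nil)) .nil)) .nil)) .nil)) .nil)) .nil)) .nil))) (.cons 203 (.cons 180 (.leaf 204 1437 (.cons 179 (.leaf 156 1245 (.cons 276 (.leaf 300 1628 (.leaf 252 1436 .nil)) .nil)) .nil)) (.cons 276 (.leaf 300 1628 (.cons 179 (.leaf 252 1436 (.cons 154 (.leaf 178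 1239 (.cons 155 (.leaf 130 1047 (.cons 156 (.leaf 180 1245 (.leaf 132 1053 .nil)) .nil)) .nil)) .nil)) .nil)) (.cons 204 (.leaf 180 1437 (.cons 205 (.leaf 206 1618 (.cons 225 (.leaf 224 1601 (.leaf 228 1609 .nil)) .nil)) .nil)) (.cons 276 (.leaf 300 1628 (.cons 252 (.leaf 179 1436 (.cons 253 (.leaf 254 2002 (.cons 225 (.leaf 224 1792 (.leaf 228 1800 .nil)) .nil)) .nil)) .nil)) .nil)))) (.cons 203 (.leaf 298 1622 (.cons 204 (.leaf 180 1437 (.cons 205 (.leaf 206 1618 (.cons 225 (.leaf 224 1601 (.leaf 228 1609 .nil)) .nil)) .nil)) .nil)) (.cons 298 (.leaf 203 1622 (.cons 322 (.leaf 299 1814 (.leaf 346 2005 .nil)) .nil)) .nil))))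
noncomputable def t185 : T := .cons 298 (.cons 321 (.leaf 297 1806 (.cons 322 (.leaf 346 2005 (.leaf 345 1998 .nil)) .nil)) (.cons 299 (.leaf 323 1812 (.cons 225 (.leaf 201 1615 (.cons 224 (.leaf 223 1784 (.cons 252 (.leaf 253 1803 (.leaf 249 1795 .nil)) .nil)) .nil)) .nil)) .nil)) (.cons 225 (.cons 224 (.leaf 223 1784 (.cons 252 (.leaf 253 1803 (.leaf 249 1795 .nil)) .nil)) (.cons 201 (.leaf 298 1615 (.cons 177 (.leaf 249 1420 (.leaf 153 1228 .nil)) .nil)) (.cons 298 (.leaf 201 1615 (.cons 223 (.leaf 224 1784 (.cons 321 (.leaf 297 1806 (.cons 322 (.leaf 346 2005 (.leaf 345 1998 .nil)) .nil)) .nil)) .nil)) .nil))) (.cons 299 (.leaf 323 1815 (.cons 249 (.cons 248 (.leaf 247 1976 (.leaf 276 1984 .nil)) (.cons 252 (.cons 225 (.leaf 253 1803 (.leaf 224 1795 .nil)) (.cons 229 (.leaf 228 1801 (.cons 253 (.leaf 254 2002 (.leaf 230 1809 .nil)) .nil)) (.cons 224 (.leaf 225 1795 (.cons 228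 (.leaf 229 1801 (.cons 204 (.leaf 180 1438 (.leaf 276 1630 .nil)) .nil)) .nil)) .nil))) (.cons 248 (.leaf 247 1976 (.cons 224 (.leaf 223 1787 (.cons 225 (.leaf 252 1795 (.cons 201 (.leaf 177 1420 (.cons 272 (.leaf 271 1978 (.leaf 296 1605 .nil)) .nil)) .nil)) .nil)) .nil)) .nil))) .nil)) (.cons 298 (.cons 321 (.leaf 297 1806 (.cons 322 (.leaf 346 2005 (.leaf 345 1998 .nil)) .nil)) (.cons 299 (.leaf 323 1812 (.cons 297 (.leaf 321 1806 (.cons 296 (.leaf 295 2169 (.leaf 276 2177 .nil)) .nil)) .nil)) (.cons 323 (.leaf 299 1812 (.cons 322 (.leaf 346 2005 (.leaf 347 2004 .nil)) .nil)) .nil))) .nil)))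
noncomputable def t186 : T := .cons 298 (.cons 227 (.leaf 203 1622 (.cons 322 (.leaf 299 1814 (.leaf 346 2005 .nil)) .nil)) (.cons 322 (.leaf 346 2005 (.cons 250 (.cons 225 (.leaf 201 1615 (.leaf 249 1807 .nil)) (.cons 321 (.leaf 297 1806 (.leaf 345 1998 .nil)) .nil)) .nil)) (.cons 227 (.leaf 203 1622 (.cons 250 (.cons 225 (.leaf 201 1615 (.cons 224 (.leaf 223 1784 (.leaf 252 1792 .nil)) .nil)) (.cons 299 (.leaf 323 1812 (.cons 297 (.leaf 321 1806 (.cons 296 (.leaf 295 2169 (.leaf 276 2177 .nil)) .nil)) .nil)) .nil)) .nil)) .nil))) (.cons 250 t185 (.cons 227 t184 (.cons 299 (.cons 323 (.leaf 250 1815 (.cons 322 (.leaf 346 2006 (.cons 324 (.leaf 348 2012 (.cons 300 (.leaf 227 1820 (.cons 301 (.leaf 302 2386 (.leaf 321 2377 .nil)) .nil)) .nil)) .nil)) .nil)) (.cons 227 t183 (.cons 323 (.cons 322 (.leaf 346 2006 (.cons 324 (.leaf 348 2012 (.cons 300 (.leaf 227 1820 (.cons 301 (.leaf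 302 2386 (.leaf 321 2377 .nil)) .nil)) .nil)) .nil)) (.cons 252 (.leaf 228 1821 (.cons 253 (.leaf 254 2002 (.cons 346 (.leaf 322 2006 (.cons 347 (.leaf 276 2013 (.leaf 370 2198 .nil)) .nil)) .nil)) .nil)) (.cons 228 (.leaf 252 1821 (.cons 227 (.leaf 204 1629 (.cons 324 (.leaf 300 1820 (.leaf 348 2012 .nil)) .nil)) .nil)) .nil))) (.cons 323 (.leaf 250 1815 (.cons 252 (.leaf 228 1821 (.cons 253 (.leaf 254 2002 (.cons 346 (.leaf 322 2006 (.cons 347 (.leaf 276 2013 (.leaf 370 2198 .nil)) .nil)) .nil)) .nil)) .nil)) .nil)))) (.cons 227 (.cons 203 (.leaf 298 1622 (.cons 180 (.leaf 204 1437 (.cons 179 (.leaf 250 1430 (.leaf 156 1245 .nil)) .nil)) .nil)) (.cons 225 t182 (.cons 203 (.leaf 298 1622 (.cons 180 (.leaf 204 1437 (.cons 179 (.leaf 156 1245 (.cons 276 (.leaf 300 1628 (.leaf 252 1436 .nil)) .nil)) .nil)) .nil)) (.cons 203 (.leaf 298 1622 (.cons 276 (.leaf 300 1628 (.cons 179 (.leaf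 250 1430 (.leaf 252 1436 .nil)) .nil)) .nil)) .nil)))) (.cons 298 (.cons 227 (.leaf 203 1622 (.cons 250 (.leaf 322 1813 (.cons 299 (.leaf 323 1812 (.cons 297 (.leaf 321 1806 (.cons 296 (.leaf 295 2169 (.leaf 276 2177 .nil)) .nil)) .nil)) .nil)) .nil)) (.cons 322 (.leaf 346 2005 (.cons 250 (.cons 225 (.leaf 201 1615 (.leaf 249 1807 .nil)) (.cons 321 (.leaf 297 1806 (.leaf 345 1998 .nil)) .nil)) .nil)) (.cons 227 (.leaf 203 1622 (.cons 250 (.cons 299 (.leaf 323 1812 (.cons 297 (.leaf 321 1806 (.cons 296 (.leaf 295 2169 (.leaf 276 2177 .nil)) .nil)) .nil)) (.cons 225 (.leaf 201 1615 (.cons 224 (.leaf 223 1784 (.cons 199 (.leaf 200 1595 (.cons 248 (.leaf 247 1786 (.cons 249 (.leaf 276 1984 (.leaf 228 1793 .nil)) .nil)) .nil)) .nil)) .nil)) (.cons 299 (.leaf 323 1812 (.cons 228 (.leaf 204 1629 (.cons 229 (.leaf 249 1802 (.leaf 230 1810 .nil)) .nil)) .nil)) .nil))) .nil)) (.cons 227 (.leaf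 203 1622 (.cons 322 (.leaf 299 1814 (.leaf 346 2005 .nil)) .nil)) .nil)))) (.cons 298 t181 (.cons 298 (.cons 227 (.leaf 203 1622 (.cons 250 (.leaf 322 1813 (.cons 225 (.leaf 201 1615 (.cons 224 (.leaf 223 1784 (.leaf 252 1792 .nil)) .nil)) .nil)) .nil)) (.cons 322 (.leaf 346 2005 (.cons 250 (.cons 225 (.leaf 201 1615 (.leaf 249 1807 .nil)) (.cons 321 (.leaf 297 1806 (.leaf 345 1998 .nil)) .nil)) .nil)) (.cons 227 (.leaf 203 1622 (.cons 322 (.leaf 299 1814 (.leaf 346 2005 .nil)) .nil)) (.cons 227 (.leaf 203 1622 (.cons 250 (.cons 225 (.leaf 201 1615 (.cons 224 (.leaf 223 1784 (.leaf 252 1792 .nil)) .nil)) (.cons 299 (.leaf 323 1812 (.cons 228 (.leaf 204 1629 (.cons 229 (.leaf 249 1802 (.leaf 230 1810 .nil)) .nil)) .nil)) .nil)) .nil)) .nil)))) .nil)))))))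
noncomputable def t187 : T := .cons 248 (.leaf 247 1976 (.cons 227 (.cons 228 (.leaf 225 1794 (.leaf 229 1802 .nil)) (.cons 203 (.leaf 298 1621 (.cons 179 (.leaf 202 1429 (.leaf 251 1430 .nil)) .nil)) .nil)) .nil)) (.cons 298 (.cons 297 (.leaf 321 1806 (.cons 295 (.leaf 296 2169 (.cons 322 (.leaf 225 1807 (.cons 346 (.leaf 251 2005 (.cons 347 (.leaf 323 2004 (.leaf 371 2196 .nil)) .nil)) .nil)) .nil)) .nil)) (.cons 203 (.leaf 227 1621 (.cons 202 (.leaf 179 1429 (.cons 178 (.leaf 251 1428 (.cons 153 (.leaf 177 1231 (.cons 154 (.leaf 129 1039 (.leaf 225 1230 .nil)) .nil)) .nil)) .nil)) .nil)) (.cons 322 (.leaf 225 1807 (.cons 321 (.leaf 297 1806 (.leaf 345 1998 .nil)) .nil)) (.cons 227 (.leaf 203 1621 (.cons 228 (.leaf 229 1802 (.cons 321 (.leaf 297 1806 (.cons 322 (.leaf 251 1813 (.leaf 345 1998 .nil)) .nil)) .nil)) .nil)) .nil)))) (.cons 248 (.leaf 247 1976 (.cons 227 (.cons 228 (.leaf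 225 1794 (.leaf 229 1802 .nil)) (.cons 203 (.leaf 298 1621 (.cons 179 (.leaf 202 1429 (.leaf 155 1238 .nil)) .nil)) .nil)) .nil)) (.cons 248 (.leaf 247 1976 (.cons 251 (.leaf 276 1984 (.cons 178 (.leaf 202 1428 (.cons 224 (.leaf 223 1787 (.cons 225 (.leaf 252 1795 (.cons 272 (.leaf 271 1978 (.cons 296 (.leaf 320 1797 (.cons 295 (.leaf 319 1790 (.cons 297 (.leaf 298 2169 (.leaf 321 1796 .nil)) .nil)) .nil)) .nil)) .nil)) .nil)) .nil)) .nil)) .nil)) (.cons 248 (.leaf 247 1976 (.cons 251 (.leaf 276 1984 (.cons 223 (.leaf 224 1787 (.cons 228 (.leaf 227 1793 (.cons 252 (.leaf 229 1801 (.cons 253 (.leaf 254 2002 (.leaf 225 1803 .nil)) .nil)) .nil)) .nil)) .nil)) .nil)) (.cons 248 (.leaf 247 1976 (.cons 251 (.leaf 276 1984 (.cons 178 (.leaf 202 1428 (.cons 223 (.leaf 224 1787 (.cons 227 (.leaf 228 1793 (.cons 203 (.leaf 298 1621 (.leaf 179 1430 .nil)) .nil)) .nil)) .nil)) .nil)) .nil)) .nil)))))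
noncomputable def t188 : T := .cons 202 (.leaf 179 1429 (.cons 201 (.leaf 177 1423 (.cons 200 (.cons 228 (.leaf 227 1600 (.cons 175 (.leaf 176 1403 (.cons 204 (.leaf 229 1608 (.cons 224 (.leaf 223 1594 (.leaf 225 1602 .nil)) .nil)) .nil)) .nil)) (.cons 224 (.leaf 223 1594 (.cons 175 (.leaf 176 1403 (.cons 174 (.leaf 199 1395 (.cons 204 (.leaf 225 1602 (.cons 181 (.leaf 180 1417 (.cons 205 (.leaf 182 1425 (.cons 229 (.leaf 228 1608 (.leaf 230 1616 .nil)) .nil)) .nil)) .nil)) .nil)) .nil)) .nil)) (.cons 199 (.leaf 227 1592 (.cons 175 (.leaf 176 1403 (.leaf 174 1395 .nil)) .nil)) (.cons 227 (.leaf 298 1621 (.leaf 199 1592 .nil)) .nil)))) .nil)) .nil)) (.cons 298 (.leaf 227 1621 (.cons 225 (.leaf 201 1615 (.cons 321 (.leaf 297 1806 (.cons 322 (.leaf 249 1807 (.leaf 345 1998 .nil)) .nil)) .nil)) .nil)) (.cons 202 (.leaf 179 1429 (.cons 201 (.leaf 177 1423 (.cons 200 (.cons 228 (.leaf 227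 1600 (.cons 175 (.leaf 176 1403 (.cons 204 (.leaf 229 1608 (.cons 224 (.leaf 223 1594 (.leaf 225 1602 .nil)) .nil)) .nil)) .nil)) (.cons 224 (.leaf 223 1594 (.cons 175 (.leaf 176 1403 (.cons 174 (.leaf 199 1395 (.cons 204 (.leaf 225 1602 (.cons 181 (.leaf 180 1417 (.cons 205 (.leaf 182 1425 (.cons 229 (.leaf 228 1608 (.leaf 230 1616 .nil)) .nil)) .nil)) .nil)) .nil)) .nil)) .nil)) (.cons 199 (.leaf 227 1592 (.cons 175 (.leaf 176 1403 (.leaf 174 1395 .nil)) .nil)) (.cons 227 (.leaf 199 1592 (.leaf 228 1600 .nil)) .nil)))) .nil)) .nil)) (.cons 202 (.leaf 179 1429 (.cons 201 (.leaf 177 1423 (.cons 225 (.leaf 298 1615 (.cons 204 (.leaf 205 1610 (.leaf 224 1602 .nil)) .nil)) .nil)) .nil)) (.cons 227 (.leaf 298 1621 (.cons 179 (.leaf 202 1429 (.leaf 155 1238 .nil)) .nil)) .nil))))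
noncomputable def t189 : T := .cons 203 (.leaf 179 1429 (.cons 177 (.leaf 201 1423 (.cons 178 (.leaf 251 1428 (.leaf 153 1231 .nil)) .nil)) .nil)) (.cons 203 (.leaf 179 1429 (.cons 201 (.leaf 177 1423 (.cons 200 (.cons 175 (.leaf 176 1403 (.cons 174 (.leaf 199 1395 (.cons 224 (.leaf 223 1594 (.cons 204 (.leaf 225 1602 (.cons 181 (.leaf 180 1417 (.cons 205 (.leaf 182 1425 (.cons 227 (.leaf 206 1618 (.leaf 228 1600 .nil)) .nil)) .nil)) .nil)) .nil)) .nil)) .nil)) (.cons 224 (.leaf 223 1594 (.cons 175 (.leaf 176 1403 (.cons 174 (.leaf 199 1395 (.cons 204 (.leaf 225 1602 (.cons 181 (.leaf 180 1417 (.cons 205 (.leaf 182 1425 (.cons 229 (.leaf 228 1608 (.leaf 230 1616 .nil)) .nil)) .nil)) .nil)) .nil)) .nil)) .nil)) (.cons 228 (.leaf 227 1600 (.cons 175 (.leaf 176 1403 (.cons 204 (.leaf 229 1608 (.cons 224 (.leaf 223 1594 (.leaf 225 1602 .nil)) .nil)) .nil)) .nil)) (.cons 227 (.leaf 199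 1592 (.leaf 228 1600 .nil)) (.cons 199 (.leaf 227 1592 (.cons 175 (.leaf 174 1395 (.leaf 176 1403 .nil)) .nil)) .nil))))) .nil)) .nil)) (.cons 178 (.leaf 251 1428 (.cons 153 (.leaf 177 1231 (.cons 154 (.leaf 129 1039 (.cons 155 (.leaf 131 1045 (.leaf 179 1237 .nil)) .nil)) .nil)) .nil)) (.cons 178 (.leaf 251 1428 (.cons 179 (.leaf 203 1429 (.leaf 155 1237 .nil)) .nil)) (.cons 178 (.leaf 251 1428 (.cons 177 (.leaf 201 1423 (.leaf 153 1231 .nil)) .nil)) .nil))))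
noncomputable def t190 : T := .cons 177 (.leaf 201 1423 (.cons 203 (.leaf 179 1429 (.cons 298 (.leaf 227 1621 (.cons 321 (.leaf 297 1806 (.cons 322 (.leaf 345 1998 (.cons 225 (.leaf 249 1807 (.cons 204 (.leaf 205 1610 (.cons 223 (.leaf 224 1593 (.cons 346 (.leaf 251 2005 (.cons 347 (.leaf 323 2004 (.leaf 371 2196 .nil)) .nil)) .nil)) .nil)) .nil)) .nil)) .nil)) .nil)) .nil)) .nil)) (.cons 177 (.leaf 201 1423 (.cons 178 (.leaf 251 1428 (.leaf 153 1231 .nil)) .nil)) (.cons 178 (.leaf 251 1428 (.cons 179 (.leaf 203 1429 (.leaf 155 1237 .nil)) .nil)) (.cons 201 (.leaf 177 1423 (.cons 203 (.leaf 179 1429 (.cons 200 (.cons 175 (.leaf 176 1403 (.cons 174 (.leaf 199 1395 (.cons 224 (.leaf 223 1594 (.cons 204 (.leaf 225 1602 (.cons 181 (.leaf 180 1417 (.cons 205 (.leaf 182 1425 (.cons 227 (.leaf 298 1621 (.leaf 206 1618 .nil)) .nil)) .nil)) .nil)) .nil)) .nil)) .nil)) (.cons 175 (.leaf 176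 1403 (.cons 174 (.leaf 199 1395 (.cons 224 (.leaf 223 1594 (.cons 204 (.leaf 225 1602 (.cons 181 (.leaf 180 1417 (.cons 205 (.leaf 182 1425 (.cons 229 (.leaf 228 1608 (.leaf 230 1616 .nil)) .nil)) .nil)) .nil)) .nil)) .nil)) .nil)) (.cons 175 (.leaf 176 1403 (.cons 199 (.leaf 227 1592 (.leaf 174 1395 .nil)) .nil)) (.cons 175 (.leaf 176 1403 (.cons 223 (.leaf 224 1594 (.cons 228 (.leaf 227 1600 (.cons 204 (.leaf 229 1608 (.cons 181 (.leaf 180 1417 (.cons 205 (.leaf 225 1610 (.leaf 182 1425 .nil)) .nil)) .nil)) .nil)) .nil)) .nil)) (.cons 227 (.leaf 298 1621 (.leaf 199 1592 .nil)) .nil))))) .nil)) .nil)) .nil)))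
noncomputable def t191 : T := .cons 202 t190 (.cons 202 t189 (.cons 298 (.cons 225 (.leaf 201 1615 (.cons 321 (.leaf 297 1806 (.cons 322 (.leaf 249 1807 (.leaf 345 1998 .nil)) .nil)) .nil)) (.cons 321 (.leaf 297 1806 (.cons 322 (.leaf 345 1998 (.cons 227 (.leaf 203 1621 (.leaf 251 1813 .nil)) .nil)) .nil)) (.cons 227 (.leaf 203 1621 (.cons 225 (.leaf 201 1615 (.cons 297 (.leaf 321 1806 (.cons 296 (.leaf 295 2169 (.cons 224 (.cons 251 (.leaf 223 1784 (.leaf 252 1792 .nil)) (.cons 199 (.leaf 200 1595 (.cons 223 (.leaf 198 1587 (.cons 247 (.leaf 246 1778 (.leaf 248 1786 .nil)) .nil)) .nil)) (.cons 199 (.leaf 200 1595 (.cons 248 (.leaf 247 1786 (.cons 228 (.leaf 249 1794 (.cons 252 (.leaf 251 1792 (.leaf 253 1800 .nil)) .nil)) .nil)) .nil)) .nil))) .nil)) .nil)) .nil)) .nil)) (.cons 225 (.leaf 201 1615 (.cons 249 (.leaf 322 1807 (.cons 248 (.leaf 247 1976 (.cons 227 (.leaf 203 1621 (.leaf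 228 1794 .nil)) .nil)) .nil)) .nil)) .nil)))) (.cons 203 t188 (.cons 202 (.cons 178 (.leaf 251 1428 (.cons 179 (.leaf 203 1429 (.leaf 155 1237 .nil)) .nil)) (.cons 179 (.leaf 203 1429 (.cons 201 (.leaf 177 1423 (.cons 298 (.leaf 225 1615 (.cons 321 (.leaf 297 1806 (.cons 322 (.leaf 345 1998 (.cons 346 (.leaf 251 2005 (.cons 347 (.leaf 323 2004 (.leaf 371 2196 .nil)) .nil)) .nil)) .nil)) .nil)) .nil)) .nil)) (.cons 201 (.leaf 177 1423 (.cons 178 (.leaf 251 1428 (.cons 225 (.leaf 298 1615 (.cons 154 (.leaf 249 1230 (.leaf 130 1038 .nil)) .nil)) .nil)) .nil)) (.cons 177 (.leaf 201 1423 (.cons 178 (.leaf 153 1231 (.cons 179 (.leaf 203 1429 (.leaf 155 1237 .nil)) .nil)) .nil)) .nil)))) (.cons 298 (.cons 321 (.leaf 297 1806 (.cons 322 (.leaf 345 1998 (.cons 251 (.leaf 346 2005 (.leaf 227 1813 .nil)) .nil)) .nil)) (.cons 297 (.leaf 321 1806 (.cons 296 (.leaf 295 2169 (.cons 202 (.cons 178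 (.leaf 251 1428 (.cons 153 (.leaf 177 1231 (.cons 154 (.leaf 129 1039 (.cons 155 (.leaf 131 1045 (.leaf 179 1237 .nil)) .nil)) .nil)) .nil)) (.cons 201 (.leaf 177 1423 (.leaf 225 1615 .nil)) (.cons 178 (.leaf 251 1428 (.cons 155 (.leaf 179 1237 (.cons 154 (.leaf 131 1045 (.cons 225 (.leaf 201 1615 (.leaf 249 1230 .nil)) .nil)) .nil)) .nil)) .nil))) .nil)) .nil)) (.cons 225 (.leaf 201 1615 (.cons 249 (.leaf 322 1807 (.cons 248 (.leaf 247 1976 (.cons 227 (.leaf 228 1794 (.cons 251 (.leaf 276 1984 (.cons 224 (.leaf 223 1784 (.leaf 252 1792 .nil)) .nil)) .nil)) .nil)) .nil)) .nil)) (.cons 225 (.leaf 201 1615 (.cons 321 (.leaf 297 1806 (.cons 322 (.leaf 249 1807 (.leaf 345 1998 .nil)) .nil)) .nil)) .nil)))) (.cons 202 (.cons 178 (.leaf 251 1428 (.cons 179 (.leaf 203 1429 (.leaf 155 1237 .nil)) .nil)) (.cons 177 (.leaf 201 1423 (.cons 203 (.leaf 179 1429 (.cons 298 (.leaf 227 1621 (.cons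 321 (.leaf 297 1806 (.cons 322 (.leaf 345 1998 (.cons 346 (.leaf 251 2005 (.cons 347 (.leaf 323 2004 (.leaf 371 2196 .nil)) .nil)) .nil)) .nil)) .nil)) .nil)) .nil)) (.cons 177 (.leaf 201 1423 (.cons 178 (.leaf 251 1428 (.leaf 153 1231 .nil)) .nil)) (.cons 203 (.leaf 179 1429 (.cons 201 (.leaf 177 1423 (.cons 227 (.leaf 298 1621 (.cons 200 (.leaf 199 1592 (.leaf 228 1600 .nil)) .nil)) .nil)) .nil)) .nil)))) (.cons 249 t187 .nil)))))))
noncomputable def t192 : T := .cons 298 (.leaf 203 1622 (.cons 322 (.leaf 299 1814 (.leaf 346 2005 .nil)) .nil)) (.cons 299 (.cons 228 (.leaf 204 1629 (.cons 252 (.leaf 323 1821 (.cons 253 (.leaf 254 2002 (.leaf 225 1800 .nil)) .nil)) .nil)) (.cons 322 (.leaf 298 1814 (.cons 323 (.leaf 346 2006 (.cons 324 (.leaf 300 1820 (.leaf 348 2012 .nil)) .nil)) .nil)) (.cons 228 (.leaf 204 1629 (.cons 298 (.leaf 322 1814 (.cons 300 (.leaf 324 1820 (.cons 301 (.leaf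 302 2195 (.cons 325 (.leaf 326 2384 (.cons 252 (.leaf 276 1828 (.cons 253 (.leaf 254 2002 (.leaf 225 1800 .nil)) .nil)) .nil)) .nil)) .nil)) .nil)) .nil)) .nil))) (.cons 203 (.cons 180 (.leaf 204 1437 (.cons 179 (.leaf 156 1245 (.cons 276 (.leaf 300 1628 (.leaf 252 1436 .nil)) .nil)) .nil)) (.cons 276 (.leaf 300 1628 (.cons 179 (.leaf 252 1436 (.cons 154 (.leaf 178 1239 (.cons 155 (.leaf 130 1047 (.cons 156 (.leaf 132 1053 (.leaf 180 1245 .nil)) .nil)) .nil)) .nil)) .nil)) (.cons 204 (.leaf 180 1437 (.cons 205 (.leaf 206 1618 (.cons 225 (.leaf 224 1601 (.leaf 228 1609 .nil)) .nil)) .nil)) (.cons 276 (.leaf 300 1628 (.cons 252 (.leaf 179 1436 (.cons 253 (.leaf 254 2002 (.cons 225 (.leaf 224 1792 (.leaf 228 1800 .nil)) .nil)) .nil)) .nil)) .nil)))) .nil))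
noncomputable def t193 : T := .cons 205 (.leaf 206 1618 (.cons 225 (.leaf 202 1610 (.leaf 224 1601 .nil)) .nil)) (.cons 225 (.leaf 224 1601 (.cons 228 (.cons 201 (.leaf 200 1603 (.cons 252 (.leaf 253 1800 (.cons 276 (.leaf 300 1631 (.leaf 179 1439 .nil)) .nil)) .nil)) (.cons 248 (.leaf 249 1794 (.cons 252 (.leaf 253 1800 (.cons 276 (.leaf 300 1631 (.leaf 179 1439 .nil)) .nil)) .nil)) (.cons 201 (.leaf 200 1603 (.cons 202 (.leaf 229 1608 (.cons 177 (.leaf 176 1411 (.cons 153 (.leaf 129 1036 (.cons 128 (.leaf 152 1031 (.cons 154 (.leaf 130 1037 (.cons 249 (.leaf 178 1229 (.leaf 248 1794 .nil)) .nil)) .nil)) .nil)) .nil)) .nil)) .nil)) .nil))) .nil)) (.cons 205 (.leaf 206 1618 (.cons 202 (.cons 181 (.leaf 182 1425 (.cons 180 (.leaf 201 1417 (.cons 156 (.leaf 132 1054 (.cons 229 (.leaf 230 1616 (.leaf 253 1255 .nil)) .nil)) .nil)) .nil)) (.cons 177 (.leaf 178 1419 (.cons 181 (.leaf 182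 1425 (.cons 201 (.leaf 176 1411 (.leaf 180 1417 .nil)) .nil)) .nil)) (.cons 178 (.leaf 177 1419 (.cons 154 (.leaf 130 1044 (.cons 131 (.leaf 155 1045 (.cons 153 (.leaf 129 1039 (.cons 181 (.leaf 182 1425 (.cons 180 (.leaf 179 1227 (.cons 156 (.leaf 132 1054 (.cons 229 (.leaf 230 1616 (.leaf 253 1255 .nil)) .nil)) .nil)) .nil)) .nil)) .nil)) .nil)) .nil)) (.cons 177 (.leaf 178 1419 (.cons 201 (.leaf 176 1411 (.cons 228 (.leaf 229 1608 (.leaf 200 1600 .nil)) .nil)) .nil)) .nil)))) .nil)) (.cons 205 (.leaf 206 1618 (.cons 225 (.leaf 224 1601 (.leaf 228 1609 .nil)) .nil)) .nil)))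
noncomputable def t194 : T := .cons 228 (.cons 204 (.leaf 205 1609 (.cons 251 (.leaf 299 1629 (.cons 156 (.leaf 180 1246 (.cons 200 (.leaf 201 1603 (.cons 224 (.leaf 199 1595 (.leaf 252 1792 .nil)) .nil)) .nil)) .nil)) .nil)) (.cons 201 (.leaf 200 1603 (.cons 205 (.leaf 204 1609 (.cons 229 (.leaf 202 1611 (.leaf 206 1617 .nil)) .nil)) .nil)) (.cons 200 (.leaf 201 1603 (.cons 224 (.leaf 199 1595 (.cons 248 (.leaf 247 1786 (.leaf 249 1794 .nil)) .nil)) .nil)) (.cons 204 (.leaf 205 1609 (.cons 251 (.leaf 299 1629 (.cons 180 (.leaf 252 1438 (.leaf 156 1246 .nil)) .nil)) .nil)) .nil)))) (.cons 224 (.cons 247 (.leaf 248 1786 (.cons 223 (.leaf 246 1778 (.cons 251 (.leaf 252 1792 (.cons 299 (.leaf 202 1623 (.cons 322 (.leaf 298 1814 (.cons 323 (.leaf 346 2006 (.cons 324 (.leaf 300 1820 (.leaf 348 2012 .nil)) .nil)) .nil)) .nil)) .nil)) .nil)) .nil)) (.cons 199 (.leaf 200 1595 (.cons 223 (.leaf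 198 1587 (.cons 247 (.leaf 246 1778 (.leaf 248 1786 .nil)) .nil)) .nil)) (.cons 199 (.leaf 200 1595 (.cons 198 (.leaf 223 1587 (.cons 251 (.leaf 252 1792 (.cons 299 (.leaf 202 1623 (.cons 322 (.leaf 298 1814 (.cons 323 (.leaf 346 2006 (.cons 324 (.leaf 300 1820 (.leaf 348 2012 .nil)) .nil)) .nil)) .nil)) .nil)) .nil)) .nil)) (.cons 199 (.leaf 200 1595 (.cons 247 (.leaf 248 1786 (.cons 251 (.leaf 252 1792 (.cons 299 (.leaf 202 1623 (.cons 322 (.leaf 298 1814 (.cons 323 (.leaf 346 2006 (.cons 324 (.leaf 300 1820 (.leaf 348 2012 .nil)) .nil)) .nil)) .nil)) .nil)) .nil)) .nil)) .nil)))) (.cons 228 (.cons 204 (.leaf 205 1609 (.cons 251 (.leaf 299 1629 (.cons 180 (.leaf 252 1438 (.leaf 156 1246 .nil)) .nil)) .nil)) (.cons 201 (.leaf 200 1603 (.cons 229 (.leaf 202 1611 (.cons 253 (.leaf 252 1800 (.leaf 254 1808 .nil)) .nil)) .nil)) (.cons 201 (.leaf 200 1603 (.cons 205 (.leaf 204 1609 (.cons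 229 (.leaf 202 1611 (.leaf 206 1617 .nil)) .nil)) .nil)) .nil))) (.cons 228 (.cons 205 (.leaf 204 1609 (.cons 229 (.leaf 206 1617 (.cons 253 (.leaf 252 1800 (.leaf 254 1808 .nil)) .nil)) .nil)) (.cons 200 (.leaf 201 1603 (.cons 224 (.leaf 199 1595 (.cons 248 (.leaf 247 1786 (.leaf 249 1794 .nil)) .nil)) .nil)) .nil)) (.cons 251 (.cons 202 (.leaf 299 1623 (.cons 154 (.leaf 178 1236 (.cons 224 (.leaf 252 1792 (.cons 247 (.leaf 248 1786 (.cons 223 (.leaf 246 1778 (.cons 198 (.leaf 199 1587 (.cons 222 (.leaf 197 1579 (.leaf 201 1585 .nil)) .nil)) .nil)) .nil)) .nil)) .nil)) .nil)) (.cons 252 (.leaf 224 1792 (.cons 253 (.leaf 254 2002 (.leaf 228 1800 .nil)) .nil)) (.cons 299 (.leaf 202 1623 (.cons 204 (.leaf 228 1629 (.cons 322 (.leaf 298 1814 (.cons 323 (.leaf 346 2006 (.cons 324 (.leaf 300 1820 (.leaf 348 2012 .nil)) .nil)) .nil)) .nil)) .nil)) .nil))) (.cons 248 (.cons 228 (.leaf 249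 1794 (.cons 201 (.leaf 200 1603 (.cons 205 (.leaf 204 1609 (.cons 229 (.leaf 202 1611 (.leaf 206 1617 .nil)) .nil)) .nil)) .nil)) (.cons 224 (.leaf 247 1786 (.cons 200 (.leaf 199 1595 (.cons 176 (.cons 152 (.leaf 249 1220 (.cons 153 (.leaf 177 1221 (.leaf 129 1029 .nil)) .nil)) (.cons 175 (.leaf 151 1215 (.cons 177 (.leaf 153 1221 (.cons 201 (.leaf 272 1413 (.cons 174 (.leaf 173 1384 (.leaf 202 1392 .nil)) .nil)) .nil)) .nil)) (.cons 151 (.leaf 175 1215 (.cons 152 (.leaf 249 1220 (.leaf 127 1023 .nil)) .nil)) .nil))) .nil)) .nil)) (.cons 224 (.leaf 247 1786 (.cons 200 (.leaf 199 1595 (.cons 201 (.leaf 228 1603 (.cons 177 (.leaf 153 1222 (.leaf 272 1413 .nil)) .nil)) .nil)) .nil)) (.cons 249 (.leaf 228 1794 (.cons 247 (.leaf 224 1786 (.leaf 246 1777 .nil)) .nil)) .nil)))) .nil)))))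
noncomputable def t195 : T := .cons 229 (.cons 202 (.leaf 201 1611 (.cons 230 (.leaf 203 1619 (.cons 254 (.leaf 253 1808 (.leaf 255 1816 .nil)) .nil)) .nil)) (.cons 206 (.leaf 205 1617 (.cons 230 (.leaf 207 1625 (.cons 254 (.leaf 253 1808 (.leaf 255 1816 .nil)) .nil)) .nil)) (.cons 202 (.leaf 201 1611 (.cons 206 (.leaf 205 1617 (.cons 230 (.leaf 203 1619 (.leaf 207 1625 .nil)) .nil)) .nil)) (.cons 205 (.leaf 206 1617 (.cons 253 (.leaf 254 1808 (.cons 202 (.leaf 201 1611 (.cons 181 (.cons 252 (.leaf 157 1254 (.leaf 276 1446 .nil)) (.cons 156 (.leaf 180 1255 (.cons 157 (.leaf 132 1063 (.cons 158 (.leaf 134 1069 (.leaf 182 1261 .nil)) .nil)) .nil)) (.cons 180 (.leaf 156 1255 (.cons 182 (.leaf 158 1261 (.cons 203 (.leaf 204 1425 (.leaf 179 1426 .nil)) .nil)) .nil)) .nil))) .nil)) .nil)) .nil)) .nil)))) (.cons 225 (.cons 200 (.leaf 201 1603 (.cons 224 (.leaf 199 1595 (.cons 248 (.leaf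 247 1786 (.leaf 249 1794 .nil)) .nil)) .nil)) (.cons 204 (.leaf 205 1609 (.cons 203 (.leaf 224 1601 (.cons 248 (.leaf 249 1794 (.cons 252 (.leaf 253 1800 (.cons 276 (.leaf 299 1630 (.leaf 300 1631 .nil)) .nil)) .nil)) .nil)) .nil)) (.cons 200 (.leaf 201 1603 (.cons 204 (.leaf 205 1609 (.cons 224 (.leaf 199 1595 (.leaf 203 1601 .nil)) .nil)) .nil)) (.cons 200 (.leaf 201 1603 (.cons 204 (.leaf 205 1609 (.cons 248 (.leaf 249 1794 (.cons 252 (.leaf 253 1800 (.cons 276 (.leaf 299 1630 (.cons 203 (.leaf 300 1631 (.leaf 179 1439 .nil)) .nil)) .nil)) .nil)) .nil)) .nil)) .nil)))) (.cons 225 (.cons 248 (.leaf 249 1794 (.cons 224 (.leaf 247 1786 (.cons 200 (.leaf 199 1595 (.leaf 201 1603 .nil)) .nil)) .nil)) (.cons 253 (.leaf 252 1800 (.cons 229 (.leaf 254 1808 (.cons 248 (.leaf 249 1794 (.cons 224 (.leaf 247 1786 (.cons 199 (.leaf 200 1595 (.cons 203 (.leaf 204 1601 (.cons 202 (.leaf 223 1593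 (.leaf 230 1619 .nil)) .nil)) .nil)) .nil)) .nil)) .nil)) .nil)) (.cons 248 (.leaf 249 1794 (.cons 224 (.leaf 247 1786 (.cons 203 (.leaf 204 1601 (.cons 202 (.leaf 223 1593 (.cons 229 (.leaf 201 1611 (.leaf 230 1619 .nil)) .nil)) .nil)) .nil)) .nil)) (.cons 201 (.leaf 200 1603 (.cons 229 (.leaf 202 1611 (.cons 253 (.leaf 252 1800 (.leaf 254 1808 .nil)) .nil)) .nil)) .nil)))) (.cons 229 (.cons 206 (.leaf 205 1617 (.cons 230 (.leaf 207 1625 (.cons 254 (.leaf 253 1808 (.leaf 255 1816 .nil)) .nil)) .nil)) (.cons 253 (.leaf 254 1808 (.cons 225 (.leaf 252 1800 (.cons 248 (.leaf 249 1794 (.cons 224 (.leaf 247 1786 (.cons 199 (.leaf 200 1595 (.cons 203 (.leaf 204 1601 (.cons 202 (.leaf 223 1593 (.leaf 230 1619 .nil)) .nil)) .nil)) .nil)) .nil)) .nil)) .nil)) (.cons 206 (.leaf 205 1617 (.cons 230 (.leaf 207 1625 (.cons 203 (.leaf 202 1619 (.cons 231 (.leaf 204 1627 (.cons 255 (.leaf 254 1816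 (.leaf 256 1824 .nil)) .nil)) .nil)) .nil)) .nil)) (.cons 206 (.leaf 205 1617 (.cons 230 (.leaf 207 1625 (.cons 203 (.leaf 202 1619 (.cons 204 (.leaf 231 1627 (.cons 225 (.leaf 224 1601 (.cons 252 (.leaf 253 1800 (.cons 276 (.leaf 299 1630 (.leaf 300 1631 .nil)) .nil)) .nil)) .nil)) .nil)) .nil)) .nil)) (.cons 205 (.leaf 206 1617 (.cons 225 (.leaf 204 1609 (.cons 253 (.leaf 252 1800 (.leaf 254 1808 .nil)) .nil)) .nil)) .nil))))) (.cons 229 (.cons 201 (.leaf 202 1611 (.cons 206 (.leaf 205 1617 (.cons 230 (.leaf 207 1625 (.cons 254 (.leaf 253 1808 (.leaf 255 1816 .nil)) .nil)) .nil)) .nil)) (.cons 202 (.leaf 201 1611 (.cons 206 (.leaf 205 1617 (.cons 230 (.leaf 203 1619 (.leaf 207 1625 .nil)) .nil)) .nil)) (.cons 205 (.leaf 206 1617 (.cons 253 (.leaf 254 1808 (.cons 252 (.leaf 225 1800 (.cons 181 (.leaf 157 1254 (.leaf 276 1446 .nil)) .nil)) .nil)) .nil)) (.cons 201 (.leaf 202 1611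 (.cons 225 (.leaf 200 1603 (.cons 253 (.leaf 252 1800 (.leaf 254 1808 .nil)) .nil)) .nil)) .nil)))) (.cons 225 (.cons 200 (.leaf 201 1603 (.cons 224 (.leaf 199 1595 (.cons 248 (.leaf 247 1786 (.leaf 249 1794 .nil)) .nil)) .nil)) (.cons 204 (.leaf 205 1609 (.cons 224 (.leaf 203 1601 (.cons 248 (.leaf 247 1786 (.leaf 249 1794 .nil)) .nil)) .nil)) (.cons 200 (.leaf 201 1603 (.cons 204 (.leaf 205 1609 (.cons 224 (.leaf 199 1595 (.leaf 203 1601 .nil)) .nil)) .nil)) (.cons 201 (.leaf 200 1603 (.cons 204 (.leaf 205 1609 (.cons 229 (.leaf 202 1611 (.cons 248 (.leaf 249 1794 (.cons 254 (.leaf 253 1808 (.cons 230 (.leaf 255 1816 (.cons 207 (.leaf 206 1625 (.cons 231 (.leaf 203 1627 (.leaf 208 1633 .nil)) .nil)) .nil)) .nil)) .nil)) .nil)) .nil)) .nil)) .nil)))) (.cons 225 (.cons 201 (.leaf 200 1603 (.cons 205 (.leaf 204 1609 (.cons 229 (.leaf 202 1611 (.leaf 206 1617 .nil)) .nil)) .nil)) (.cons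 200 (.leaf 201 1603 (.cons 224 (.leaf 199 1595 (.cons 248 (.leaf 247 1786 (.leaf 249 1794 .nil)) .nil)) .nil)) (.cons 204 (.leaf 205 1609 (.cons 224 (.leaf 203 1601 (.cons 248 (.leaf 247 1786 (.leaf 249 1794 .nil)) .nil)) .nil)) .nil))) .nil))))))
noncomputable def t196 : T := .cons 251 (.cons 202 (.leaf 299 1623 (.cons 178 (.leaf 203 1431 (.leaf 154 1236 .nil)) .nil)) (.cons 299 (.leaf 202 1623 (.cons 228 (.leaf 204 1629 (.cons 252 (.leaf 323 1821 (.cons 253 (.leaf 254 2002 (.leaf 225 1800 .nil)) .nil)) .nil)) .nil)) (.cons 203 (.leaf 298 1622 (.cons 180 (.leaf 204 1437 (.cons 179 (.leaf 156 1245 (.cons 276 (.leaf 300 1628 (.leaf 252 1436 .nil)) .nil)) .nil)) .nil)) .nil))) (.cons 228 (.cons 225 (.cons 200 (.leaf 201 1603 (.cons 224 (.leaf 199 1595 (.cons 248 (.leaf 247 1786 (.leaf 249 1794 .nil)) .nil)) .nil)) (.cons 205 (.leaf 204 1609 (.cons 229 (.leaf 206 1617 (.cons 253 (.leaf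 252 1800 (.leaf 254 1808 .nil)) .nil)) .nil)) .nil)) t195) (.cons 225 t194 (.cons 251 (.cons 299 (.leaf 202 1623 (.cons 322 (.leaf 298 1814 (.cons 323 (.leaf 346 2006 (.cons 324 (.leaf 300 1820 (.leaf 348 2012 .nil)) .nil)) .nil)) .nil)) (.cons 203 (.leaf 298 1622 (.cons 180 (.leaf 204 1437 (.cons 179 (.leaf 156 1245 (.cons 276 (.leaf 300 1628 (.leaf 252 1436 .nil)) .nil)) .nil)) .nil)) (.cons 202 (.leaf 299 1623 (.cons 178 (.leaf 203 1431 (.leaf 154 1236 .nil)) .nil)) .nil))) (.cons 203 (.cons 251 (.leaf 298 1622 (.cons 180 (.leaf 204 1437 (.cons 179 (.leaf 156 1245 (.cons 276 (.leaf 300 1628 (.leaf 252 1436 .nil)) .nil)) .nil)) .nil)) (.cons 204 t193 (.cons 251 (.leaf 298 1622 (.cons 276 (.leaf 300 1628 (.cons 179 (.leaf 252 1436 (.cons 154 (.leaf 178 1239 (.cons 155 (.leaf 130 1047 (.cons 156 (.leaf 132 1053 (.leaf 180 1245 .nil)) .nil)) .nil)) .nil)) .nil)) .nil)) (.cons 251 (.leaf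 298 1622 (.cons 204 (.leaf 180 1437 (.cons 205 (.leaf 206 1618 (.cons 225 (.leaf 202 1610 (.leaf 224 1601 .nil)) .nil)) .nil)) .nil)) (.cons 251 (.leaf 298 1622 (.cons 276 (.leaf 300 1628 (.cons 252 (.leaf 179 1436 (.cons 253 (.leaf 254 2002 (.cons 225 (.leaf 224 1792 (.leaf 228 1800 .nil)) .nil)) .nil)) .nil)) .nil)) .nil))))) (.cons 251 t192 (.cons 251 (.cons 203 (.leaf 298 1622 (.cons 276 (.leaf 300 1628 (.cons 179 (.leaf 252 1436 (.cons 154 (.leaf 178 1239 (.cons 155 (.leaf 130 1047 (.cons 156 (.leaf 132 1053 (.leaf 180 1245 .nil)) .nil)) .nil)) .nil)) .nil)) .nil)) (.cons 299 (.leaf 202 1623 (.cons 322 (.leaf 298 1814 (.cons 323 (.leaf 346 2006 (.cons 324 (.leaf 300 1820 (.leaf 348 2012 .nil)) .nil)) .nil)) .nil)) (.cons 202 (.leaf 299 1623 (.cons 178 (.leaf 203 1431 (.leaf 154 1236 .nil)) .nil)) .nil))) (.cons 251 (.cons 203 (.leaf 298 1622 (.cons 204 (.leaf 180 1437 (.cons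 205 (.leaf 206 1618 (.cons 225 (.leaf 202 1610 (.leaf 224 1601 .nil)) .nil)) .nil)) .nil)) (.cons 299 (.leaf 202 1623 (.cons 322 (.leaf 298 1814 (.cons 323 (.leaf 346 2006 (.cons 324 (.leaf 300 1820 (.leaf 348 2012 .nil)) .nil)) .nil)) .nil)) (.cons 203 (.leaf 298 1622 (.cons 204 (.leaf 180 1437 (.cons 205 (.leaf 206 1618 (.cons 225 (.leaf 224 1601 (.leaf 228 1609 .nil)) .nil)) .nil)) .nil)) (.cons 202 (.leaf 299 1623 (.cons 178 (.leaf 203 1431 (.leaf 154 1236 .nil)) .nil)) .nil)))) (.cons 251 (.cons 203 (.leaf 298 1622 (.cons 204 (.leaf 180 1437 (.cons 205 (.leaf 206 1618 (.cons 225 (.leaf 202 1610 (.leaf 224 1601 .nil)) .nil)) .nil)) .nil)) (.cons 299 (.leaf 202 1623 (.cons 228 (.leaf 204 1629 (.cons 252 (.leaf 323 1821 (.cons 253 (.leaf 254 2002 (.leaf 225 1800 .nil)) .nil)) .nil)) .nil)) (.cons 203 (.leaf 298 1622 (.cons 204 (.leaf 180 1437 (.cons 205 (.leaf 206 1618 (.cons 225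 (.leaf 224 1601 (.leaf 228 1609 .nil)) .nil)) .nil)) .nil)) (.cons 202 (.leaf 299 1623 (.cons 178 (.leaf 203 1431 (.leaf 154 1236 .nil)) .nil)) .nil)))) (.cons 251 (.cons 299 (.leaf 202 1623 (.cons 228 (.leaf 204 1629 (.cons 252 (.leaf 323 1821 (.cons 253 (.leaf 254 2002 (.leaf 225 1800 .nil)) .nil)) .nil)) .nil)) (.cons 203 (.leaf 298 1622 (.cons 276 (.leaf 300 1628 (.cons 252 (.leaf 179 1436 (.cons 253 (.leaf 254 2002 (.cons 225 (.leaf 224 1792 (.leaf 228 1800 .nil)) .nil)) .nil)) .nil)) .nil)) (.cons 299 (.leaf 202 1623 (.cons 322 (.leaf 298 1814 (.cons 323 (.leaf 346 2006 (.cons 324 (.leaf 300 1820 (.leaf 348 2012 .nil)) .nil)) .nil)) .nil)) .nil))) .nil)))))))))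
noncomputable def t197 : T := .cons 201 (.leaf 225 1615 (.cons 203 (.leaf 227 1621 (.cons 323 (.leaf 299 1812 (.cons 322 (.leaf 347 2004 (.cons 345 (.leaf 321 1998 (.cons 346 (.leaf 251 2005 (.leaf 369 2190 .nil)) .nil)) .nil)) .nil)) .nil)) .nil)) (.cons 227 (.leaf 203 1621 (.cons 321 (.leaf 297 1806 (.cons 225 (.leaf 201 1615 (.cons 322 (.leaf 249 1807 (.leaf 251 1813 .nil)) .nil)) .nil)) .nil)) (.cons 323 (.leaf 299 1812 (.cons 201 (.leaf 225 1615 (.cons 322 (.leaf 347 2004 (.cons 345 (.leaf 321 1998 (.cons 346 (.leaf 251 2005 (.leaf 369 2190 .nil)) .nil)) .nil)) .nil)) .nil)) (.cons 227 (.leaf 203 1621 (.cons 251 (.leaf 322 1813 (.cons 299 (.leaf 323 1812 (.cons 297 (.leaf 321 1806 (.cons 296 (.leaf 295 2169 (.leaf 276 2177 .nil)) .nil)) .nil)) .nil)) .nil)) (.cons 299 (.leaf 323 1812 (.cons 201 (.leaf 225 1615 (.cons 297 (.leaf 321 1806 (.cons 296 (.leaf 295 2169 (.leaf 276 2177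 .nil)) .nil)) .nil)) .nil)) (.cons 323 (.leaf 299 1812 (.cons 201 (.leaf 225 1615 (.cons 322 (.leaf 347 2004 (.cons 251 (.leaf 346 2005 (.leaf 227 1813 .nil)) .nil)) .nil)) .nil)) .nil)))))
noncomputable def t198 : T := .cons 250 (.cons 299 (.leaf 202 1620 (.cons 323 (.leaf 251 1815 (.leaf 347 2007 .nil)) .nil)) (.cons 298 t197 (.cons 298 (.cons 201 (.leaf 225 1615 (.cons 177 (.leaf 202 1423 (.cons 321 (.leaf 297 1806 (.cons 322 (.leaf 345 1998 (.cons 251 (.leaf 346 2005 (.leaf 227 1813 .nil)) .nil)) .nil)) .nil)) .nil)) (.cons 225 (.leaf 201 1615 (.cons 321 (.leaf 297 1806 (.cons 322 (.leaf 249 1807 (.leaf 345 1998 .nil)) .nil)) .nil)) (.cons 227 (.leaf 203 1621 (.cons 321 (.leaf 297 1806 (.cons 322 (.leaf 251 1813 (.leaf 345 1998 .nil)) .nil)) .nil)) (.cons 203 (.leaf 227 1621 (.cons 202 (.leaf 179 1429 (.cons 178 (.leaf 251 1428 (.cons 177 (.leaf 201 1423 (.leaf 153 1231 .nil))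 .nil)) .nil)) .nil)) .nil)))) (.cons 202 (.leaf 299 1620 (.cons 177 (.leaf 201 1423 (.cons 178 (.leaf 153 1231 (.cons 179 (.leaf 203 1429 (.leaf 155 1237 .nil)) .nil)) .nil)) .nil)) .nil)))) (.cons 227 t196 (.cons 250 t191 (.cons 251 t186 (.cons 250 t180 (.cons 202 t178 (.cons 250 t173 (.cons 250 t172 (.cons 250 t171 (.cons 250 t169 (.cons 250 t167 (.cons 250 t166 (.cons 250 t165 (.cons 250 t164 .nil)))))))))))))
noncomputable def t199 : T := .cons 248 (.leaf 247 1979 (.cons 296 (.leaf 295 2170 (.cons 251 (.leaf 252 1985 (.cons 299 (.leaf 300 2176 (.cons 224 (.cons 201 (.leaf 225 1605 (.cons 223 (.leaf 199 1599 (.cons 250 (.leaf 271 1977 (.leaf 249 1787 .nil)) .nil)) .nil)) (.cons 199 (.leaf 223 1599 (.cons 200 (.leaf 297 1604 (.leaf 175 1407 .nil)) .nil)) (.cons 271 (.leaf 250 1977 (.leaf 298 2168 .nil)) .nil))) .nil)) .nil)) .nil)) .nil)) (.cons 299 (.leaf 300 2176 (.cons 247 (.leaf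 248 1979 (.cons 271 (.leaf 246 1971 (.leaf 298 2168 .nil)) .nil)) .nil)) (.cons 248 (.leaf 247 1979 (.cons 296 (.leaf 295 2170 (.cons 251 (.leaf 252 1985 (.cons 224 (.cons 199 (.leaf 223 1599 (.cons 175 (.leaf 200 1407 (.cons 201 (.leaf 225 1605 (.cons 321 (.leaf 297 1796 (.cons 320 (.leaf 345 1988 (.cons 250 (.leaf 271 1977 (.cons 343 (.leaf 319 1982 (.cons 344 (.leaf 249 1989 (.leaf 367 2174 .nil)) .nil)) .nil)) .nil)) .nil)) .nil)) .nil)) .nil)) (.cons 199 (.leaf 223 1599 (.cons 175 (.leaf 200 1407 (.cons 225 (.leaf 201 1605 (.cons 320 (.leaf 249 1797 (.cons 343 (.leaf 319 1982 (.cons 344 (.leaf 367 2174 (.cons 345 (.leaf 321 1988 (.leaf 369 2180 .nil)) .nil)) .nil)) .nil)) .nil)) .nil)) .nil)) (.cons 199 (.leaf 223 1599 (.cons 200 (.leaf 297 1604 (.leaf 175 1407 .nil)) .nil)) (.cons 199 (.leaf 223 1599 (.cons 201 (.leaf 225 1605 (.cons 321 (.leaf 297 1796 (.cons 320 (.leaf 345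 1988 (.cons 343 (.leaf 319 1982 (.cons 344 (.leaf 249 1989 (.leaf 367 2174 .nil)) .nil)) .nil)) .nil)) .nil)) .nil)) (.cons 297 (.leaf 200 1604 (.leaf 321 1796 .nil)) .nil))))) .nil)) .nil)) .nil)) (.cons 299 (.leaf 300 2176 (.cons 251 (.leaf 252 1985 (.cons 271 (.leaf 250 1977 (.leaf 298 2168 .nil)) .nil)) .nil)) (.cons 248 (.leaf 247 1979 (.cons 296 (.leaf 295 2170 (.cons 251 (.leaf 252 1985 (.cons 299 (.leaf 300 2176 (.cons 224 (.cons 201 (.leaf 225 1605 (.cons 223 (.leaf 199 1599 (.cons 250 (.leaf 249 1787 (.cons 226 (.leaf 202 1620 (.leaf 323 1815 .nil)) .nil)) .nil)) .nil)) (.cons 297 (.leaf 200 1604 (.leaf 321 1796 .nil)) .nil)) .nil)) .nil)) .nil)) .nil)) .nil))))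
noncomputable def t200 : T := .cons 249 (.leaf 248 1987 (.cons 297 (.leaf 296 2178 (.cons 300 (.leaf 301 2184 (.cons 252 (.leaf 253 1993 (.cons 321 (.cons 250 (.leaf 345 1997 (.leaf 226 1805 .nil)) (.cons 320 (.leaf 344 1990 (.cons 346 (.leaf 322 1996 (.cons 345 (.leaf 370 2188 (.cons 348 (.leaf 347 2563 (.cons 324 (.leaf 251 2015 (.cons 349 (.leaf 325 2020 (.leaf 373 2212 .nil)) .nil)) .nil)) .nil)) .nil)) .nil)) (.cons 226 (.leaf 250 1805 (.cons 320 (.leaf 344 1990 (.cons 299 (.leaf 298 2370 (.cons 228 (.leaf 204 1630 (.leaf 323 1822 .nil)) .nil)) .nil)) .nil)) .nil))) .nil)) .nil)) .nil)) .nil)) (.cons 252 (.leaf 253 1993 (.cons 300 (.leaf 301 2184 (.cons 297 (.leaf 296 2178 (.cons 228 (.cons 299 (.leaf 204 1630 (.leaf 323 1822 .nil)) (.cons 227 (.leaf 203 1631 (.cons 205 (.leaf 229 1637 (.cons 181 (.leaf 204 1445 (.cons 324 (.leaf 251 1823 (.cons 347 (.leaf 323 2014 (.cons 348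 (.leaf 371 2206 (.cons 349 (.leaf 325 2020 (.leaf 373 2212 .nil)) .nil)) .nil)) .nil)) .nil)) .nil)) .nil)) (.cons 203 (.leaf 227 1631 (.cons 205 (.leaf 229 1637 (.cons 323 (.leaf 299 1822 (.cons 324 (.leaf 347 2014 (.cons 325 (.leaf 349 2020 (.cons 322 (.leaf 298 2379 (.cons 345 (.leaf 346 2570 (.cons 321 (.leaf 250 1997 (.leaf 344 2562 .nil)) .nil)) .nil)) .nil)) .nil)) .nil)) .nil)) .nil)) (.cons 204 (.leaf 299 1630 (.cons 203 (.leaf 179 1439 (.leaf 227 1631 .nil)) .nil)) .nil)))) .nil)) .nil)) .nil)) (.cons 249 (.leaf 248 1987 (.cons 297 (.leaf 296 2178 (.cons 300 (.leaf 301 2184 (.cons 225 (.cons 200 (.leaf 224 1607 (.cons 201 (.leaf 298 1612 (.leaf 176 1415 .nil)) .nil)) (.cons 200 (.leaf 224 1607 (.cons 201 (.leaf 176 1415 (.cons 202 (.leaf 178 1421 (.leaf 226 1613 .nil)) .nil)) .nil)) (.cons 200 (.leaf 224 1607 (.cons 226 (.leaf 202 1613 (.cons 321 (.leaf 250 1805 (.cons 344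 (.leaf 320 1990 (.cons 345 (.leaf 368 2182 (.cons 369 (.leaf 298 2189 (.cons 370 (.leaf 346 2188 (.leaf 394 2380 .nil)) .nil)) .nil)) .nil)) .nil)) .nil)) .nil)) (.cons 298 (.leaf 201 1612 (.leaf 322 1804 .nil)) .nil)))) .nil)) .nil)) .nil)) (.cons 252 (.leaf 253 1993 (.cons 300 (.leaf 301 2184 (.cons 249 (.leaf 248 1987 (.cons 228 (.cons 203 (.leaf 227 1631 (.cons 204 (.leaf 299 1630 (.leaf 179 1439 .nil)) .nil)) (.cons 203 (.leaf 227 1631 (.cons 204 (.leaf 179 1439 (.cons 205 (.leaf 181 1445 (.leaf 229 1637 .nil)) .nil)) .nil)) (.cons 299 (.leaf 204 1630 (.leaf 323 1822 .nil)) (.cons 227 (.leaf 203 1631 (.cons 229 (.leaf 205 1637 (.cons 250 (.leaf 251 1801 (.leaf 226 1802 .nil)) .nil)) .nil)) .nil)))) .nil)) .nil)) .nil)) (.cons 249 (.leaf 248 1987 (.cons 297 (.leaf 296 2178 (.cons 252 (.leaf 253 1993 (.cons 225 (.cons 224 (.leaf 200 1607 (.cons 226 (.leaf 202 1613 (.cons 250 (.leaf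 321 1805 (.leaf 251 1795 .nil)) .nil)) .nil)) (.cons 200 (.leaf 224 1607 (.cons 201 (.leaf 298 1612 (.leaf 176 1415 .nil)) .nil)) (.cons 201 (.leaf 298 1612 (.cons 202 (.leaf 178 1421 (.leaf 226 1613 .nil)) .nil)) .nil))) .nil)) .nil)) .nil)) (.cons 300 (.leaf 301 2184 (.cons 252 (.leaf 253 1993 (.cons 297 (.leaf 296 2178 (.cons 249 (.leaf 248 1987 (.cons 225 (.cons 200 (.leaf 224 1607 (.cons 201 (.leaf 298 1612 (.leaf 176 1415 .nil)) .nil)) (.cons 200 (.leaf 224 1607 (.cons 201 (.leaf 176 1415 (.cons 202 (.leaf 178 1421 (.leaf 226 1613 .nil)) .nil)) .nil)) (.cons 224 (.leaf 200 1607 (.cons 226 (.leaf 202 1613 (.cons 227 (.leaf 251 1792 (.cons 203 (.leaf 228 1631 (.leaf 204 1601 .nil)) .nil)) .nil)) .nil)) (.cons 298 (.leaf 201 1612 (.leaf 322 1804 .nil)) .nil)))) .nil)) .nil)) .nil)) .nil)) .nil)))))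
noncomputable def t201 : T := .cons 272 (.cons 247 (.leaf 248 1979 (.cons 251 (.leaf 252 1985 (.cons 271 (.leaf 246 1971 (.leaf 250 1977 .nil)) .nil)) .nil)) (.cons 251 (.leaf 252 1985 (.cons 250 (.leaf 271 1977 (.cons 300 (.leaf 299 2176 (.cons 276 (.leaf 301 2184 (.cons 203 (.leaf 227 1628 (.cons 297 (.leaf 296 2178 (.cons 226 (.leaf 202 1614 (.cons 321 (.leaf 298 1806 (.leaf 345 1997 .nil)) .nil)) .nil)) .nil)) .nil)) .nil)) .nil)) .nil)) (.cons 247 (.leaf 248 1979 (.cons 271 (.leaf 246 1971 (.cons 299 (.leaf 300 2176 (.leaf 298 2168 .nil)) .nil)) .nil)) (.cons 248 (.leaf 247 1979 (.cons 252 (.leaf 251 1985 (.cons 276 (.leaf 249 1987 (.leaf 253 1993 .nil)) .nil)) .nil)) .nil)))) (.cons 276 t200 (.cons 272 t199 (.cons 272 (.cons 295 (.leaf 296 2170 (.cons 271 (.leaf 294 2162 (.cons 298 (.leaf 299 2168 (.cons 246 (.leaf 247 1971 (.cons 270 (.leaf 245 1963 (.leaf 297 2160 .nil)) .nil))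 .nil)) .nil)) .nil)) (.cons 248 (.leaf 247 1979 (.cons 249 (.leaf 276 1987 (.cons 299 (.leaf 300 2176 (.cons 271 (.leaf 298 2168 (.cons 270 (.leaf 250 1969 (.leaf 269 1961 .nil)) .nil)) .nil)) .nil)) .nil)) (.cons 248 (.leaf 247 1979 (.cons 249 (.leaf 276 1987 (.cons 296 (.leaf 295 2170 (.cons 225 (.leaf 201 1606 (.leaf 320 1797 .nil)) .nil)) .nil)) .nil)) (.cons 296 (.leaf 295 2170 (.cons 276 (.leaf 297 2178 (.cons 300 (.leaf 299 2176 (.leaf 301 2184 .nil)) .nil)) .nil)) .nil)))) (.cons 272 (.cons 247 (.leaf 248 1979 (.cons 251 (.leaf 252 1985 (.cons 271 (.leaf 246 1971 (.leaf 250 1977 .nil)) .nil)) .nil)) (.cons 251 (.leaf 252 1985 (.cons 250 (.leaf 271 1977 (.cons 296 (.leaf 295 2170 (.cons 297 (.leaf 276 2178 (.cons 226 (.leaf 202 1614 (.cons 321 (.leaf 298 1806 (.leaf 345 1997 .nil)) .nil)) .nil)) .nil)) .nil)) .nil)) (.cons 248 (.leaf 247 1979 (.cons 249 (.leaf 276 1987 (.cons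 296 (.leaf 295 2170 (.cons 225 (.leaf 201 1606 (.leaf 320 1797 .nil)) .nil)) .nil)) .nil)) .nil))) (.cons 272 (.cons 251 (.leaf 252 1985 (.cons 250 (.leaf 271 1977 (.cons 299 (.leaf 300 2176 (.cons 226 (.leaf 202 1620 (.leaf 323 1815 .nil)) .nil)) .nil)) .nil)) (.cons 247 (.leaf 248 1979 (.cons 251 (.leaf 252 1985 (.cons 271 (.leaf 246 1971 (.leaf 250 1977 .nil)) .nil)) .nil)) (.cons 247 (.leaf 248 1979 (.cons 271 (.leaf 246 1971 (.cons 299 (.leaf 300 2176 (.leaf 298 2168 .nil)) .nil)) .nil)) (.cons 247 (.leaf 248 1979 (.cons 296 (.leaf 295 2170 (.cons 276 (.leaf 297 2178 (.cons 300 (.leaf 299 2176 (.leaf 301 2184 .nil)) .nil)) .nil)) .nil)) .nil)))) (.cons 272 (.cons 251 (.leaf 252 1985 (.cons 250 (.leaf 271 1977 (.cons 299 (.leaf 300 2176 (.cons 226 (.leaf 202 1620 (.leaf 323 1815 .nil)) .nil)) .nil)) .nil)) (.cons 299 (.leaf 300 2176 (.cons 247 (.leaf 248 1979 (.cons 271 (.leaf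 246 1971 (.leaf 298 2168 .nil)) .nil)) .nil)) (.cons 251 (.leaf 252 1985 (.cons 247 (.leaf 248 1979 (.cons 271 (.leaf 246 1971 (.leaf 250 1977 .nil)) .nil)) .nil)) (.cons 247 (.leaf 248 1979 (.cons 252 (.leaf 251 1985 (.cons 276 (.leaf 253 1993 (.cons 300 (.leaf 299 2176 (.leaf 301 2184 .nil)) .nil)) .nil)) .nil)) .nil)))) (.cons 272 (.cons 251 (.leaf 252 1985 (.cons 250 (.leaf 271 1977 (.cons 300 (.leaf 299 2176 (.cons 276 (.leaf 301 2184 (.cons 203 (.leaf 227 1628 (.cons 297 (.leaf 296 2178 (.cons 226 (.leaf 202 1614 (.cons 321 (.leaf 298 1806 (.leaf 345 1997 .nil)) .nil)) .nil)) .nil)) .nil)) .nil)) .nil)) .nil)) (.cons 251 (.leaf 252 1985 (.cons 250 (.leaf 271 1977 (.cons 296 (.leaf 295 2170 (.cons 297 (.leaf 276 2178 (.cons 226 (.leaf 202 1614 (.cons 321 (.leaf 298 1806 (.leaf 345 1997 .nil)) .nil)) .nil)) .nil)) .nil)) .nil)) (.cons 295 (.leaf 296 2170 (.cons 271 (.leaf 294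 2162 (.cons 246 (.leaf 247 1971 (.cons 270 (.leaf 245 1963 (.cons 298 (.leaf 299 2168 (.leaf 297 2160 .nil)) .nil)) .nil)) .nil)) .nil)) (.cons 251 (.leaf 252 1985 (.cons 250 (.leaf 271 1977 (.cons 299 (.leaf 300 2176 (.cons 226 (.leaf 202 1620 (.leaf 323 1815 .nil)) .nil)) .nil)) .nil)) (.cons 251 (.leaf 252 1985 (.cons 300 (.leaf 299 2176 (.cons 276 (.leaf 301 2184 (.cons 296 (.leaf 295 2170 (.leaf 297 2178 .nil)) .nil)) .nil)) .nil)) .nil))))) (.cons 272 (.cons 251 (.leaf 252 1985 (.cons 300 (.leaf 299 2176 (.cons 276 (.leaf 301 2184 (.cons 296 (.leaf 295 2170 (.leaf 297 2178 .nil)) .nil)) .nil)) .nil)) (.cons 247 (.leaf 248 1979 (.cons 252 (.leaf 251 1985 (.cons 276 (.leaf 253 1993 (.cons 300 (.leaf 299 2176 (.leaf 301 2184 .nil)) .nil)) .nil)) .nil)) (.cons 247 (.leaf 248 1979 (.cons 271 (.leaf 246 1971 (.cons 295 (.leaf 296 2170 (.leaf 294 2162 .nil)) .nil)) .nil)) .nil))) .nil))))))))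
noncomputable def top : T := .cons 273 (t201) (.cons 226 t198 (.cons 273 t163 (.cons 273 t157 (.cons 273 t151 (.cons 273 t149 (.cons 250 t146 (.cons 250 t129 (.cons 273 (.cons 272 (.cons 247 (.leaf 248 1979 (.cons 271 (.leaf 246 1971 (.cons 250 (.leaf 251 1977 (.cons 270 (.leaf 249 1969 (.cons 294 (.leaf 295 2162 (.leaf 293 2154 .nil)) .nil)) .nil)) .nil)) .nil)) (.cons 296 (.leaf 295 2170 (.cons 276 (.leaf 297 2178 (.cons 300 (.leaf 299 2176 (.leaf 301 2184 .nil)) .nil)) .nil)) (.cons 247 (.leaf 248 1979 (.cons 271 (.leaf 246 1971 (.cons 250 (.leaf 251 1977 (.cons 249 (.leaf 270 1969 (.cons 299 (.leaf 300 2176 (.leaf 298 2168 .nil)) .nil)) .nil)) .nil)) .nil)) .nil))) (.cons 249 t109 (.cons 272 (.cons 247 (.leaf 248 1979 (.cons 271 (.leaf 246 1971 (.cons 299 (.leaf 300 2176 (.leaf 298 2168 .nil)) .nil)) .nil)) (.cons 295 (.leaf 296 2170 (.cons 299 (.leaf 300 2176 (.cons 271 (.leaf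 294 2162 (.leaf 298 2168 .nil)) .nil)) .nil)) (.cons 248 (.leaf 247 1979 (.cons 249 (.leaf 276 1987 (.cons 296 (.leaf 295 2170 (.cons 225 (.leaf 201 1606 (.leaf 320 1797 .nil)) .nil)) .nil)) .nil)) .nil))) (.cons 272 t106 t105)))) (.cons 273 (.cons 272 (.cons 247 (.leaf 248 1979 (.cons 252 (.leaf 251 1985 (.cons 276 (.leaf 253 1993 (.cons 271 (.leaf 246 1971 (.cons 294 (.leaf 295 2162 (.cons 270 (.leaf 293 2154 (.cons 298 (.leaf 299 2168 (.leaf 297 2160 .nil)) .nil)) .nil)) .nil)) .nil)) .nil)) .nil)) (.cons 251 (.leaf 252 1985 (.cons 271 (.leaf 250 1977 (.cons 294 (.leaf 295 2162 (.cons 270 (.leaf 293 2154 (.cons 298 (.leaf 299 2168 (.leaf 297 2160 .nil)) .nil)) .nil)) .nil)) .nil)) (.cons 247 (.leaf 248 1979 (.cons 271 (.leaf 246 1971 (.cons 294 (.leaf 295 2162 (.cons 270 (.leaf 293 2154 (.cons 298 (.leaf 299 2168 (.leaf 297 2160 .nil)) .nil)) .nil)) .nil)) .nil)) (.cons 247 (.leaf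 248 1979 (.cons 251 (.leaf 252 1985 (.cons 271 (.leaf 246 1971 (.leaf 250 1977 .nil)) .nil)) .nil)) (.cons 248 (.leaf 247 1979 (.cons 252 (.leaf 251 1985 (.cons 276 (.leaf 249 1987 (.leaf 253 1993 .nil)) .nil)) .nil)) .nil))))) t102) (.cons 299 (.cons 250 t95 t94) (.cons 251 (t82) (.cons 299 t68 (.cons 251 t56 t42)))))))))))))

end Vale.Agent.P062.Data.D2
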