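import Vale.Agent.P062.Checker

namespace Vale.Agent.P062.Data.D4

open Vale.Agent.P062

noncomputable def t0 : T := .cons 178 (.leaf 202 1431 (.cons 204 (.leaf 180 1437 (.cons 179 (.leaf 154 1239 (.cons 274 (.leaf 298 1622 (.leaf 250 1430 .nil)) .nil)) .nil)) .nil)) (.cons 204 (.leaf 180 1437 (.cons 228 (.leaf 299 1629 (.cons 274 (.leaf 298 1622 (.cons 179 (.leaf 250 1430 (.cons 154 (.leaf 178 1239 (.cons 155 (.leaf 130 1047 (.leaf 252 1244 .nil)) .nil)) .nil)) .nil)) .nil)) .nil)) (.cons 274 (.leaf 298 1622 (.cons 179 (.leaf 250 1430 (.cons 154 (.leaf 178 1239 (.cons 155 (.leaf 130 1047 (.cons 156 (.leaf 180 1245 (.leaf 132 1053 .nil)) .nil)) .nil)) .nil)) .nil)) (.cons 204 (.leaf 180 1437 (.cons 178 (.leaf 202 1431 (.cons 179 (.leaf 154 1239 (.cons 176 (.leaf 177 1408 (.cons 205 (.leaf 206 1427 (.cons 228 (.leaf 299 1629 (.cons 155 (.leaf 252 1244 (.leaf 131 1052 .nil)) .nil))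 .nil)) .nil)) .nil)) .nil)) .nil)) (.cons 204 (.leaf 180 1437 (.cons 228 (.leaf 299 1629 (.cons 274 (.leaf 298 1622 (.cons 250 (.leaf 179 1430 (.cons 229 (.leaf 230 1810 (.cons 249 (.leaf 248 1793 (.leaf 252 1801 .nil)) .nil)) .nil)) .nil)) .nil)) .nil)) (.cons 202 (.leaf 178 1431 (.cons 226 (.leaf 299 1623 (.cons 274 (.leaf 298 1622 (.cons 179 (.leaf 250 1429 (.cons 131 (.leaf 155 1046 (.cons 252 (.leaf 276 1436 (.cons 253 (.leaf 254 2002 (.cons 225 (.leaf 224 1792 (.leaf 228 1800 .nil)) .nil)) .nil)) .nil)) .nil)) .nil)) .nil)) .nil)) (.cons 202 (.leaf 178 1431 (.cons 180 (.leaf 204 1437 (.cons 298 (.leaf 274 1622 (.cons 299 (.leaf 226 1623 (.leaf 322 1814 .nil)) .nil)) .nil)) .nil)) .nil))))))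
noncomputable def t1 : T := .cons 203 (.cons 178 (.leaf 202 1431 (.cons 179 (.leaf 154 1239 (.cons 180 (.leaf 204 1437 (.leaf 156 1245 .nil)) .nil)) .nil)) (.cons 180 (.leaf 204 1437 (.cons 179 (.leaf 156 1245 (.cons 276 (.leaf 300 1628 (.leaf 252 1436 .nil)) .nil)) .nil)) (.cons 178 (.leaf 202 1431 (.cons 179 (.leaf 154 1239 (.cons 276 (.leaf 300 1628 (.leaf 252 1436 .nil)) .nil)) .nil)) (.cons 202 (.leaf 178 1431 (.cons 204 (.leaf 180 1437 (.cons 276 (.leaf 300 1628 (.cons 274 (.leaf 298 1622 (.cons 201 (.cons 176 (.leaf 177 1411 (.cons 200 (.leaf 228 1600 (.leaf 175 1403 .nil)) .nil)) (.cons 176 (.leaf 177 1411 (.cons 200 (.leaf 175 1403 (.cons 224 (.leaf 223 1594 (.leaf 225 1602 .nil)) .nil)) .nil)) (.cons 176 (.leaf 177 1411 (.cons 225 (.leaf 224 1602 (.cons 205 (.leaf 226 1610 (.cons 229 (.leaf 228 1608 (.leaf 230 1616 .nil)) .nil)) .nil)) .nil)) (.cons 228 (.leaf 200 1600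 (.leaf 229 1608 .nil)) .nil)))) .nil)) .nil)) .nil)) .nil)) .nil)))) (.cons 203 (.cons 178 (.leaf 202 1431 (.cons 204 (.leaf 180 1437 (.cons 179 (.leaf 154 1239 (.cons 274 (.leaf 298 1622 (.leaf 250 1430 .nil)) .nil)) .nil)) .nil)) (.cons 178 (.leaf 202 1431 (.cons 179 (.leaf 154 1239 (.cons 276 (.leaf 300 1628 (.leaf 252 1436 .nil)) .nil)) .nil)) (.cons 274 (.leaf 298 1622 (.cons 179 (.leaf 250 1430 (.cons 276 (.leaf 300 1628 (.leaf 252 1436 .nil)) .nil)) .nil)) (.cons 178 (.leaf 202 1431 (.cons 204 (.leaf 180 1437 (.cons 299 (.leaf 228 1629 (.cons 298 (.leaf 274 1622 (.leaf 322 1814 .nil)) .nil)) .nil)) .nil)) .nil)))) (.cons 203 (.cons 178 (.leaf 202 1431 (.cons 179 (.leaf 154 1239 (.cons 180 (.leaf 204 1437 (.leaf 156 1245 .nil)) .nil)) .nil)) (.cons 274 (.leaf 298 1622 (.cons 179 (.leaf 250 1430 (.cons 154 (.leaf 178 1239 (.cons 155 (.leaf 130 1047 (.cons 156 (.leaf 180 1245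 (.leaf 132 1053 .nil)) .nil)) .nil)) .nil)) .nil)) (.cons 274 (.leaf 298 1622 (.cons 179 (.leaf 250 1430 (.cons 276 (.leaf 300 1628 (.leaf 252 1436 .nil)) .nil)) .nil)) (.cons 178 (.leaf 202 1431 (.cons 180 (.leaf 204 1437 (.cons 298 (.leaf 274 1622 (.cons 299 (.leaf 322 1814 (.cons 300 (.leaf 276 1628 (.leaf 324 1820 .nil)) .nil)) .nil)) .nil)) .nil)) .nil)))) (.cons 203 (.cons 180 (.leaf 204 1437 (.cons 179 (.leaf 156 1245 (.cons 276 (.leaf 300 1628 (.leaf 252 1436 .nil)) .nil)) .nil)) (.cons 274 (.leaf 298 1622 (.cons 179 (.leaf 250 1430 (.cons 154 (.leaf 178 1239 (.cons 155 (.leaf 130 1047 (.cons 156 (.leaf 180 1245 (.leaf 132 1053 .nil)) .nil)) .nil)) .nil)) .nil)) (.cons 274 (.leaf 298 1622 (.cons 179 (.leaf 250 1430 (.cons 276 (.leaf 300 1628 (.leaf 252 1436 .nil)) .nil)) .nil)) (.cons 180 (.leaf 204 1437 (.cons 298 (.leaf 274 1622 (.cons 299 (.leaf 322 1814 (.cons 300 (.leaf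 276 1628 (.leaf 324 1820 .nil)) .nil)) .nil)) .nil)) .nil)))) (.cons 203 (.cons 178 (.leaf 202 1431 (.cons 179 (.leaf 154 1239 (.cons 276 (.leaf 300 1628 (.leaf 252 1436 .nil)) .nil)) .nil)) (.cons 274 (.leaf 298 1622 (.cons 179 (.leaf 250 1430 (.cons 154 (.leaf 178 1239 (.cons 155 (.leaf 130 1047 (.cons 156 (.leaf 180 1245 (.leaf 132 1053 .nil)) .nil)) .nil)) .nil)) .nil)) (.cons 274 (.leaf 298 1622 (.cons 179 (.leaf 250 1430 (.cons 276 (.leaf 300 1628 (.leaf 252 1436 .nil)) .nil)) .nil)) (.cons 178 (.leaf 202 1431 (.cons 298 (.leaf 274 1622 (.cons 299 (.leaf 322 1814 (.cons 300 (.leaf 276 1628 (.leaf 324 1820 .nil)) .nil)) .nil)) .nil)) .nil)))) (.cons 203 (.cons 178 (.leaf 202 1431 (.cons 154 (.leaf 179 1239 (.cons 204 (.leaf 180 1437 (.cons 299 (.leaf 228 1629 (.cons 300 (.leaf 276 1628 (.leaf 324 1820 .nil)) .nil)) .nil)) .nil)) .nil)) (.cons 204 (.leaf 180 1437 (.cons 299 (.leaf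 228 1629 (.cons 300 (.leaf 276 1628 (.leaf 324 1820 .nil)) .nil)) .nil)) (.cons 202 (.leaf 178 1431 (.cons 226 (.leaf 299 1623 (.cons 276 (.leaf 300 1628 (.cons 179 (.leaf 252 1436 (.cons 155 (.leaf 250 1238 (.leaf 131 1046 .nil)) .nil)) .nil)) .nil)) .nil)) (.cons 202 (.leaf 178 1431 (.cons 180 (.leaf 204 1437 (.cons 179 (.leaf 156 1245 (.cons 181 (.leaf 182 1426 (.cons 200 (.leaf 201 1409 (.cons 226 (.leaf 299 1623 (.cons 155 (.leaf 250 1238 (.leaf 131 1046 .nil)) .nil)) .nil)) .nil)) .nil)) .nil)) .nil)) (.cons 276 (.leaf 300 1628 (.cons 178 (.leaf 202 1431 (.cons 179 (.leaf 154 1239 (.leaf 252 1436 .nil)) .nil)) .nil)) .nil))))) (.cons 203 (.cons 178 (.leaf 202 1431 (.cons 154 (.leaf 179 1239 (.cons 298 (.leaf 274 1622 (.cons 299 (.leaf 322 1814 (.cons 300 (.leaf 276 1628 (.leaf 324 1820 .nil)) .nil)) .nil)) .nil)) .nil)) (.cons 180 (.leaf 204 1437 (.cons 179 (.leaf 156 1245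 (.cons 274 (.leaf 298 1622 (.leaf 250 1430 .nil)) .nil)) .nil)) (.cons 178 (.leaf 202 1431 (.cons 179 (.leaf 154 1239 (.cons 180 (.leaf 204 1437 (.leaf 156 1245 .nil)) .nil)) .nil)) (.cons 178 (.leaf 202 1431 (.cons 204 (.leaf 180 1437 (.cons 299 (.leaf 228 1629 (.cons 298 (.leaf 274 1622 (.leaf 322 1814 .nil)) .nil)) .nil)) .nil)) .nil)))) (.cons 203 t0 .nil)))))))
noncomputable def t2 : T := .cons 228 (.leaf 204 1629 (.cons 323 (.leaf 252 1821 (.cons 322 (.leaf 298 1814 (.leaf 346 2006 .nil)) .nil)) .nil)) (.cons 226 (.leaf 202 1623 (.cons 322 (.leaf 298 1814 (.cons 323 (.leaf 250 1815 (.leaf 346 2006 .nil)) .nil)) .nil)) (.cons 228 (.leaf 204 1629 (.cons 323 (.leaf 252 1821 (.cons 324 (.leaf 300 1820 (.leaf 348 2012 .nil)) .nil)) .nil)) (.cons 226 (.leaf 202 1623 (.cons 228 (.leaf 204 1629 (.cons 300 (.leaf 324 1820 (.cons 225 (.cons 200 (.leaf 201 1603 (.cons 199 (.leaf 224 1595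 (.cons 249 (.leaf 248 1794 (.cons 229 (.leaf 250 1802 (.cons 206 (.leaf 205 1617 (.cons 230 (.leaf 207 1625 (.cons 254 (.leaf 253 1808 (.leaf 255 1816 .nil)) .nil)) .nil)) .nil)) .nil)) .nil)) .nil)) (.cons 200 (.leaf 201 1603 (.cons 248 (.leaf 249 1794 (.cons 253 (.leaf 252 1800 (.cons 229 (.leaf 254 1808 (.cons 206 (.leaf 205 1617 (.cons 230 (.leaf 250 1810 (.leaf 207 1625 .nil)) .nil)) .nil)) .nil)) .nil)) .nil)) (.cons 200 (.leaf 201 1603 (.cons 224 (.leaf 252 1792 (.leaf 199 1595 .nil)) .nil)) (.cons 252 (.leaf 224 1792 (.leaf 253 1800 .nil)) .nil)))) .nil)) .nil)) .nil)) .nil)))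
noncomputable def t3 : T := .cons 178 (.leaf 202 1431 (.cons 204 (.leaf 180 1437 (.cons 299 (.leaf 228 1629 (.cons 179 (.leaf 154 1239 (.cons 274 (.leaf 298 1622 (.leaf 250 1430 .nil)) .nil)) .nil)) .nil)) .nil)) (.cons 204 (.leaf 180 1437 (.cons 276 (.leaf 300 1628 (.cons 298 (.leaf 274 1622 (.cons 299 (.leaf 228 1629 (.leaf 322 1814 .nil)) .nil)) .nil)) .nil)) (.cons 202 (.leaf 178 1431 (.cons 226 (.leaf 299 1623 (.cons 274 (.leaf 298 1622 (.cons 179 (.leaf 250 1429 (.cons 155 (.leaf 131 1046 (.cons 156 (.leaf 180 1245 (.leaf 132 1053 .nil)) .nil)) .nil)) .nil)) .nil)) .nil)) (.cons 202 (.leaf 178 1431 (.cons 180 (.leaf 204 1437 (.cons 179 (.leaf 156 1245 (.cons 181 (.leaf 182 1426 (.cons 200 (.leaf 201 1409 (.cons 226 (.leaf 299 1623 (.cons 155 (.leaf 250 1238 (.leaf 131 1046 .nil)) .nil)) .nil)) .nil)) .nil)) .nil)) .nil)) (.cons 202 (.leaf 178 1431 (.cons 226 (.leaf 299 1623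 (.cons 274 (.leaf 298 1622 (.cons 250 (.leaf 179 1429 (.cons 177 (.leaf 201 1423 (.cons 273 (.leaf 297 1614 (.cons 271 (.leaf 272 1977 (.cons 276 (.leaf 300 1628 (.cons 249 (.leaf 248 1984 (.leaf 277 1995 .nil)) .nil)) .nil)) .nil)) .nil)) .nil)) .nil)) .nil)) .nil)) (.cons 274 (.leaf 298 1622 (.cons 179 (.leaf 250 1430 (.cons 154 (.leaf 178 1239 (.cons 155 (.leaf 130 1047 (.cons 156 (.leaf 180 1245 (.leaf 132 1053 .nil)) .nil)) .nil)) .nil)) .nil)) .nil)))))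
noncomputable def t4 : T := .cons 299 (.cons 228 (.leaf 204 1629 (.cons 323 (.leaf 252 1821 (.cons 322 (.leaf 298 1814 (.leaf 346 2006 .nil)) .nil)) .nil)) (.cons 228 (.leaf 204 1629 (.cons 323 (.leaf 252 1821 (.cons 324 (.leaf 300 1820 (.leaf 348 2012 .nil)) .nil)) .nil)) (.cons 298 (.leaf 322 1814 (.cons 203 (.leaf 274 1622 (.cons 300 (.leaf 276 1628 (.leaf 324 1820 .nil)) .nil)) .nil)) .nil))) (.cons 203 (.cons 180 (.leaf 204 1437 (.cons 179 (.leaf 156 1245 (.cons 250 (.leaf 274 1430 (.cons 226 (.leaf 155 1238 (.cons 299 (.leaf 202 1623 (.leaf 323 1815 .nil)) .nil)) .nil)) .nil)) .nil)) (.cons 180 (.leaf 204 1437 (.cons 179 (.leaf 156 1245 (.cons 276 (.leaf 300 1628 (.leaf 252 1436 .nil)) .nil)) .nil)) (.cons 178 (.leaf 202 1431 (.cons 179 (.leaf 154 1239 (.cons 276 (.leaf 300 1628 (.leaf 252 1436 .nil)) .nil)) .nil)) (.cons 178 (.leaf 202 1431 (.cons 204 (.leaf 180 1437 (.cons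 299 (.leaf 228 1629 (.cons 300 (.leaf 276 1628 (.leaf 324 1820 .nil)) .nil)) .nil)) .nil)) .nil)))) (.cons 299 (.cons 202 (.leaf 226 1623 (.cons 203 (.leaf 178 1431 (.cons 298 (.leaf 274 1622 (.leaf 322 1814 .nil)) .nil)) .nil)) (.cons 226 (.leaf 202 1623 (.cons 250 (.leaf 323 1815 (.cons 300 (.leaf 324 1820 (.cons 203 (.leaf 276 1628 (.cons 179 (.leaf 274 1430 (.leaf 155 1238 .nil)) .nil)) .nil)) .nil)) .nil)) (.cons 298 (.leaf 322 1814 (.cons 203 (.leaf 274 1622 (.cons 300 (.leaf 276 1628 (.leaf 324 1820 .nil)) .nil)) .nil)) (.cons 202 (.leaf 226 1623 (.cons 298 (.leaf 322 1814 (.cons 324 (.leaf 300 1820 (.cons 323 (.leaf 348 2012 (.cons 252 (.leaf 228 1821 (.cons 276 (.leaf 347 2013 (.cons 297 (.leaf 296 2368 (.cons 277 (.leaf 274 2186 (.leaf 278 2194 .nil)) .nil)) .nil)) .nil)) .nil)) .nil)) .nil)) .nil)) (.cons 300 (.leaf 324 1820 (.cons 202 (.leaf 226 1623 (.cons 203 (.leaf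 178 1431 (.leaf 276 1628 .nil)) .nil)) .nil)) .nil))))) (.cons 299 (.cons 202 (.leaf 226 1623 (.cons 204 (.leaf 228 1629 (.cons 322 (.leaf 298 1814 (.cons 323 (.leaf 346 2006 (.cons 324 (.leaf 300 1820 (.leaf 348 2012 .nil)) .nil)) .nil)) .nil)) .nil)) (.cons 204 (.leaf 228 1629 (.cons 180 (.leaf 203 1437 (.cons 322 (.leaf 298 1814 (.cons 323 (.leaf 346 2006 (.cons 324 (.leaf 300 1820 (.leaf 348 2012 .nil)) .nil)) .nil)) .nil)) .nil)) (.cons 202 (.leaf 226 1623 (.cons 178 (.leaf 203 1431 (.cons 228 (.leaf 204 1629 (.cons 323 (.leaf 252 1821 (.cons 324 (.leaf 300 1820 (.leaf 348 2012 .nil)) .nil)) .nil)) .nil)) .nil)) (.cons 226 (.leaf 202 1623 (.cons 322 (.leaf 298 1814 (.cons 323 (.leaf 250 1815 (.leaf 346 2006 .nil)) .nil)) .nil)) (.cons 298 (.leaf 322 1814 (.cons 202 (.leaf 226 1623 (.cons 203 (.leaf 178 1431 (.leaf 274 1622 .nil)) .nil)) .nil)) .nil))))) (.cons 203 (.cons 180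 (.leaf 204 1437 (.cons 179 (.leaf 156 1245 (.cons 276 (.leaf 300 1628 (.leaf 252 1436 .nil)) .nil)) .nil)) (.cons 178 (.leaf 202 1431 (.cons 179 (.leaf 154 1239 (.cons 276 (.leaf 300 1628 (.leaf 252 1436 .nil)) .nil)) .nil)) (.cons 202 (.leaf 178 1431 (.cons 180 (.leaf 204 1437 (.cons 179 (.leaf 156 1245 (.cons 181 (.leaf 182 1426 (.cons 200 (.leaf 201 1409 (.cons 226 (.leaf 299 1623 (.cons 155 (.leaf 250 1238 (.leaf 131 1046 .nil)) .nil)) .nil)) .nil)) .nil)) .nil)) .nil)) (.cons 178 (.leaf 202 1431 (.cons 204 (.leaf 180 1437 (.cons 299 (.leaf 228 1629 (.cons 300 (.leaf 276 1628 (.leaf 324 1820 .nil)) .nil)) .nil)) .nil)) .nil)))) (.cons 203 (.cons 178 (.leaf 202 1431 (.cons 204 (.leaf 180 1437 (.cons 179 (.leaf 154 1239 (.cons 274 (.leaf 298 1622 (.leaf 250 1430 .nil)) .nil)) .nil)) .nil)) (.cons 180 (.leaf 204 1437 (.cons 179 (.leaf 156 1245 (.cons 274 (.leaf 298 1622 (.leaf 250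 1430 .nil)) .nil)) .nil)) (.cons 178 (.leaf 202 1431 (.cons 179 (.leaf 154 1239 (.cons 274 (.leaf 298 1622 (.leaf 250 1430 .nil)) .nil)) .nil)) (.cons 204 (.leaf 180 1437 (.cons 178 (.leaf 202 1431 (.cons 179 (.leaf 154 1239 (.cons 176 (.leaf 177 1408 (.cons 205 (.leaf 206 1427 (.cons 228 (.leaf 299 1629 (.cons 155 (.leaf 252 1244 (.leaf 131 1052 .nil)) .nil)) .nil)) .nil)) .nil)) .nil)) .nil)) (.cons 178 (.leaf 202 1431 (.cons 204 (.leaf 180 1437 (.cons 298 (.leaf 274 1622 (.cons 299 (.leaf 228 1629 (.leaf 322 1814 .nil)) .nil)) .nil)) .nil)) .nil))))) (.cons 203 t3 .nil))))))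
noncomputable def t5 : T := .cons 203 (.cons 178 (.leaf 202 1431 (.cons 179 (.leaf 154 1239 (.cons 180 (.leaf 204 1437 (.leaf 156 1245 .nil)) .nil)) .nil)) (.cons 276 (.leaf 300 1628 (.cons 179 (.leaf 252 1436 (.cons 180 (.leaf 204 1437 (.leaf 156 1245 .nil)) .nil)) .nil)) (.cons 276 (.leaf 300 1628 (.cons 179 (.leaf 252 1436 (.cons 274 (.leaf 298 1622 (.leaf 250 1430 .nil)) .nil)) .nil)) (.cons 178 (.leaf 202 1431 (.cons 204 (.leaf 180 1437 (.cons 299 (.leaf 228 1629 (.cons 298 (.leaf 274 1622 (.leaf 322 1814 .nil)) .nil)) .nil)) .nil)) .nil)))) (.cons 299 (.cons 298 (.leaf 322 1814 (.cons 300 (.leaf 324 1820 (.cons 226 (.leaf 202 1623 (.cons 297 (.cons 276 (.leaf 296 2177 (.leaf 277 2185 .nil)) (.cons 272 (.leaf 273 2179 (.cons 296 (.leaf 271 2171 (.cons 320 (.leaf 319 2362 (.leaf 321 2370 .nil)) .nil)) .nil)) (.cons 273 (.leaf 272 2179 (.cons 274 (.leaf 301 2187 (.cons 276 (.leaf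 277 2185 (.cons 321 (.leaf 320 2370 (.leaf 250 1806 .nil)) .nil)) .nil)) .nil)) .nil))) .nil)) .nil)) .nil)) (.cons 228 (.leaf 204 1629 (.cons 323 (.leaf 252 1821 (.cons 322 (.leaf 298 1814 (.leaf 346 2006 .nil)) .nil)) .nil)) (.cons 228 (.leaf 204 1629 (.cons 323 (.leaf 252 1821 (.cons 324 (.leaf 300 1820 (.leaf 348 2012 .nil)) .nil)) .nil)) .nil))) (.cons 203 (.cons 274 (.leaf 298 1622 (.cons 179 (.leaf 250 1430 (.cons 154 (.leaf 178 1239 (.cons 155 (.leaf 130 1047 (.cons 156 (.leaf 180 1245 (.leaf 132 1053 .nil)) .nil)) .nil)) .nil)) .nil)) (.cons 276 (.leaf 300 1628 (.cons 178 (.leaf 202 1431 (.cons 179 (.leaf 154 1239 (.leaf 252 1436 .nil)) .nil)) .nil)) (.cons 276 (.leaf 300 1628 (.cons 179 (.leaf 252 1436 (.cons 180 (.leaf 204 1437 (.leaf 156 1245 .nil)) .nil)) .nil)) (.cons 202 (.leaf 178 1431 (.cons 204 (.leaf 180 1437 (.cons 276 (.leaf 300 1628 (.cons 274 (.leaf 298 1622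 (.cons 201 (.cons 176 (.leaf 177 1411 (.cons 200 (.leaf 228 1600 (.leaf 175 1403 .nil)) .nil)) (.cons 176 (.leaf 177 1411 (.cons 200 (.leaf 175 1403 (.cons 224 (.leaf 223 1594 (.leaf 225 1602 .nil)) .nil)) .nil)) (.cons 176 (.leaf 177 1411 (.cons 225 (.leaf 224 1602 (.cons 205 (.leaf 226 1610 (.cons 229 (.leaf 228 1608 (.leaf 230 1616 .nil)) .nil)) .nil)) .nil)) (.cons 228 (.leaf 200 1600 (.leaf 229 1608 .nil)) .nil)))) .nil)) .nil)) .nil)) .nil)) .nil)))) (.cons 203 (.cons 178 (.leaf 202 1431 (.cons 179 (.leaf 154 1239 (.cons 180 (.leaf 204 1437 (.leaf 156 1245 .nil)) .nil)) .nil)) (.cons 274 (.leaf 298 1622 (.cons 179 (.leaf 250 1430 (.cons 154 (.leaf 178 1239 (.cons 155 (.leaf 130 1047 (.cons 156 (.leaf 180 1245 (.leaf 132 1053 .nil)) .nil)) .nil)) .nil)) .nil)) (.cons 274 (.leaf 298 1622 (.cons 179 (.leaf 250 1430 (.cons 276 (.leaf 300 1628 (.leaf 252 1436 .nil)) .nil)) .nil))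 (.cons 178 (.leaf 202 1431 (.cons 180 (.leaf 204 1437 (.cons 298 (.leaf 274 1622 (.cons 299 (.leaf 322 1814 (.cons 300 (.leaf 276 1628 (.leaf 324 1820 .nil)) .nil)) .nil)) .nil)) .nil)) .nil)))) t4)))
noncomputable def t6 : T := .cons 204 (.leaf 228 1629 (.cons 300 (.leaf 324 1820 (.cons 322 (.leaf 298 1814 (.cons 323 (.leaf 346 2006 (.cons 250 (.leaf 226 1815 (.cons 274 (.leaf 347 2007 (.cons 273 (.leaf 272 2176 (.cons 252 (.leaf 253 1994 (.cons 276 (.leaf 203 1628 (.leaf 301 2184 .nil)) .nil)) .nil)) .nil)) .nil)) .nil)) .nil)) .nil)) .nil)) (.cons 204 (.leaf 228 1629 (.cons 203 (.leaf 180 1437 (.cons 300 (.leaf 276 1628 (.leaf 324 1820 .nil)) .nil)) .nil)) (.cons 204 (.leaf 228 1629 (.cons 203 (.leaf 180 1437 (.cons 274 (.leaf 298 1622 (.cons 250 (.leaf 179 1430 (.cons 323 (.leaf 226 1815 (.leaf 347 2007 .nil)) .nil)) .nil)) .nil)) .nil)) (.cons 298 (.leaf 322 1814 (.cons 203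 (.leaf 274 1622 (.cons 300 (.leaf 276 1628 (.leaf 324 1820 .nil)) .nil)) .nil)) (.cons 204 (.leaf 228 1629 (.cons 300 (.leaf 324 1820 (.cons 322 (.leaf 298 1814 (.cons 323 (.leaf 346 2006 (.cons 250 (.leaf 226 1815 (.cons 274 (.leaf 347 2007 (.cons 273 (.leaf 272 2176 (.cons 252 (.leaf 253 1994 (.cons 276 (.leaf 301 2184 (.cons 277 (.leaf 278 2003 (.cons 297 (.leaf 296 2178 (.cons 321 (.leaf 320 2369 (.leaf 345 1997 .nil)) .nil)) .nil)) .nil)) .nil)) .nil)) .nil)) .nil)) .nil)) .nil)) .nil)) .nil)) .nil))))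
noncomputable def t7 : T := .cons 203 (.cons 274 (.leaf 298 1622 (.cons 179 (.leaf 250 1430 (.cons 154 (.leaf 178 1239 (.cons 155 (.leaf 130 1047 (.cons 156 (.leaf 180 1245 (.leaf 132 1053 .nil)) .nil)) .nil)) .nil)) .nil)) (.cons 276 (.leaf 300 1628 (.cons 178 (.leaf 202 1431 (.cons 179 (.leaf 154 1239 (.leaf 252 1436 .nil)) .nil)) .nil)) (.cons 274 (.leaf 298 1622 (.cons 179 (.leaf 250 1430 (.cons 276 (.leaf 300 1628 (.leaf 252 1436 .nil)) .nil)) .nil)) (.cons 202 (.leaf 178 1431 (.cons 204 (.leaf 180 1437 (.cons 276 (.leaf 300 1628 (.cons 274 (.leaf 298 1622 (.cons 201 (.cons 176 (.leaf 177 1411 (.cons 200 (.leaf 228 1600 (.leaf 175 1403 .nil)) .nil)) (.cons 176 (.leaf 177 1411 (.cons 200 (.leaf 175 1403 (.cons 224 (.leaf 223 1594 (.leaf 225 1602 .nil)) .nil)) .nil)) (.cons 176 (.leaf 177 1411 (.cons 225 (.leaf 224 1602 (.cons 205 (.leaf 226 1610 (.cons 229 (.leaf 228 1608 (.leaf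 230 1616 .nil)) .nil)) .nil)) .nil)) (.cons 228 (.leaf 200 1600 (.leaf 229 1608 .nil)) .nil)))) .nil)) .nil)) .nil)) .nil)) .nil)))) (.cons 203 (.cons 274 (.leaf 298 1622 (.cons 179 (.leaf 250 1430 (.cons 154 (.leaf 178 1239 (.cons 155 (.leaf 130 1047 (.cons 156 (.leaf 180 1245 (.leaf 132 1053 .nil)) .nil)) .nil)) .nil)) .nil)) (.cons 276 (.leaf 300 1628 (.cons 178 (.leaf 202 1431 (.cons 179 (.leaf 154 1239 (.leaf 252 1436 .nil)) .nil)) .nil)) (.cons 274 (.leaf 298 1622 (.cons 179 (.leaf 250 1430 (.cons 276 (.leaf 300 1628 (.leaf 252 1436 .nil)) .nil)) .nil)) (.cons 204 (.leaf 180 1437 (.cons 276 (.leaf 300 1628 (.cons 298 (.leaf 274 1622 (.cons 299 (.leaf 228 1629 (.leaf 322 1814 .nil)) .nil)) .nil)) .nil)) .nil)))) (.cons 299 (.cons 202 (.leaf 226 1623 (.cons 178 (.leaf 203 1431 (.cons 324 (.leaf 300 1820 (.cons 323 (.leaf 348 2012 (.cons 252 (.leaf 228 1821 (.cons 346 (.leaf 322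 2006 (.cons 347 (.leaf 276 2013 (.leaf 370 2198 .nil)) .nil)) .nil)) .nil)) .nil)) .nil)) .nil)) (.cons 298 (.leaf 322 1814 (.cons 203 (.leaf 274 1622 (.cons 300 (.leaf 276 1628 (.leaf 324 1820 .nil)) .nil)) .nil)) (.cons 226 (.leaf 202 1623 (.cons 322 (.leaf 298 1814 (.cons 323 (.leaf 250 1815 (.leaf 346 2006 .nil)) .nil)) .nil)) (.cons 202 (.leaf 226 1623 (.cons 178 (.leaf 203 1431 (.cons 324 (.leaf 300 1820 (.cons 323 (.leaf 348 2012 (.cons 252 (.leaf 228 1821 (.cons 347 (.leaf 276 2013 (.cons 274 (.leaf 250 2007 (.cons 253 (.leaf 254 2002 (.cons 272 (.leaf 273 1985 (.cons 370 (.leaf 346 2198 (.cons 371 (.leaf 298 2199 (.leaf 394 2390 .nil)) .nil)) .nil)) .nil)) .nil)) .nil)) .nil)) .nil)) .nil)) .nil)) .nil)) .nil)))) (.cons 299 t6 (.cons 203 (.cons 178 (.leaf 202 1431 (.cons 179 (.leaf 154 1239 (.cons 180 (.leaf 204 1437 (.leaf 156 1245 .nil)) .nil)) .nil)) (.cons 202 (.leaf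 178 1431 (.cons 226 (.leaf 299 1623 (.cons 276 (.leaf 300 1628 (.cons 179 (.leaf 252 1436 (.cons 155 (.leaf 250 1238 (.leaf 131 1046 .nil)) .nil)) .nil)) .nil)) .nil)) (.cons 204 (.leaf 180 1437 (.cons 299 (.leaf 228 1629 (.cons 300 (.leaf 276 1628 (.leaf 324 1820 .nil)) .nil)) .nil)) .nil))) (.cons 203 (.cons 178 (.leaf 202 1431 (.cons 179 (.leaf 154 1239 (.cons 180 (.leaf 204 1437 (.leaf 156 1245 .nil)) .nil)) .nil)) (.cons 204 (.leaf 180 1437 (.cons 276 (.leaf 300 1628 (.cons 298 (.leaf 274 1622 (.cons 299 (.leaf 228 1629 (.leaf 322 1814 .nil)) .nil)) .nil)) .nil)) (.cons 178 (.leaf 202 1431 (.cons 154 (.leaf 179 1239 (.cons 298 (.leaf 274 1622 (.cons 299 (.leaf 322 1814 (.cons 300 (.leaf 276 1628 (.leaf 324 1820 .nil)) .nil)) .nil)) .nil)) .nil)) .nil))) (.cons 203 (.cons 180 (.leaf 204 1437 (.cons 179 (.leaf 156 1245 (.cons 250 (.leaf 274 1430 (.cons 226 (.leaf 155 1238 (.cons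 299 (.leaf 202 1623 (.leaf 323 1815 .nil)) .nil)) .nil)) .nil)) .nil)) (.cons 178 (.leaf 202 1431 (.cons 179 (.leaf 154 1239 (.cons 274 (.leaf 298 1622 (.leaf 250 1430 .nil)) .nil)) .nil)) (.cons 180 (.leaf 204 1437 (.cons 179 (.leaf 156 1245 (.cons 274 (.leaf 298 1622 (.leaf 250 1430 .nil)) .nil)) .nil)) (.cons 204 (.leaf 180 1437 (.cons 178 (.leaf 202 1431 (.cons 179 (.leaf 154 1239 (.cons 176 (.leaf 177 1408 (.cons 205 (.leaf 206 1427 (.cons 228 (.leaf 299 1629 (.cons 155 (.leaf 252 1244 (.leaf 131 1052 .nil)) .nil)) .nil)) .nil)) .nil)) .nil)) .nil)) (.cons 178 (.leaf 202 1431 (.cons 204 (.leaf 180 1437 (.cons 298 (.leaf 274 1622 (.cons 299 (.leaf 228 1629 (.leaf 322 1814 .nil)) .nil)) .nil)) .nil)) .nil))))) .nil))))))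
noncomputable def t8 : T := .cons 298 (.leaf 322 1814 (.cons 300 (.leaf 324 1820 (.cons 228 (.leaf 204 1629 (.cons 297 (.cons 276 (.leaf 296 2177 (.leaf 277 2185 .nil)) (.cons 272 (.leaf 273 2179 (.cons 296 (.leaf 271 2171 (.cons 320 (.leaf 319 2362 (.leaf 321 2370 .nil)) .nil)) .nil)) (.cons 272 (.leaf 273 2179 (.cons 277 (.leaf 276 2185 (.cons 301 (.leaf 278 2193 (.cons 226 (.leaf 202 1623 (.cons 323 (.leaf 250 1815 (.leaf 252 1821 .nil)) .nil)) .nil)) .nil)) .nil)) .nil))) .nil)) .nil)) .nil)) (.cons 298 (.leaf 322 1814 (.cons 300 (.leaf 324 1820 (.cons 228 (.leaf 204 1629 (.cons 297 (.cons 276 (.leaf 296 2177 (.leaf 277 2185 .nil)) (.cons 272 (.leaf 273 2179 (.cons 296 (.leaf 271 2171 (.cons 320 (.leaf 319 2362 (.leaf 321 2370 .nil)) .nil)) .nil)) (.cons 272 (.leaf 273 2179 (.cons 277 (.leaf 276 2185 (.cons 301 (.leaf 278 2193 (.cons 325 (.leaf 326 2384 (.cons 253 (.leaf 252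 1831 (.cons 230 (.leaf 254 1837 (.cons 229 (.leaf 250 1810 (.leaf 206 1645 .nil)) .nil)) .nil)) .nil)) .nil)) .nil)) .nil)) .nil))) .nil)) .nil)) .nil)) (.cons 226 (.leaf 202 1623 (.cons 322 (.leaf 298 1814 (.cons 323 (.leaf 250 1815 (.leaf 346 2006 .nil)) .nil)) .nil)) (.cons 228 (.leaf 204 1629 (.cons 323 (.leaf 252 1821 (.cons 324 (.leaf 300 1820 (.leaf 348 2012 .nil)) .nil)) .nil)) .nil)))
noncomputable def t9 : T := .cons 228 (.leaf 204 1629 (.cons 322 (.leaf 298 1814 (.cons 323 (.leaf 252 1821 (.leaf 346 2006 .nil)) .nil)) .nil)) (.cons 226 (.leaf 202 1623 (.cons 322 (.leaf 298 1814 (.cons 323 (.leaf 250 1815 (.leaf 346 2006 .nil)) .nil)) .nil)) (.cons 228 (.leaf 204 1629 (.cons 226 (.leaf 202 1623 (.cons 323 (.leaf 250 1815 (.leaf 252 1821 .nil)) .nil)) .nil)) (.cons 226 (.leaf 202 1623 (.cons 228 (.leaf 204 1629 (.cons 298 (.leaf 322 1814 (.cons 225 (.cons 200 (.leaf 201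 1603 (.cons 199 (.leaf 224 1595 (.cons 249 (.leaf 248 1794 (.cons 229 (.leaf 250 1802 (.cons 206 (.leaf 205 1617 (.cons 230 (.leaf 207 1625 (.cons 254 (.leaf 253 1808 (.leaf 255 1816 .nil)) .nil)) .nil)) .nil)) .nil)) .nil)) .nil)) (.cons 200 (.leaf 201 1603 (.cons 224 (.leaf 252 1792 (.leaf 199 1595 .nil)) .nil)) (.cons 200 (.leaf 201 1603 (.cons 248 (.leaf 249 1794 (.cons 253 (.leaf 252 1800 (.cons 229 (.leaf 254 1808 (.cons 206 (.leaf 205 1617 (.cons 230 (.leaf 250 1810 (.leaf 207 1625 .nil)) .nil)) .nil)) .nil)) .nil)) .nil)) (.cons 252 (.leaf 224 1792 (.leaf 253 1800 .nil)) .nil)))) .nil)) .nil)) .nil)) .nil)))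
noncomputable def t10 : T := .cons 178 (.leaf 202 1431 (.cons 204 (.leaf 180 1437 (.cons 179 (.leaf 154 1239 (.cons 274 (.leaf 298 1622 (.leaf 250 1430 .nil)) .nil)) .nil)) .nil)) (.cons 180 (.leaf 204 1437 (.cons 179 (.leaf 156 1245 (.cons 276 (.leaf 300 1628 (.leaf 252 1436 .nil)) .nil)) .nil)) (.cons 274 (.leaf 298 1622 (.cons 179 (.leaf 250 1430 (.cons 154 (.leaf 178 1239 (.cons 155 (.leaf 130 1047 (.cons 156 (.leaf 180 1245 (.leaf 132 1053 .nil)) .nil)) .nil)) .nil)) .nil)) (.cons 274 (.leaf 298 1622 (.cons 179 (.leaf 250 1430 (.cons 276 (.leaf 300 1628 (.leaf 252 1436 .nil)) .nil)) .nil)) (.cons 202 (.leaf 178 1431 (.cons 204 (.leaf 180 1437 (.cons 276 (.leaf 300 1628 (.cons 274 (.leaf 298 1622 (.cons 273 (.cons 249 (.leaf 248 1987 (.cons 250 (.leaf 277 1995 (.cons 252 (.leaf 272 1985 (.leaf 253 1993 .nil)) .nil)) .nil)) (.cons 249 (.leaf 248 1987 (.cons 250 (.leaf 277 1995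 (.cons 297 (.leaf 296 2178 (.leaf 226 1614 .nil)) .nil)) .nil)) (.cons 252 (.leaf 272 1985 (.leaf 253 1993 .nil)) .nil))) .nil)) .nil)) .nil)) .nil)) .nil))))
noncomputable def t11 : T := .cons 203 t10 (.cons 299 t9 (.cons 203 (.cons 274 (.leaf 298 1622 (.cons 179 (.leaf 250 1430 (.cons 154 (.leaf 178 1239 (.cons 155 (.leaf 130 1047 (.cons 156 (.leaf 180 1245 (.leaf 132 1053 .nil)) .nil)) .nil)) .nil)) .nil)) (.cons 178 (.leaf 202 1431 (.cons 179 (.leaf 154 1239 (.cons 180 (.leaf 204 1437 (.leaf 156 1245 .nil)) .nil)) .nil)) (.cons 274 (.leaf 298 1622 (.cons 179 (.leaf 250 1430 (.cons 276 (.leaf 300 1628 (.leaf 252 1436 .nil)) .nil)) .nil)) (.cons 178 (.leaf 202 1431 (.cons 204 (.leaf 180 1437 (.cons 298 (.leaf 274 1622 (.cons 299 (.leaf 228 1629 (.leaf 322 1814 .nil)) .nil)) .nil)) .nil)) .nil)))) (.cons 203 (.cons 178 (.leaf 202 1431 (.cons 204 (.leaf 180 1437 (.cons 179 (.leaf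 154 1239 (.cons 176 (.leaf 177 1408 (.cons 205 (.leaf 206 1427 (.cons 228 (.leaf 299 1629 (.cons 155 (.leaf 252 1244 (.leaf 131 1052 .nil)) .nil)) .nil)) .nil)) .nil)) .nil)) .nil)) (.cons 202 (.leaf 178 1431 (.cons 276 (.leaf 300 1628 (.cons 298 (.leaf 274 1622 (.cons 299 (.leaf 226 1623 (.leaf 322 1814 .nil)) .nil)) .nil)) .nil)) (.cons 204 (.leaf 180 1437 (.cons 276 (.leaf 300 1628 (.cons 298 (.leaf 274 1622 (.cons 299 (.leaf 228 1629 (.leaf 322 1814 .nil)) .nil)) .nil)) .nil)) (.cons 180 (.leaf 204 1437 (.cons 179 (.leaf 156 1245 (.cons 276 (.leaf 300 1628 (.leaf 252 1436 .nil)) .nil)) .nil)) .nil)))) (.cons 203 (.cons 274 (.leaf 298 1622 (.cons 179 (.leaf 250 1430 (.cons 154 (.leaf 178 1239 (.cons 155 (.leaf 130 1047 (.cons 156 (.leaf 180 1245 (.leaf 132 1053 .nil)) .nil)) .nil)) .nil)) .nil)) (.cons 180 (.leaf 204 1437 (.cons 179 (.leaf 156 1245 (.cons 276 (.leaf 300 1628 (.leaf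 252 1436 .nil)) .nil)) .nil)) (.cons 274 (.leaf 298 1622 (.cons 179 (.leaf 250 1430 (.cons 276 (.leaf 300 1628 (.leaf 252 1436 .nil)) .nil)) .nil)) (.cons 204 (.leaf 180 1437 (.cons 276 (.leaf 300 1628 (.cons 298 (.leaf 274 1622 (.cons 299 (.leaf 228 1629 (.leaf 322 1814 .nil)) .nil)) .nil)) .nil)) .nil)))) (.cons 203 (.cons 178 (.leaf 202 1431 (.cons 179 (.leaf 154 1239 (.cons 276 (.leaf 300 1628 (.leaf 252 1436 .nil)) .nil)) .nil)) (.cons 274 (.leaf 298 1622 (.cons 179 (.leaf 250 1430 (.cons 154 (.leaf 178 1239 (.cons 155 (.leaf 130 1047 (.cons 156 (.leaf 180 1245 (.leaf 132 1053 .nil)) .nil)) .nil)) .nil)) .nil)) (.cons 274 (.leaf 298 1622 (.cons 179 (.leaf 250 1430 (.cons 276 (.leaf 300 1628 (.leaf 252 1436 .nil)) .nil)) .nil)) (.cons 202 (.leaf 178 1431 (.cons 276 (.leaf 300 1628 (.cons 298 (.leaf 274 1622 (.cons 299 (.leaf 226 1623 (.leaf 322 1814 .nil)) .nil)) .nil)) .nil))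 .nil)))) (.cons 203 (.cons 178 (.leaf 202 1431 (.cons 179 (.leaf 154 1239 (.cons 180 (.leaf 204 1437 (.leaf 156 1245 .nil)) .nil)) .nil)) (.cons 180 (.leaf 204 1437 (.cons 179 (.leaf 156 1245 (.cons 276 (.leaf 300 1628 (.leaf 252 1436 .nil)) .nil)) .nil)) (.cons 202 (.leaf 178 1431 (.cons 226 (.leaf 299 1623 (.cons 276 (.leaf 300 1628 (.cons 179 (.leaf 252 1436 (.cons 155 (.leaf 250 1238 (.leaf 131 1046 .nil)) .nil)) .nil)) .nil)) .nil)) (.cons 202 (.leaf 178 1431 (.cons 204 (.leaf 180 1437 (.cons 299 (.leaf 226 1623 (.leaf 228 1629 .nil)) .nil)) .nil)) .nil)))) (.cons 203 (.cons 180 (.leaf 204 1437 (.cons 179 (.leaf 156 1245 (.cons 250 (.leaf 274 1430 (.cons 226 (.leaf 155 1238 (.cons 299 (.leaf 202 1623 (.leaf 323 1815 .nil)) .nil)) .nil)) .nil)) .nil)) (.cons 180 (.leaf 204 1437 (.cons 179 (.leaf 156 1245 (.cons 274 (.leaf 298 1622 (.leaf 250 1430 .nil)) .nil)) .nil)) (.cons 178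 (.leaf 202 1431 (.cons 179 (.leaf 154 1239 (.cons 274 (.leaf 298 1622 (.leaf 250 1430 .nil)) .nil)) .nil)) (.cons 202 (.leaf 178 1431 (.cons 204 (.leaf 180 1437 (.cons 299 (.leaf 226 1623 (.leaf 228 1629 .nil)) .nil)) .nil)) .nil)))) .nil)))))))
noncomputable def t12 : T := .cons 226 (.leaf 202 1623 (.cons 323 (.leaf 250 1815 (.cons 324 (.leaf 300 1820 (.leaf 348 2012 .nil)) .nil)) .nil)) (.cons 228 (.leaf 204 1629 (.cons 323 (.leaf 252 1821 (.cons 324 (.leaf 300 1820 (.leaf 348 2012 .nil)) .nil)) .nil)) (.cons 226 (.leaf 202 1623 (.cons 228 (.leaf 204 1629 (.cons 323 (.leaf 250 1815 (.leaf 252 1821 .nil)) .nil)) .nil)) (.cons 226 (.leaf 202 1623 (.cons 228 (.leaf 204 1629 (.cons 300 (.leaf 324 1820 (.cons 225 (.cons 200 (.leaf 201 1603 (.cons 199 (.leaf 224 1595 (.cons 249 (.leaf 248 1794 (.cons 229 (.leaf 250 1802 (.cons 206 (.leaf 205 1617 (.cons 230 (.leaf 207 1625 (.cons 254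 (.leaf 253 1808 (.leaf 255 1816 .nil)) .nil)) .nil)) .nil)) .nil)) .nil)) .nil)) (.cons 200 (.leaf 201 1603 (.cons 248 (.leaf 249 1794 (.cons 253 (.leaf 252 1800 (.cons 229 (.leaf 254 1808 (.cons 206 (.leaf 205 1617 (.cons 230 (.leaf 250 1810 (.leaf 207 1625 .nil)) .nil)) .nil)) .nil)) .nil)) .nil)) (.cons 200 (.leaf 201 1603 (.cons 224 (.leaf 252 1792 (.leaf 199 1595 .nil)) .nil)) (.cons 252 (.leaf 224 1792 (.leaf 253 1800 .nil)) .nil)))) .nil)) .nil)) .nil)) .nil)))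
noncomputable def t13 : T := .cons 203 (.cons 178 (.leaf 202 1431 (.cons 179 (.leaf 154 1239 (.cons 180 (.leaf 204 1437 (.leaf 156 1245 .nil)) .nil)) .nil)) (.cons 180 (.leaf 204 1437 (.cons 179 (.leaf 156 1245 (.cons 276 (.leaf 300 1628 (.leaf 252 1436 .nil)) .nil)) .nil)) (.cons 178 (.leaf 202 1431 (.cons 179 (.leaf 154 1239 (.cons 276 (.leaf 300 1628 (.leaf 252 1436 .nil)) .nil)) .nil)) (.cons 202 (.leaf 178 1431 (.cons 204 (.leaf 180 1437 (.cons 276 (.leaf 300 1628 (.cons 274 (.leaf 298 1622 (.cons 273 (.cons 249 (.leaf 248 1987 (.cons 250 (.leaf 277 1995 (.cons 252 (.leaf 272 1985 (.leaf 253 1993 .nil)) .nil)) .nil)) (.cons 249 (.leaf 248 1987 (.cons 250 (.leaf 277 1995 (.cons 297 (.leaf 296 2178 (.leaf 226 1614 .nil)) .nil)) .nil)) (.cons 252 (.leaf 272 1985 (.leaf 253 1993 .nil)) .nil))) .nil)) .nil)) .nil)) .nil)) .nil)))) (.cons 299 t12 (.cons 203 (.cons 180 (.leaf 204 1437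 (.cons 179 (.leaf 156 1245 (.cons 276 (.leaf 300 1628 (.leaf 252 1436 .nil)) .nil)) .nil)) (.cons 180 (.leaf 204 1437 (.cons 179 (.leaf 156 1245 (.cons 274 (.leaf 298 1622 (.leaf 250 1430 .nil)) .nil)) .nil)) (.cons 276 (.leaf 300 1628 (.cons 178 (.leaf 202 1431 (.cons 179 (.leaf 154 1239 (.leaf 252 1436 .nil)) .nil)) .nil)) (.cons 178 (.leaf 202 1431 (.cons 204 (.leaf 180 1437 (.cons 299 (.leaf 228 1629 (.cons 300 (.leaf 276 1628 (.leaf 324 1820 .nil)) .nil)) .nil)) .nil)) .nil)))) (.cons 203 (.cons 180 (.leaf 204 1437 (.cons 179 (.leaf 156 1245 (.cons 250 (.leaf 274 1430 (.cons 226 (.leaf 155 1238 (.cons 299 (.leaf 202 1623 (.leaf 323 1815 .nil)) .nil)) .nil)) .nil)) .nil)) (.cons 180 (.leaf 204 1437 (.cons 179 (.leaf 156 1245 (.cons 274 (.leaf 298 1622 (.leaf 250 1430 .nil)) .nil)) .nil)) (.cons 202 (.leaf 178 1431 (.cons 274 (.leaf 298 1622 (.cons 299 (.leaf 226 1623 (.cons 300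 (.leaf 276 1628 (.leaf 324 1820 .nil)) .nil)) .nil)) .nil)) (.cons 178 (.leaf 202 1431 (.cons 179 (.leaf 154 1239 (.cons 180 (.leaf 204 1437 (.leaf 156 1245 .nil)) .nil)) .nil)) .nil)))) (.cons 203 (.cons 180 (.leaf 204 1437 (.cons 179 (.leaf 156 1245 (.cons 276 (.leaf 300 1628 (.leaf 252 1436 .nil)) .nil)) .nil)) (.cons 204 (.leaf 180 1437 (.cons 228 (.leaf 299 1629 (.cons 274 (.leaf 298 1622 (.cons 179 (.leaf 250 1430 (.cons 154 (.leaf 178 1239 (.cons 155 (.leaf 130 1047 (.leaf 252 1244 .nil)) .nil)) .nil)) .nil)) .nil)) .nil)) (.cons 274 (.leaf 298 1622 (.cons 179 (.leaf 250 1430 (.cons 154 (.leaf 178 1239 (.cons 155 (.leaf 130 1047 (.cons 156 (.leaf 180 1245 (.leaf 132 1053 .nil)) .nil)) .nil)) .nil)) .nil)) (.cons 274 (.leaf 298 1622 (.cons 179 (.leaf 250 1430 (.cons 276 (.leaf 300 1628 (.leaf 252 1436 .nil)) .nil)) .nil)) (.cons 204 (.leaf 180 1437 (.cons 299 (.leaf 228 1629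 (.cons 300 (.leaf 276 1628 (.leaf 324 1820 .nil)) .nil)) .nil)) .nil))))) (.cons 203 (.cons 202 (.leaf 178 1431 (.cons 274 (.leaf 298 1622 (.cons 299 (.leaf 226 1623 (.cons 250 (.leaf 179 1430 (.cons 300 (.leaf 276 1628 (.leaf 324 1820 .nil)) .nil)) .nil)) .nil)) .nil)) (.cons 178 (.leaf 202 1431 (.cons 179 (.leaf 154 1239 (.cons 274 (.leaf 298 1622 (.leaf 250 1430 .nil)) .nil)) .nil)) (.cons 276 (.leaf 300 1628 (.cons 179 (.leaf 252 1436 (.cons 274 (.leaf 298 1622 (.leaf 250 1430 .nil)) .nil)) .nil)) (.cons 178 (.leaf 202 1431 (.cons 179 (.leaf 154 1239 (.cons 276 (.leaf 300 1628 (.leaf 252 1436 .nil)) .nil)) .nil)) (.cons 202 (.leaf 178 1431 (.cons 274 (.leaf 298 1622 (.cons 299 (.leaf 226 1623 (.cons 300 (.leaf 276 1628 (.leaf 324 1820 .nil)) .nil)) .nil)) .nil)) .nil))))) (.cons 203 (.cons 178 (.leaf 202 1431 (.cons 179 (.leaf 154 1239 (.cons 180 (.leaf 204 1437 (.leaf 156 1245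 .nil)) .nil)) .nil)) (.cons 202 (.leaf 178 1431 (.cons 274 (.leaf 298 1622 (.cons 299 (.leaf 226 1623 (.cons 300 (.leaf 276 1628 (.leaf 324 1820 .nil)) .nil)) .nil)) .nil)) (.cons 180 (.leaf 204 1437 (.cons 179 (.leaf 156 1245 (.cons 276 (.leaf 300 1628 (.leaf 252 1436 .nil)) .nil)) .nil)) .nil))) (.cons 203 (.cons 178 (.leaf 202 1431 (.cons 179 (.leaf 154 1239 (.cons 180 (.leaf 204 1437 (.leaf 156 1245 .nil)) .nil)) .nil)) (.cons 180 (.leaf 204 1437 (.cons 179 (.leaf 156 1245 (.cons 274 (.leaf 298 1622 (.leaf 250 1430 .nil)) .nil)) .nil)) (.cons 178 (.leaf 202 1431 (.cons 179 (.leaf 154 1239 (.cons 274 (.leaf 298 1622 (.leaf 250 1430 .nil)) .nil)) .nil)) (.cons 202 (.leaf 178 1431 (.cons 204 (.leaf 180 1437 (.cons 299 (.leaf 226 1623 (.leaf 228 1629 .nil)) .nil)) .nil)) .nil)))) .nil)))))))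
noncomputable def t14 : T := .cons 298 (.leaf 322 1814 (.cons 203 (.leaf 274 1622 (.cons 178 (.leaf 202 1431 (.cons 179 (.leaf 154 1239 (.cons 180 (.leaf 204 1437 (.leaf 156 1245 .nil)) .nil)) .nil)) .nil)) .nil)) (.cons 228 (.leaf 204 1629 (.cons 202 (.leaf 226 1623 (.cons 178 (.leaf 203 1431 (.cons 323 (.leaf 252 1821 (.cons 346 (.leaf 322 2006 (.cons 347 (.leaf 370 2198 (.cons 348 (.leaf 324 2012 (.leaf 372 2204 .nil)) .nil)) .nil)) .nil)) .nil)) .nil)) .nil)) (.cons 298 (.leaf 322 1814 (.cons 202 (.leaf 226 1623 (.cons 203 (.leaf 178 1431 (.leaf 274 1622 .nil)) .nil)) .nil)) (.cons 228 (.leaf 204 1629 (.cons 202 (.leaf 226 1623 (.cons 203 (.leaf 178 1431 (.cons 200 (.leaf 201 1600 (.cons 229 (.leaf 230 1619 (.cons 252 (.leaf 323 1821 (.cons 179 (.leaf 276 1436 (.leaf 155 1244 .nil)) .nil)) .nil)) .nil)) .nil)) .nil)) .nil)) (.cons 298 (.leaf 322 1814 (.cons 203 (.leaf 274 1622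 (.cons 204 (.leaf 180 1437 (.leaf 228 1629 .nil)) .nil)) .nil)) (.cons 228 (.leaf 204 1629 (.cons 202 (.leaf 226 1623 (.cons 298 (.leaf 322 1814 (.cons 323 (.leaf 252 1821 (.cons 348 (.leaf 324 2012 (.cons 347 (.leaf 372 2204 (.cons 370 (.leaf 346 2198 (.cons 371 (.leaf 274 2199 (.leaf 394 2390 .nil)) .nil)) .nil)) .nil)) .nil)) .nil)) .nil)) .nil)) .nil)))))
noncomputable def t15 : T := .cons 250 (.leaf 226 1815 (.cons 252 (.leaf 228 1821 (.cons 324 (.leaf 348 2012 (.cons 322 (.leaf 346 2006 (.cons 249 (.cons 277 (.leaf 276 1992 (.cons 224 (.leaf 225 1795 (.cons 253 (.leaf 278 2000 (.cons 230 (.leaf 229 1809 (.cons 254 (.leaf 274 2002 (.leaf 231 1817 .nil)) .nil)) .nil)) .nil)) .nil)) (.cons 273 (.leaf 272 1986 (.cons 224 (.leaf 225 1795 (.cons 248 (.leaf 223 1787 (.cons 274 (.leaf 247 1976 (.leaf 347 2007 .nil)) .nil)) .nil)) .nil)) (.cons 276 (.leaf 248 1984 (.leaf 347 2013 .nil))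 .nil))) .nil)) .nil)) .nil)) .nil)) (.cons 252 (.leaf 228 1821 (.cons 347 (.leaf 276 2013 (.cons 346 (.leaf 322 2006 (.leaf 370 2198 .nil)) .nil)) .nil)) (.cons 250 (.leaf 226 1815 (.cons 347 (.leaf 274 2007 (.cons 348 (.leaf 324 2012 (.leaf 372 2204 .nil)) .nil)) .nil)) (.cons 250 (.leaf 226 1815 (.cons 252 (.leaf 228 1821 (.cons 324 (.leaf 348 2012 (.cons 322 (.leaf 346 2006 (.cons 249 (.cons 277 (.leaf 276 1992 (.cons 224 (.leaf 225 1795 (.cons 253 (.leaf 278 2000 (.cons 230 (.leaf 229 1809 (.cons 254 (.leaf 274 2002 (.leaf 231 1817 .nil)) .nil)) .nil)) .nil)) .nil)) (.cons 273 (.leaf 272 1986 (.cons 224 (.leaf 225 1795 (.cons 248 (.leaf 223 1787 (.cons 274 (.leaf 247 1976 (.leaf 253 1994 .nil)) .nil)) .nil)) .nil)) (.cons 276 (.leaf 248 1984 (.leaf 277 1992 .nil)) .nil))) .nil)) .nil)) .nil)) .nil)) .nil)))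
noncomputable def t16 : T := .cons 298 (.leaf 322 1814 (.cons 203 (.leaf 274 1622 (.cons 178 (.leaf 202 1431 (.cons 179 (.leaf 154 1239 (.cons 180 (.leaf 204 1437 (.leaf 156 1245 .nil)) .nil)) .nil)) .nil)) .nil)) (.cons 202 (.leaf 226 1623 (.cons 203 (.leaf 178 1431 (.cons 204 (.leaf 180 1437 (.leaf 228 1629 .nil)) .nil)) .nil)) (.cons 298 (.leaf 322 1814 (.cons 203 (.leaf 274 1622 (.cons 204 (.leaf 180 1437 (.leaf 228 1629 .nil)) .nil)) .nil)) (.cons 298 (.leaf 322 1814 (.cons 202 (.leaf 226 1623 (.cons 203 (.leaf 178 1431 (.leaf 274 1622 .nil)) .nil)) .nil)) (.cons 226 (.leaf 202 1623 (.cons 228 (.leaf 204 1629 (.cons 298 (.leaf 322 1814 (.cons 225 (.cons 200 (.leaf 201 1603 (.cons 199 (.leaf 224 1595 (.cons 249 (.leaf 248 1794 (.cons 229 (.leaf 250 1802 (.cons 206 (.leaf 205 1617 (.cons 230 (.leaf 207 1625 (.cons 254 (.leaf 253 1808 (.leaf 255 1816 .nil)) .nil)) .nil)) .nil))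 .nil)) .nil)) .nil)) (.cons 200 (.leaf 201 1603 (.cons 224 (.leaf 252 1792 (.leaf 199 1595 .nil)) .nil)) (.cons 200 (.leaf 201 1603 (.cons 248 (.leaf 249 1794 (.cons 253 (.leaf 252 1800 (.cons 229 (.leaf 254 1808 (.cons 206 (.leaf 205 1617 (.cons 230 (.leaf 250 1810 (.leaf 207 1625 .nil)) .nil)) .nil)) .nil)) .nil)) .nil)) (.cons 252 (.leaf 224 1792 (.leaf 253 1800 .nil)) .nil)))) .nil)) .nil)) .nil)) .nil))))
noncomputable def t17 : T := .cons 323 (.cons 252 (.leaf 228 1821 (.cons 276 (.leaf 347 2013 (.cons 322 (.leaf 346 2006 (.cons 298 (.leaf 227 1814 (.cons 277 (.leaf 278 2194 (.cons 297 (.leaf 274 2186 (.leaf 296 2177 .nil)) .nil)) .nil)) .nil)) .nil)) .nil)) (.cons 226 (.leaf 250 1815 (.cons 227 (.leaf 202 1623 (.cons 322 (.leaf 298 1814 (.leaf 346 2006 .nil)) .nil)) .nil)) (.cons 252 (.leaf 228 1821 (.cons 347 (.leaf 276 2013 (.cons 348 (.leaf 324 2012 (.leaf 372 2204 .nil))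 .nil)) .nil)) .nil))) (.cons 227 t16 (.cons 323 t15 (.cons 227 t14 (.cons 227 (.cons 202 (.leaf 226 1623 (.cons 203 (.leaf 178 1431 (.cons 204 (.leaf 180 1437 (.leaf 228 1629 .nil)) .nil)) .nil)) (.cons 298 (.leaf 322 1814 (.cons 203 (.leaf 274 1622 (.cons 178 (.leaf 202 1431 (.cons 179 (.leaf 154 1239 (.cons 180 (.leaf 204 1437 (.leaf 156 1245 .nil)) .nil)) .nil)) .nil)) .nil)) (.cons 298 (.leaf 322 1814 (.cons 203 (.leaf 274 1622 (.cons 204 (.leaf 180 1437 (.leaf 228 1629 .nil)) .nil)) .nil)) (.cons 298 (.leaf 322 1814 (.cons 202 (.leaf 226 1623 (.cons 203 (.leaf 178 1431 (.leaf 274 1622 .nil)) .nil)) .nil)) (.cons 226 (.leaf 202 1623 (.cons 204 (.leaf 228 1629 (.cons 298 (.leaf 322 1814 (.cons 323 (.leaf 250 1815 (.cons 348 (.leaf 324 2012 (.cons 347 (.leaf 372 2204 (.cons 370 (.leaf 346 2198 (.cons 371 (.leaf 274 2199 (.leaf 394 2390 .nil)) .nil)) .nil)) .nil)) .nil)) .nil))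 .nil)) .nil)) .nil))))) (.cons 323 (.cons 228 (.leaf 252 1821 (.cons 346 (.leaf 322 2006 (.cons 347 (.leaf 370 2198 (.cons 348 (.leaf 324 2012 (.leaf 372 2204 .nil)) .nil)) .nil)) .nil)) (.cons 322 (.leaf 346 2006 (.cons 298 (.leaf 227 1814 (.cons 324 (.leaf 348 2012 (.cons 297 (.leaf 296 2368 (.leaf 325 2379 .nil)) .nil)) .nil)) .nil)) (.cons 228 (.leaf 252 1821 (.cons 204 (.leaf 227 1629 (.cons 348 (.leaf 324 2012 (.cons 347 (.leaf 372 2204 (.cons 274 (.leaf 250 2007 (.cons 370 (.leaf 346 2198 (.cons 371 (.leaf 298 2199 (.leaf 394 2390 .nil)) .nil)) .nil)) .nil)) .nil)) .nil)) .nil)) (.cons 228 (.leaf 252 1821 (.cons 227 (.leaf 204 1629 (.cons 298 (.leaf 322 1814 (.cons 274 (.leaf 203 1622 (.cons 347 (.leaf 250 2007 (.leaf 371 2199 .nil)) .nil)) .nil)) .nil)) .nil)) .nil)))) (.cons 323 (.cons 250 (.leaf 226 1815 (.cons 347 (.leaf 274 2007 (.cons 348 (.leaf 324 2012 (.leaf 372 2204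 .nil)) .nil)) .nil)) (.cons 322 (.leaf 346 2006 (.cons 298 (.leaf 227 1814 (.cons 324 (.leaf 348 2012 (.cons 297 (.leaf 296 2368 (.leaf 325 2379 .nil)) .nil)) .nil)) .nil)) (.cons 226 (.leaf 250 1815 (.cons 227 (.leaf 202 1623 (.cons 322 (.leaf 298 1814 (.leaf 346 2006 .nil)) .nil)) .nil)) .nil))) (.cons 323 (.cons 252 (.leaf 228 1821 (.cons 347 (.leaf 276 2013 (.cons 348 (.leaf 324 2012 (.leaf 372 2204 .nil)) .nil)) .nil)) (.cons 250 (.leaf 226 1815 (.cons 347 (.leaf 274 2007 (.cons 348 (.leaf 324 2012 (.leaf 372 2204 .nil)) .nil)) .nil)) (.cons 226 (.leaf 250 1815 (.cons 227 (.leaf 202 1623 (.cons 228 (.leaf 204 1629 (.leaf 252 1821 .nil)) .nil)) .nil)) .nil))) (.cons 323 (.cons 226 (.leaf 250 1815 (.cons 227 (.leaf 202 1623 (.cons 228 (.leaf 204 1629 (.leaf 252 1821 .nil)) .nil)) .nil)) (.cons 226 (.leaf 250 1815 (.cons 227 (.leaf 202 1623 (.cons 322 (.leaf 298 1814 (.leaf 346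 2006 .nil)) .nil)) .nil)) (.cons 322 (.leaf 346 2006 (.cons 298 (.leaf 227 1814 (.cons 324 (.leaf 348 2012 (.cons 297 (.leaf 296 2368 (.leaf 325 2379 .nil)) .nil)) .nil)) .nil)) (.cons 252 (.leaf 228 1821 (.cons 347 (.leaf 276 2013 (.cons 346 (.leaf 322 2006 (.leaf 370 2198 .nil)) .nil)) .nil)) .nil)))) .nil))))))))
noncomputable def t18 : T := .cons 226 (.leaf 250 1815 (.cons 202 (.leaf 227 1623 (.cons 252 (.leaf 228 1821 (.cons 346 (.leaf 322 2006 (.cons 347 (.leaf 276 2013 (.leaf 370 2198 .nil)) .nil)) .nil)) .nil)) .nil)) (.cons 322 (.leaf 346 2006 (.cons 227 (.leaf 298 1814 (.cons 252 (.leaf 228 1821 (.cons 276 (.leaf 347 2013 (.cons 203 (.leaf 300 1628 (.leaf 179 1436 .nil)) .nil)) .nil)) .nil)) .nil)) (.cons 250 (.leaf 226 1815 (.cons 274 (.leaf 347 2007 (.cons 322 (.leaf 346 2006 (.cons 298 (.leaf 227 1813 (.cons 321 (.leaf 345 1998 (.cons 300 (.leaf 301 2378 (.leaf 320 2369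 .nil)) .nil)) .nil)) .nil)) .nil)) .nil)) (.cons 226 (.leaf 250 1815 (.cons 202 (.leaf 227 1623 (.cons 252 (.leaf 228 1821 (.cons 347 (.leaf 276 2013 (.cons 370 (.leaf 346 2198 (.cons 371 (.leaf 394 2390 (.cons 372 (.leaf 348 2204 (.leaf 396 2396 .nil)) .nil)) .nil)) .nil)) .nil)) .nil)) .nil)) (.cons 250 (.leaf 226 1815 (.cons 252 (.leaf 228 1821 (.cons 347 (.leaf 274 2007 (.leaf 276 2013 .nil)) .nil)) .nil)) (.cons 322 (.leaf 346 2006 (.cons 226 (.leaf 250 1815 (.cons 227 (.leaf 202 1623 (.leaf 298 1814 .nil)) .nil)) .nil)) .nil)))))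
noncomputable def t19 : T := .cons 252 (.leaf 228 1821 (.cons 276 (.leaf 347 2013 (.cons 322 (.leaf 346 2006 (.cons 227 (.leaf 298 1814 (.cons 300 (.leaf 203 1628 (.leaf 324 1820 .nil)) .nil)) .nil)) .nil)) .nil)) (.cons 322 (.leaf 346 2006 (.cons 227 (.leaf 298 1814 (.cons 252 (.leaf 228 1821 (.cons 276 (.leaf 347 2013 (.cons 203 (.leaf 300 1628 (.leaf 179 1436 .nil)) .nil)) .nil)) .nil)) .nil)) (.cons 324 (.leaf 348 2012 (.cons 227 (.leaf 300 1820 (.cons 252 (.leaf 228 1821 (.cons 276 (.leaf 347 2013 (.cons 203 (.leaf 179 1436 (.cons 178 (.leaf 202 1431 (.cons 274 (.leaf 298 1622 (.cons 253 (.leaf 254 2002 (.leaf 273 1993 .nil)) .nil)) .nil)) .nil)) .nil)) .nil)) .nil)) .nil)) (.cons 324 (.leaf 348 2012 (.cons 300 (.leaf 227 1820 (.cons 322 (.leaf 346 2006 (.cons 321 (.leaf 320 2369 (.leaf 301 2377 .nil)) .nil)) .nil)) .nil)) (.cons 322 (.leaf 346 2006 (.cons 227 (.leaf 298 1814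 (.cons 252 (.leaf 228 1821 (.cons 347 (.leaf 276 2013 (.cons 348 (.leaf 324 2012 (.leaf 372 2204 .nil)) .nil)) .nil)) .nil)) .nil)) (.cons 252 (.leaf 228 1821 (.cons 322 (.leaf 346 2006 (.cons 347 (.leaf 276 2013 (.cons 348 (.leaf 324 2012 (.leaf 372 2204 .nil)) .nil)) .nil)) .nil)) .nil)))))
noncomputable def t20 : T := .cons 250 (.leaf 226 1815 (.cons 228 (.leaf 252 1821 (.cons 347 (.leaf 274 2007 (.cons 348 (.leaf 324 2012 (.leaf 372 2204 .nil)) .nil)) .nil)) .nil)) (.cons 252 (.leaf 228 1821 (.cons 322 (.leaf 346 2006 (.cons 347 (.leaf 276 2013 (.cons 348 (.leaf 324 2012 (.leaf 372 2204 .nil)) .nil)) .nil)) .nil)) (.cons 250 (.leaf 226 1815 (.cons 322 (.leaf 346 2006 (.cons 347 (.leaf 274 2007 (.cons 348 (.leaf 324 2012 (.leaf 372 2204 .nil)) .nil)) .nil)) .nil)) (.cons 250 (.leaf 226 1815 (.cons 228 (.leaf 252 1821 (.cons 346 (.leaf 322 2006 (.cons 347 (.leaf 274 2007 (.leaf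 370 2198 .nil)) .nil)) .nil)) .nil)) (.cons 250 (.leaf 226 1815 (.cons 252 (.leaf 228 1821 (.cons 324 (.leaf 348 2012 (.cons 322 (.leaf 346 2006 (.cons 249 (.cons 277 (.leaf 276 1992 (.cons 224 (.leaf 225 1795 (.cons 253 (.leaf 278 2000 (.cons 230 (.leaf 229 1809 (.cons 254 (.leaf 274 2002 (.leaf 231 1817 .nil)) .nil)) .nil)) .nil)) .nil)) (.cons 273 (.leaf 272 1986 (.cons 224 (.leaf 225 1795 (.cons 248 (.leaf 223 1787 (.cons 274 (.leaf 247 1976 (.leaf 253 1994 .nil)) .nil)) .nil)) .nil)) (.cons 276 (.leaf 248 1984 (.leaf 277 1992 .nil)) .nil))) .nil)) .nil)) .nil)) .nil)) .nil))))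
noncomputable def t21 : T := .cons 323 (.cons 226 (.leaf 250 1815 (.cons 227 (.leaf 202 1623 (.cons 252 (.leaf 228 1821 (.cons 224 (.leaf 225 1792 (.cons 253 (.leaf 254 1811 (.cons 276 (.leaf 347 2013 (.cons 300 (.leaf 203 1628 (.leaf 324 1820 .nil)) .nil)) .nil)) .nil)) .nil)) .nil)) .nil)) (.cons 228 (.leaf 252 1821 (.cons 322 (.leaf 346 2006 (.cons 227 (.leaf 298 1814 (.cons 324 (.leaf 300 1820 (.leaf 348 2012 .nil)) .nil)) .nil)) .nil)) (.cons 226 (.leaf 250 1815 (.cons 227 (.leaf 202 1623 (.cons 322 (.leaf 298 1814 (.leaf 346 2006 .nil)) .nil)) .nil)) (.cons 226 (.leaf 250 1815 (.cons 228 (.leaf 252 1821 (.cons 346 (.leaf 322 2006 (.cons 347 (.leaf 370 2198 (.cons 348 (.leaf 324 2012 (.leaf 372 2204 .nil)) .nil)) .nil)) .nil)) .nil)) .nil)))) (.cons 227 (.cons 298 (.leaf 322 1814 (.cons 202 (.leaf 226 1623 (.cons 203 (.leaf 178 1431 (.leaf 274 1622 .nil)) .nil)) .nil)) (.cons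 300 (.leaf 324 1820 (.cons 202 (.leaf 226 1623 (.cons 203 (.leaf 178 1431 (.leaf 276 1628 .nil)) .nil)) .nil)) (.cons 298 (.leaf 322 1814 (.cons 203 (.leaf 274 1622 (.cons 300 (.leaf 276 1628 (.leaf 324 1820 .nil)) .nil)) .nil)) (.cons 298 (.leaf 322 1814 (.cons 300 (.leaf 324 1820 (.cons 226 (.leaf 202 1623 (.cons 297 (.cons 276 (.leaf 296 2177 (.leaf 277 2185 .nil)) (.cons 272 (.leaf 273 2179 (.cons 296 (.leaf 271 2171 (.cons 320 (.leaf 319 2362 (.leaf 321 2370 .nil)) .nil)) .nil)) (.cons 273 (.leaf 272 2179 (.cons 274 (.leaf 301 2187 (.cons 276 (.leaf 277 2185 (.cons 321 (.leaf 320 2370 (.leaf 250 1806 .nil)) .nil)) .nil)) .nil)) .nil))) .nil)) .nil)) .nil)) .nil)))) (.cons 323 t20 (.cons 323 (.cons 252 (.leaf 228 1821 (.cons 276 (.leaf 347 2013 (.cons 322 (.leaf 346 2006 (.cons 227 (.leaf 298 1814 (.cons 300 (.leaf 203 1628 (.leaf 324 1820 .nil)) .nil)) .nil)) .nil)) .nil)) (.cons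 252 (.leaf 228 1821 (.cons 276 (.leaf 347 2013 (.cons 322 (.leaf 346 2006 (.cons 298 (.leaf 227 1814 (.cons 277 (.leaf 278 2194 (.cons 297 (.leaf 274 2186 (.leaf 296 2177 .nil)) .nil)) .nil)) .nil)) .nil)) .nil)) (.cons 252 (.leaf 228 1821 (.cons 276 (.leaf 347 2013 (.cons 324 (.leaf 348 2012 (.cons 227 (.leaf 300 1820 (.cons 202 (.leaf 226 1623 (.cons 203 (.leaf 178 1431 (.leaf 179 1436 .nil)) .nil)) .nil)) .nil)) .nil)) .nil)) (.cons 322 (.leaf 346 2006 (.cons 324 (.leaf 348 2012 (.cons 300 (.leaf 227 1820 (.cons 321 (.leaf 320 2369 (.leaf 301 2377 .nil)) .nil)) .nil)) .nil)) (.cons 252 (.leaf 228 1821 (.cons 322 (.leaf 346 2006 (.cons 347 (.leaf 276 2013 (.cons 348 (.leaf 324 2012 (.leaf 372 2204 .nil)) .nil)) .nil)) .nil)) .nil))))) (.cons 323 t19 (.cons 323 t18 (.cons 323 (.cons 252 (.leaf 228 1821 (.cons 276 (.leaf 347 2013 (.cons 324 (.leaf 348 2012 (.cons 227 (.leaf 300 1820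 (.cons 202 (.leaf 226 1623 (.cons 203 (.leaf 178 1431 (.leaf 179 1436 .nil)) .nil)) .nil)) .nil)) .nil)) .nil)) (.cons 226 (.leaf 250 1815 (.cons 227 (.leaf 202 1623 (.cons 324 (.leaf 300 1820 (.leaf 348 2012 .nil)) .nil)) .nil)) (.cons 250 (.leaf 226 1815 (.cons 252 (.leaf 228 1821 (.cons 347 (.leaf 274 2007 (.leaf 276 2013 .nil)) .nil)) .nil)) (.cons 252 (.leaf 228 1821 (.cons 276 (.leaf 347 2013 (.cons 324 (.leaf 348 2012 (.cons 300 (.leaf 227 1820 (.cons 229 (.leaf 253 1829 (.cons 325 (.leaf 349 2020 (.cons 298 (.leaf 297 2376 (.leaf 326 2387 .nil)) .nil)) .nil)) .nil)) .nil)) .nil)) .nil)) .nil)))) (.cons 323 (.cons 228 (.leaf 252 1821 (.cons 322 (.leaf 346 2006 (.cons 250 (.leaf 226 1815 (.cons 347 (.leaf 274 2007 (.cons 348 (.leaf 324 2012 (.leaf 372 2204 .nil)) .nil)) .nil)) .nil)) .nil)) (.cons 250 (.leaf 226 1815 (.cons 228 (.leaf 252 1821 (.cons 347 (.leaf 274 2007 (.cons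 348 (.leaf 324 2012 (.leaf 372 2204 .nil)) .nil)) .nil)) .nil)) (.cons 322 (.leaf 346 2006 (.cons 227 (.leaf 298 1814 (.cons 324 (.leaf 300 1820 (.leaf 348 2012 .nil)) .nil)) .nil)) (.cons 322 (.leaf 346 2006 (.cons 226 (.leaf 250 1815 (.cons 227 (.leaf 202 1623 (.leaf 298 1814 .nil)) .nil)) .nil)) .nil)))) .nil)))))))
noncomputable def t22 : T := .cons 228 (.leaf 252 1821 (.cons 227 (.leaf 204 1629 (.cons 322 (.leaf 298 1814 (.leaf 346 2006 .nil)) .nil)) .nil)) (.cons 322 (.leaf 346 2006 (.cons 227 (.leaf 298 1814 (.cons 204 (.leaf 228 1629 (.cons 203 (.leaf 180 1437 (.cons 250 (.leaf 226 1815 (.cons 274 (.leaf 347 2007 (.leaf 179 1430 .nil)) .nil)) .nil)) .nil)) .nil)) .nil)) (.cons 226 (.leaf 250 1815 (.cons 252 (.leaf 228 1821 (.cons 347 (.leaf 276 2013 (.cons 370 (.leaf 346 2198 (.cons 371 (.leaf 394 2390 (.cons 372 (.leaf 348 2204 (.leaf 396 2396 .nil)) .nil)) .nil)) .nil))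 .nil)) .nil)) (.cons 322 (.leaf 346 2006 (.cons 227 (.leaf 298 1814 (.cons 250 (.leaf 226 1815 (.cons 274 (.leaf 347 2007 (.cons 203 (.leaf 179 1430 (.cons 180 (.leaf 204 1437 (.cons 276 (.leaf 300 1628 (.cons 249 (.leaf 248 1984 (.leaf 277 1995 .nil)) .nil)) .nil)) .nil)) .nil)) .nil)) .nil)) .nil)) (.cons 226 (.leaf 250 1815 (.cons 252 (.leaf 228 1821 (.cons 347 (.leaf 276 2013 (.cons 372 (.leaf 348 2204 (.cons 371 (.leaf 396 2396 (.cons 298 (.leaf 274 2199 (.cons 322 (.leaf 227 1814 (.leaf 395 2391 .nil)) .nil)) .nil)) .nil)) .nil)) .nil)) .nil)) .nil))))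
noncomputable def t23 : T := .cons 227 (.cons 298 (.leaf 322 1814 (.cons 203 (.leaf 274 1622 (.cons 300 (.leaf 276 1628 (.leaf 324 1820 .nil)) .nil)) .nil)) (.cons 300 (.leaf 324 1820 (.cons 203 (.leaf 276 1628 (.cons 204 (.leaf 180 1437 (.leaf 228 1629 .nil)) .nil)) .nil)) (.cons 298 (.leaf 322 1814 (.cons 203 (.leaf 274 1622 (.cons 204 (.leaf 180 1437 (.leaf 228 1629 .nil)) .nil)) .nil)) (.cons 298 (.leaf 322 1814 (.cons 300 (.leaf 324 1820 (.cons 228 (.leaf 204 1629 (.cons 297 (.cons 276 (.leaf 296 2177 (.leaf 277 2185 .nil)) (.cons 272 (.leaf 273 2179 (.cons 296 (.leaf 271 2171 (.cons 320 (.leaf 319 2362 (.leaf 321 2370 .nil)) .nil)) .nil)) (.cons 272 (.leaf 273 2179 (.cons 277 (.leaf 276 2185 (.cons 301 (.leaf 278 2193 (.cons 325 (.leaf 326 2384 (.cons 253 (.leaf 252 1831 (.cons 230 (.leaf 254 1837 (.cons 229 (.leaf 250 1810 (.leaf 206 1645 .nil)) .nil)) .nil)) .nil)) .nil))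 .nil)) .nil)) .nil))) .nil)) .nil)) .nil)) .nil)))) (.cons 323 (.cons 252 (.leaf 228 1821 (.cons 226 (.leaf 250 1815 (.cons 347 (.leaf 276 2013 (.cons 348 (.leaf 324 2012 (.leaf 372 2204 .nil)) .nil)) .nil)) .nil)) (.cons 250 (.leaf 226 1815 (.cons 322 (.leaf 346 2006 (.cons 347 (.leaf 274 2007 (.cons 348 (.leaf 324 2012 (.leaf 372 2204 .nil)) .nil)) .nil)) .nil)) (.cons 252 (.leaf 228 1821 (.cons 346 (.leaf 322 2006 (.cons 347 (.leaf 276 2013 (.leaf 370 2198 .nil)) .nil)) .nil)) (.cons 252 (.leaf 228 1821 (.cons 250 (.leaf 226 1815 (.cons 324 (.leaf 348 2012 (.cons 322 (.leaf 346 2006 (.cons 249 (.cons 277 (.leaf 276 1992 (.cons 224 (.leaf 225 1795 (.cons 253 (.leaf 278 2000 (.cons 230 (.leaf 229 1809 (.cons 254 (.leaf 274 2002 (.leaf 231 1817 .nil)) .nil)) .nil)) .nil)) .nil)) (.cons 273 (.leaf 272 1986 (.cons 224 (.leaf 225 1795 (.cons 248 (.leaf 223 1787 (.cons 274 (.leaf 247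 1976 (.leaf 253 1994 .nil)) .nil)) .nil)) .nil)) (.cons 276 (.leaf 248 1984 (.leaf 277 1992 .nil)) .nil))) .nil)) .nil)) .nil)) .nil)) .nil)))) (.cons 323 (.cons 250 (.leaf 226 1815 (.cons 322 (.leaf 346 2006 (.cons 347 (.leaf 274 2007 (.cons 348 (.leaf 324 2012 (.leaf 372 2204 .nil)) .nil)) .nil)) .nil)) (.cons 250 (.leaf 226 1815 (.cons 274 (.leaf 347 2007 (.cons 324 (.leaf 348 2012 (.cons 227 (.leaf 300 1820 (.cons 203 (.leaf 298 1622 (.leaf 179 1430 .nil)) .nil)) .nil)) .nil)) .nil)) (.cons 250 (.leaf 226 1815 (.cons 346 (.leaf 322 2006 (.cons 347 (.leaf 274 2007 (.leaf 370 2198 .nil)) .nil)) .nil)) (.cons 322 (.leaf 346 2006 (.cons 324 (.leaf 348 2012 (.cons 300 (.leaf 227 1820 (.cons 321 (.leaf 320 2369 (.leaf 301 2377 .nil)) .nil)) .nil)) .nil)) .nil)))) (.cons 323 t22 (.cons 323 (.cons 250 (.leaf 226 1815 (.cons 274 (.leaf 347 2007 (.cons 324 (.leaf 348 2012 (.cons 227 (.leaf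 300 1820 (.cons 203 (.leaf 298 1622 (.leaf 179 1430 .nil)) .nil)) .nil)) .nil)) .nil)) (.cons 252 (.leaf 228 1821 (.cons 226 (.leaf 250 1815 (.cons 347 (.leaf 276 2013 (.cons 370 (.leaf 346 2198 (.cons 371 (.leaf 394 2390 (.cons 372 (.leaf 348 2204 (.leaf 396 2396 .nil)) .nil)) .nil)) .nil)) .nil)) .nil)) (.cons 228 (.leaf 252 1821 (.cons 227 (.leaf 204 1629 (.cons 324 (.leaf 300 1820 (.leaf 348 2012 .nil)) .nil)) .nil)) (.cons 228 (.leaf 252 1821 (.cons 204 (.leaf 227 1629 (.cons 250 (.leaf 226 1815 (.cons 347 (.leaf 274 2007 (.cons 370 (.leaf 346 2198 (.cons 371 (.leaf 394 2390 (.cons 300 (.leaf 276 2205 (.cons 395 (.leaf 324 2397 (.cons 396 (.leaf 372 2396 (.leaf 420 2588 .nil)) .nil)) .nil)) .nil)) .nil)) .nil)) .nil)) .nil)) .nil)) .nil)))) (.cons 323 (.cons 228 (.leaf 252 1821 (.cons 227 (.leaf 204 1629 (.cons 322 (.leaf 298 1814 (.leaf 346 2006 .nil)) .nil)) .nil)) (.cons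 252 (.leaf 228 1821 (.cons 276 (.leaf 347 2013 (.cons 324 (.leaf 348 2012 (.cons 300 (.leaf 227 1820 (.cons 229 (.leaf 253 1829 (.cons 325 (.leaf 349 2020 (.cons 298 (.leaf 297 2376 (.leaf 326 2387 .nil)) .nil)) .nil)) .nil)) .nil)) .nil)) .nil)) (.cons 322 (.leaf 346 2006 (.cons 324 (.leaf 348 2012 (.cons 300 (.leaf 227 1820 (.cons 321 (.leaf 320 2369 (.leaf 301 2377 .nil)) .nil)) .nil)) .nil)) (.cons 228 (.leaf 252 1821 (.cons 346 (.leaf 322 2006 (.cons 347 (.leaf 370 2198 (.cons 348 (.leaf 324 2012 (.leaf 372 2204 .nil)) .nil)) .nil)) .nil)) .nil)))) .nil)))))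
noncomputable def t24 : T := .cons 204 (.leaf 228 1629 (.cons 203 (.leaf 180 1437 (.cons 300 (.leaf 276 1628 (.leaf 324 1820 .nil)) .nil)) .nil)) (.cons 226 (.leaf 202 1623 (.cons 204 (.leaf 228 1629 (.cons 180 (.leaf 203 1437 (.cons 323 (.leaf 250 1815 (.cons 346 (.leaf 322 2006 (.cons 347 (.leaf 370 2198 (.cons 348 (.leaf 324 2012 (.leaf 372 2204 .nil)) .nil)) .nil)) .nil)) .nil)) .nil)) .nil)) (.cons 226 (.leaf 202 1623 (.cons 204 (.leaf 228 1629 (.cons 203 (.leaf 180 1437 (.cons 205 (.leaf 206 1618 (.cons 224 (.leaf 225 1601 (.cons 250 (.leaf 323 1815 (.cons 179 (.leaf 274 1430 (.leaf 155 1238 .nil)) .nil)) .nil)) .nil)) .nil)) .nil)) .nil)) (.cons 226 (.leaf 202 1623 (.cons 250 (.leaf 323 1815 (.cons 300 (.leaf 324 1820 (.cons 203 (.leaf 276 1628 (.cons 179 (.leaf 274 1430 (.leaf 155 1238 .nil)) .nil)) .nil)) .nil)) .nil)) (.cons 226 (.leaf 202 1623 (.cons 204 (.leaf 228 1629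 (.cons 300 (.leaf 324 1820 (.cons 323 (.leaf 250 1815 (.cons 346 (.leaf 322 2006 (.cons 347 (.leaf 370 2198 (.cons 371 (.leaf 276 2205 (.cons 372 (.leaf 348 2204 (.leaf 396 2396 .nil)) .nil)) .nil)) .nil)) .nil)) .nil)) .nil)) .nil)) .nil))))
noncomputable def t25 : T := .cons 300 (.leaf 324 1820 (.cons 203 (.leaf 276 1628 (.cons 204 (.leaf 180 1437 (.leaf 228 1629 .nil)) .nil)) .nil)) (.cons 300 (.leaf 324 1820 (.cons 202 (.leaf 226 1623 (.cons 203 (.leaf 178 1431 (.leaf 276 1628 .nil)) .nil)) .nil)) (.cons 202 (.leaf 226 1623 (.cons 203 (.leaf 178 1431 (.cons 204 (.leaf 180 1437 (.leaf 228 1629 .nil)) .nil)) .nil)) (.cons 226 (.leaf 202 1623 (.cons 228 (.leaf 204 1629 (.cons 300 (.leaf 324 1820 (.cons 225 (.cons 200 (.leaf 201 1603 (.cons 199 (.leaf 224 1595 (.cons 249 (.leaf 248 1794 (.cons 229 (.leaf 250 1802 (.cons 206 (.leaf 205 1617 (.cons 230 (.leaf 207 1625 (.cons 254 (.leaf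 253 1808 (.leaf 255 1816 .nil)) .nil)) .nil)) .nil)) .nil)) .nil)) .nil)) (.cons 200 (.leaf 201 1603 (.cons 248 (.leaf 249 1794 (.cons 253 (.leaf 252 1800 (.cons 229 (.leaf 254 1808 (.cons 206 (.leaf 205 1617 (.cons 230 (.leaf 250 1810 (.leaf 207 1625 .nil)) .nil)) .nil)) .nil)) .nil)) .nil)) (.cons 200 (.leaf 201 1603 (.cons 224 (.leaf 252 1792 (.leaf 199 1595 .nil)) .nil)) (.cons 252 (.leaf 224 1792 (.leaf 253 1800 .nil)) .nil)))) .nil)) .nil)) .nil)) .nil)))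
noncomputable def t26 : T := .cons 323 (.cons 228 (.leaf 252 1821 (.cons 346 (.leaf 322 2006 (.cons 347 (.leaf 370 2198 (.cons 348 (.leaf 324 2012 (.leaf 372 2204 .nil)) .nil)) .nil)) .nil)) (.cons 250 (.leaf 226 1815 (.cons 322 (.leaf 346 2006 (.cons 347 (.leaf 274 2007 (.cons 348 (.leaf 324 2012 (.leaf 372 2204 .nil)) .nil)) .nil)) .nil)) (.cons 250 (.leaf 226 1815 (.cons 346 (.leaf 322 2006 (.cons 347 (.leaf 274 2007 (.leaf 370 2198 .nil)) .nil)) .nil)) (.cons 228 (.leaf 252 1821 (.cons 227 (.leaf 204 1629 (.cons 324 (.leaf 300 1820 (.leaf 348 2012 .nil)) .nil)) .nil)) .nil)))) (.cons 227 t25 (.cons 323 (.cons 252 (.leaf 228 1821 (.cons 226 (.leaf 250 1815 (.cons 347 (.leaf 276 2013 (.cons 348 (.leaf 324 2012 (.leaf 372 2204 .nil)) .nil)) .nil)) .nil)) (.cons 250 (.leaf 226 1815 (.cons 322 (.leaf 346 2006 (.cons 347 (.leaf 274 2007 (.cons 348 (.leaf 324 2012 (.leaf 372 2204 .nil))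 .nil)) .nil)) .nil)) (.cons 252 (.leaf 228 1821 (.cons 346 (.leaf 322 2006 (.cons 347 (.leaf 276 2013 (.leaf 370 2198 .nil)) .nil)) .nil)) (.cons 252 (.leaf 228 1821 (.cons 250 (.leaf 226 1815 (.cons 324 (.leaf 348 2012 (.cons 322 (.leaf 346 2006 (.cons 249 (.cons 276 (.leaf 248 1984 (.leaf 277 1992 .nil)) (.cons 273 (.leaf 272 1986 (.cons 224 (.leaf 225 1795 (.cons 248 (.leaf 223 1787 (.cons 274 (.leaf 247 1976 (.leaf 253 1994 .nil)) .nil)) .nil)) .nil)) (.cons 277 (.leaf 276 1992 (.cons 224 (.leaf 225 1795 (.cons 253 (.leaf 278 2000 (.cons 273 (.leaf 272 1986 (.leaf 274 1994 .nil)) .nil)) .nil)) .nil)) .nil))) .nil)) .nil)) .nil)) .nil)) .nil)))) (.cons 227 t24 (.cons 227 (.cons 202 (.leaf 226 1623 (.cons 203 (.leaf 178 1431 (.cons 204 (.leaf 180 1437 (.leaf 228 1629 .nil)) .nil)) .nil)) (.cons 300 (.leaf 324 1820 (.cons 202 (.leaf 226 1623 (.cons 203 (.leaf 178 1431 (.leaf 276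 1628 .nil)) .nil)) .nil)) (.cons 204 (.leaf 228 1629 (.cons 203 (.leaf 180 1437 (.cons 300 (.leaf 276 1628 (.leaf 324 1820 .nil)) .nil)) .nil)) (.cons 202 (.leaf 226 1623 (.cons 228 (.leaf 204 1629 (.cons 300 (.leaf 324 1820 (.cons 323 (.leaf 252 1821 (.cons 346 (.leaf 322 2006 (.cons 347 (.leaf 370 2198 (.cons 371 (.leaf 276 2205 (.cons 372 (.leaf 348 2204 (.leaf 396 2396 .nil)) .nil)) .nil)) .nil)) .nil)) .nil)) .nil)) .nil)) .nil)))) (.cons 323 (.cons 226 (.leaf 250 1815 (.cons 227 (.leaf 202 1623 (.cons 324 (.leaf 300 1820 (.leaf 348 2012 .nil)) .nil)) .nil)) (.cons 324 (.leaf 348 2012 (.cons 300 (.leaf 227 1820 (.cons 322 (.leaf 346 2006 (.cons 321 (.leaf 320 2369 (.leaf 301 2377 .nil)) .nil)) .nil)) .nil)) (.cons 250 (.leaf 226 1815 (.cons 346 (.leaf 322 2006 (.cons 347 (.leaf 274 2007 (.leaf 370 2198 .nil)) .nil)) .nil)) .nil))) (.cons 323 (.cons 228 (.leaf 252 1821 (.cons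 346 (.leaf 322 2006 (.cons 347 (.leaf 370 2198 (.cons 348 (.leaf 324 2012 (.leaf 372 2204 .nil)) .nil)) .nil)) .nil)) (.cons 324 (.leaf 348 2012 (.cons 300 (.leaf 227 1820 (.cons 322 (.leaf 346 2006 (.cons 321 (.leaf 320 2369 (.leaf 301 2377 .nil)) .nil)) .nil)) .nil)) (.cons 252 (.leaf 228 1821 (.cons 346 (.leaf 322 2006 (.cons 347 (.leaf 276 2013 (.leaf 370 2198 .nil)) .nil)) .nil)) (.cons 228 (.leaf 252 1821 (.cons 227 (.leaf 204 1629 (.cons 324 (.leaf 300 1820 (.leaf 348 2012 .nil)) .nil)) .nil)) .nil)))) (.cons 323 (.cons 226 (.leaf 250 1815 (.cons 227 (.leaf 202 1623 (.cons 228 (.leaf 204 1629 (.leaf 252 1821 .nil)) .nil)) .nil)) (.cons 250 (.leaf 226 1815 (.cons 346 (.leaf 322 2006 (.cons 347 (.leaf 274 2007 (.leaf 370 2198 .nil)) .nil)) .nil)) (.cons 252 (.leaf 228 1821 (.cons 346 (.leaf 322 2006 (.cons 347 (.leaf 276 2013 (.leaf 370 2198 .nil)) .nil)) .nil)) .nil))) .nil)))))))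
noncomputable def t27 : T := .cons 203 (.cons 180 (.leaf 204 1437 (.cons 202 (.leaf 178 1431 (.cons 299 (.leaf 226 1623 (.cons 300 (.leaf 276 1628 (.leaf 324 1820 .nil)) .nil)) .nil)) .nil)) (.cons 180 (.leaf 204 1437 (.cons 179 (.leaf 156 1245 (.cons 276 (.leaf 300 1628 (.leaf 252 1436 .nil)) .nil)) .nil)) (.cons 202 (.leaf 178 1431 (.cons 180 (.leaf 204 1437 (.cons 156 (.leaf 179 1245 (.cons 299 (.leaf 226 1623 (.cons 322 (.leaf 298 1814 (.cons 323 (.leaf 346 2006 (.cons 324 (.leaf 300 1820 (.leaf 348 2012 .nil)) .nil)) .nil)) .nil)) .nil)) .nil)) .nil)) (.cons 178 (.leaf 202 1431 (.cons 179 (.leaf 154 1239 (.cons 276 (.leaf 300 1628 (.leaf 252 1436 .nil)) .nil)) .nil)) (.cons 202 (.leaf 178 1431 (.cons 180 (.leaf 204 1437 (.cons 179 (.leaf 156 1245 (.cons 181 (.leaf 182 1426 (.cons 200 (.leaf 201 1409 (.cons 226 (.leaf 299 1623 (.cons 155 (.leaf 250 1238 (.leaf 131 1046 .nil))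 .nil)) .nil)) .nil)) .nil)) .nil)) .nil)) .nil))))) (.cons 203 (.cons 202 (.leaf 178 1431 (.cons 299 (.leaf 226 1623 (.cons 300 (.leaf 276 1628 (.leaf 324 1820 .nil)) .nil)) .nil)) (.cons 276 (.leaf 300 1628 (.cons 179 (.leaf 252 1436 (.cons 180 (.leaf 204 1437 (.leaf 156 1245 .nil)) .nil)) .nil)) (.cons 202 (.leaf 178 1431 (.cons 180 (.leaf 204 1437 (.cons 179 (.leaf 156 1245 (.cons 181 (.leaf 182 1426 (.cons 200 (.leaf 201 1409 (.cons 226 (.leaf 299 1623 (.cons 155 (.leaf 250 1238 (.leaf 131 1046 .nil)) .nil)) .nil)) .nil)) .nil)) .nil)) .nil)) .nil))) (.cons 203 (.cons 180 (.leaf 204 1437 (.cons 179 (.leaf 156 1245 (.cons 250 (.leaf 274 1430 (.cons 226 (.leaf 155 1238 (.cons 299 (.leaf 202 1623 (.leaf 323 1815 .nil)) .nil)) .nil)) .nil)) .nil)) (.cons 202 (.leaf 178 1431 (.cons 180 (.leaf 204 1437 (.cons 156 (.leaf 179 1245 (.cons 299 (.leaf 226 1623 (.cons 322 (.leaf 298 1814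 (.cons 323 (.leaf 346 2006 (.cons 324 (.leaf 300 1820 (.leaf 348 2012 .nil)) .nil)) .nil)) .nil)) .nil)) .nil)) .nil)) (.cons 274 (.leaf 298 1622 (.cons 179 (.leaf 250 1430 (.cons 154 (.leaf 178 1239 (.cons 155 (.leaf 130 1047 (.cons 156 (.leaf 180 1245 (.leaf 132 1053 .nil)) .nil)) .nil)) .nil)) .nil)) (.cons 274 (.leaf 298 1622 (.cons 178 (.leaf 202 1431 (.cons 179 (.leaf 154 1239 (.leaf 250 1430 .nil)) .nil)) .nil)) (.cons 202 (.leaf 178 1431 (.cons 180 (.leaf 204 1437 (.cons 298 (.leaf 274 1622 (.cons 299 (.leaf 226 1623 (.leaf 322 1814 .nil)) .nil)) .nil)) .nil)) .nil))))) (.cons 203 (.cons 178 (.leaf 202 1431 (.cons 179 (.leaf 154 1239 (.cons 180 (.leaf 204 1437 (.leaf 156 1245 .nil)) .nil)) .nil)) (.cons 274 (.leaf 298 1622 (.cons 179 (.leaf 250 1430 (.cons 276 (.leaf 300 1628 (.leaf 252 1436 .nil)) .nil)) .nil)) (.cons 178 (.leaf 202 1431 (.cons 180 (.leaf 204 1437 (.cons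 298 (.leaf 274 1622 (.cons 299 (.leaf 322 1814 (.cons 300 (.leaf 276 1628 (.leaf 324 1820 .nil)) .nil)) .nil)) .nil)) .nil)) .nil))) (.cons 203 (.cons 180 (.leaf 204 1437 (.cons 179 (.leaf 156 1245 (.cons 276 (.leaf 300 1628 (.leaf 252 1436 .nil)) .nil)) .nil)) (.cons 180 (.leaf 204 1437 (.cons 179 (.leaf 156 1245 (.cons 274 (.leaf 298 1622 (.leaf 250 1430 .nil)) .nil)) .nil)) (.cons 274 (.leaf 298 1622 (.cons 179 (.leaf 250 1430 (.cons 276 (.leaf 300 1628 (.leaf 252 1436 .nil)) .nil)) .nil)) (.cons 180 (.leaf 204 1437 (.cons 298 (.leaf 274 1622 (.cons 299 (.leaf 322 1814 (.cons 300 (.leaf 276 1628 (.leaf 324 1820 .nil)) .nil)) .nil)) .nil)) .nil)))) (.cons 203 (.cons 178 (.leaf 202 1431 (.cons 179 (.leaf 154 1239 (.cons 180 (.leaf 204 1437 (.leaf 156 1245 .nil)) .nil)) .nil)) (.cons 274 (.leaf 298 1622 (.cons 179 (.leaf 250 1430 (.cons 154 (.leaf 178 1239 (.cons 155 (.leaf 130 1047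 (.cons 156 (.leaf 180 1245 (.leaf 132 1053 .nil)) .nil)) .nil)) .nil)) .nil)) (.cons 274 (.leaf 298 1622 (.cons 179 (.leaf 250 1430 (.cons 180 (.leaf 204 1437 (.leaf 156 1245 .nil)) .nil)) .nil)) (.cons 274 (.leaf 298 1622 (.cons 178 (.leaf 202 1431 (.cons 179 (.leaf 154 1239 (.leaf 250 1430 .nil)) .nil)) .nil)) (.cons 202 (.leaf 178 1431 (.cons 180 (.leaf 204 1437 (.cons 298 (.leaf 274 1622 (.cons 299 (.leaf 226 1623 (.leaf 322 1814 .nil)) .nil)) .nil)) .nil)) .nil))))) (.cons 203 (.cons 180 (.leaf 204 1437 (.cons 202 (.leaf 178 1431 (.cons 298 (.leaf 274 1622 (.cons 299 (.leaf 226 1623 (.leaf 322 1814 .nil)) .nil)) .nil)) .nil)) (.cons 180 (.leaf 204 1437 (.cons 298 (.leaf 274 1622 (.cons 299 (.leaf 322 1814 (.cons 300 (.leaf 276 1628 (.leaf 324 1820 .nil)) .nil)) .nil)) .nil)) (.cons 178 (.leaf 202 1431 (.cons 154 (.leaf 179 1239 (.cons 298 (.leaf 274 1622 (.cons 299 (.leaf 322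 1814 (.cons 300 (.leaf 276 1628 (.leaf 324 1820 .nil)) .nil)) .nil)) .nil)) .nil)) (.cons 178 (.leaf 202 1431 (.cons 179 (.leaf 154 1239 (.cons 180 (.leaf 204 1437 (.leaf 156 1245 .nil)) .nil)) .nil)) .nil)))) .nil))))))
noncomputable def t28 : T := .cons 274 (.leaf 298 1622 (.cons 276 (.leaf 300 1628 (.cons 202 (.leaf 178 1431 (.cons 204 (.leaf 180 1437 (.cons 273 (.cons 252 (.leaf 272 1985 (.leaf 253 1993 .nil)) (.cons 250 (.leaf 179 1430 (.cons 249 (.leaf 248 1984 (.leaf 277 1995 .nil)) .nil)) .nil)) .nil)) .nil)) .nil)) .nil)) (.cons 276 (.leaf 300 1628 (.cons 179 (.leaf 252 1436 (.cons 180 (.leaf 204 1437 (.leaf 156 1245 .nil)) .nil)) .nil)) (.cons 274 (.leaf 298 1622 (.cons 179 (.leaf 250 1430 (.cons 154 (.leaf 178 1239 (.cons 155 (.leaf 130 1047 (.cons 156 (.leaf 180 1245 (.leaf 132 1053 .nil)) .nil)) .nil)) .nil)) .nil)) (.cons 274 (.leaf 298 1622 (.cons 179 (.leaf 250 1430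 (.cons 276 (.leaf 300 1628 (.leaf 252 1436 .nil)) .nil)) .nil)) (.cons 274 (.leaf 298 1622 (.cons 276 (.leaf 300 1628 (.cons 202 (.leaf 178 1431 (.cons 204 (.leaf 180 1437 (.cons 273 (.cons 252 (.leaf 272 1985 (.leaf 253 1993 .nil)) (.cons 249 (.leaf 248 1987 (.cons 250 (.leaf 277 1995 (.cons 297 (.leaf 296 2178 (.leaf 226 1614 .nil)) .nil)) .nil)) .nil)) .nil)) .nil)) .nil)) .nil)) .nil))))
noncomputable def t29 : T := .cons 203 (.cons 180 (.leaf 204 1437 (.cons 179 (.leaf 156 1245 (.cons 250 (.leaf 274 1430 (.cons 226 (.leaf 155 1238 (.cons 299 (.leaf 202 1623 (.leaf 323 1815 .nil)) .nil)) .nil)) .nil)) .nil)) (.cons 178 (.leaf 202 1431 (.cons 179 (.leaf 154 1239 (.cons 180 (.leaf 204 1437 (.leaf 156 1245 .nil)) .nil)) .nil)) (.cons 180 (.leaf 204 1437 (.cons 179 (.leaf 156 1245 (.cons 276 (.leaf 300 1628 (.leaf 252 1436 .nil)) .nil)) .nil)) (.cons 274 (.leaf 298 1622 (.cons 179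 (.leaf 250 1430 (.cons 276 (.leaf 300 1628 (.leaf 252 1436 .nil)) .nil)) .nil)) (.cons 180 (.leaf 204 1437 (.cons 202 (.leaf 178 1431 (.cons 298 (.leaf 274 1622 (.cons 299 (.leaf 226 1623 (.leaf 322 1814 .nil)) .nil)) .nil)) .nil)) .nil))))) (.cons 299 (.cons 298 (.leaf 322 1814 (.cons 300 (.leaf 324 1820 (.cons 226 (.leaf 202 1623 (.cons 297 (.cons 276 (.leaf 296 2177 (.leaf 277 2185 .nil)) (.cons 272 (.leaf 273 2179 (.cons 296 (.leaf 271 2171 (.cons 320 (.leaf 319 2362 (.leaf 321 2370 .nil)) .nil)) .nil)) (.cons 273 (.leaf 272 2179 (.cons 274 (.leaf 301 2187 (.cons 276 (.leaf 277 2185 (.cons 321 (.leaf 320 2370 (.leaf 250 1806 .nil)) .nil)) .nil)) .nil)) .nil))) .nil)) .nil)) .nil)) (.cons 324 (.leaf 300 1820 (.cons 322 (.leaf 298 1814 (.cons 323 (.leaf 346 2006 (.leaf 348 2012 .nil)) .nil)) .nil)) (.cons 226 (.leaf 202 1623 (.cons 323 (.leaf 250 1815 (.cons 324 (.leaf 300 1820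 (.leaf 348 2012 .nil)) .nil)) .nil)) (.cons 226 (.leaf 202 1623 (.cons 322 (.leaf 298 1814 (.cons 323 (.leaf 250 1815 (.leaf 346 2006 .nil)) .nil)) .nil)) .nil)))) (.cons 203 t28 t27))
noncomputable def t30 : T := .cons 276 (.leaf 300 1628 (.cons 179 (.leaf 252 1436 (.cons 180 (.leaf 204 1437 (.leaf 156 1245 .nil)) .nil)) .nil)) (.cons 274 (.leaf 298 1622 (.cons 179 (.leaf 250 1430 (.cons 154 (.leaf 178 1239 (.cons 155 (.leaf 130 1047 (.cons 156 (.leaf 180 1245 (.leaf 132 1053 .nil)) .nil)) .nil)) .nil)) .nil)) (.cons 276 (.leaf 300 1628 (.cons 178 (.leaf 202 1431 (.cons 179 (.leaf 154 1239 (.leaf 252 1436 .nil)) .nil)) .nil)) (.cons 276 (.leaf 300 1628 (.cons 274 (.leaf 298 1622 (.cons 204 (.leaf 180 1437 (.cons 202 (.leaf 178 1431 (.cons 273 (.cons 249 (.leaf 248 1987 (.cons 250 (.leaf 277 1995 (.cons 252 (.leaf 272 1985 (.leaf 253 1993 .nil)) .nil)) .nil)) (.cons 248 (.leaf 249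 1987 (.cons 272 (.leaf 247 1979 (.cons 296 (.leaf 295 2170 (.leaf 297 2178 .nil)) .nil)) .nil)) (.cons 249 (.leaf 248 1987 (.cons 250 (.leaf 277 1995 (.cons 252 (.leaf 253 1993 (.cons 225 (.leaf 224 1795 (.cons 201 (.leaf 177 1420 (.cons 228 (.leaf 229 1608 (.leaf 200 1600 .nil)) .nil)) .nil)) .nil)) .nil)) .nil)) (.cons 252 (.leaf 272 1985 (.leaf 253 1993 .nil)) .nil)))) .nil)) .nil)) .nil)) .nil)) .nil)))
noncomputable def t31 : T := .cons 203 (.cons 180 (.leaf 204 1437 (.cons 179 (.leaf 156 1245 (.cons 276 (.leaf 300 1628 (.leaf 252 1436 .nil)) .nil)) .nil)) (.cons 180 (.leaf 204 1437 (.cons 179 (.leaf 156 1245 (.cons 274 (.leaf 298 1622 (.leaf 250 1430 .nil)) .nil)) .nil)) (.cons 276 (.leaf 300 1628 (.cons 178 (.leaf 202 1431 (.cons 179 (.leaf 154 1239 (.leaf 252 1436 .nil)) .nil)) .nil)) (.cons 178 (.leaf 202 1431 (.cons 298 (.leaf 274 1622 (.cons 299 (.leaf 322 1814 (.cons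 300 (.leaf 276 1628 (.leaf 324 1820 .nil)) .nil)) .nil)) .nil)) .nil)))) (.cons 299 (.cons 298 (.leaf 322 1814 (.cons 300 (.leaf 324 1820 (.cons 228 (.leaf 204 1629 (.cons 297 (.cons 276 (.leaf 296 2177 (.leaf 277 2185 .nil)) (.cons 272 (.leaf 273 2179 (.cons 296 (.leaf 271 2171 (.cons 320 (.leaf 319 2362 (.leaf 321 2370 .nil)) .nil)) .nil)) (.cons 272 (.leaf 273 2179 (.cons 277 (.leaf 276 2185 (.cons 301 (.leaf 278 2193 (.cons 325 (.leaf 326 2384 (.cons 253 (.leaf 252 1831 (.cons 230 (.leaf 254 1837 (.cons 229 (.leaf 250 1810 (.leaf 206 1645 .nil)) .nil)) .nil)) .nil)) .nil)) .nil)) .nil)) .nil))) .nil)) .nil)) .nil)) (.cons 324 (.leaf 300 1820 (.cons 322 (.leaf 298 1814 (.cons 323 (.leaf 346 2006 (.leaf 348 2012 .nil)) .nil)) .nil)) (.cons 228 (.leaf 204 1629 (.cons 323 (.leaf 252 1821 (.cons 324 (.leaf 300 1820 (.leaf 348 2012 .nil)) .nil)) .nil)) (.cons 228 (.leaf 204 1629 (.cons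 322 (.leaf 298 1814 (.cons 323 (.leaf 252 1821 (.leaf 346 2006 .nil)) .nil)) .nil)) .nil)))) (.cons 203 t30 (.cons 203 (.cons 274 (.leaf 298 1622 (.cons 179 (.leaf 250 1430 (.cons 154 (.leaf 178 1239 (.cons 155 (.leaf 130 1047 (.cons 156 (.leaf 180 1245 (.leaf 132 1053 .nil)) .nil)) .nil)) .nil)) .nil)) (.cons 204 (.leaf 180 1437 (.cons 178 (.leaf 202 1431 (.cons 179 (.leaf 154 1239 (.cons 176 (.leaf 177 1408 (.cons 205 (.leaf 206 1427 (.cons 228 (.leaf 299 1629 (.cons 155 (.leaf 252 1244 (.leaf 131 1052 .nil)) .nil)) .nil)) .nil)) .nil)) .nil)) .nil)) (.cons 274 (.leaf 298 1622 (.cons 178 (.leaf 202 1431 (.cons 179 (.leaf 154 1239 (.leaf 250 1430 .nil)) .nil)) .nil)) (.cons 274 (.leaf 298 1622 (.cons 179 (.leaf 250 1430 (.cons 180 (.leaf 204 1437 (.leaf 156 1245 .nil)) .nil)) .nil)) (.cons 204 (.leaf 180 1437 (.cons 178 (.leaf 202 1431 (.cons 298 (.leaf 274 1622 (.cons 299 (.leaf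 228 1629 (.leaf 322 1814 .nil)) .nil)) .nil)) .nil)) .nil))))) (.cons 203 (.cons 180 (.leaf 204 1437 (.cons 179 (.leaf 156 1245 (.cons 276 (.leaf 300 1628 (.leaf 252 1436 .nil)) .nil)) .nil)) (.cons 204 (.leaf 180 1437 (.cons 178 (.leaf 202 1431 (.cons 179 (.leaf 154 1239 (.cons 176 (.leaf 177 1408 (.cons 205 (.leaf 206 1427 (.cons 228 (.leaf 299 1629 (.cons 155 (.leaf 252 1244 (.leaf 131 1052 .nil)) .nil)) .nil)) .nil)) .nil)) .nil)) .nil)) (.cons 276 (.leaf 300 1628 (.cons 178 (.leaf 202 1431 (.cons 179 (.leaf 154 1239 (.leaf 252 1436 .nil)) .nil)) .nil)) (.cons 178 (.leaf 202 1431 (.cons 204 (.leaf 180 1437 (.cons 299 (.leaf 228 1629 (.cons 300 (.leaf 276 1628 (.leaf 324 1820 .nil)) .nil)) .nil)) .nil)) .nil)))) (.cons 203 (.cons 178 (.leaf 202 1431 (.cons 298 (.leaf 274 1622 (.cons 299 (.leaf 322 1814 (.cons 300 (.leaf 276 1628 (.leaf 324 1820 .nil)) .nil)) .nil)) .nil)) (.cons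 178 (.leaf 202 1431 (.cons 179 (.leaf 154 1239 (.cons 274 (.leaf 298 1622 (.leaf 250 1430 .nil)) .nil)) .nil)) (.cons 276 (.leaf 300 1628 (.cons 178 (.leaf 202 1431 (.cons 179 (.leaf 154 1239 (.leaf 252 1436 .nil)) .nil)) .nil)) (.cons 274 (.leaf 298 1622 (.cons 250 (.leaf 179 1430 (.cons 276 (.leaf 300 1628 (.cons 249 (.leaf 248 1984 (.leaf 277 1995 .nil)) .nil)) .nil)) .nil)) .nil)))) (.cons 203 (.cons 180 (.leaf 204 1437 (.cons 179 (.leaf 156 1245 (.cons 274 (.leaf 298 1622 (.leaf 250 1430 .nil)) .nil)) .nil)) (.cons 274 (.leaf 298 1622 (.cons 250 (.leaf 179 1430 (.cons 276 (.leaf 300 1628 (.cons 249 (.leaf 248 1984 (.leaf 277 1995 .nil)) .nil)) .nil)) .nil)) (.cons 178 (.leaf 202 1431 (.cons 204 (.leaf 180 1437 (.cons 299 (.leaf 228 1629 (.cons 300 (.leaf 276 1628 (.leaf 324 1820 .nil)) .nil)) .nil)) .nil)) .nil))) .nil))))))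
noncomputable def t32 : T := .cons 226 (.leaf 250 1815 (.cons 252 (.leaf 228 1821 (.cons 346 (.leaf 322 2006 (.cons 347 (.leaf 276 2013 (.leaf 370 2198 .nil)) .nil)) .nil)) .nil)) (.cons 252 (.leaf 228 1821 (.cons 276 (.leaf 347 2013 (.cons 322 (.leaf 346 2006 (.cons 298 (.leaf 227 1814 (.cons 277 (.leaf 278 2194 (.cons 297 (.leaf 274 2186 (.leaf 296 2177 .nil)) .nil)) .nil)) .nil)) .nil)) .nil)) (.cons 250 (.leaf 226 1815 (.cons 274 (.leaf 347 2007 (.cons 322 (.leaf 346 2006 (.cons 298 (.leaf 227 1813 (.cons 321 (.leaf 345 1998 (.cons 300 (.leaf 301 2378 (.leaf 320 2369 .nil)) .nil)) .nil)) .nil)) .nil)) .nil)) (.cons 250 (.leaf 226 1815 (.cons 228 (.leaf 252 1821 (.cons 204 (.leaf 227 1629 (.cons 347 (.leaf 274 2007 (.cons 370 (.leaf 346 2198 (.cons 371 (.leaf 394 2390 (.cons 372 (.leaf 348 2204 (.leaf 396 2396 .nil)) .nil)) .nil)) .nil)) .nil)) .nil)) .nil)) (.cons 250 (.leaf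 226 1815 (.cons 252 (.leaf 228 1821 (.cons 347 (.leaf 274 2007 (.leaf 276 2013 .nil)) .nil)) .nil)) (.cons 322 (.leaf 346 2006 (.cons 226 (.leaf 250 1815 (.cons 227 (.leaf 202 1623 (.leaf 298 1814 .nil)) .nil)) .nil)) .nil)))))
noncomputable def t33 : T := .cons 252 (.leaf 228 1821 (.cons 226 (.leaf 250 1815 (.cons 347 (.leaf 276 2013 (.cons 348 (.leaf 324 2012 (.leaf 372 2204 .nil)) .nil)) .nil)) .nil)) (.cons 252 (.leaf 228 1821 (.cons 347 (.leaf 276 2013 (.cons 346 (.leaf 322 2006 (.leaf 370 2198 .nil)) .nil)) .nil)) (.cons 250 (.leaf 226 1815 (.cons 322 (.leaf 346 2006 (.cons 347 (.leaf 274 2007 (.cons 348 (.leaf 324 2012 (.leaf 372 2204 .nil)) .nil)) .nil)) .nil)) (.cons 250 (.leaf 226 1815 (.cons 252 (.leaf 228 1821 (.cons 324 (.leaf 348 2012 (.cons 322 (.leaf 346 2006 (.cons 249 (.cons 224 (.leaf 225 1795 (.cons 248 (.leaf 276 1984 (.leaf 223 1787 .nil)) .nil)) (.cons 273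 (.leaf 272 1986 (.cons 224 (.leaf 225 1795 (.cons 248 (.leaf 223 1787 (.cons 274 (.leaf 247 1976 (.leaf 253 1994 .nil)) .nil)) .nil)) .nil)) (.cons 224 (.leaf 225 1795 (.cons 273 (.leaf 272 1986 (.cons 253 (.leaf 274 1994 (.cons 277 (.leaf 276 1992 (.leaf 278 2000 .nil)) .nil)) .nil)) .nil)) (.cons 276 (.leaf 248 1984 (.leaf 277 1992 .nil)) .nil)))) .nil)) .nil)) .nil)) .nil)) .nil)))
noncomputable def t34 : T := .cons 298 (.leaf 322 1814 (.cons 300 (.leaf 324 1820 (.cons 228 (.leaf 204 1629 (.cons 226 (.leaf 202 1623 (.cons 225 (.cons 200 (.leaf 201 1603 (.cons 224 (.leaf 252 1792 (.leaf 199 1595 .nil)) .nil)) (.cons 249 (.leaf 248 1794 (.cons 200 (.leaf 201 1603 (.cons 224 (.leaf 199 1595 (.cons 250 (.leaf 223 1784 (.leaf 229 1802 .nil)) .nil)) .nil)) .nil)) (.cons 200 (.leaf 201 1603 (.cons 249 (.leaf 248 1794 (.cons 229 (.leaf 250 1802 (.cons 253 (.leaf 252 1800 (.leaf 254 1808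 .nil)) .nil)) .nil)) .nil)) (.cons 252 (.leaf 224 1792 (.leaf 253 1800 .nil)) .nil)))) .nil)) .nil)) .nil)) .nil)) (.cons 298 (.leaf 322 1814 (.cons 300 (.leaf 324 1820 (.cons 228 (.leaf 204 1629 (.cons 297 (.cons 276 (.leaf 296 2177 (.leaf 277 2185 .nil)) (.cons 272 (.leaf 273 2179 (.cons 296 (.leaf 271 2171 (.cons 320 (.leaf 319 2362 (.leaf 321 2370 .nil)) .nil)) .nil)) (.cons 272 (.leaf 273 2179 (.cons 277 (.leaf 276 2185 (.cons 301 (.leaf 278 2193 (.cons 325 (.leaf 326 2384 (.cons 253 (.leaf 252 1831 (.cons 230 (.leaf 254 1837 (.cons 229 (.leaf 250 1810 (.leaf 206 1645 .nil)) .nil)) .nil)) .nil)) .nil)) .nil)) .nil)) .nil))) .nil)) .nil)) .nil)) (.cons 298 (.leaf 322 1814 (.cons 300 (.leaf 324 1820 (.cons 226 (.leaf 202 1623 (.cons 297 (.cons 276 (.leaf 296 2177 (.leaf 277 2185 .nil)) (.cons 272 (.leaf 273 2179 (.cons 296 (.leaf 271 2171 (.cons 320 (.leaf 319 2362 (.leaf 321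 2370 .nil)) .nil)) .nil)) (.cons 273 (.leaf 272 2179 (.cons 274 (.leaf 301 2187 (.cons 276 (.leaf 277 2185 (.cons 321 (.leaf 320 2370 (.leaf 250 1806 .nil)) .nil)) .nil)) .nil)) .nil))) .nil)) .nil)) .nil)) (.cons 226 (.leaf 202 1623 (.cons 228 (.leaf 204 1629 (.cons 300 (.leaf 324 1820 (.cons 225 (.cons 200 (.leaf 201 1603 (.cons 199 (.leaf 224 1595 (.cons 249 (.leaf 248 1794 (.cons 229 (.leaf 250 1802 (.cons 206 (.leaf 205 1617 (.cons 230 (.leaf 207 1625 (.cons 254 (.leaf 253 1808 (.leaf 255 1816 .nil)) .nil)) .nil)) .nil)) .nil)) .nil)) .nil)) (.cons 200 (.leaf 201 1603 (.cons 248 (.leaf 249 1794 (.cons 253 (.leaf 252 1800 (.cons 229 (.leaf 254 1808 (.cons 206 (.leaf 205 1617 (.cons 230 (.leaf 250 1810 (.leaf 207 1625 .nil)) .nil)) .nil)) .nil)) .nil)) .nil)) (.cons 200 (.leaf 201 1603 (.cons 224 (.leaf 252 1792 (.leaf 199 1595 .nil)) .nil)) (.cons 252 (.leaf 224 1792 (.leaf 253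 1800 .nil)) .nil)))) .nil)) .nil)) .nil)) (.cons 226 (.leaf 202 1623 (.cons 228 (.leaf 204 1629 (.cons 298 (.leaf 322 1814 (.cons 225 (.cons 200 (.leaf 201 1603 (.cons 199 (.leaf 224 1595 (.cons 249 (.leaf 248 1794 (.cons 229 (.leaf 250 1802 (.cons 206 (.leaf 205 1617 (.cons 230 (.leaf 207 1625 (.cons 254 (.leaf 253 1808 (.leaf 255 1816 .nil)) .nil)) .nil)) .nil)) .nil)) .nil)) .nil)) (.cons 200 (.leaf 201 1603 (.cons 224 (.leaf 252 1792 (.leaf 199 1595 .nil)) .nil)) (.cons 200 (.leaf 201 1603 (.cons 248 (.leaf 249 1794 (.cons 253 (.leaf 252 1800 (.cons 229 (.leaf 254 1808 (.cons 206 (.leaf 205 1617 (.cons 230 (.leaf 250 1810 (.leaf 207 1625 .nil)) .nil)) .nil)) .nil)) .nil)) .nil)) (.cons 252 (.leaf 224 1792 (.leaf 253 1800 .nil)) .nil)))) .nil)) .nil)) .nil)) (.cons 298 (.leaf 322 1814 (.cons 300 (.leaf 324 1820 (.cons 228 (.leaf 204 1629 (.cons 226 (.leaf 202 1623 (.cons 225 (.cons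 200 (.leaf 201 1603 (.cons 224 (.leaf 252 1792 (.leaf 199 1595 .nil)) .nil)) (.cons 248 (.leaf 249 1794 (.cons 200 (.leaf 201 1603 (.cons 224 (.leaf 199 1595 (.leaf 247 1786 .nil)) .nil)) .nil)) (.cons 253 (.leaf 252 1800 (.cons 200 (.leaf 201 1603 (.cons 229 (.leaf 254 1808 (.cons 206 (.leaf 205 1617 (.cons 230 (.leaf 207 1625 (.cons 277 (.leaf 301 1645 (.cons 276 (.leaf 278 2194 (.leaf 297 2185 .nil)) .nil)) .nil)) .nil)) .nil)) .nil)) .nil)) (.cons 252 (.leaf 224 1792 (.leaf 253 1800 .nil)) .nil)))) .nil)) .nil)) .nil)) .nil)) .nil)))))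
noncomputable def t35 : T := .cons 323 (.cons 226 (.leaf 250 1815 (.cons 227 (.leaf 202 1623 (.cons 322 (.leaf 298 1814 (.leaf 346 2006 .nil)) .nil)) .nil)) (.cons 228 (.leaf 252 1821 (.cons 227 (.leaf 204 1629 (.cons 322 (.leaf 298 1814 (.leaf 346 2006 .nil)) .nil)) .nil)) (.cons 226 (.leaf 250 1815 (.cons 227 (.leaf 202 1623 (.cons 324 (.leaf 300 1820 (.leaf 348 2012 .nil)) .nil)) .nil)) (.cons 226 (.leaf 250 1815 (.cons 252 (.leaf 228 1821 (.cons 347 (.leaf 276 2013 (.cons 348 (.leaf 324 2012 (.leaf 372 2204 .nil)) .nil)) .nil)) .nil)) .nil)))) (.cons 227 t34 (.cons 323 t33 (.cons 323 (.cons 322 (.leaf 346 2006 (.cons 298 (.leaf 227 1814 (.cons 324 (.leaf 348 2012 (.cons 297 (.leaf 296 2368 (.leaf 325 2379 .nil)) .nil)) .nil)) .nil)) (.cons 252 (.leaf 228 1821 (.cons 276 (.leaf 347 2013 (.cons 322 (.leaf 346 2006 (.cons 298 (.leaf 227 1814 (.cons 277 (.leaf 278 2194 (.cons 297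 (.leaf 274 2186 (.leaf 296 2177 .nil)) .nil)) .nil)) .nil)) .nil)) .nil)) (.cons 252 (.leaf 228 1821 (.cons 276 (.leaf 347 2013 (.cons 324 (.leaf 348 2012 (.cons 300 (.leaf 227 1820 (.cons 229 (.leaf 253 1829 (.cons 325 (.leaf 349 2020 (.cons 298 (.leaf 297 2376 (.leaf 326 2387 .nil)) .nil)) .nil)) .nil)) .nil)) .nil)) .nil)) (.cons 228 (.leaf 252 1821 (.cons 346 (.leaf 322 2006 (.cons 347 (.leaf 370 2198 (.cons 348 (.leaf 324 2012 (.leaf 372 2204 .nil)) .nil)) .nil)) .nil)) .nil)))) (.cons 323 (.cons 322 (.leaf 346 2006 (.cons 298 (.leaf 227 1814 (.cons 324 (.leaf 348 2012 (.cons 297 (.leaf 296 2368 (.leaf 325 2379 .nil)) .nil)) .nil)) .nil)) (.cons 250 (.leaf 226 1815 (.cons 274 (.leaf 347 2007 (.cons 324 (.leaf 348 2012 (.cons 300 (.leaf 227 1820 (.cons 273 (.leaf 272 2176 (.cons 301 (.leaf 276 2184 (.leaf 298 2187 .nil)) .nil)) .nil)) .nil)) .nil)) .nil)) (.cons 250 (.leaf 226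 1815 (.cons 274 (.leaf 347 2007 (.cons 322 (.leaf 346 2006 (.cons 298 (.leaf 227 1813 (.cons 321 (.leaf 345 1998 (.cons 300 (.leaf 301 2378 (.leaf 320 2369 .nil)) .nil)) .nil)) .nil)) .nil)) .nil)) (.cons 226 (.leaf 250 1815 (.cons 346 (.leaf 322 2006 (.cons 347 (.leaf 370 2198 (.cons 348 (.leaf 324 2012 (.leaf 372 2204 .nil)) .nil)) .nil)) .nil)) .nil)))) (.cons 323 t32 (.cons 323 (.cons 226 (.leaf 250 1815 (.cons 252 (.leaf 228 1821 (.cons 347 (.leaf 276 2013 (.cons 348 (.leaf 324 2012 (.leaf 372 2204 .nil)) .nil)) .nil)) .nil)) (.cons 250 (.leaf 226 1815 (.cons 274 (.leaf 347 2007 (.cons 324 (.leaf 348 2012 (.cons 300 (.leaf 227 1820 (.cons 273 (.leaf 272 2176 (.cons 301 (.leaf 276 2184 (.leaf 298 2187 .nil)) .nil)) .nil)) .nil)) .nil)) .nil)) (.cons 252 (.leaf 228 1821 (.cons 276 (.leaf 347 2013 (.cons 324 (.leaf 348 2012 (.cons 300 (.leaf 227 1820 (.cons 229 (.leaf 253 1829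 (.cons 325 (.leaf 349 2020 (.cons 298 (.leaf 297 2376 (.leaf 326 2387 .nil)) .nil)) .nil)) .nil)) .nil)) .nil)) .nil)) (.cons 250 (.leaf 226 1815 (.cons 252 (.leaf 228 1821 (.cons 347 (.leaf 274 2007 (.leaf 276 2013 .nil)) .nil)) .nil)) (.cons 324 (.leaf 348 2012 (.cons 226 (.leaf 250 1815 (.cons 227 (.leaf 202 1623 (.leaf 300 1820 .nil)) .nil)) .nil)) .nil))))) (.cons 323 (.cons 324 (.leaf 348 2012 (.cons 227 (.leaf 300 1820 (.cons 322 (.leaf 298 1814 (.leaf 346 2006 .nil)) .nil)) .nil)) (.cons 324 (.leaf 348 2012 (.cons 226 (.leaf 250 1815 (.cons 227 (.leaf 202 1623 (.leaf 300 1820 .nil)) .nil)) .nil)) (.cons 322 (.leaf 346 2006 (.cons 226 (.leaf 250 1815 (.cons 227 (.leaf 202 1623 (.leaf 298 1814 .nil)) .nil)) .nil)) (.cons 250 (.leaf 226 1815 (.cons 228 (.leaf 252 1821 (.cons 346 (.leaf 322 2006 (.cons 347 (.leaf 274 2007 (.leaf 370 2198 .nil)) .nil)) .nil)) .nil)) .nil)))) .nil)))))))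
noncomputable def t36 : T := .cons 298 (.leaf 322 1814 (.cons 203 (.leaf 274 1622 (.cons 178 (.leaf 202 1431 (.cons 179 (.leaf 154 1239 (.cons 180 (.leaf 204 1437 (.leaf 156 1245 .nil)) .nil)) .nil)) .nil)) .nil)) (.cons 202 (.leaf 226 1623 (.cons 203 (.leaf 178 1431 (.cons 204 (.leaf 180 1437 (.leaf 228 1629 .nil)) .nil)) .nil)) (.cons 298 (.leaf 322 1814 (.cons 203 (.leaf 274 1622 (.cons 204 (.leaf 180 1437 (.leaf 228 1629 .nil)) .nil)) .nil)) (.cons 298 (.leaf 322 1814 (.cons 202 (.leaf 226 1623 (.cons 203 (.leaf 178 1431 (.leaf 274 1622 .nil)) .nil)) .nil)) (.cons 226 (.leaf 202 1623 (.cons 228 (.leaf 204 1629 (.cons 300 (.leaf 324 1820 (.cons 225 (.cons 200 (.leaf 201 1603 (.cons 199 (.leaf 224 1595 (.cons 249 (.leaf 248 1794 (.cons 229 (.leaf 250 1802 (.cons 206 (.leaf 205 1617 (.cons 230 (.leaf 207 1625 (.cons 254 (.leaf 253 1808 (.leaf 255 1816 .nil)) .nil)) .nil)) .nil))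 .nil)) .nil)) .nil)) (.cons 200 (.leaf 201 1603 (.cons 248 (.leaf 249 1794 (.cons 253 (.leaf 252 1800 (.cons 229 (.leaf 254 1808 (.cons 206 (.leaf 205 1617 (.cons 230 (.leaf 250 1810 (.leaf 207 1625 .nil)) .nil)) .nil)) .nil)) .nil)) .nil)) (.cons 200 (.leaf 201 1603 (.cons 224 (.leaf 252 1792 (.leaf 199 1595 .nil)) .nil)) (.cons 252 (.leaf 224 1792 (.leaf 253 1800 .nil)) .nil)))) .nil)) .nil)) .nil)) .nil))))
noncomputable def t37 : T := .cons 227 (.cons 202 (.leaf 226 1623 (.cons 203 (.leaf 178 1431 (.cons 274 (.leaf 298 1622 (.cons 204 (.leaf 180 1437 (.leaf 228 1629 .nil)) .nil)) .nil)) .nil)) (.cons 228 (.leaf 204 1629 (.cons 322 (.leaf 298 1814 (.cons 323 (.leaf 252 1821 (.leaf 346 2006 .nil)) .nil)) .nil)) (.cons 202 (.leaf 226 1623 (.cons 203 (.leaf 178 1431 (.cons 298 (.leaf 274 1622 (.leaf 322 1814 .nil)) .nil)) .nil)) (.cons 226 (.leaf 202 1623 (.cons 228 (.leaf 204 1629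 (.cons 323 (.leaf 250 1815 (.leaf 252 1821 .nil)) .nil)) .nil)) .nil)))) (.cons 323 (.cons 250 (.leaf 226 1815 (.cons 228 (.leaf 252 1821 (.cons 346 (.leaf 322 2006 (.cons 347 (.leaf 274 2007 (.leaf 370 2198 .nil)) .nil)) .nil)) .nil)) (.cons 346 (.leaf 322 2006 (.cons 228 (.leaf 252 1821 (.cons 347 (.leaf 370 2198 (.cons 348 (.leaf 324 2012 (.leaf 372 2204 .nil)) .nil)) .nil)) .nil)) (.cons 250 (.leaf 226 1815 (.cons 347 (.leaf 274 2007 (.cons 348 (.leaf 324 2012 (.leaf 372 2204 .nil)) .nil)) .nil)) (.cons 322 (.leaf 346 2006 (.cons 324 (.leaf 348 2012 (.cons 250 (.leaf 226 1815 (.cons 252 (.leaf 228 1821 (.cons 253 (.cons 274 (.leaf 254 2002 (.leaf 273 1994 .nil)) (.cons 230 (.leaf 229 1809 (.cons 254 (.leaf 231 1817 (.cons 278 (.leaf 277 2000 (.leaf 279 2008 .nil)) .nil)) .nil)) (.cons 229 (.leaf 230 1809 (.cons 273 (.leaf 274 1994 (.cons 249 (.leaf 272 1986 (.cons 224 (.leaf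 225 1795 (.cons 248 (.leaf 223 1787 (.cons 297 (.leaf 321 1799 (.cons 298 (.leaf 296 2368 (.leaf 325 2379 .nil)) .nil)) .nil)) .nil)) .nil)) .nil)) .nil)) .nil))) .nil)) .nil)) .nil)) .nil)) .nil)))) (.cons 227 t36 (.cons 323 (.cons 228 (.leaf 252 1821 (.cons 227 (.leaf 204 1629 (.cons 322 (.leaf 298 1814 (.leaf 346 2006 .nil)) .nil)) .nil)) (.cons 228 (.leaf 252 1821 (.cons 227 (.leaf 204 1629 (.cons 324 (.leaf 300 1820 (.leaf 348 2012 .nil)) .nil)) .nil)) (.cons 322 (.leaf 346 2006 (.cons 298 (.leaf 227 1814 (.cons 324 (.leaf 348 2012 (.cons 297 (.leaf 296 2368 (.leaf 325 2379 .nil)) .nil)) .nil)) .nil)) (.cons 346 (.leaf 322 2006 (.cons 228 (.leaf 252 1821 (.cons 347 (.leaf 370 2198 (.cons 348 (.leaf 324 2012 (.leaf 372 2204 .nil)) .nil)) .nil)) .nil)) .nil)))) (.cons 227 (.cons 204 (.leaf 228 1629 (.cons 203 (.leaf 180 1437 (.cons 274 (.leaf 298 1622 (.cons 250 (.leaf 179 1430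 (.cons 323 (.leaf 226 1815 (.leaf 347 2007 .nil)) .nil)) .nil)) .nil)) .nil)) (.cons 228 (.leaf 204 1629 (.cons 323 (.leaf 252 1821 (.cons 324 (.leaf 300 1820 (.leaf 348 2012 .nil)) .nil)) .nil)) (.cons 226 (.leaf 202 1623 (.cons 323 (.leaf 250 1815 (.cons 324 (.leaf 300 1820 (.leaf 348 2012 .nil)) .nil)) .nil)) (.cons 202 (.leaf 226 1623 (.cons 203 (.leaf 178 1431 (.cons 180 (.leaf 204 1437 (.cons 179 (.leaf 156 1245 (.cons 274 (.leaf 298 1622 (.leaf 250 1430 .nil)) .nil)) .nil)) .nil)) .nil)) .nil)))) (.cons 323 (.cons 346 (.leaf 322 2006 (.cons 226 (.leaf 250 1815 (.cons 347 (.leaf 370 2198 (.cons 348 (.leaf 324 2012 (.leaf 372 2204 .nil)) .nil)) .nil)) .nil)) (.cons 346 (.leaf 322 2006 (.cons 228 (.leaf 252 1821 (.cons 347 (.leaf 370 2198 (.cons 348 (.leaf 324 2012 (.leaf 372 2204 .nil)) .nil)) .nil)) .nil)) (.cons 226 (.leaf 250 1815 (.cons 227 (.leaf 202 1623 (.cons 228 (.leaf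 204 1629 (.leaf 252 1821 .nil)) .nil)) .nil)) .nil))) (.cons 323 (.cons 226 (.leaf 250 1815 (.cons 227 (.leaf 202 1623 (.cons 322 (.leaf 298 1814 (.leaf 346 2006 .nil)) .nil)) .nil)) (.cons 324 (.leaf 348 2012 (.cons 226 (.leaf 250 1815 (.cons 227 (.leaf 202 1623 (.leaf 300 1820 .nil)) .nil)) .nil)) (.cons 322 (.leaf 346 2006 (.cons 298 (.leaf 227 1814 (.cons 324 (.leaf 348 2012 (.cons 297 (.leaf 296 2368 (.leaf 325 2379 .nil)) .nil)) .nil)) .nil)) (.cons 226 (.leaf 250 1815 (.cons 346 (.leaf 322 2006 (.cons 347 (.leaf 370 2198 (.cons 348 (.leaf 324 2012 (.leaf 372 2204 .nil)) .nil)) .nil)) .nil)) .nil)))) .nil))))))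
noncomputable def t38 : T := .cons 300 (.leaf 324 1820 (.cons 203 (.leaf 276 1628 (.cons 204 (.leaf 180 1437 (.leaf 228 1629 .nil)) .nil)) .nil)) (.cons 300 (.leaf 324 1820 (.cons 202 (.leaf 226 1623 (.cons 203 (.leaf 178 1431 (.leaf 276 1628 .nil)) .nil)) .nil)) (.cons 204 (.leaf 228 1629 (.cons 202 (.leaf 226 1623 (.cons 203 (.leaf 178 1431 (.leaf 180 1437 .nil)) .nil)) .nil)) (.cons 228 (.leaf 204 1629 (.cons 226 (.leaf 202 1623 (.cons 300 (.leaf 324 1820 (.cons 225 (.cons 200 (.leaf 201 1603 (.cons 199 (.leaf 224 1595 (.cons 249 (.leaf 248 1794 (.cons 229 (.leaf 250 1802 (.cons 206 (.leaf 205 1617 (.cons 230 (.leaf 207 1625 (.cons 254 (.leaf 253 1808 (.leaf 255 1816 .nil)) .nil)) .nil)) .nil)) .nil)) .nil)) .nil)) (.cons 200 (.leaf 201 1603 (.cons 248 (.leaf 249 1794 (.cons 253 (.leaf 252 1800 (.cons 229 (.leaf 254 1808 (.cons 206 (.leaf 205 1617 (.cons 230 (.leaf 250 1810 (.leaf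 207 1625 .nil)) .nil)) .nil)) .nil)) .nil)) .nil)) (.cons 200 (.leaf 201 1603 (.cons 224 (.leaf 252 1792 (.leaf 199 1595 .nil)) .nil)) (.cons 252 (.leaf 224 1792 (.leaf 253 1800 .nil)) .nil)))) .nil)) .nil)) .nil)) .nil)))
noncomputable def t39 : T := .cons 252 (.leaf 228 1821 (.cons 322 (.leaf 346 2006 (.cons 347 (.leaf 276 2013 (.cons 348 (.leaf 324 2012 (.leaf 372 2204 .nil)) .nil)) .nil)) .nil)) (.cons 348 (.leaf 324 2012 (.cons 226 (.leaf 250 1815 (.cons 346 (.leaf 322 2006 (.cons 347 (.leaf 370 2198 (.leaf 372 2204 .nil)) .nil)) .nil)) .nil)) (.cons 252 (.leaf 228 1821 (.cons 226 (.leaf 250 1815 (.cons 346 (.leaf 322 2006 (.cons 347 (.leaf 276 2013 (.leaf 370 2198 .nil)) .nil)) .nil)) .nil)) (.cons 252 (.leaf 228 1821 (.cons 347 (.leaf 276 2013 (.cons 348 (.leaf 324 2012 (.leaf 372 2204 .nil)) .nil)) .nil)) (.cons 324 (.leaf 348 2012 (.cons 322 (.leaf 346 2006 (.cons 252 (.leaf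 228 1821 (.cons 250 (.leaf 226 1815 (.cons 249 (.cons 224 (.leaf 225 1795 (.cons 248 (.leaf 276 1984 (.leaf 223 1787 .nil)) .nil)) (.cons 224 (.leaf 225 1795 (.cons 248 (.leaf 223 1787 (.cons 272 (.leaf 271 1978 (.leaf 273 1986 .nil)) .nil)) .nil)) (.cons 224 (.leaf 225 1795 (.cons 277 (.leaf 276 1992 (.cons 253 (.leaf 278 2000 (.cons 230 (.leaf 229 1809 (.cons 254 (.leaf 231 1817 (.cons 325 (.leaf 301 1837 (.cons 298 (.leaf 326 2387 (.leaf 297 2379 .nil)) .nil)) .nil)) .nil)) .nil)) .nil)) .nil)) (.cons 276 (.leaf 248 1984 (.leaf 277 1992 .nil)) .nil)))) .nil)) .nil)) .nil)) .nil)) .nil))))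
noncomputable def t40 : T := .cons 227 (.cons 202 (.leaf 226 1623 (.cons 203 (.leaf 178 1431 (.cons 204 (.leaf 180 1437 (.leaf 228 1629 .nil)) .nil)) .nil)) (.cons 202 (.leaf 226 1623 (.cons 322 (.leaf 298 1814 (.cons 323 (.leaf 346 2006 (.cons 324 (.leaf 300 1820 (.leaf 348 2012 .nil)) .nil)) .nil)) .nil)) (.cons 228 (.leaf 204 1629 (.cons 322 (.leaf 298 1814 (.cons 323 (.leaf 252 1821 (.leaf 346 2006 .nil)) .nil)) .nil)) .nil))) (.cons 323 t39 (.cons 227 t38 (.cons 323 (.cons 322 (.leaf 346 2006 (.cons 298 (.leaf 227 1814 (.cons 324 (.leaf 348 2012 (.cons 297 (.leaf 296 2368 (.leaf 325 2379 .nil)) .nil)) .nil)) .nil)) (.cons 226 (.leaf 250 1815 (.cons 227 (.leaf 202 1623 (.cons 322 (.leaf 298 1814 (.leaf 346 2006 .nil)) .nil)) .nil)) (.cons 226 (.leaf 250 1815 (.cons 227 (.leaf 202 1623 (.cons 324 (.leaf 300 1820 (.leaf 348 2012 .nil)) .nil)) .nil)) (.cons 348 (.leaf 324 2012 (.cons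 226 (.leaf 250 1815 (.cons 347 (.leaf 372 2204 (.cons 276 (.leaf 252 2013 (.cons 370 (.leaf 346 2198 (.cons 371 (.leaf 300 2205 (.leaf 394 2390 .nil)) .nil)) .nil)) .nil)) .nil)) .nil)) .nil)))) (.cons 227 (.cons 204 (.leaf 228 1629 (.cons 202 (.leaf 226 1623 (.cons 203 (.leaf 178 1431 (.leaf 180 1437 .nil)) .nil)) .nil)) (.cons 226 (.leaf 202 1623 (.cons 322 (.leaf 298 1814 (.cons 323 (.leaf 250 1815 (.leaf 346 2006 .nil)) .nil)) .nil)) (.cons 228 (.leaf 204 1629 (.cons 322 (.leaf 298 1814 (.cons 323 (.leaf 252 1821 (.leaf 346 2006 .nil)) .nil)) .nil)) .nil))) (.cons 227 (.cons 204 (.leaf 228 1629 (.cons 202 (.leaf 226 1623 (.cons 322 (.leaf 298 1814 (.cons 323 (.leaf 346 2006 (.cons 324 (.leaf 300 1820 (.leaf 348 2012 .nil)) .nil)) .nil)) .nil)) .nil)) (.cons 204 (.leaf 228 1629 (.cons 180 (.leaf 203 1437 (.cons 322 (.leaf 298 1814 (.cons 323 (.leaf 346 2006 (.cons 324 (.leaf 300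 1820 (.leaf 348 2012 .nil)) .nil)) .nil)) .nil)) .nil)) (.cons 226 (.leaf 202 1623 (.cons 322 (.leaf 298 1814 (.cons 323 (.leaf 250 1815 (.leaf 346 2006 .nil)) .nil)) .nil)) (.cons 202 (.leaf 226 1623 (.cons 203 (.leaf 178 1431 (.cons 300 (.leaf 276 1628 (.leaf 324 1820 .nil)) .nil)) .nil)) .nil)))) (.cons 323 (.cons 228 (.leaf 252 1821 (.cons 346 (.leaf 322 2006 (.cons 347 (.leaf 370 2198 (.cons 348 (.leaf 324 2012 (.leaf 372 2204 .nil)) .nil)) .nil)) .nil)) (.cons 228 (.leaf 252 1821 (.cons 227 (.leaf 204 1629 (.cons 322 (.leaf 298 1814 (.leaf 346 2006 .nil)) .nil)) .nil)) (.cons 228 (.leaf 252 1821 (.cons 227 (.leaf 204 1629 (.cons 324 (.leaf 300 1820 (.leaf 348 2012 .nil)) .nil)) .nil)) (.cons 324 (.leaf 348 2012 (.cons 227 (.leaf 300 1820 (.cons 322 (.leaf 298 1814 (.leaf 346 2006 .nil)) .nil)) .nil)) .nil)))) .nil))))))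
noncomputable def t41 : T := .cons 226 (.leaf 202 1623 (.cons 204 (.leaf 228 1629 (.cons 323 (.leaf 250 1815 (.cons 324 (.leaf 300 1820 (.leaf 348 2012 .nil)) .nil)) .nil)) .nil)) (.cons 322 (.leaf 298 1814 (.cons 204 (.leaf 228 1629 (.cons 323 (.leaf 346 2006 (.cons 324 (.leaf 300 1820 (.leaf 348 2012 .nil)) .nil)) .nil)) .nil)) (.cons 226 (.leaf 202 1623 (.cons 204 (.leaf 228 1629 (.cons 322 (.leaf 298 1814 (.cons 323 (.leaf 250 1815 (.leaf 346 2006 .nil)) .nil)) .nil)) .nil)) (.cons 226 (.leaf 202 1623 (.cons 298 (.leaf 322 1814 (.cons 323 (.leaf 250 1815 (.cons 324 (.leaf 300 1820 (.leaf 348 2012 .nil)) .nil)) .nil)) .nil)) (.cons 298 (.leaf 322 1814 (.cons 300 (.leaf 324 1820 (.cons 226 (.leaf 202 1623 (.cons 228 (.leaf 204 1629 (.cons 229 (.cons 250 (.leaf 230 1810 (.leaf 249 1802 .nil)) (.cons 206 (.leaf 205 1617 (.cons 230 (.leaf 207 1625 (.cons 254 (.leaf 253 1808 (.leaf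 255 1816 .nil)) .nil)) .nil)) (.cons 205 (.leaf 206 1617 (.cons 249 (.leaf 250 1802 (.cons 225 (.leaf 248 1794 (.cons 200 (.leaf 201 1603 (.cons 224 (.leaf 199 1595 (.cons 273 (.leaf 297 1607 (.cons 274 (.leaf 272 2176 (.leaf 301 2187 .nil)) .nil)) .nil)) .nil)) .nil)) .nil)) .nil)) .nil))) .nil)) .nil)) .nil)) .nil)) .nil))))
noncomputable def t42 : T := .cons 203 (.cons 178 (.leaf 202 1431 (.cons 179 (.leaf 154 1239 (.cons 274 (.leaf 298 1622 (.leaf 250 1430 .nil)) .nil)) .nil)) (.cons 204 (.leaf 180 1437 (.cons 228 (.leaf 299 1629 (.cons 274 (.leaf 298 1622 (.cons 179 (.leaf 250 1430 (.cons 154 (.leaf 178 1239 (.cons 155 (.leaf 130 1047 (.leaf 131 1052 .nil)) .nil)) .nil)) .nil)) .nil)) .nil)) (.cons 202 (.leaf 178 1431 (.cons 299 (.leaf 226 1623 (.cons 204 (.leaf 180 1437 (.leaf 228 1629 .nil)) .nil)) .nil)) (.cons 204 (.leaf 180 1437 (.cons 228 (.leaf 299 1629 (.cons 274 (.leaf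 298 1622 (.cons 250 (.leaf 179 1430 (.cons 229 (.leaf 230 1810 (.cons 249 (.leaf 248 1793 (.leaf 226 1802 .nil)) .nil)) .nil)) .nil)) .nil)) .nil)) .nil)))) (.cons 299 t41 (.cons 203 (.cons 178 (.leaf 202 1431 (.cons 179 (.leaf 154 1239 (.cons 274 (.leaf 298 1622 (.leaf 250 1430 .nil)) .nil)) .nil)) (.cons 178 (.leaf 202 1431 (.cons 179 (.leaf 154 1239 (.cons 180 (.leaf 204 1437 (.leaf 156 1245 .nil)) .nil)) .nil)) (.cons 274 (.leaf 298 1622 (.cons 250 (.leaf 179 1430 (.cons 276 (.leaf 300 1628 (.cons 249 (.leaf 248 1984 (.leaf 277 1995 .nil)) .nil)) .nil)) .nil)) (.cons 202 (.leaf 178 1431 (.cons 204 (.leaf 180 1437 (.cons 276 (.leaf 300 1628 (.cons 274 (.leaf 298 1622 (.cons 201 (.cons 176 (.leaf 177 1411 (.cons 200 (.leaf 228 1600 (.leaf 175 1403 .nil)) .nil)) (.cons 176 (.leaf 177 1411 (.cons 200 (.leaf 175 1403 (.cons 224 (.leaf 223 1594 (.leaf 225 1602 .nil)) .nil)) .nil))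 (.cons 176 (.leaf 177 1411 (.cons 225 (.leaf 224 1602 (.cons 205 (.leaf 226 1610 (.cons 229 (.leaf 228 1608 (.leaf 230 1616 .nil)) .nil)) .nil)) .nil)) (.cons 228 (.leaf 200 1600 (.leaf 229 1608 .nil)) .nil)))) .nil)) .nil)) .nil)) .nil)) .nil)))) (.cons 299 (.cons 204 (.leaf 228 1629 (.cons 203 (.leaf 180 1437 (.cons 298 (.leaf 274 1622 (.leaf 322 1814 .nil)) .nil)) .nil)) (.cons 204 (.leaf 228 1629 (.cons 203 (.leaf 180 1437 (.cons 300 (.leaf 276 1628 (.leaf 324 1820 .nil)) .nil)) .nil)) (.cons 298 (.leaf 322 1814 (.cons 203 (.leaf 274 1622 (.cons 300 (.leaf 276 1628 (.leaf 324 1820 .nil)) .nil)) .nil)) (.cons 204 (.leaf 228 1629 (.cons 300 (.leaf 324 1820 (.cons 322 (.leaf 298 1814 (.cons 323 (.leaf 346 2006 (.cons 250 (.leaf 226 1815 (.cons 274 (.leaf 347 2007 (.cons 273 (.leaf 272 2176 (.cons 276 (.leaf 301 2184 (.cons 249 (.leaf 248 1984 (.leaf 277 1995 .nil)) .nil)) .nil))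 .nil)) .nil)) .nil)) .nil)) .nil)) .nil)) .nil)))) (.cons 203 (.cons 180 (.leaf 204 1437 (.cons 179 (.leaf 156 1245 (.cons 250 (.leaf 274 1430 (.cons 226 (.leaf 155 1238 (.cons 299 (.leaf 202 1623 (.leaf 323 1815 .nil)) .nil)) .nil)) .nil)) .nil)) (.cons 204 (.leaf 180 1437 (.cons 299 (.leaf 228 1629 (.cons 300 (.leaf 276 1628 (.leaf 324 1820 .nil)) .nil)) .nil)) (.cons 202 (.leaf 178 1431 (.cons 299 (.leaf 226 1623 (.cons 300 (.leaf 276 1628 (.leaf 324 1820 .nil)) .nil)) .nil)) (.cons 178 (.leaf 202 1431 (.cons 179 (.leaf 154 1239 (.cons 156 (.leaf 180 1245 (.cons 155 (.leaf 132 1053 (.cons 250 (.leaf 274 1430 (.leaf 226 1238 .nil)) .nil)) .nil)) .nil)) .nil)) .nil)))) (.cons 203 (.cons 178 (.leaf 202 1431 (.cons 154 (.leaf 179 1239 (.cons 204 (.leaf 180 1437 (.cons 298 (.leaf 274 1622 (.cons 299 (.leaf 228 1629 (.leaf 322 1814 .nil)) .nil)) .nil)) .nil)) .nil)) (.cons 178 (.leaf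 202 1431 (.cons 179 (.leaf 154 1239 (.cons 274 (.leaf 298 1622 (.leaf 250 1430 .nil)) .nil)) .nil)) (.cons 204 (.leaf 180 1437 (.cons 299 (.leaf 228 1629 (.cons 300 (.leaf 276 1628 (.leaf 324 1820 .nil)) .nil)) .nil)) .nil))) (.cons 299 (.cons 202 (.leaf 226 1623 (.cons 203 (.leaf 178 1431 (.cons 300 (.leaf 276 1628 (.leaf 324 1820 .nil)) .nil)) .nil)) (.cons 298 (.leaf 322 1814 (.cons 203 (.leaf 274 1622 (.cons 300 (.leaf 276 1628 (.leaf 324 1820 .nil)) .nil)) .nil)) (.cons 202 (.leaf 226 1623 (.cons 203 (.leaf 178 1431 (.cons 298 (.leaf 274 1622 (.leaf 322 1814 .nil)) .nil)) .nil)) (.cons 202 (.leaf 226 1623 (.cons 322 (.leaf 298 1814 (.cons 323 (.leaf 346 2006 (.cons 324 (.leaf 300 1820 (.leaf 348 2012 .nil)) .nil)) .nil)) .nil)) .nil)))) (.cons 299 (.cons 202 (.leaf 226 1623 (.cons 203 (.leaf 178 1431 (.cons 204 (.leaf 180 1437 (.leaf 228 1629 .nil)) .nil)) .nil)) (.cons 204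 (.leaf 228 1629 (.cons 203 (.leaf 180 1437 (.cons 300 (.leaf 276 1628 (.leaf 324 1820 .nil)) .nil)) .nil)) (.cons 226 (.leaf 202 1623 (.cons 298 (.leaf 322 1814 (.cons 323 (.leaf 250 1815 (.cons 324 (.leaf 300 1820 (.leaf 348 2012 .nil)) .nil)) .nil)) .nil)) .nil))) .nil)))))))
noncomputable def t43 : T := .cons 178 (.leaf 202 1431 (.cons 204 (.leaf 180 1437 (.cons 299 (.leaf 228 1629 (.cons 179 (.leaf 154 1239 (.cons 276 (.leaf 300 1628 (.leaf 252 1436 .nil)) .nil)) .nil)) .nil)) .nil)) (.cons 202 (.leaf 178 1431 (.cons 226 (.leaf 299 1623 (.cons 276 (.leaf 300 1628 (.cons 179 (.leaf 252 1436 (.cons 155 (.leaf 131 1046 (.cons 156 (.leaf 180 1245 (.leaf 132 1053 .nil)) .nil)) .nil)) .nil)) .nil)) .nil)) (.cons 204 (.leaf 180 1437 (.cons 228 (.leaf 299 1629 (.cons 276 (.leaf 300 1628 (.cons 179 (.leaf 252 1436 (.cons 154 (.leaf 178 1239 (.cons 155 (.leaf 130 1047 (.leaf 131 1052 .nil))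 .nil)) .nil)) .nil)) .nil)) .nil)) (.cons 204 (.leaf 180 1437 (.cons 178 (.leaf 202 1431 (.cons 179 (.leaf 154 1239 (.cons 176 (.leaf 177 1408 (.cons 205 (.leaf 206 1427 (.cons 228 (.leaf 299 1629 (.cons 155 (.leaf 252 1244 (.leaf 131 1052 .nil)) .nil)) .nil)) .nil)) .nil)) .nil)) .nil)) (.cons 202 (.leaf 178 1431 (.cons 226 (.leaf 299 1623 (.cons 276 (.leaf 300 1628 (.cons 252 (.leaf 179 1436 (.cons 225 (.leaf 224 1792 (.cons 253 (.leaf 254 1811 (.leaf 228 1800 .nil)) .nil)) .nil)) .nil)) .nil)) .nil)) (.cons 204 (.leaf 180 1437 (.cons 228 (.leaf 299 1629 (.cons 276 (.leaf 300 1628 (.cons 252 (.leaf 179 1436 (.cons 181 (.leaf 205 1445 (.cons 277 (.leaf 301 1636 (.cons 278 (.leaf 279 2011 (.cons 254 (.leaf 255 2009 (.cons 253 (.leaf 274 2001 (.leaf 226 1811 .nil)) .nil)) .nil)) .nil)) .nil)) .nil)) .nil)) .nil)) .nil)) (.cons 204 (.leaf 180 1437 (.cons 178 (.leaf 202 1431 (.cons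 299 (.leaf 228 1629 (.cons 300 (.leaf 276 1628 (.leaf 324 1820 .nil)) .nil)) .nil)) .nil)) (.cons 276 (.leaf 300 1628 (.cons 179 (.leaf 252 1436 (.cons 180 (.leaf 204 1437 (.leaf 156 1245 .nil)) .nil)) .nil)) .nil)))))))
noncomputable def t44 : T := .cons 228 (.leaf 204 1629 (.cons 322 (.leaf 298 1814 (.cons 323 (.leaf 252 1821 (.leaf 346 2006 .nil)) .nil)) .nil)) (.cons 324 (.leaf 300 1820 (.cons 322 (.leaf 298 1814 (.cons 323 (.leaf 346 2006 (.leaf 348 2012 .nil)) .nil)) .nil)) (.cons 228 (.leaf 204 1629 (.cons 323 (.leaf 252 1821 (.cons 324 (.leaf 300 1820 (.leaf 348 2012 .nil)) .nil)) .nil)) (.cons 298 (.leaf 322 1814 (.cons 300 (.leaf 324 1820 (.cons 228 (.leaf 204 1629 (.cons 226 (.leaf 202 1623 (.cons 225 (.cons 200 (.leaf 201 1603 (.cons 224 (.leaf 252 1792 (.leaf 199 1595 .nil)) .nil)) (.cons 200 (.leaf 201 1603 (.cons 224 (.leaf 199 1595 (.cons 248 (.leaf 247 1786 (.leaf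 249 1794 .nil)) .nil)) .nil)) (.cons 200 (.leaf 201 1603 (.cons 253 (.leaf 252 1800 (.cons 229 (.leaf 254 1808 (.cons 206 (.leaf 205 1617 (.cons 230 (.leaf 207 1625 (.cons 277 (.leaf 301 1645 (.cons 276 (.leaf 278 2194 (.leaf 297 2185 .nil)) .nil)) .nil)) .nil)) .nil)) .nil)) .nil)) (.cons 252 (.leaf 224 1792 (.leaf 253 1800 .nil)) .nil)))) .nil)) .nil)) .nil)) .nil)) .nil)))
noncomputable def t45 : T := .cons 203 (.cons 180 (.leaf 204 1437 (.cons 179 (.leaf 156 1245 (.cons 276 (.leaf 300 1628 (.leaf 252 1436 .nil)) .nil)) .nil)) (.cons 202 (.leaf 178 1431 (.cons 276 (.leaf 300 1628 (.cons 298 (.leaf 274 1622 (.cons 299 (.leaf 226 1623 (.leaf 322 1814 .nil)) .nil)) .nil)) .nil)) (.cons 204 (.leaf 180 1437 (.cons 298 (.leaf 274 1622 (.cons 299 (.leaf 228 1629 (.leaf 322 1814 .nil)) .nil)) .nil)) .nil))) (.cons 299 t44 (.cons 203 (.cons 276 (.leaf 300 1628 (.cons 179 (.leaf 252 1436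 (.cons 180 (.leaf 204 1437 (.leaf 156 1245 .nil)) .nil)) .nil)) (.cons 276 (.leaf 300 1628 (.cons 178 (.leaf 202 1431 (.cons 179 (.leaf 154 1239 (.leaf 252 1436 .nil)) .nil)) .nil)) (.cons 178 (.leaf 202 1431 (.cons 179 (.leaf 154 1239 (.cons 180 (.leaf 204 1437 (.leaf 156 1245 .nil)) .nil)) .nil)) (.cons 204 (.leaf 180 1437 (.cons 202 (.leaf 178 1431 (.cons 276 (.leaf 300 1628 (.cons 274 (.leaf 298 1622 (.cons 201 (.cons 176 (.leaf 177 1411 (.cons 200 (.leaf 228 1600 (.leaf 175 1403 .nil)) .nil)) (.cons 176 (.leaf 177 1411 (.cons 200 (.leaf 175 1403 (.cons 224 (.leaf 223 1594 (.leaf 225 1602 .nil)) .nil)) .nil)) (.cons 176 (.leaf 177 1411 (.cons 225 (.leaf 224 1602 (.cons 205 (.leaf 226 1610 (.cons 229 (.leaf 228 1608 (.leaf 230 1616 .nil)) .nil)) .nil)) .nil)) (.cons 228 (.leaf 200 1600 (.leaf 229 1608 .nil)) .nil)))) .nil)) .nil)) .nil)) .nil)) .nil)))) (.cons 299 (.cons 202 (.leaf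 226 1623 (.cons 203 (.leaf 178 1431 (.cons 300 (.leaf 276 1628 (.leaf 324 1820 .nil)) .nil)) .nil)) (.cons 202 (.leaf 226 1623 (.cons 203 (.leaf 178 1431 (.cons 298 (.leaf 274 1622 (.leaf 322 1814 .nil)) .nil)) .nil)) (.cons 298 (.leaf 322 1814 (.cons 203 (.leaf 274 1622 (.cons 300 (.leaf 276 1628 (.leaf 324 1820 .nil)) .nil)) .nil)) (.cons 324 (.leaf 300 1820 (.cons 322 (.leaf 298 1814 (.cons 323 (.leaf 346 2006 (.leaf 348 2012 .nil)) .nil)) .nil)) .nil)))) (.cons 203 (.cons 178 (.leaf 202 1431 (.cons 179 (.leaf 154 1239 (.cons 252 (.leaf 276 1436 (.cons 180 (.leaf 204 1437 (.leaf 156 1245 .nil)) .nil)) .nil)) .nil)) (.cons 202 (.leaf 178 1431 (.cons 298 (.leaf 274 1622 (.cons 299 (.leaf 226 1623 (.leaf 322 1814 .nil)) .nil)) .nil)) (.cons 204 (.leaf 180 1437 (.cons 298 (.leaf 274 1622 (.cons 299 (.leaf 228 1629 (.leaf 322 1814 .nil)) .nil)) .nil)) .nil))) (.cons 299 (.cons 324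 (.leaf 300 1820 (.cons 322 (.leaf 298 1814 (.cons 323 (.leaf 346 2006 (.leaf 348 2012 .nil)) .nil)) .nil)) (.cons 204 (.leaf 228 1629 (.cons 203 (.leaf 180 1437 (.cons 300 (.leaf 276 1628 (.leaf 324 1820 .nil)) .nil)) .nil)) (.cons 204 (.leaf 228 1629 (.cons 203 (.leaf 180 1437 (.cons 298 (.leaf 274 1622 (.leaf 322 1814 .nil)) .nil)) .nil)) .nil))) (.cons 203 t43 (.cons 299 (.cons 202 (.leaf 226 1623 (.cons 203 (.leaf 178 1431 (.cons 204 (.leaf 180 1437 (.leaf 228 1629 .nil)) .nil)) .nil)) (.cons 298 (.leaf 322 1814 (.cons 202 (.leaf 226 1623 (.cons 203 (.leaf 178 1431 (.leaf 274 1622 .nil)) .nil)) .nil)) (.cons 204 (.leaf 228 1629 (.cons 203 (.leaf 180 1437 (.cons 298 (.leaf 274 1622 (.leaf 322 1814 .nil)) .nil)) .nil)) (.cons 228 (.leaf 204 1629 (.cons 322 (.leaf 298 1814 (.cons 323 (.leaf 252 1821 (.leaf 346 2006 .nil)) .nil)) .nil)) .nil)))) .nil)))))))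
noncomputable def t46 : T := .cons 277 (.leaf 278 2003 (.cons 249 (.leaf 248 1984 (.leaf 274 1995 .nil)) .nil)) (.cons 277 (.leaf 278 2003 (.cons 274 (.cons 298 (.leaf 297 2186 (.cons 227 (.leaf 203 1622 (.leaf 322 1813 .nil)) .nil)) (.cons 253 (.leaf 254 2001 (.cons 252 (.leaf 273 1993 (.cons 226 (.leaf 225 1803 (.cons 202 (.leaf 178 1428 (.cons 203 (.leaf 179 1429 (.cons 227 (.leaf 300 1628 (.cons 201 (.leaf 177 1423 (.cons 200 (.leaf 199 1592 (.leaf 228 1600 .nil)) .nil)) .nil)) .nil)) .nil)) .nil)) .nil)) .nil)) (.cons 253 (.leaf 254 2001 (.cons 273 (.leaf 252 1993 (.cons 272 (.leaf 271 1977 (.cons 296 (.leaf 295 2170 (.leaf 297 2178 .nil)) .nil)) .nil)) .nil)) .nil))) .nil)) (.cons 249 (.leaf 248 1984 (.cons 252 (.cons 225 (.leaf 224 1795 (.cons 253 (.leaf 226 1803 (.cons 254 (.leaf 274 2002 (.leaf 255 2010 .nil)) .nil)) .nil)) (.cons 273 (.leaf 272 1986 (.cons 253 (.leaf 274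 1993 (.cons 254 (.leaf 255 2010 (.cons 227 (.leaf 226 1811 (.cons 203 (.leaf 300 1628 (.leaf 179 1436 .nil)) .nil)) .nil)) .nil)) .nil)) (.cons 225 (.leaf 224 1795 (.cons 226 (.leaf 253 1803 (.cons 202 (.leaf 178 1428 (.cons 273 (.leaf 272 1986 (.leaf 297 1613 .nil)) .nil)) .nil)) .nil)) (.cons 273 (.leaf 272 1986 (.cons 225 (.leaf 224 1795 (.cons 274 (.cons 201 (.leaf 177 1420 (.leaf 298 1612 .nil)) (.cons 177 (.leaf 201 1420 (.cons 296 (.leaf 297 2178 (.cons 300 (.leaf 301 2184 (.cons 227 (.leaf 203 1628 (.leaf 324 1823 .nil)) .nil)) .nil)) .nil)) (.cons 296 (.leaf 297 2178 (.cons 298 (.leaf 322 1807 (.cons 227 (.leaf 203 1622 (.cons 300 (.leaf 301 2184 (.leaf 324 1823 .nil)) .nil)) .nil)) .nil)) .nil))) .nil)) .nil)) .nil)))) .nil)) (.cons 249 (.leaf 248 1984 (.cons 277 (.leaf 278 2003 (.leaf 252 1992 .nil)) .nil)) .nil)))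
noncomputable def t47 : T := .cons 228 (.leaf 229 1801 (.cons 204 (.leaf 180 1438 (.cons 181 (.leaf 205 1445 (.cons 203 (.leaf 179 1439 (.cons 227 (.leaf 300 1628 (.cons 202 (.leaf 178 1431 (.cons 200 (.leaf 201 1600 (.cons 274 (.leaf 298 1622 (.cons 273 (.leaf 272 1985 (.leaf 253 1993 .nil)) .nil)) .nil)) .nil)) .nil)) .nil)) .nil)) .nil)) .nil)) (.cons 228 (.leaf 229 1801 (.cons 204 (.leaf 180 1438 (.cons 181 (.leaf 205 1445 (.cons 203 (.leaf 179 1439 (.cons 227 (.leaf 300 1628 (.cons 202 (.leaf 178 1431 (.cons 201 (.leaf 200 1600 (.cons 177 (.leaf 176 1411 (.cons 274 (.leaf 298 1622 (.leaf 226 1423 .nil)) .nil)) .nil)) .nil)) .nil)) .nil)) .nil)) .nil)) .nil)) (.cons 273 (.leaf 272 1986 (.cons 253 (.leaf 274 1993 (.cons 229 (.leaf 230 1809 (.cons 181 (.leaf 205 1446 (.cons 254 (.leaf 255 2010 (.cons 227 (.leaf 226 1811 (.cons 300 (.leaf 203 1628 (.leaf 324 1829 .nil)) .nil)) .nil))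 .nil)) .nil)) .nil)) .nil)) (.cons 273 (.leaf 272 1986 (.cons 253 (.leaf 274 1993 (.cons 254 (.leaf 255 2010 (.cons 227 (.leaf 226 1811 (.cons 203 (.leaf 300 1628 (.leaf 179 1436 .nil)) .nil)) .nil)) .nil)) .nil)) (.cons 228 (.leaf 229 1801 (.cons 204 (.leaf 180 1438 (.cons 181 (.leaf 205 1445 (.cons 203 (.leaf 179 1439 (.cons 300 (.leaf 227 1628 (.cons 272 (.leaf 273 1986 (.cons 324 (.leaf 348 2015 (.cons 325 (.leaf 301 1828 (.leaf 349 2020 .nil)) .nil)) .nil)) .nil)) .nil)) .nil)) .nil)) .nil)) (.cons 273 (.leaf 272 1986 (.cons 253 (.leaf 274 1993 (.cons 229 (.leaf 228 1801 (.leaf 230 1809 .nil)) .nil)) .nil)) .nil)))))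
noncomputable def t48 : T := .cons 298 (.leaf 297 2186 (.cons 227 (.leaf 203 1622 (.leaf 322 1813 .nil)) .nil)) (.cons 253 (.leaf 254 2001 (.cons 227 (.cons 203 (.leaf 300 1628 (.leaf 179 1430 .nil)) (.cons 229 (.cons 228 (.leaf 230 1810 (.cons 204 (.leaf 301 1639 (.cons 180 (.leaf 252 1444 (.leaf 156 1252 .nil)) .nil)) .nil)) (.cons 228 (.leaf 230 1810 (.cons 204 (.leaf 301 1639 (.cons 180 (.leaf 156 1252 (.leaf 205 1447 .nil)) .nil)) .nil)) (.cons 205 (.leaf 300 1638 (.cons 180 (.leaf 204 1447 (.cons 181 (.leaf 252 1446 (.leaf 156 1255 .nil)) .nil)) .nil)) (.cons 205 (.leaf 300 1638 (.cons 206 (.leaf 182 1453 (.cons 228 (.leaf 230 1810 (.leaf 226 1617 .nil)) .nil)) .nil)) .nil)))) (.cons 203 (.leaf 179 1430 (.cons 202 (.leaf 178 1431 (.cons 204 (.leaf 180 1437 (.cons 201 (.cons 177 (.leaf 226 1423 (.leaf 176 1411 .nil)) (.cons 228 (.leaf 200 1600 (.leaf 229 1608 .nil)) .nil)) .nil))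 .nil)) .nil)) .nil))) .nil)) (.cons 253 (.leaf 254 2001 (.cons 252 (.leaf 273 1993 (.cons 229 (.leaf 230 1809 (.cons 205 (.leaf 181 1446 (.leaf 300 1638 .nil)) .nil)) .nil)) .nil)) .nil))
noncomputable def t49 : T := .cons 298 (.leaf 297 2186 (.cons 253 (.leaf 254 2001 (.cons 252 (.leaf 273 1993 (.cons 225 (.leaf 226 1803 (.cons 229 (.leaf 230 1809 (.cons 205 (.leaf 181 1446 (.leaf 300 1638 .nil)) .nil)) .nil)) .nil)) .nil)) .nil)) (.cons 298 (.leaf 297 2186 (.cons 227 (.leaf 203 1622 (.leaf 322 1813 .nil)) .nil)) (.cons 253 (.leaf 254 2001 (.cons 227 (.cons 203 (.leaf 300 1628 (.leaf 179 1430 .nil)) (.cons 229 (.cons 228 (.leaf 230 1810 (.cons 204 (.leaf 301 1639 (.cons 180 (.leaf 252 1444 (.leaf 156 1252 .nil)) .nil)) .nil)) (.cons 228 (.leaf 230 1810 (.cons 204 (.leaf 301 1639 (.cons 180 (.leaf 156 1252 (.leaf 205 1447 .nil)) .nil)) .nil)) (.cons 205 (.leaf 300 1638 (.cons 180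 (.leaf 204 1447 (.cons 181 (.leaf 252 1446 (.leaf 156 1255 .nil)) .nil)) .nil)) (.cons 205 (.leaf 300 1638 (.cons 206 (.leaf 182 1453 (.cons 228 (.leaf 230 1810 (.leaf 226 1617 .nil)) .nil)) .nil)) .nil)))) (.cons 203 (.leaf 179 1430 (.cons 202 (.leaf 178 1431 (.cons 204 (.leaf 180 1437 (.cons 201 (.cons 177 (.leaf 226 1423 (.leaf 176 1411 .nil)) (.cons 228 (.leaf 200 1600 (.leaf 229 1608 .nil)) .nil)) .nil)) .nil)) .nil)) .nil))) .nil)) .nil))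
noncomputable def t50 : T := .cons 277 (.leaf 278 2003 (.cons 249 (.leaf 248 1984 (.leaf 274 1995 .nil)) .nil)) (.cons 277 (.leaf 278 2003 (.cons 274 t49 .nil)) (.cons 249 (.leaf 248 1984 (.cons 252 (.cons 228 (.leaf 229 1801 (.cons 204 (.leaf 180 1438 (.cons 181 (.leaf 205 1445 (.cons 203 (.leaf 179 1439 (.cons 227 (.leaf 300 1628 (.cons 202 (.leaf 178 1431 (.cons 201 (.leaf 200 1600 (.cons 177 (.leaf 176 1411 (.cons 274 (.leaf 298 1622 (.leaf 226 1423 .nil)) .nil)) .nil)) .nil)) .nil)) .nil)) .nil)) .nil)) .nil)) (.cons 225 (.leaf 224 1795 (.cons 253 (.leaf 226 1803 (.cons 254 (.leaf 274 2002 (.leaf 255 2010 .nil)) .nil)) .nil)) (.cons 224 (.leaf 225 1795 (.cons 228 (.leaf 229 1801 (.cons 204 (.leaf 180 1438 (.cons 181 (.leaf 205 1445 (.cons 203 (.leaf 179 1439 (.cons 300 (.leaf 227 1628 (.cons 324 (.leaf 348 2015 (.cons 325 (.leaf 301 1828 (.leaf 349 2020 .nil)) .nil)) .nil))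 .nil)) .nil)) .nil)) .nil)) .nil)) .nil))) .nil)) (.cons 249 (.leaf 248 1984 (.cons 277 (.leaf 278 2003 (.leaf 252 1992 .nil)) .nil)) .nil)))
noncomputable def t51 : T := .cons 277 (.leaf 278 2003 (.cons 249 (.leaf 248 1984 (.leaf 274 1995 .nil)) .nil)) (.cons 277 (.leaf 278 2003 (.cons 274 (.cons 298 (.leaf 297 2186 (.cons 253 (.leaf 254 2001 (.cons 252 (.leaf 273 1993 (.cons 225 (.leaf 226 1803 (.cons 229 (.leaf 230 1809 (.cons 205 (.leaf 181 1446 (.leaf 300 1638 .nil)) .nil)) .nil)) .nil)) .nil)) .nil)) (.cons 298 (.leaf 297 2186 (.cons 227 (.leaf 203 1622 (.leaf 322 1813 .nil)) .nil)) (.cons 253 (.leaf 254 2001 (.cons 252 (.leaf 273 1993 (.cons 225 (.leaf 226 1803 (.cons 229 (.leaf 230 1809 (.cons 205 (.leaf 181 1446 (.leaf 300 1638 .nil)) .nil)) .nil)) .nil)) .nil)) .nil))) .nil)) (.cons 249 (.leaf 248 1984 (.cons 252 (.cons 225 (.leaf 224 1795 (.cons 253 (.leaf 226 1803 (.cons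 254 (.leaf 274 2002 (.leaf 255 2010 .nil)) .nil)) .nil)) (.cons 273 (.leaf 272 1986 (.cons 225 (.leaf 224 1795 (.cons 274 (.cons 201 (.leaf 177 1420 (.leaf 298 1612 .nil)) (.cons 177 (.leaf 201 1420 (.cons 296 (.leaf 297 2178 (.cons 300 (.leaf 301 2184 (.cons 227 (.leaf 203 1628 (.leaf 324 1823 .nil)) .nil)) .nil)) .nil)) (.cons 296 (.leaf 297 2178 (.cons 298 (.leaf 322 1807 (.cons 227 (.leaf 203 1622 (.cons 300 (.leaf 301 2184 (.leaf 324 1823 .nil)) .nil)) .nil)) .nil)) .nil))) .nil)) .nil)) (.cons 273 (.leaf 272 1986 (.cons 253 (.leaf 274 1993 (.cons 229 (.leaf 230 1809 (.cons 181 (.leaf 205 1446 (.cons 254 (.leaf 255 2010 (.cons 227 (.leaf 226 1811 (.cons 300 (.leaf 203 1628 (.leaf 324 1829 .nil)) .nil)) .nil)) .nil)) .nil)) .nil)) .nil)) (.cons 225 (.leaf 224 1795 (.cons 226 (.leaf 253 1803 (.cons 202 (.leaf 178 1428 (.cons 273 (.leaf 272 1986 (.leaf 297 1613 .nil)) .nil)) .nil))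 .nil)) .nil)))) .nil)) (.cons 249 (.leaf 248 1984 (.cons 277 (.leaf 278 2003 (.leaf 252 1992 .nil)) .nil)) .nil)))
noncomputable def t52 : T := .cons 224 (.leaf 225 1795 (.cons 228 (.leaf 229 1801 (.cons 204 (.leaf 180 1438 (.cons 276 (.leaf 277 1992 (.cons 181 (.leaf 205 1445 (.cons 203 (.leaf 179 1439 (.cons 227 (.leaf 300 1628 (.cons 202 (.leaf 178 1431 (.cons 201 (.leaf 200 1600 (.cons 177 (.leaf 176 1411 (.cons 274 (.leaf 298 1622 (.leaf 226 1423 .nil)) .nil)) .nil)) .nil)) .nil)) .nil)) .nil)) .nil)) .nil)) .nil)) .nil)) (.cons 225 (.leaf 224 1795 (.cons 226 (.leaf 253 1803 (.cons 178 (.leaf 202 1428 (.cons 228 (.leaf 229 1801 (.cons 204 (.leaf 180 1438 (.cons 227 (.leaf 205 1609 (.cons 201 (.leaf 200 1603 (.cons 177 (.leaf 153 1228 (.leaf 274 1420 .nil)) .nil)) .nil)) .nil)) .nil)) .nil)) .nil)) .nil)) (.cons 277 (.leaf 276 1992 (.cons 224 (.leaf 225 1795 (.cons 253 (.leaf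 278 2000 (.cons 230 (.leaf 229 1809 (.cons 254 (.leaf 274 2002 (.leaf 231 1817 .nil)) .nil)) .nil)) .nil)) .nil)) (.cons 277 (.leaf 276 1992 (.cons 229 (.leaf 228 1801 (.cons 253 (.leaf 230 1809 (.leaf 278 2000 .nil)) .nil)) .nil)) (.cons 277 (.leaf 276 1992 (.cons 224 (.leaf 225 1795 (.cons 253 (.leaf 278 2000 (.cons 254 (.leaf 274 2002 (.cons 227 (.leaf 226 1811 (.cons 231 (.leaf 230 1817 (.cons 255 (.leaf 228 1819 (.leaf 232 1825 .nil)) .nil)) .nil)) .nil)) .nil)) .nil)) .nil)) .nil))))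
noncomputable def t53 : T := .cons 276 (.leaf 277 1992 (.cons 225 (.leaf 224 1795 (.cons 228 (.leaf 229 1801 (.cons 204 (.leaf 180 1438 (.cons 203 (.leaf 179 1439 (.cons 205 (.leaf 181 1445 (.cons 202 (.leaf 226 1610 (.cons 177 (.leaf 178 1419 (.cons 201 (.leaf 274 1420 (.leaf 176 1411 .nil)) .nil)) .nil)) .nil)) .nil)) .nil)) .nil)) .nil)) .nil)) (.cons 273 (.leaf 272 1986 (.cons 225 (.leaf 224 1795 (.cons 228 (.leaf 229 1801 (.cons 204 (.leaf 180 1438 (.cons 226 (.cons 202 (.leaf 178 1428 (.leaf 297 1613 .nil)) (.cons 205 (.leaf 227 1609 (.cons 297 (.leaf 321 1805 (.cons 298 (.leaf 322 1804 (.cons 201 (.leaf 274 1612 (.cons 176 (.leaf 200 1415 (.cons 177 (.leaf 153 1228 (.leaf 152 1223 .nil)) .nil)) .nil)) .nil)) .nil)) .nil)) (.cons 202 (.leaf 178 1428 (.cons 205 (.leaf 203 1610 (.leaf 227 1609 .nil)) .nil)) .nil))) .nil)) .nil)) .nil)) .nil)) (.cons 276 (.leaf 277 1992 (.cons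 273 (.leaf 272 1986 (.cons 225 (.leaf 224 1795 (.cons 274 (.cons 201 (.leaf 177 1420 (.leaf 298 1612 .nil)) (.cons 177 (.leaf 201 1420 (.cons 296 (.leaf 297 2178 (.cons 300 (.leaf 301 2184 (.cons 227 (.leaf 203 1628 (.leaf 324 1823 .nil)) .nil)) .nil)) .nil)) (.cons 296 (.leaf 297 2178 (.cons 298 (.leaf 322 1807 (.cons 227 (.leaf 203 1622 (.cons 300 (.leaf 301 2184 (.leaf 324 1823 .nil)) .nil)) .nil)) .nil)) .nil))) .nil)) .nil)) .nil)) (.cons 276 (.leaf 277 1992 (.cons 228 (.leaf 229 1801 (.cons 204 (.leaf 180 1438 (.cons 181 (.leaf 205 1445 (.cons 203 (.leaf 179 1439 (.cons 227 (.leaf 300 1628 (.cons 202 (.leaf 178 1431 (.cons 200 (.leaf 201 1600 (.cons 274 (.leaf 298 1622 (.cons 273 (.leaf 272 1985 (.cons 297 (.leaf 296 2178 (.leaf 226 1614 .nil)) .nil)) .nil)) .nil)) .nil)) .nil)) .nil)) .nil)) .nil)) .nil)) .nil)) (.cons 276 (.leaf 277 1992 (.cons 225 (.leaf 224 1795 (.cons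 228 (.leaf 229 1801 (.cons 204 (.leaf 180 1438 (.cons 205 (.leaf 181 1445 (.cons 226 (.leaf 227 1609 (.cons 202 (.leaf 178 1428 (.leaf 203 1610 .nil)) .nil)) .nil)) .nil)) .nil)) .nil)) .nil)) (.cons 276 (.leaf 277 1992 (.cons 225 (.leaf 224 1795 (.cons 228 (.leaf 229 1801 (.cons 204 (.leaf 180 1438 (.cons 205 (.leaf 181 1445 (.cons 226 (.leaf 227 1609 (.cons 202 (.leaf 178 1428 (.cons 273 (.leaf 272 1986 (.leaf 297 1613 .nil)) .nil)) .nil)) .nil)) .nil)) .nil)) .nil)) .nil)) .nil)))))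
noncomputable def t54 : T := .cons 248 (.leaf 276 1984 (.cons 227 (.leaf 228 1793 (.cons 247 (.leaf 274 1976 (.leaf 226 1785 .nil)) .nil)) .nil)) (.cons 252 (.cons 273 (.leaf 272 1986 (.cons 225 (.leaf 224 1795 (.cons 226 (.leaf 253 1803 (.cons 202 (.leaf 178 1428 (.leaf 297 1613 .nil)) .nil)) .nil)) .nil)) (.cons 277 (.leaf 276 1992 (.cons 224 (.leaf 225 1795 (.cons 253 (.leaf 278 2000 (.cons 230 (.leaf 229 1809 (.cons 254 (.leaf 274 2002 (.leaf 231 1817 .nil)) .nil)) .nil)) .nil)) .nil)) (.cons 277 (.leaf 276 1992 (.cons 229 (.leaf 228 1801 (.cons 253 (.leaf 230 1809 (.leaf 278 2000 .nil)) .nil)) .nil)) (.cons 276 (.leaf 277 1992 (.cons 225 (.leaf 224 1795 (.cons 228 (.leaf 229 1801 (.cons 204 (.leaf 180 1438 (.cons 205 (.leaf 181 1445 (.cons 226 (.leaf 227 1609 (.cons 202 (.leaf 178 1428 (.cons 273 (.leaf 272 1986 (.leaf 297 1613 .nil)) .nil)) .nil)) .nil)) .nil)) .nil)) .nil))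 .nil)) .nil)))) (.cons 248 (.cons 227 (.leaf 228 1793 (.cons 247 (.leaf 274 1976 (.leaf 226 1785 .nil)) .nil)) (.cons 223 (.leaf 224 1787 (.cons 272 (.leaf 271 1978 (.cons 252 (.leaf 273 1986 (.cons 229 (.leaf 228 1801 (.cons 253 (.leaf 230 1809 (.cons 225 (.leaf 226 1803 (.cons 177 (.leaf 201 1414 (.cons 254 (.leaf 274 2002 (.cons 278 (.leaf 277 2000 (.leaf 279 2008 .nil)) .nil)) .nil)) .nil)) .nil)) .nil)) .nil)) .nil)) .nil)) (.cons 223 (.leaf 224 1787 (.cons 228 (.leaf 227 1793 (.cons 252 (.leaf 229 1801 (.cons 272 (.leaf 271 1978 (.leaf 273 1986 .nil)) .nil)) .nil)) .nil)) (.cons 223 (.leaf 224 1787 (.cons 247 (.leaf 274 1976 (.leaf 222 1779 .nil)) .nil)) .nil)))) (.cons 248 (.leaf 276 1984 (.cons 223 (.leaf 224 1787 (.cons 228 (.leaf 227 1793 (.cons 252 (.leaf 229 1801 (.cons 272 (.leaf 271 1978 (.leaf 273 1986 .nil)) .nil)) .nil)) .nil)) .nil)) (.cons 248 (.leaf 276 1984 (.cons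 223 (.leaf 224 1787 (.cons 247 (.leaf 274 1976 (.leaf 222 1779 .nil)) .nil)) .nil)) .nil))))
noncomputable def t55 : T := .cons 273 (.leaf 272 1986 (.cons 225 (.leaf 224 1795 (.cons 226 (.leaf 253 1803 (.cons 202 (.leaf 178 1428 (.leaf 297 1613 .nil)) .nil)) .nil)) .nil)) (.cons 225 (.leaf 224 1795 (.cons 226 (.leaf 253 1803 (.cons 178 (.leaf 202 1428 (.cons 228 (.leaf 229 1801 (.cons 204 (.leaf 180 1438 (.cons 227 (.leaf 205 1609 (.cons 201 (.leaf 200 1603 (.cons 177 (.leaf 153 1228 (.leaf 274 1420 .nil)) .nil)) .nil)) .nil)) .nil)) .nil)) .nil)) .nil)) (.cons 273 (.leaf 272 1986 (.cons 229 (.leaf 228 1801 (.cons 253 (.leaf 230 1809 (.leaf 274 1994 .nil)) .nil)) .nil)) (.cons 273 (.leaf 272 1986 (.cons 225 (.leaf 224 1795 (.cons 228 (.leaf 229 1801 (.cons 204 (.leaf 180 1438 (.cons 226 (.cons 202 (.leaf 178 1428 (.leaf 297 1613 .nil)) (.cons 205 (.leaf 227 1609 (.cons 297 (.leaf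 321 1805 (.cons 298 (.leaf 322 1804 (.cons 201 (.leaf 274 1612 (.cons 176 (.leaf 200 1415 (.cons 177 (.leaf 153 1228 (.leaf 152 1223 .nil)) .nil)) .nil)) .nil)) .nil)) .nil)) (.cons 202 (.leaf 178 1428 (.cons 205 (.leaf 203 1610 (.leaf 227 1609 .nil)) .nil)) .nil))) .nil)) .nil)) .nil)) .nil)) .nil)))
noncomputable def t56 : T := .cons 253 (.cons 274 (.leaf 254 2002 (.leaf 273 1994 .nil)) (.cons 225 (.leaf 226 1803 (.cons 224 (.leaf 249 1795 (.cons 230 (.leaf 229 1809 (.cons 254 (.leaf 231 1817 (.cons 278 (.leaf 277 2000 (.leaf 279 2008 .nil)) .nil)) .nil)) .nil)) .nil)) (.cons 225 (.leaf 226 1803 (.cons 249 (.leaf 224 1795 (.cons 229 (.leaf 228 1801 (.leaf 230 1809 .nil)) .nil)) .nil)) .nil))) (.cons 249 t53 (.cons 249 (.cons 224 (.leaf 225 1795 (.cons 228 (.leaf 229 1801 (.cons 204 (.leaf 180 1438 (.cons 272 (.leaf 273 1986 (.cons 276 (.leaf 277 1992 (.cons 181 (.leaf 205 1445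 (.cons 203 (.leaf 179 1439 (.cons 300 (.leaf 227 1628 (.cons 324 (.leaf 348 2015 (.cons 325 (.leaf 301 1828 (.leaf 349 2020 .nil)) .nil)) .nil)) .nil)) .nil)) .nil)) .nil)) .nil)) .nil)) .nil)) (.cons 225 (.leaf 224 1795 (.cons 226 (.leaf 253 1803 (.cons 178 (.leaf 202 1428 (.cons 228 (.leaf 229 1801 (.cons 204 (.leaf 180 1438 (.cons 227 (.leaf 205 1609 (.cons 201 (.leaf 200 1603 (.cons 177 (.leaf 153 1228 (.leaf 154 1229 .nil)) .nil)) .nil)) .nil)) .nil)) .nil)) .nil)) .nil)) (.cons 225 (.leaf 224 1795 (.cons 226 (.leaf 253 1803 (.cons 202 (.leaf 178 1428 (.cons 273 (.leaf 272 1986 (.leaf 297 1613 .nil)) .nil)) .nil)) .nil)) (.cons 277 (.leaf 276 1992 (.cons 229 (.leaf 228 1801 (.cons 253 (.leaf 230 1809 (.leaf 278 2000 .nil)) .nil)) .nil)) .nil)))) (.cons 253 (.cons 225 (.leaf 226 1803 (.cons 229 (.leaf 230 1809 (.cons 278 (.leaf 277 2000 (.cons 254 (.leaf 274 2002 (.leaf 279 2008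 .nil)) .nil)) .nil)) .nil)) (.cons 225 (.leaf 226 1803 (.cons 229 (.leaf 230 1809 (.cons 278 (.leaf 277 2000 (.cons 254 (.leaf 279 2008 (.cons 181 (.leaf 205 1452 (.cons 255 (.leaf 276 2010 (.cons 228 (.leaf 227 1819 (.leaf 256 1827 .nil)) .nil)) .nil)) .nil)) .nil)) .nil)) .nil)) (.cons 226 (.leaf 225 1803 (.cons 202 (.leaf 178 1428 (.cons 229 (.leaf 230 1809 (.cons 274 (.leaf 273 1994 (.cons 177 (.leaf 201 1423 (.cons 203 (.leaf 179 1429 (.cons 227 (.leaf 298 1621 (.cons 204 (.leaf 180 1437 (.cons 205 (.leaf 206 1618 (.cons 276 (.leaf 300 1628 (.leaf 181 1446 .nil)) .nil)) .nil)) .nil)) .nil)) .nil)) .nil)) .nil)) .nil)) .nil)) (.cons 274 (.leaf 254 2002 (.leaf 273 1994 .nil)) .nil)))) (.cons 253 (.cons 225 (.leaf 226 1803 (.cons 224 (.leaf 249 1795 (.cons 230 (.leaf 229 1809 (.cons 254 (.leaf 274 2002 (.leaf 231 1817 .nil)) .nil)) .nil)) .nil)) (.cons 229 (.leaf 230 1809 (.cons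 228 (.leaf 249 1801 (.cons 204 (.leaf 180 1438 (.cons 277 (.leaf 278 2000 (.leaf 301 1639 .nil)) .nil)) .nil)) .nil)) (.cons 225 (.leaf 226 1803 (.cons 224 (.leaf 249 1795 (.cons 278 (.leaf 277 2000 (.cons 254 (.leaf 274 2002 (.leaf 279 2008 .nil)) .nil)) .nil)) .nil)) (.cons 254 (.leaf 274 2002 (.cons 278 (.leaf 277 2000 (.leaf 279 2008 .nil)) .nil)) .nil)))) (.cons 253 (.cons 225 (.leaf 226 1803 (.cons 229 (.leaf 230 1809 (.cons 249 (.leaf 224 1795 (.leaf 228 1801 .nil)) .nil)) .nil)) (.cons 274 (.leaf 254 2002 (.leaf 273 1994 .nil)) .nil)) (.cons 253 (.cons 229 (.leaf 230 1809 (.cons 228 (.leaf 249 1801 (.cons 204 (.leaf 180 1438 (.cons 277 (.leaf 278 2000 (.leaf 301 1639 .nil)) .nil)) .nil)) .nil)) (.cons 274 (.leaf 254 2002 (.leaf 273 1994 .nil)) .nil)) (.cons 253 (.cons 225 (.leaf 226 1803 (.cons 224 (.leaf 249 1795 (.cons 230 (.leaf 229 1809 (.cons 254 (.leaf 274 2002 (.leaf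 231 1817 .nil)) .nil)) .nil)) .nil)) (.cons 225 (.leaf 226 1803 (.cons 224 (.leaf 249 1795 (.cons 230 (.leaf 229 1809 (.cons 254 (.leaf 231 1817 (.cons 278 (.leaf 277 2000 (.leaf 279 2008 .nil)) .nil)) .nil)) .nil)) .nil)) (.cons 225 (.leaf 226 1803 (.cons 229 (.leaf 230 1809 (.cons 249 (.leaf 224 1795 (.cons 273 (.leaf 272 1986 (.leaf 274 1994 .nil)) .nil)) .nil)) .nil)) (.cons 274 (.leaf 254 2002 (.leaf 273 1994 .nil)) .nil)))) (.cons 253 (.cons 274 (.leaf 254 2002 (.leaf 273 1994 .nil)) (.cons 277 (.leaf 278 2000 (.cons 225 (.leaf 226 1803 (.cons 249 (.leaf 224 1795 (.leaf 276 1992 .nil)) .nil)) .nil)) .nil)) .nil))))))))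
noncomputable def t57 : T := .cons 249 (.leaf 248 1984 (.cons 277 (.leaf 274 1995 (.leaf 278 2003 .nil)) .nil)) (.cons 277 (.leaf 278 2003 (.cons 274 (.cons 253 (.leaf 254 2001 (.cons 298 (.leaf 297 2186 (.cons 227 (.leaf 203 1622 (.leaf 322 1813 .nil)) .nil)) .nil)) (.cons 298 (.leaf 297 2186 (.cons 227 (.leaf 203 1622 (.leaf 322 1813 .nil)) .nil)) (.cons 253 (.leaf 254 2001 (.cons 252 (.leaf 273 1993 (.cons 229 (.leaf 230 1809 (.cons 205 (.leaf 181 1446 (.leaf 300 1638 .nil)) .nil)) .nil)) .nil)) .nil))) .nil)) (.cons 249 (.leaf 248 1984 (.cons 252 (.cons 224 (.leaf 225 1795 (.cons 228 (.leaf 229 1801 (.cons 204 (.leaf 180 1438 (.cons 181 (.leaf 205 1445 (.cons 203 (.leaf 179 1439 (.cons 300 (.leaf 227 1628 (.cons 272 (.leaf 273 1986 (.cons 324 (.leaf 348 2015 (.cons 325 (.leaf 301 1828 (.leaf 349 2020 .nil)) .nil)) .nil)) .nil)) .nil)) .nil)) .nil)) .nil)) .nil)) (.cons 224 (.leaf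 225 1795 (.cons 228 (.leaf 229 1801 (.cons 204 (.leaf 180 1438 (.cons 181 (.leaf 205 1445 (.cons 203 (.leaf 179 1439 (.cons 300 (.leaf 227 1628 (.cons 324 (.leaf 348 2015 (.cons 325 (.leaf 301 1828 (.leaf 349 2020 .nil)) .nil)) .nil)) .nil)) .nil)) .nil)) .nil)) .nil)) (.cons 224 (.leaf 225 1795 (.cons 273 (.leaf 272 1986 (.cons 274 (.leaf 253 1993 (.cons 296 (.leaf 297 2178 (.cons 300 (.leaf 301 2184 (.cons 227 (.leaf 203 1628 (.leaf 324 1823 .nil)) .nil)) .nil)) .nil)) .nil)) .nil)) (.cons 273 (.leaf 272 1986 (.cons 253 (.leaf 274 1993 (.cons 229 (.leaf 228 1801 (.leaf 230 1809 .nil)) .nil)) .nil)) .nil)))) .nil)) (.cons 249 (.leaf 248 1984 (.cons 277 (.leaf 278 2003 (.leaf 252 1992 .nil)) .nil)) .nil)))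
noncomputable def t58 : T := .cons 224 (.leaf 225 1795 (.cons 272 (.leaf 273 1986 (.cons 277 (.leaf 276 1992 (.cons 253 (.leaf 278 2000 (.cons 230 (.leaf 229 1809 (.cons 254 (.leaf 274 2002 (.leaf 231 1817 .nil)) .nil)) .nil)) .nil)) .nil)) .nil)) (.cons 277 (.leaf 276 1992 (.cons 224 (.leaf 225 1795 (.cons 253 (.leaf 278 2000 (.cons 230 (.leaf 229 1809 (.cons 254 (.leaf 274 2002 (.leaf 231 1817 .nil)) .nil)) .nil)) .nil)) .nil)) (.cons 273 (.leaf 272 1986 (.cons 229 (.leaf 228 1801 (.cons 253 (.leaf 230 1809 (.leaf 274 1994 .nil)) .nil)) .nil)) (.cons 276 (.leaf 277 1992 (.cons 225 (.leaf 224 1795 (.cons 228 (.leaf 229 1801 (.cons 204 (.leaf 180 1438 (.cons 203 (.leaf 179 1439 (.cons 205 (.leaf 181 1445 (.cons 202 (.leaf 226 1610 (.cons 177 (.leaf 178 1419 (.cons 201 (.leaf 274 1420 (.leaf 176 1411 .nil)) .nil)) .nil)) .nil)) .nil)) .nil)) .nil)) .nil)) .nil)) (.cons 277 (.leaf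 276 1992 (.cons 224 (.leaf 225 1795 (.cons 229 (.leaf 228 1801 (.cons 253 (.leaf 230 1809 (.leaf 278 2000 .nil)) .nil)) .nil)) .nil)) (.cons 277 (.leaf 276 1992 (.cons 224 (.leaf 225 1795 (.cons 253 (.leaf 278 2000 (.cons 273 (.leaf 272 1986 (.leaf 274 1994 .nil)) .nil)) .nil)) .nil)) .nil)))))
noncomputable def t59 : T := .cons 252 (.cons 225 (.leaf 224 1795 (.cons 226 (.leaf 253 1803 (.cons 202 (.leaf 178 1428 (.cons 273 (.leaf 272 1986 (.leaf 297 1613 .nil)) .nil)) .nil)) .nil)) (.cons 225 (.leaf 224 1795 (.cons 228 (.leaf 229 1801 (.cons 204 (.leaf 180 1438 (.cons 276 (.leaf 248 1984 (.leaf 277 1992 .nil)) .nil)) .nil)) .nil)) (.cons 276 (.leaf 248 1984 (.leaf 277 1992 .nil)) .nil))) (.cons 252 t58 (.cons 248 (.cons 223 (.leaf 224 1787 (.cons 272 (.leaf 271 1978 (.cons 252 (.leaf 273 1986 (.cons 229 (.leaf 228 1801 (.cons 253 (.leaf 230 1809 (.cons 225 (.leaf 226 1803 (.cons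 177 (.leaf 201 1414 (.cons 254 (.leaf 274 2002 (.cons 278 (.leaf 277 2000 (.leaf 279 2008 .nil)) .nil)) .nil)) .nil)) .nil)) .nil)) .nil)) .nil)) .nil)) (.cons 223 (.leaf 224 1787 (.cons 247 (.leaf 274 1976 (.leaf 222 1779 .nil)) .nil)) (.cons 247 (.leaf 274 1976 (.cons 271 (.leaf 272 1978 (.leaf 270 1970 .nil)) .nil)) (.cons 224 (.leaf 223 1787 (.cons 225 (.leaf 252 1795 (.cons 271 (.leaf 272 1978 (.cons 247 (.leaf 270 1970 (.cons 246 (.leaf 226 1777 (.leaf 245 1769 .nil)) .nil)) .nil)) .nil)) .nil)) .nil)))) (.cons 276 (.leaf 248 1984 (.cons 277 (.leaf 274 1995 (.leaf 278 2003 .nil)) .nil)) (.cons 248 (.leaf 276 1984 (.cons 224 (.leaf 223 1787 (.cons 225 (.leaf 252 1795 (.cons 271 (.leaf 272 1978 (.cons 247 (.leaf 274 1976 (.leaf 270 1970 .nil)) .nil)) .nil)) .nil)) .nil)) .nil))))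
noncomputable def t60 : T := .cons 226 (.cons 227 (.leaf 203 1621 (.leaf 322 1813 .nil)) (.cons 178 (.leaf 202 1428 (.cons 321 (.leaf 297 1806 (.cons 322 (.leaf 346 2005 (.leaf 345 1998 .nil)) .nil)) .nil)) (.cons 227 (.leaf 203 1621 (.cons 225 (.leaf 201 1615 (.cons 224 (.leaf 223 1784 (.cons 199 (.leaf 200 1595 (.cons 248 (.leaf 247 1786 (.cons 228 (.leaf 249 1793 (.cons 205 (.leaf 204 1609 (.cons 229 (.leaf 230 1810 (.leaf 206 1617 .nil)) .nil)) .nil)) .nil)) .nil)) .nil)) .nil)) .nil)) .nil))) (.cons 226 (.cons 227 (.leaf 203 1621 (.cons 225 (.leaf 201 1615 (.cons 224 (.leaf 223 1784 (.cons 199 (.leaf 200 1595 (.cons 248 (.leaf 247 1786 (.cons 228 (.leaf 249 1793 (.cons 205 (.leaf 204 1609 (.cons 229 (.leaf 230 1810 (.leaf 206 1617 .nil)) .nil)) .nil)) .nil)) .nil)) .nil)) .nil)) .nil)) (.cons 202 (.leaf 178 1428 (.cons 201 (.leaf 177 1423 (.leaf 225 1615 .nil)) .nil)) (.cons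 203 (.leaf 227 1621 (.cons 202 (.leaf 178 1428 (.leaf 179 1429 .nil)) .nil)) .nil))) (.cons 322 (.leaf 346 2005 (.cons 321 (.leaf 345 1998 (.cons 226 (.leaf 297 1806 (.cons 201 (.leaf 225 1615 (.cons 202 (.leaf 178 1428 (.leaf 177 1423 .nil)) .nil)) .nil)) .nil)) .nil)) (.cons 322 (.leaf 346 2005 (.leaf 227 1813 .nil)) .nil)))
noncomputable def t61 : T := .cons 272 (.leaf 271 1977 (.cons 248 (.leaf 247 1979 (.cons 296 (.leaf 295 2170 (.cons 297 (.leaf 276 2178 (.cons 321 (.leaf 345 1997 (.leaf 224 1796 .nil)) .nil)) .nil)) .nil)) .nil)) (.cons 276 (.cons 277 (.leaf 249 1995 (.leaf 278 2003 .nil)) (.cons 277 (.leaf 278 2003 (.cons 297 (.leaf 296 2178 (.leaf 298 2186 .nil)) .nil)) (.cons 248 (.leaf 249 1984 (.cons 297 (.leaf 296 2178 (.cons 226 (.leaf 202 1614 (.cons 321 (.leaf 298 1806 (.leaf 345 1997 .nil)) .nil)) .nil)) .nil)) .nil))) (.cons 272 (.leaf 271 1977 (.cons 248 (.leaf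 247 1979 (.cons 296 (.leaf 295 2170 (.cons 224 (.cons 199 (.leaf 223 1599 (.cons 200 (.leaf 297 1604 (.leaf 175 1407 .nil)) .nil)) (.cons 199 (.leaf 223 1599 (.cons 200 (.leaf 175 1407 (.cons 201 (.leaf 177 1413 (.leaf 225 1605 .nil)) .nil)) .nil)) (.cons 297 (.leaf 200 1604 (.leaf 321 1796 .nil)) (.cons 223 (.leaf 249 1787 (.leaf 199 1599 .nil)) .nil)))) .nil)) .nil)) .nil)) (.cons 272 (.leaf 271 1977 (.cons 296 (.leaf 295 2170 (.cons 276 (.leaf 297 2178 (.cons 277 (.leaf 249 1995 (.leaf 278 2003 .nil)) .nil)) .nil)) .nil)) (.cons 272 (.leaf 271 1977 (.cons 248 (.leaf 247 1979 (.cons 249 (.leaf 276 1984 (.cons 223 (.leaf 224 1787 (.cons 296 (.leaf 295 2170 (.cons 225 (.leaf 201 1606 (.leaf 320 1797 .nil)) .nil)) .nil)) .nil)) .nil)) .nil)) (.cons 272 (.leaf 271 1977 (.cons 248 (.leaf 247 1979 (.cons 249 (.leaf 276 1984 (.cons 224 (.leaf 223 1787 (.cons 200 (.leaf 176 1412 (.leaf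 297 1604 .nil)) .nil)) .nil)) .nil)) .nil)) .nil)))))
noncomputable def t62 : T := .cons 272 (.leaf 271 1977 (.cons 248 (.leaf 247 1979 (.cons 296 (.leaf 295 2170 (.cons 297 (.leaf 276 2178 (.cons 321 (.leaf 345 1997 (.leaf 224 1796 .nil)) .nil)) .nil)) .nil)) .nil)) (.cons 249 (.cons 248 (.leaf 247 1976 (.leaf 276 1984 .nil)) (.cons 276 (.leaf 277 1995 (.cons 297 (.leaf 296 2178 (.cons 226 (.leaf 202 1614 (.leaf 321 1805 .nil)) .nil)) .nil)) (.cons 248 (.leaf 247 1976 (.cons 227 (.leaf 228 1793 (.cons 203 (.leaf 179 1430 (.cons 180 (.leaf 204 1437 (.cons 202 (.leaf 178 1431 (.cons 226 (.leaf 297 1614 (.cons 201 (.leaf 177 1423 (.cons 200 (.leaf 199 1592 (.cons 176 (.leaf 225 1415 (.leaf 224 1412 .nil)) .nil)) .nil)) .nil)) .nil)) .nil)) .nil)) .nil)) .nil)) .nil))) (.cons 272 (.leaf 271 1977 (.cons 248 (.leaf 247 1979 (.cons 296 (.leaf 295 2170 (.cons 224 (.cons 199 (.leaf 223 1599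 (.cons 200 (.leaf 297 1604 (.leaf 175 1407 .nil)) .nil)) (.cons 199 (.leaf 223 1599 (.cons 200 (.leaf 175 1407 (.cons 201 (.leaf 177 1413 (.leaf 225 1605 .nil)) .nil)) .nil)) (.cons 297 (.leaf 200 1604 (.leaf 321 1796 .nil)) (.cons 223 (.leaf 249 1787 (.leaf 199 1599 .nil)) .nil)))) .nil)) .nil)) .nil)) (.cons 272 (.leaf 271 1977 (.cons 296 (.leaf 295 2170 (.cons 276 (.leaf 297 2178 (.cons 277 (.leaf 249 1995 (.leaf 278 2003 .nil)) .nil)) .nil)) .nil)) (.cons 272 (.leaf 271 1977 (.cons 248 (.leaf 247 1979 (.cons 249 (.leaf 276 1984 (.cons 223 (.leaf 224 1787 (.cons 227 (.leaf 228 1793 (.cons 296 (.leaf 295 2170 (.cons 225 (.leaf 201 1606 (.leaf 320 1797 .nil)) .nil)) .nil)) .nil)) .nil)) .nil)) .nil)) (.cons 272 (.leaf 271 1977 (.cons 248 (.leaf 247 1979 (.cons 249 (.leaf 276 1984 (.cons 224 (.leaf 223 1787 (.cons 200 (.leaf 176 1412 (.leaf 297 1604 .nil)) .nil)) .nil)) .nil)) .nil))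 .nil)))))
noncomputable def t63 : T := .cons 276 (.cons 277 (.leaf 249 1995 (.leaf 278 2003 .nil)) (.cons 277 (.leaf 278 2003 (.cons 253 (.leaf 254 2001 (.cons 298 (.leaf 297 2186 (.cons 227 (.leaf 203 1622 (.leaf 322 1813 .nil)) .nil)) .nil)) .nil)) (.cons 248 (.leaf 249 1984 (.cons 273 (.cons 272 (.leaf 247 1979 (.leaf 271 1977 .nil)) (.cons 297 (.leaf 296 2178 (.cons 226 (.leaf 202 1614 (.cons 321 (.leaf 298 1806 (.leaf 345 1997 .nil)) .nil)) .nil)) .nil)) .nil)) .nil))) (.cons 298 (.cons 227 (.leaf 203 1622 (.leaf 322 1813 .nil)) (.cons 322 (.leaf 346 2005 (.cons 321 (.leaf 345 1998 (.cons 226 (.leaf 297 1806 (.cons 201 (.leaf 225 1615 (.cons 202 (.leaf 178 1428 (.leaf 177 1423 .nil)) .nil)) .nil)) .nil)) .nil)) (.cons 227 (.leaf 203 1622 (.cons 226 (.cons 202 (.leaf 178 1428 (.cons 297 (.leaf 273 1614 (.leaf 321 1806 .nil)) .nil)) (.cons 297 (.leaf 321 1806 (.cons 276 (.leaf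 277 2186 (.cons 296 (.leaf 273 2178 (.leaf 295 2169 .nil)) .nil)) .nil)) (.cons 202 (.leaf 178 1428 (.cons 201 (.leaf 177 1423 (.leaf 225 1615 .nil)) .nil)) .nil))) .nil)) .nil))) (.cons 273 t62 (.cons 273 t61 (.cons 298 (.cons 227 (.leaf 203 1622 (.leaf 322 1813 .nil)) (.cons 227 (.leaf 203 1622 (.cons 226 (.cons 202 (.leaf 178 1428 (.cons 297 (.leaf 273 1614 (.leaf 321 1806 .nil)) .nil)) (.cons 225 (.leaf 201 1615 (.cons 224 (.leaf 223 1784 (.cons 199 (.leaf 200 1595 (.cons 248 (.leaf 247 1786 (.cons 228 (.leaf 249 1793 (.cons 205 (.leaf 204 1609 (.cons 229 (.leaf 230 1810 (.leaf 206 1617 .nil)) .nil)) .nil)) .nil)) .nil)) .nil)) .nil)) .nil)) .nil)) (.cons 322 (.leaf 346 2005 (.cons 321 (.leaf 345 1998 (.cons 226 (.leaf 297 1806 (.cons 201 (.leaf 225 1615 (.cons 202 (.leaf 178 1428 (.leaf 177 1423 .nil)) .nil)) .nil)) .nil)) .nil)) .nil))) (.cons 276 (.cons 249 (.leaf 248 1984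 (.leaf 277 1995 .nil)) (.cons 277 (.leaf 278 2003 (.cons 253 (.leaf 254 2001 (.cons 298 (.leaf 297 2186 (.cons 227 (.leaf 203 1622 (.leaf 322 1813 .nil)) .nil)) .nil)) .nil)) (.cons 273 (.cons 272 (.leaf 271 1977 (.cons 296 (.leaf 295 2170 (.leaf 297 2178 .nil)) .nil)) (.cons 249 (.leaf 248 1984 (.cons 297 (.leaf 296 2178 (.cons 300 (.leaf 301 2184 (.cons 203 (.leaf 227 1628 (.cons 321 (.leaf 345 1997 (.cons 320 (.leaf 344 1990 (.cons 322 (.leaf 346 1996 (.cons 225 (.leaf 298 1804 (.cons 200 (.leaf 224 1607 (.cons 201 (.leaf 177 1420 (.leaf 176 1415 .nil)) .nil)) .nil)) .nil)) .nil)) .nil)) .nil)) .nil)) .nil)) .nil)) (.cons 248 (.leaf 249 1984 (.cons 272 (.leaf 247 1979 (.leaf 271 1977 .nil)) .nil)) .nil))) .nil))) (.cons 298 t60 (.cons 298 (.cons 226 (.cons 202 (.leaf 178 1428 (.cons 201 (.leaf 177 1423 (.leaf 225 1615 .nil)) .nil)) (.cons 227 (.leaf 203 1621 (.leaf 322 1813 .nil))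 .nil)) (.cons 226 (.cons 202 (.leaf 178 1428 (.cons 201 (.leaf 177 1423 (.leaf 225 1615 .nil)) .nil)) (.cons 227 (.leaf 203 1621 (.cons 225 (.leaf 201 1615 (.cons 224 (.leaf 223 1784 (.cons 199 (.leaf 200 1595 (.cons 248 (.leaf 247 1786 (.cons 228 (.leaf 249 1793 (.cons 205 (.leaf 204 1609 (.cons 229 (.leaf 230 1810 (.leaf 206 1617 .nil)) .nil)) .nil)) .nil)) .nil)) .nil)) .nil)) .nil)) (.cons 203 (.leaf 227 1621 (.cons 202 (.leaf 178 1428 (.leaf 179 1429 .nil)) .nil)) .nil))) (.cons 322 (.leaf 346 2005 (.cons 249 (.leaf 225 1807 (.cons 248 (.leaf 247 1976 (.leaf 276 1984 .nil)) .nil)) .nil)) (.cons 322 (.leaf 346 2005 (.leaf 227 1813 .nil)) .nil)))) .nil)))))))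
noncomputable def t64 : T := .cons 248 (.leaf 276 1984 (.cons 227 (.leaf 228 1793 (.cons 226 (.leaf 247 1785 (.cons 178 (.leaf 202 1428 (.cons 272 (.leaf 271 1978 (.cons 252 (.leaf 273 1986 (.cons 225 (.leaf 224 1792 (.leaf 253 1803 .nil)) .nil)) .nil)) .nil)) .nil)) .nil)) .nil)) (.cons 252 (.cons 225 (.leaf 224 1795 (.cons 226 (.leaf 253 1803 (.cons 178 (.leaf 202 1428 (.cons 228 (.leaf 229 1801 (.cons 204 (.leaf 180 1438 (.cons 227 (.leaf 205 1609 (.cons 201 (.leaf 200 1603 (.cons 177 (.leaf 153 1228 (.leaf 154 1229 .nil)) .nil)) .nil)) .nil)) .nil)) .nil)) .nil)) .nil)) (.cons 225 (.leaf 224 1795 (.cons 226 (.leaf 253 1803 (.cons 202 (.leaf 178 1428 (.cons 273 (.leaf 272 1986 (.leaf 297 1613 .nil)) .nil)) .nil)) .nil)) (.cons 228 (.leaf 229 1801 (.cons 204 (.leaf 180 1438 (.cons 272 (.leaf 273 1986 (.cons 276 (.leaf 277 1992 (.cons 181 (.leaf 205 1445 (.cons 203 (.leaf 179 1439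 (.cons 300 (.leaf 227 1628 (.cons 324 (.leaf 348 2015 (.cons 325 (.leaf 301 1828 (.leaf 349 2020 .nil)) .nil)) .nil)) .nil)) .nil)) .nil)) .nil)) .nil)) .nil)) .nil))) (.cons 252 (.cons 228 (.leaf 229 1801 (.cons 180 (.leaf 204 1438 (.cons 248 (.leaf 227 1793 (.cons 272 (.leaf 271 1978 (.leaf 273 1986 .nil)) .nil)) .nil)) .nil)) (.cons 225 (.leaf 224 1795 (.cons 226 (.leaf 253 1803 (.cons 202 (.leaf 178 1428 (.cons 273 (.leaf 272 1986 (.leaf 297 1613 .nil)) .nil)) .nil)) .nil)) (.cons 228 (.leaf 229 1801 (.cons 180 (.leaf 204 1438 (.cons 224 (.leaf 225 1795 (.cons 248 (.leaf 223 1787 (.leaf 227 1793 .nil)) .nil)) .nil)) .nil)) .nil))) (.cons 248 (.leaf 276 1984 (.cons 223 (.leaf 224 1787 (.cons 227 (.leaf 228 1793 (.cons 247 (.leaf 222 1779 (.leaf 226 1785 .nil)) .nil)) .nil)) .nil)) (.cons 248 (.leaf 276 1984 (.cons 223 (.leaf 224 1787 (.cons 228 (.leaf 227 1793 (.cons 252 (.leaf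 229 1801 (.cons 272 (.leaf 271 1978 (.leaf 273 1986 .nil)) .nil)) .nil)) .nil)) .nil)) (.cons 248 (.leaf 276 1984 (.cons 223 (.leaf 224 1787 (.cons 247 (.leaf 222 1779 (.cons 271 (.leaf 272 1978 (.leaf 270 1970 .nil)) .nil)) .nil)) .nil)) (.cons 248 (.leaf 276 1984 (.cons 227 (.leaf 228 1793 (.cons 226 (.leaf 247 1785 (.cons 178 (.leaf 202 1428 (.cons 272 (.leaf 271 1978 (.cons 252 (.leaf 273 1986 (.cons 253 (.leaf 225 1803 (.leaf 254 1811 .nil)) .nil)) .nil)) .nil)) .nil)) .nil)) .nil)) .nil))))))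
noncomputable def t65 : T := .cons 253 (.cons 225 (.leaf 226 1803 (.cons 229 (.leaf 230 1809 (.cons 249 (.leaf 224 1795 (.leaf 228 1801 .nil)) .nil)) .nil)) (.cons 274 (.leaf 254 2002 (.leaf 273 1994 .nil)) .nil)) (.cons 249 (.cons 228 (.leaf 229 1801 (.cons 180 (.leaf 204 1438 (.cons 248 (.leaf 227 1793 (.cons 272 (.leaf 271 1978 (.leaf 273 1986 .nil)) .nil)) .nil)) .nil)) (.cons 228 (.leaf 229 1801 (.cons 180 (.leaf 204 1438 (.cons 224 (.leaf 225 1795 (.cons 248 (.leaf 223 1787 (.leaf 227 1793 .nil)) .nil)) .nil)) .nil)) (.cons 272 (.leaf 273 1986 (.cons 224 (.leaf 225 1795 (.cons 248 (.leaf 223 1787 (.leaf 271 1978 .nil)) .nil)) .nil)) (.cons 273 (.leaf 272 1986 (.cons 225 (.leaf 224 1795 (.cons 228 (.leaf 229 1801 (.cons 204 (.leaf 180 1438 (.cons 226 (.cons 202 (.leaf 178 1428 (.leaf 297 1613 .nil)) (.cons 205 (.leaf 227 1609 (.cons 297 (.leaf 321 1805 (.cons 298 (.leaf 322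 1804 (.cons 201 (.leaf 274 1612 (.cons 176 (.leaf 200 1415 (.cons 177 (.leaf 153 1228 (.leaf 152 1223 .nil)) .nil)) .nil)) .nil)) .nil)) .nil)) (.cons 202 (.leaf 178 1428 (.cons 205 (.leaf 203 1610 (.leaf 227 1609 .nil)) .nil)) .nil))) .nil)) .nil)) .nil)) .nil)) .nil)))) (.cons 249 (.cons 225 (.leaf 224 1795 (.cons 226 (.leaf 253 1803 (.cons 178 (.leaf 202 1428 (.cons 228 (.leaf 229 1801 (.cons 204 (.leaf 180 1438 (.cons 227 (.leaf 248 1793 (.leaf 205 1609 .nil)) .nil)) .nil)) .nil)) .nil)) .nil)) (.cons 272 (.leaf 273 1986 (.cons 224 (.leaf 225 1795 (.cons 248 (.leaf 223 1787 (.leaf 271 1978 .nil)) .nil)) .nil)) (.cons 228 (.leaf 229 1801 (.cons 180 (.leaf 204 1438 (.cons 248 (.leaf 227 1793 (.cons 272 (.leaf 271 1978 (.leaf 273 1986 .nil)) .nil)) .nil)) .nil)) (.cons 225 (.leaf 224 1795 (.cons 226 (.leaf 253 1803 (.cons 178 (.leaf 202 1428 (.cons 228 (.leaf 229 1801 (.cons 204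 (.leaf 180 1438 (.cons 227 (.leaf 205 1609 (.cons 201 (.leaf 200 1603 (.cons 177 (.leaf 153 1228 (.leaf 154 1229 .nil)) .nil)) .nil)) .nil)) .nil)) .nil)) .nil)) .nil)) .nil)))) (.cons 253 (.cons 226 (.leaf 225 1803 (.cons 202 (.leaf 178 1428 (.cons 229 (.leaf 230 1809 (.cons 274 (.leaf 254 2002 (.leaf 273 1994 .nil)) .nil)) .nil)) .nil)) (.cons 226 (.leaf 225 1803 (.cons 178 (.leaf 202 1428 (.cons 254 (.leaf 227 1811 (.cons 278 (.leaf 277 2000 (.leaf 279 2008 .nil)) .nil)) .nil)) .nil)) (.cons 226 (.leaf 225 1803 (.cons 202 (.leaf 178 1428 (.cons 229 (.leaf 230 1809 (.cons 274 (.leaf 273 1994 (.cons 177 (.leaf 201 1423 (.cons 203 (.leaf 179 1429 (.cons 298 (.leaf 227 1621 (.cons 277 (.leaf 278 2000 (.cons 321 (.leaf 297 1806 (.cons 322 (.leaf 346 2005 (.leaf 345 1998 .nil)) .nil)) .nil)) .nil)) .nil)) .nil)) .nil)) .nil)) .nil)) .nil)) (.cons 274 (.leaf 254 2002 (.leaf 273 1994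 .nil)) .nil)))) (.cons 253 (.cons 225 (.leaf 226 1803 (.cons 229 (.leaf 230 1809 (.cons 249 (.leaf 224 1795 (.leaf 228 1801 .nil)) .nil)) .nil)) (.cons 229 (.leaf 230 1809 (.cons 228 (.leaf 249 1801 (.cons 204 (.leaf 180 1438 (.cons 277 (.leaf 278 2000 (.leaf 301 1639 .nil)) .nil)) .nil)) .nil)) (.cons 225 (.leaf 226 1803 (.cons 224 (.leaf 249 1795 (.cons 254 (.leaf 274 2002 (.cons 278 (.leaf 277 2000 (.leaf 279 2008 .nil)) .nil)) .nil)) .nil)) (.cons 225 (.leaf 226 1803 (.cons 229 (.leaf 230 1809 (.cons 254 (.leaf 274 2002 (.cons 278 (.leaf 277 2000 (.leaf 279 2008 .nil)) .nil)) .nil)) .nil)) .nil)))) (.cons 253 (.cons 274 (.leaf 254 2002 (.leaf 273 1994 .nil)) (.cons 229 (.leaf 230 1809 (.cons 228 (.leaf 249 1801 (.cons 204 (.leaf 180 1438 (.cons 277 (.leaf 278 2000 (.leaf 301 1639 .nil)) .nil)) .nil)) .nil)) .nil)) (.cons 253 (.cons 226 (.leaf 225 1803 (.cons 178 (.leaf 202 1428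 (.cons 254 (.leaf 274 2002 (.leaf 227 1811 .nil)) .nil)) .nil)) (.cons 226 (.leaf 225 1803 (.cons 178 (.leaf 202 1428 (.cons 254 (.leaf 227 1811 (.cons 278 (.leaf 277 2000 (.leaf 279 2008 .nil)) .nil)) .nil)) .nil)) (.cons 225 (.leaf 226 1803 (.cons 249 (.leaf 224 1795 (.cons 273 (.leaf 272 1986 (.leaf 274 1994 .nil)) .nil)) .nil)) (.cons 274 (.leaf 254 2002 (.leaf 273 1994 .nil)) .nil)))) .nil))))))
noncomputable def t66 : T := .cons 202 (.leaf 178 1428 (.cons 203 (.leaf 179 1429 (.cons 201 (.leaf 177 1423 (.cons 225 (.leaf 298 1615 (.cons 224 (.leaf 223 1784 (.leaf 204 1602 .nil)) .nil)) .nil)) .nil)) .nil)) (.cons 227 (.cons 298 (.leaf 203 1621 (.leaf 322 1813 .nil)) (.cons 298 (.leaf 322 1813 (.cons 225 (.leaf 201 1615 (.cons 224 (.leaf 223 1784 (.leaf 252 1792 .nil)) .nil)) .nil)) (.cons 203 (.leaf 179 1430 (.cons 180 (.leaf 204 1437 (.cons 276 (.leaf 300 1628 (.cons 277 (.leaf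 278 2003 (.cons 253 (.leaf 254 2001 (.cons 252 (.leaf 273 1993 (.leaf 225 1803 .nil)) .nil)) .nil)) .nil)) .nil)) .nil)) .nil))) (.cons 202 (.leaf 178 1428 (.cons 201 (.leaf 177 1423 (.cons 225 (.leaf 298 1615 (.cons 224 (.leaf 223 1784 (.cons 252 (.leaf 227 1792 (.leaf 253 1803 .nil)) .nil)) .nil)) .nil)) .nil)) (.cons 202 (.leaf 178 1428 (.cons 203 (.leaf 179 1429 (.cons 201 (.leaf 177 1423 (.cons 204 (.cons 180 (.leaf 227 1437 (.leaf 181 1417 .nil)) (.cons 225 (.leaf 205 1610 (.leaf 224 1602 .nil)) .nil)) .nil)) .nil)) .nil)) (.cons 202 (.leaf 178 1428 (.cons 177 (.leaf 201 1423 (.cons 203 (.leaf 179 1429 (.cons 227 (.leaf 298 1621 (.cons 204 (.leaf 180 1437 (.cons 205 (.leaf 206 1618 (.cons 181 (.leaf 182 1425 (.cons 276 (.leaf 300 1628 (.cons 252 (.leaf 228 1445 (.cons 253 (.leaf 254 2002 (.leaf 273 1993 .nil)) .nil)) .nil)) .nil)) .nil)) .nil)) .nil)) .nil)) .nil)) .nil)) (.cons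 202 (.leaf 178 1428 (.cons 203 (.leaf 179 1429 (.cons 227 (.leaf 298 1621 (.cons 180 (.leaf 204 1437 (.cons 276 (.leaf 300 1628 (.cons 277 (.leaf 278 2003 (.cons 253 (.leaf 254 2001 (.cons 252 (.leaf 273 1993 (.leaf 225 1803 .nil)) .nil)) .nil)) .nil)) .nil)) .nil)) .nil)) .nil)) .nil)))))
noncomputable def t67 : T := .cons 273 (.cons 252 (.leaf 272 1985 (.leaf 253 1993 .nil)) (.cons 272 (.leaf 271 1977 (.cons 296 (.leaf 295 2170 (.leaf 297 2178 .nil)) .nil)) (.cons 252 (.leaf 253 1993 (.cons 277 (.leaf 278 2003 (.cons 300 (.leaf 301 2184 (.cons 227 (.leaf 203 1628 (.leaf 324 1823 .nil)) .nil)) .nil)) .nil)) .nil))) (.cons 277 (.leaf 278 2003 (.cons 253 (.leaf 254 2001 (.cons 300 (.cons 324 (.leaf 348 2021 (.cons 227 (.leaf 203 1628 (.leaf 252 1823 .nil)) .nil)) (.cons 203 (.leaf 227 1628 (.cons 229 (.leaf 205 1638 (.cons 252 (.leaf 230 1809 (.cons 226 (.leaf 225 1803 (.cons 202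 (.leaf 178 1428 (.leaf 179 1429 .nil)) .nil)) .nil)) .nil)) .nil)) (.cons 324 (.leaf 348 2021 (.cons 229 (.leaf 205 1638 (.leaf 252 1829 .nil)) .nil)) (.cons 324 (.leaf 348 2021 (.cons 229 (.leaf 205 1638 (.leaf 301 1830 .nil)) .nil)) .nil)))) .nil)) .nil)) (.cons 277 (.leaf 278 2003 (.cons 253 (.leaf 254 2001 (.cons 227 (.cons 203 (.leaf 300 1628 (.leaf 179 1430 .nil)) (.cons 229 (.cons 228 (.leaf 230 1810 (.cons 204 (.leaf 301 1639 (.cons 180 (.leaf 156 1252 (.leaf 205 1447 .nil)) .nil)) .nil)) (.cons 228 (.leaf 230 1810 (.cons 301 (.leaf 204 1639 (.cons 300 (.leaf 273 2184 (.leaf 324 1830 .nil)) .nil)) .nil)) (.cons 205 (.leaf 300 1638 (.cons 180 (.leaf 204 1447 (.cons 181 (.leaf 156 1255 (.cons 182 (.leaf 206 1453 (.leaf 158 1261 .nil)) .nil)) .nil)) .nil)) (.cons 205 (.leaf 300 1638 (.cons 206 (.leaf 182 1453 (.cons 228 (.leaf 230 1810 (.leaf 226 1617 .nil)) .nil)) .nil)) .nil))))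 (.cons 203 (.leaf 179 1430 (.cons 202 (.leaf 178 1431 (.cons 204 (.leaf 180 1437 (.cons 201 (.cons 177 (.leaf 226 1423 (.leaf 176 1411 .nil)) (.cons 228 (.leaf 200 1600 (.leaf 229 1608 .nil)) .nil)) .nil)) .nil)) .nil)) .nil))) .nil)) .nil)) (.cons 273 (.cons 252 (.leaf 272 1985 (.leaf 253 1993 .nil)) (.cons 272 (.leaf 271 1977 (.cons 296 (.leaf 295 2170 (.leaf 297 2178 .nil)) .nil)) (.cons 252 (.leaf 253 1993 (.cons 296 (.leaf 297 2178 (.cons 300 (.leaf 301 2184 (.cons 227 (.leaf 203 1628 (.leaf 324 1823 .nil)) .nil)) .nil)) .nil)) .nil))) (.cons 277 (.leaf 278 2003 (.cons 273 (.cons 272 (.leaf 252 1985 (.leaf 271 1977 .nil)) (.cons 300 (.leaf 301 2184 (.cons 227 (.leaf 203 1628 (.cons 324 (.leaf 348 2015 (.leaf 252 1823 .nil)) .nil)) .nil)) (.cons 272 (.leaf 271 1977 (.cons 296 (.leaf 295 2170 (.leaf 297 2178 .nil)) .nil)) .nil))) .nil)) (.cons 277 (.leaf 278 2003 (.cons 253 (.leaf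 254 2001 (.cons 252 (.leaf 273 1993 (.cons 225 (.leaf 226 1803 (.cons 229 (.leaf 230 1809 (.cons 205 (.leaf 181 1446 (.leaf 300 1638 .nil)) .nil)) .nil)) .nil)) .nil)) .nil)) (.cons 277 (.leaf 278 2003 (.cons 253 (.leaf 254 2001 (.cons 252 (.leaf 273 1993 (.cons 225 (.leaf 226 1803 (.cons 229 (.leaf 230 1809 (.cons 205 (.leaf 181 1446 (.cons 204 (.leaf 180 1447 (.cons 228 (.leaf 301 1636 (.cons 203 (.leaf 179 1439 (.cons 202 (.leaf 201 1608 (.cons 178 (.leaf 227 1431 (.leaf 177 1419 .nil)) .nil)) .nil)) .nil)) .nil)) .nil)) .nil)) .nil)) .nil)) .nil)) .nil)) .nil))))))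
noncomputable def t68 : T := .cons 273 (.cons 252 (.leaf 272 1985 (.leaf 253 1994 .nil)) (.cons 272 (.leaf 271 1977 (.cons 247 (.leaf 248 1979 (.cons 296 (.leaf 295 2170 (.cons 297 (.leaf 276 2178 (.cons 226 (.leaf 202 1614 (.cons 321 (.leaf 298 1806 (.leaf 345 1997 .nil)) .nil)) .nil)) .nil)) .nil)) .nil)) (.cons 252 (.leaf 253 1994 (.cons 276 (.cons 277 (.leaf 278 2003 (.cons 300 (.leaf 301 2184 (.cons 227 (.leaf 203 1628 (.leaf 324 1823 .nil)) .nil)) .nil)) (.cons 277 (.leaf 278 2003 (.cons 297 (.leaf 296 2178 (.leaf 298 2186 .nil)) .nil)) (.cons 296 (.leaf 297 2178 (.cons 300 (.leaf 301 2184 (.cons 227 (.leaf 203 1628 (.leaf 324 1823 .nil)) .nil)) .nil)) .nil))) .nil)) .nil))) (.cons 273 (.cons 253 (.leaf 252 1994 (.cons 276 (.cons 277 (.leaf 278 2003 (.leaf 254 2001 .nil)) (.cons 272 (.leaf 271 1977 (.cons 296 (.leaf 295 2170 (.leaf 297 2178 .nil)) .nil)) .nil)) .nil)) (.cons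 272 (.leaf 271 1977 (.cons 247 (.leaf 248 1979 (.cons 296 (.leaf 295 2170 (.cons 297 (.leaf 276 2178 (.cons 226 (.leaf 202 1614 (.cons 321 (.leaf 298 1806 (.leaf 345 1997 .nil)) .nil)) .nil)) .nil)) .nil)) .nil)) (.cons 253 (.leaf 252 1994 (.cons 276 (.cons 277 (.leaf 278 2003 (.leaf 254 2001 .nil)) (.cons 297 (.leaf 296 2178 (.cons 226 (.leaf 202 1614 (.cons 321 (.leaf 298 1806 (.leaf 345 1997 .nil)) .nil)) .nil)) .nil)) .nil)) (.cons 252 (.leaf 272 1985 (.leaf 253 1994 .nil)) .nil)))) (.cons 298 (.cons 322 (.leaf 346 2005 (.leaf 227 1813 .nil)) (.cons 322 (.leaf 346 2005 (.cons 321 (.leaf 345 1998 (.cons 226 (.leaf 297 1806 (.cons 201 (.leaf 225 1615 (.cons 202 (.leaf 178 1428 (.leaf 177 1423 .nil)) .nil)) .nil)) .nil)) .nil)) (.cons 227 (.leaf 203 1622 (.cons 226 (.cons 201 (.leaf 225 1615 (.cons 297 (.leaf 321 1806 (.cons 276 (.leaf 277 2186 (.cons 296 (.leaf 273 2178 (.leaf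 295 2169 .nil)) .nil)) .nil)) .nil)) (.cons 201 (.leaf 225 1615 (.cons 202 (.leaf 178 1428 (.leaf 177 1423 .nil)) .nil)) (.cons 202 (.leaf 178 1428 (.cons 297 (.leaf 273 1614 (.leaf 321 1806 .nil)) .nil)) .nil))) .nil)) .nil))) (.cons 298 (.cons 226 (.cons 227 (.leaf 203 1621 (.leaf 322 1813 .nil)) (.cons 201 (.leaf 225 1615 (.cons 202 (.leaf 178 1428 (.leaf 177 1423 .nil)) .nil)) .nil)) (.cons 322 (.leaf 346 2005 (.cons 321 (.leaf 345 1998 (.cons 226 (.leaf 297 1806 (.cons 201 (.leaf 225 1615 (.cons 202 (.leaf 178 1428 (.leaf 177 1423 .nil)) .nil)) .nil)) .nil)) .nil)) (.cons 226 (.cons 227 (.leaf 203 1621 (.cons 225 (.leaf 201 1615 (.cons 224 (.leaf 223 1784 (.leaf 252 1792 .nil)) .nil)) .nil)) (.cons 201 (.leaf 225 1615 (.cons 202 (.leaf 178 1428 (.leaf 177 1423 .nil)) .nil)) (.cons 203 (.leaf 227 1621 (.cons 202 (.leaf 178 1428 (.leaf 179 1429 .nil)) .nil)) .nil))) (.cons 322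 (.leaf 346 2005 (.leaf 227 1813 .nil)) .nil)))) (.cons 276 t67 (.cons 273 (.cons 252 (.leaf 272 1985 (.leaf 253 1994 .nil)) (.cons 272 (.leaf 271 1977 (.cons 248 (.leaf 247 1979 (.cons 296 (.leaf 295 2170 (.cons 297 (.leaf 276 2178 (.cons 321 (.leaf 345 1997 (.leaf 224 1796 .nil)) .nil)) .nil)) .nil)) .nil)) (.cons 252 (.leaf 253 1994 (.cons 276 (.cons 277 (.leaf 278 2003 (.cons 300 (.leaf 301 2184 (.cons 227 (.leaf 203 1628 (.leaf 324 1823 .nil)) .nil)) .nil)) (.cons 277 (.leaf 278 2003 (.cons 297 (.leaf 296 2178 (.leaf 298 2186 .nil)) .nil)) (.cons 296 (.leaf 297 2178 (.cons 300 (.leaf 301 2184 (.cons 227 (.leaf 203 1628 (.leaf 324 1823 .nil)) .nil)) .nil)) .nil))) .nil)) .nil))) (.cons 226 t66 .nil))))))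
noncomputable def t69 : T := .cons 273 (.leaf 272 1986 (.cons 253 (.leaf 274 1993 (.cons 225 (.leaf 224 1795 (.leaf 226 1803 .nil)) .nil)) .nil)) (.cons 225 (.leaf 224 1795 (.cons 253 (.leaf 226 1803 (.cons 254 (.leaf 274 2002 (.leaf 255 2010 .nil)) .nil)) .nil)) (.cons 228 (.leaf 229 1801 (.cons 204 (.leaf 180 1438 (.cons 181 (.leaf 205 1445 (.cons 203 (.leaf 179 1439 (.cons 227 (.leaf 300 1628 (.cons 202 (.leaf 178 1431 (.cons 200 (.leaf 201 1600 (.cons 274 (.leaf 298 1622 (.cons 273 (.leaf 272 1985 (.cons 297 (.leaf 296 2178 (.leaf 226 1614 .nil)) .nil)) .nil)) .nil)) .nil)) .nil)) .nil)) .nil)) .nil)) .nil)) (.cons 225 (.leaf 224 1795 (.cons 226 (.leaf 253 1803 (.cons 202 (.leaf 178 1428 (.cons 273 (.leaf 272 1986 (.leaf 297 1613 .nil)) .nil)) .nil)) .nil)) (.cons 228 (.leaf 229 1801 (.cons 204 (.leaf 180 1438 (.cons 181 (.leaf 205 1445 (.cons 203 (.leaf 179 1439 (.cons 300 (.leaf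 227 1628 (.cons 272 (.leaf 273 1986 (.cons 324 (.leaf 348 2015 (.cons 325 (.leaf 301 1828 (.leaf 349 2020 .nil)) .nil)) .nil)) .nil)) .nil)) .nil)) .nil)) .nil)) .nil))))
noncomputable def t70 : T := .cons 276 (.cons 277 (.leaf 278 2003 (.cons 249 (.leaf 248 1984 (.leaf 274 1995 .nil)) .nil)) (.cons 277 (.leaf 278 2003 (.cons 274 (.cons 253 (.leaf 254 2001 (.cons 252 (.leaf 273 1993 (.cons 225 (.leaf 226 1803 (.cons 229 (.leaf 230 1809 (.cons 205 (.leaf 181 1446 (.leaf 300 1638 .nil)) .nil)) .nil)) .nil)) .nil)) (.cons 298 (.leaf 297 2186 (.cons 227 (.leaf 203 1622 (.leaf 322 1813 .nil)) .nil)) .nil)) .nil)) (.cons 249 (.leaf 248 1984 (.cons 252 t69 .nil)) (.cons 249 (.leaf 248 1984 (.cons 277 (.leaf 278 2003 (.leaf 252 1992 .nil)) .nil)) .nil)))) (.cons 274 t68 (.cons 252 t65 (.cons 249 t64 (.cons 274 t63 (.cons 249 t59 (.cons 276 t57 (.cons 252 t56 (.cons 249 (.cons 248 (.leaf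 276 1984 (.cons 227 (.leaf 228 1793 (.cons 247 (.leaf 274 1976 (.leaf 226 1785 .nil)) .nil)) .nil)) (.cons 252 t55 (.cons 248 (.leaf 276 1984 (.cons 223 (.leaf 224 1787 (.cons 228 (.leaf 227 1793 (.cons 252 (.leaf 229 1801 (.cons 272 (.leaf 271 1978 (.leaf 273 1986 .nil)) .nil)) .nil)) .nil)) .nil)) (.cons 248 (.leaf 276 1984 (.cons 223 (.leaf 224 1787 (.cons 247 (.leaf 274 1976 (.leaf 222 1779 .nil)) .nil)) .nil)) .nil)))) (.cons 249 t54 (.cons 249 (.cons 248 (.leaf 276 1984 (.cons 227 (.leaf 228 1793 (.cons 247 (.leaf 274 1976 (.leaf 226 1785 .nil)) .nil)) .nil)) (.cons 252 t53 (.cons 248 (.cons 227 (.leaf 228 1793 (.cons 247 (.leaf 274 1976 (.leaf 226 1785 .nil)) .nil)) (.cons 223 (.leaf 224 1787 (.cons 228 (.leaf 227 1793 (.cons 252 (.leaf 229 1801 (.cons 272 (.leaf 271 1978 (.leaf 273 1986 .nil)) .nil)) .nil)) .nil)) (.cons 223 (.leaf 224 1787 (.cons 247 (.leaf 274 1976 (.leaf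 222 1779 .nil)) .nil)) .nil))) (.cons 248 (.leaf 276 1984 (.cons 223 (.leaf 224 1787 (.cons 228 (.leaf 227 1793 (.cons 252 (.leaf 229 1801 (.cons 272 (.leaf 271 1978 (.leaf 273 1986 .nil)) .nil)) .nil)) .nil)) .nil)) (.cons 248 (.leaf 276 1984 (.cons 223 (.leaf 224 1787 (.cons 247 (.leaf 274 1976 (.leaf 222 1779 .nil)) .nil)) .nil)) .nil))))) (.cons 249 (.cons 248 (.leaf 276 1984 (.cons 227 (.leaf 228 1793 (.cons 247 (.leaf 274 1976 (.leaf 226 1785 .nil)) .nil)) .nil)) (.cons 252 t52 (.cons 248 (.cons 227 (.leaf 228 1793 (.cons 247 (.leaf 274 1976 (.leaf 226 1785 .nil)) .nil)) (.cons 224 (.leaf 223 1787 (.cons 225 (.leaf 252 1795 (.cons 227 (.leaf 228 1793 (.cons 272 (.leaf 271 1978 (.cons 201 (.leaf 177 1414 (.leaf 296 1605 .nil)) .nil)) .nil)) .nil)) .nil)) (.cons 223 (.leaf 224 1787 (.cons 247 (.leaf 274 1976 (.leaf 222 1779 .nil)) .nil)) .nil))) (.cons 248 (.leaf 276 1984 (.cons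 224 (.leaf 223 1787 (.cons 225 (.leaf 252 1795 (.cons 227 (.leaf 228 1793 (.cons 272 (.leaf 271 1978 (.cons 201 (.leaf 177 1414 (.leaf 296 1605 .nil)) .nil)) .nil)) .nil)) .nil)) .nil)) (.cons 248 (.leaf 276 1984 (.cons 223 (.leaf 224 1787 (.cons 247 (.leaf 274 1976 (.leaf 222 1779 .nil)) .nil)) .nil)) .nil))))) (.cons 276 t51 (.cons 276 t50 (.cons 276 (.cons 249 (.leaf 248 1984 (.cons 277 (.leaf 274 1995 (.leaf 278 2003 .nil)) .nil)) (.cons 277 (.leaf 278 2003 (.cons 274 t48 .nil)) (.cons 249 (.leaf 248 1984 (.cons 252 t47 .nil)) (.cons 249 (.leaf 248 1984 (.cons 277 (.leaf 278 2003 (.leaf 252 1992 .nil)) .nil)) .nil)))) (.cons 276 t46 .nil)))))))))))))))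
noncomputable def t71 : T := .cons 273 (.leaf 272 1985 (.cons 253 (.leaf 254 2002 (.leaf 276 1993 .nil)) .nil)) (.cons 273 (.leaf 272 1985 (.cons 276 (.cons 249 (.leaf 248 1987 (.cons 297 (.leaf 296 2178 (.cons 298 (.leaf 277 2186 (.cons 322 (.leaf 346 2005 (.leaf 225 1804 .nil)) .nil)) .nil)) .nil)) (.cons 297 (.leaf 296 2178 (.cons 277 (.leaf 298 2186 (.cons 278 (.leaf 250 2003 (.leaf 279 2011 .nil)) .nil)) .nil)) (.cons 249 (.leaf 248 1987 (.cons 250 (.leaf 277 1992 (.cons 225 (.leaf 224 1795 (.cons 201 (.leaf 177 1420 (.leaf 298 1612 .nil)) .nil)) .nil)) .nil)) (.cons 249 (.leaf 248 1987 (.cons 297 (.leaf 296 2178 (.cons 225 (.cons 224 (.leaf 250 1795 (.leaf 200 1607 .nil)) (.cons 298 (.leaf 201 1612 (.leaf 322 1804 .nil)) .nil)) .nil)) .nil)) (.cons 249 (.leaf 248 1987 (.cons 250 (.leaf 277 1992 (.cons 224 (.leaf 225 1795 (.cons 228 (.leaf 229 1801 (.cons 180 (.leaf 204 1438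 (.cons 297 (.leaf 296 2178 (.cons 226 (.leaf 202 1614 (.leaf 321 1805 .nil)) .nil)) .nil)) .nil)) .nil)) .nil)) .nil)) .nil))))) .nil)) (.cons 253 (.leaf 254 2002 (.cons 250 (.cons 226 (.leaf 225 1803 (.cons 202 (.leaf 178 1428 (.leaf 299 1620 .nil)) .nil)) (.cons 277 (.leaf 278 2000 (.cons 249 (.leaf 276 1992 (.cons 229 (.leaf 228 1801 (.leaf 230 1809 .nil)) .nil)) .nil)) .nil)) .nil)) (.cons 253 (.leaf 254 2002 (.cons 273 (.leaf 272 1985 (.leaf 250 1994 .nil)) .nil)) .nil)))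
noncomputable def t72 : T := .cons 253 (.leaf 254 2002 (.cons 250 (.leaf 273 1994 (.cons 225 (.leaf 226 1803 (.cons 249 (.leaf 224 1795 (.cons 248 (.leaf 247 1976 (.leaf 276 1984 .nil)) .nil)) .nil)) .nil)) .nil)) (.cons 253 (.leaf 254 2002 (.cons 250 (.cons 225 (.leaf 226 1803 (.cons 249 (.leaf 224 1795 (.cons 248 (.leaf 247 1976 (.leaf 276 1984 .nil)) .nil)) .nil)) (.cons 229 (.leaf 230 1809 (.cons 228 (.leaf 249 1801 (.cons 204 (.leaf 180 1438 (.cons 299 (.leaf 276 1630 (.leaf 323 1821 .nil)) .nil)) .nil)) .nil)) (.cons 226 (.leaf 225 1803 (.cons 202 (.leaf 178 1428 (.leaf 299 1620 .nil)) .nil)) .nil))) .nil)) (.cons 273 (.leaf 272 1985 (.cons 276 (.cons 248 (.leaf 249 1987 (.cons 300 (.leaf 301 2184 (.cons 324 (.leaf 348 2015 (.cons 323 (.leaf 347 2014 (.cons 228 (.leaf 299 1821 (.cons 204 (.leaf 180 1438 (.cons 205 (.leaf 181 1445 (.leaf 229 1637 .nil)) .nil)) .nil)) .nil))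 .nil)) .nil)) .nil)) (.cons 300 (.leaf 301 2184 (.cons 324 (.leaf 348 2015 (.cons 323 (.leaf 347 2014 (.cons 228 (.leaf 299 1821 (.cons 204 (.leaf 180 1438 (.cons 205 (.leaf 181 1445 (.leaf 229 1637 .nil)) .nil)) .nil)) .nil)) .nil)) .nil)) (.cons 249 (.leaf 248 1987 (.cons 297 (.leaf 296 2178 (.cons 225 (.cons 224 (.leaf 250 1795 (.leaf 200 1607 .nil)) (.cons 298 (.leaf 201 1612 (.leaf 322 1804 .nil)) .nil)) .nil)) .nil)) .nil))) .nil)) (.cons 273 (.leaf 272 1985 (.cons 253 (.leaf 254 2002 (.leaf 276 1993 .nil)) .nil)) (.cons 273 (.leaf 272 1985 (.cons 253 (.leaf 254 2002 (.leaf 250 1994 .nil)) .nil)) .nil))))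
noncomputable def t73 : T := .cons 273 (.leaf 272 1985 (.cons 276 (.leaf 253 1993 (.cons 249 (.leaf 248 1987 (.cons 250 (.leaf 277 1992 (.cons 225 (.leaf 224 1795 (.cons 201 (.leaf 177 1420 (.leaf 298 1612 .nil)) .nil)) .nil)) .nil)) .nil)) .nil)) (.cons 253 (.leaf 254 2002 (.cons 250 (.cons 226 (.leaf 225 1803 (.cons 202 (.leaf 178 1428 (.leaf 299 1620 .nil)) .nil)) (.cons 277 (.leaf 278 2000 (.cons 249 (.leaf 276 1992 (.cons 229 (.leaf 228 1801 (.leaf 230 1809 .nil)) .nil)) .nil)) .nil)) .nil)) (.cons 273 (.leaf 272 1985 (.cons 276 (.cons 249 (.leaf 248 1987 (.cons 250 (.leaf 277 1992 (.cons 225 (.leaf 224 1795 (.cons 201 (.leaf 177 1420 (.leaf 298 1612 .nil)) .nil)) .nil)) .nil)) (.cons 297 (.leaf 296 2178 (.cons 277 (.leaf 298 2186 (.cons 278 (.leaf 250 2003 (.leaf 279 2011 .nil)) .nil)) .nil)) (.cons 249 (.leaf 248 1987 (.cons 297 (.leaf 296 2178 (.cons 298 (.leaf 277 2186 (.cons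 322 (.leaf 346 2005 (.leaf 225 1804 .nil)) .nil)) .nil)) .nil)) (.cons 249 (.leaf 248 1987 (.cons 297 (.leaf 296 2178 (.cons 300 (.leaf 301 2184 (.cons 324 (.leaf 348 2015 (.cons 325 (.leaf 349 2020 (.cons 298 (.leaf 299 2376 (.cons 322 (.leaf 346 2005 (.leaf 225 1804 .nil)) .nil)) .nil)) .nil)) .nil)) .nil)) .nil)) (.cons 249 (.leaf 248 1987 (.cons 250 (.leaf 277 1992 (.cons 224 (.leaf 225 1795 (.cons 228 (.leaf 229 1801 (.cons 180 (.leaf 204 1438 (.cons 297 (.leaf 296 2178 (.cons 226 (.leaf 202 1614 (.leaf 321 1805 .nil)) .nil)) .nil)) .nil)) .nil)) .nil)) .nil)) .nil))))) .nil)) (.cons 273 (.leaf 272 1985 (.cons 253 (.leaf 254 2002 (.leaf 276 1993 .nil)) .nil)) (.cons 253 (.leaf 254 2002 (.cons 273 (.leaf 272 1985 (.leaf 250 1994 .nil)) .nil)) .nil))))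
noncomputable def t74 : T := .cons 272 (.leaf 252 1985 (.cons 250 (.leaf 271 1977 (.cons 295 (.leaf 296 2170 (.cons 299 (.leaf 300 2176 (.cons 226 (.leaf 202 1620 (.leaf 323 1815 .nil)) .nil)) .nil)) .nil)) .nil)) (.cons 276 (.cons 297 (.leaf 296 2178 (.cons 277 (.leaf 298 2186 (.cons 254 (.leaf 253 2001 (.cons 278 (.leaf 250 2003 (.leaf 255 2009 .nil)) .nil)) .nil)) .nil)) (.cons 297 (.leaf 296 2178 (.cons 277 (.leaf 298 2186 (.cons 250 (.leaf 278 2003 (.cons 226 (.leaf 202 1614 (.cons 300 (.leaf 301 2184 (.cons 323 (.leaf 299 1815 (.cons 324 (.leaf 348 2015 (.cons 347 (.leaf 252 2014 (.cons 345 (.leaf 321 1997 (.cons 346 (.leaf 344 2561 (.cons 325 (.leaf 322 2570 (.leaf 326 2578 .nil)) .nil)) .nil)) .nil)) .nil)) .nil)) .nil)) .nil)) .nil)) .nil)) .nil)) (.cons 252 (.leaf 253 1993 (.cons 300 (.leaf 301 2184 (.cons 324 (.leaf 348 2015 (.cons 323 (.leaf 347 2014 (.cons 228 (.leaf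 299 1821 (.cons 204 (.leaf 180 1438 (.cons 205 (.leaf 181 1445 (.leaf 229 1637 .nil)) .nil)) .nil)) .nil)) .nil)) .nil)) .nil)) .nil))) (.cons 272 (.cons 250 (.leaf 271 1977 (.cons 295 (.leaf 296 2170 (.cons 299 (.leaf 300 2176 (.cons 226 (.leaf 202 1620 (.leaf 323 1815 .nil)) .nil)) .nil)) .nil)) (.cons 296 (.leaf 295 2170 (.cons 247 (.leaf 248 1979 (.cons 276 (.leaf 297 2178 (.cons 300 (.leaf 299 2176 (.leaf 301 2184 .nil)) .nil)) .nil)) .nil)) (.cons 247 (.leaf 248 1979 (.cons 271 (.leaf 250 1977 (.leaf 246 1971 .nil)) .nil)) .nil))) (.cons 272 (.leaf 252 1985 (.cons 296 (.leaf 295 2170 (.cons 247 (.leaf 248 1979 (.cons 276 (.leaf 297 2178 (.cons 300 (.leaf 299 2176 (.leaf 301 2184 .nil)) .nil)) .nil)) .nil)) .nil)) (.cons 272 (.leaf 252 1985 (.cons 247 (.leaf 248 1979 (.cons 271 (.leaf 250 1977 (.leaf 246 1971 .nil)) .nil)) .nil)) .nil))))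
noncomputable def t75 : T := .cons 248 (.leaf 249 1987 (.cons 297 (.leaf 296 2178 (.cons 298 (.leaf 277 2186 (.cons 300 (.leaf 301 2184 (.cons 322 (.leaf 346 2005 (.cons 324 (.leaf 348 2015 (.cons 323 (.leaf 347 2014 (.leaf 325 2379 .nil)) .nil)) .nil)) .nil)) .nil)) .nil)) .nil)) (.cons 297 (.leaf 296 2178 (.cons 277 (.leaf 298 2186 (.cons 278 (.leaf 250 2003 (.leaf 279 2011 .nil)) .nil)) .nil)) (.cons 249 (.leaf 248 1987 (.cons 250 (.leaf 277 1992 (.cons 225 (.leaf 224 1795 (.cons 201 (.leaf 177 1420 (.leaf 298 1612 .nil)) .nil)) .nil)) .nil)) (.cons 297 (.leaf 296 2178 (.cons 300 (.leaf 301 2184 (.cons 324 (.leaf 348 2015 (.cons 323 (.leaf 347 2014 (.cons 325 (.leaf 349 2020 (.cons 322 (.leaf 298 2379 (.cons 249 (.leaf 248 1987 (.cons 346 (.leaf 321 1996 (.leaf 345 2570 .nil)) .nil)) .nil)) .nil)) .nil)) .nil)) .nil)) .nil)) (.cons 249 (.leaf 248 1987 (.cons 250 (.leaf 277 1992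 (.cons 224 (.leaf 225 1795 (.cons 228 (.leaf 229 1801 (.cons 180 (.leaf 204 1438 (.cons 297 (.leaf 296 2178 (.cons 226 (.leaf 202 1614 (.leaf 321 1805 .nil)) .nil)) .nil)) .nil)) .nil)) .nil)) .nil)) .nil))))
noncomputable def t76 : T := .cons 252 (.leaf 253 1993 (.cons 249 (.leaf 248 1987 (.cons 297 (.leaf 296 2178 (.cons 300 (.leaf 301 2184 (.cons 324 (.leaf 348 2015 (.cons 325 (.leaf 349 2020 (.cons 298 (.leaf 299 2376 (.cons 322 (.leaf 346 2005 (.leaf 225 1804 .nil)) .nil)) .nil)) .nil)) .nil)) .nil)) .nil)) .nil)) (.cons 249 (.leaf 248 1987 (.cons 297 (.leaf 296 2178 (.cons 300 (.leaf 301 2184 (.cons 324 (.leaf 348 2015 (.cons 298 (.cons 322 (.leaf 346 2005 (.leaf 225 1804 .nil)) (.cons 225 (.leaf 201 1612 (.cons 200 (.leaf 224 1607 (.cons 226 (.leaf 202 1613 (.cons 321 (.leaf 250 1805 (.cons 345 (.leaf 369 2189 (.cons 344 (.leaf 320 1990 (.leaf 368 2182 .nil)) .nil)) .nil))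 .nil)) .nil)) .nil)) (.cons 322 (.leaf 346 2005 (.cons 325 (.leaf 299 2376 (.leaf 323 2379 .nil)) .nil)) .nil))) .nil)) .nil)) .nil)) .nil)) (.cons 252 (.leaf 253 1993 (.cons 300 (.leaf 301 2184 (.cons 324 (.leaf 348 2015 (.cons 323 (.leaf 347 2014 (.cons 228 (.leaf 299 1821 (.cons 204 (.leaf 180 1438 (.cons 205 (.leaf 181 1445 (.leaf 229 1637 .nil)) .nil)) .nil)) .nil)) .nil)) .nil)) .nil)) (.cons 252 (.leaf 253 1993 (.cons 249 (.leaf 248 1987 (.cons 297 (.leaf 296 2178 (.cons 225 (.cons 224 (.leaf 250 1795 (.leaf 200 1607 .nil)) (.cons 298 (.leaf 201 1612 (.leaf 322 1804 .nil)) .nil)) .nil)) .nil)) .nil)) .nil)))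
noncomputable def t77 : T := .cons 273 (.cons 248 (.leaf 249 1987 (.cons 253 (.leaf 252 1993 (.cons 277 (.leaf 254 2001 (.cons 297 (.leaf 296 2178 (.leaf 298 2186 .nil)) .nil)) .nil)) .nil)) (.cons 248 (.leaf 249 1987 (.cons 297 (.leaf 296 2178 (.cons 298 (.leaf 277 2186 (.cons 300 (.leaf 301 2184 (.cons 322 (.leaf 346 2005 (.cons 324 (.leaf 348 2015 (.cons 325 (.leaf 299 2376 (.leaf 323 2379 .nil)) .nil)) .nil)) .nil)) .nil)) .nil)) .nil)) (.cons 252 (.leaf 253 1993 (.cons 300 (.leaf 301 2184 (.cons 324 (.leaf 348 2015 (.cons 323 (.leaf 347 2014 (.cons 228 (.leaf 299 1821 (.cons 204 (.leaf 180 1438 (.cons 205 (.leaf 181 1445 (.leaf 229 1637 .nil)) .nil)) .nil)) .nil)) .nil)) .nil)) .nil)) .nil))) (.cons 273 t76 (.cons 277 (.cons 254 (.leaf 253 2001 (.cons 278 (.leaf 250 2003 (.leaf 255 2009 .nil)) .nil)) (.cons 254 (.leaf 253 2001 (.cons 278 (.leaf 255 2009 (.cons 298 (.leaf 297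 2186 (.leaf 299 2194 .nil)) .nil)) .nil)) (.cons 249 (.leaf 250 1995 (.cons 253 (.leaf 254 2001 (.cons 273 (.leaf 248 1987 (.cons 297 (.leaf 296 2178 (.leaf 298 2186 .nil)) .nil)) .nil)) .nil)) (.cons 250 (.leaf 249 1995 (.leaf 278 2003 .nil)) .nil)))) (.cons 277 (.cons 250 (.leaf 249 1995 (.leaf 278 2003 .nil)) (.cons 298 (.leaf 297 2186 (.cons 278 (.leaf 299 2194 (.cons 279 (.leaf 252 2011 (.cons 256 (.leaf 255 2017 (.cons 280 (.leaf 257 2025 (.cons 304 (.leaf 303 2208 (.leaf 305 2216 .nil)) .nil)) .nil)) .nil)) .nil)) .nil)) (.cons 250 (.leaf 249 1995 (.cons 253 (.leaf 254 2001 (.cons 298 (.leaf 297 2186 (.cons 322 (.leaf 346 2005 (.cons 321 (.leaf 345 1998 (.cons 323 (.leaf 347 2004 (.cons 226 (.leaf 299 1812 (.cons 225 (.leaf 252 1803 (.leaf 201 1615 .nil)) .nil)) .nil)) .nil)) .nil)) .nil)) .nil)) .nil)) .nil))) (.cons 277 (.cons 249 (.leaf 250 1995 (.cons 273 (.leaf 248 1987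 (.cons 297 (.leaf 296 2178 (.leaf 298 2186 .nil)) .nil)) .nil)) (.cons 298 (.leaf 297 2186 (.cons 278 (.leaf 299 2194 (.cons 279 (.leaf 252 2011 (.cons 256 (.leaf 255 2017 (.cons 280 (.leaf 257 2025 (.cons 304 (.leaf 303 2208 (.leaf 305 2216 .nil)) .nil)) .nil)) .nil)) .nil)) .nil)) (.cons 250 (.leaf 249 1995 (.leaf 278 2003 .nil)) .nil))) (.cons 277 (.cons 250 (.leaf 278 2003 (.cons 253 (.leaf 254 2001 (.cons 298 (.leaf 297 2186 (.cons 252 (.leaf 273 1993 (.cons 322 (.leaf 346 2005 (.cons 321 (.leaf 345 1998 (.cons 323 (.leaf 347 2004 (.cons 299 (.leaf 226 1812 (.leaf 228 1821 .nil)) .nil)) .nil)) .nil)) .nil)) .nil)) .nil)) .nil)) (.cons 278 (.leaf 250 2003 (.cons 279 (.leaf 252 2011 (.cons 256 (.leaf 255 2017 (.cons 280 (.leaf 257 2025 (.cons 304 (.leaf 303 2208 (.leaf 305 2216 .nil)) .nil)) .nil)) .nil)) .nil)) (.cons 253 (.leaf 254 2001 (.cons 273 (.leaf 252 1993 (.cons 297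 (.leaf 296 2178 (.leaf 298 2186 .nil)) .nil)) .nil)) (.cons 250 (.leaf 278 2003 (.cons 253 (.leaf 254 2001 (.cons 298 (.leaf 297 2186 (.cons 322 (.leaf 346 2005 (.cons 321 (.leaf 345 1998 (.cons 323 (.leaf 347 2004 (.cons 226 (.leaf 299 1812 (.cons 202 (.leaf 178 1428 (.cons 201 (.leaf 177 1423 (.leaf 225 1615 .nil)) .nil)) .nil)) .nil)) .nil)) .nil)) .nil)) .nil)) .nil)) .nil)))) (.cons 273 (.cons 249 (.leaf 248 1987 (.cons 250 (.leaf 277 1995 (.cons 297 (.leaf 296 2178 (.cons 226 (.leaf 202 1614 (.leaf 321 1805 .nil)) .nil)) .nil)) .nil)) (.cons 253 (.leaf 252 1993 (.cons 277 (.leaf 254 2001 (.cons 278 (.leaf 250 2003 (.cons 296 (.leaf 297 2178 (.cons 300 (.leaf 301 2184 (.cons 324 (.leaf 348 2021 (.cons 279 (.leaf 299 2202 (.cons 205 (.leaf 229 1638 (.cons 256 (.leaf 255 2017 (.cons 280 (.leaf 257 2025 (.cons 304 (.leaf 303 2208 (.leaf 305 2216 .nil)) .nil)) .nil)) .nil)) .nil))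 .nil)) .nil)) .nil)) .nil)) .nil)) .nil)) (.cons 252 (.leaf 253 1993 (.cons 300 (.leaf 301 2184 (.cons 324 (.leaf 348 2015 (.cons 323 (.leaf 347 2014 (.cons 228 (.leaf 299 1821 (.cons 204 (.leaf 180 1438 (.cons 205 (.leaf 181 1445 (.leaf 229 1637 .nil)) .nil)) .nil)) .nil)) .nil)) .nil)) .nil)) .nil))) (.cons 277 (.cons 250 (.leaf 249 1995 (.leaf 278 2003 .nil)) (.cons 253 (.leaf 254 2001 (.cons 252 (.leaf 273 1993 (.cons 278 (.leaf 279 2011 (.cons 299 (.leaf 298 2194 (.cons 323 (.leaf 228 1821 (.leaf 347 2013 .nil)) .nil)) .nil)) .nil)) .nil)) (.cons 249 (.leaf 250 1995 (.cons 253 (.leaf 254 2001 (.cons 273 (.leaf 248 1987 (.leaf 252 1993 .nil)) .nil)) .nil)) .nil))) .nil)))))))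
noncomputable def t78 : T := .cons 273 (.leaf 272 1985 (.cons 253 (.leaf 254 2002 (.leaf 276 1993 .nil)) .nil)) (.cons 253 (.leaf 254 2002 (.cons 250 (.cons 229 (.leaf 230 1809 (.cons 277 (.leaf 278 2000 (.cons 228 (.leaf 249 1801 (.cons 204 (.leaf 180 1444 (.leaf 301 1639 .nil)) .nil)) .nil)) .nil)) (.cons 226 (.leaf 225 1803 (.cons 202 (.leaf 178 1428 (.leaf 299 1620 .nil)) .nil)) .nil)) .nil)) (.cons 273 (.leaf 272 1985 (.cons 276 (.cons 300 (.leaf 301 2184 (.cons 324 (.leaf 348 2015 (.cons 323 (.leaf 347 2014 (.cons 228 (.leaf 299 1821 (.cons 204 (.leaf 180 1438 (.cons 205 (.leaf 181 1445 (.leaf 229 1637 .nil)) .nil)) .nil)) .nil)) .nil)) .nil)) (.cons 249 (.leaf 248 1987 (.cons 250 (.leaf 277 1992 (.cons 224 (.leaf 225 1795 (.cons 228 (.leaf 229 1801 (.cons 180 (.leaf 204 1438 (.cons 297 (.leaf 296 2178 (.cons 226 (.leaf 202 1614 (.leaf 321 1805 .nil)) .nil)) .nil)) .nil)) .nil))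 .nil)) .nil)) (.cons 249 (.leaf 248 1987 (.cons 250 (.leaf 277 1992 (.cons 224 (.leaf 225 1795 (.cons 297 (.leaf 296 2178 (.cons 226 (.leaf 202 1614 (.leaf 321 1805 .nil)) .nil)) .nil)) .nil)) .nil)) .nil))) .nil)) .nil))
noncomputable def t79 : T := .cons 202 (.leaf 178 1428 (.leaf 299 1620 .nil)) (.cons 299 (.leaf 323 1815 (.cons 298 (.cons 297 (.leaf 321 1806 (.cons 296 (.leaf 295 2169 (.cons 272 (.leaf 271 2171 (.cons 273 (.leaf 300 2176 (.cons 247 (.leaf 248 1979 (.cons 201 (.leaf 225 1615 (.cons 320 (.leaf 319 2362 (.cons 344 (.leaf 368 2181 (.leaf 249 1989 .nil)) .nil)) .nil)) .nil)) .nil)) .nil)) .nil)) .nil)) (.cons 322 (.leaf 346 2005 (.cons 225 (.leaf 201 1615 (.leaf 249 1807 .nil)) .nil)) (.cons 297 (.leaf 321 1806 (.cons 296 (.leaf 295 2169 (.cons 272 (.leaf 271 2171 (.cons 273 (.leaf 300 2176 (.cons 247 (.leaf 248 1979 (.cons 320 (.leaf 319 2362 (.cons 344 (.leaf 368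 2181 (.leaf 249 1989 .nil)) .nil)) .nil)) .nil)) .nil)) .nil)) .nil)) (.cons 322 (.leaf 346 2005 (.cons 321 (.leaf 297 1806 (.leaf 345 1998 .nil)) .nil)) .nil)))) .nil)) (.cons 202 (.leaf 178 1428 (.cons 179 (.leaf 203 1429 (.cons 201 (.leaf 177 1423 (.cons 298 (.leaf 225 1615 (.cons 321 (.leaf 297 1806 (.cons 322 (.leaf 346 2005 (.leaf 345 1998 .nil)) .nil)) .nil)) .nil)) .nil)) .nil)) .nil))
noncomputable def t80 : T := .cons 226 (.cons 323 (.leaf 299 1815 (.cons 298 (.cons 322 (.leaf 346 2005 (.leaf 347 2004 .nil)) (.cons 225 (.leaf 201 1615 (.cons 224 (.leaf 223 1784 (.cons 252 (.leaf 249 1795 (.leaf 253 1803 .nil)) .nil)) .nil)) .nil)) .nil)) (.cons 202 (.leaf 178 1428 (.cons 179 (.leaf 203 1429 (.cons 201 (.leaf 177 1423 (.cons 298 (.leaf 225 1615 (.cons 321 (.leaf 297 1806 (.cons 322 (.leaf 346 2005 (.leaf 345 1998 .nil)) .nil)) .nil)) .nil)) .nil)) .nil)) (.cons 202 (.leaf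 178 1428 (.leaf 299 1620 .nil)) .nil))) (.cons 252 (.cons 253 (.leaf 254 2002 (.leaf 273 1994 .nil)) (.cons 253 (.leaf 254 2002 (.cons 229 (.leaf 230 1809 (.cons 228 (.leaf 249 1801 (.cons 204 (.leaf 180 1438 (.cons 277 (.leaf 278 2000 (.leaf 301 1639 .nil)) .nil)) .nil)) .nil)) .nil)) (.cons 249 (.cons 224 (.leaf 225 1795 (.cons 248 (.leaf 247 1976 (.leaf 223 1787 .nil)) .nil)) (.cons 273 (.leaf 272 1985 (.cons 225 (.leaf 224 1795 (.cons 201 (.leaf 177 1420 (.leaf 298 1612 .nil)) .nil)) .nil)) (.cons 272 (.leaf 273 1985 (.cons 248 (.leaf 247 1976 (.leaf 271 1978 .nil)) .nil)) .nil))) .nil))) (.cons 226 t79 (.cons 226 (.cons 202 (.leaf 178 1428 (.leaf 299 1620 .nil)) (.cons 298 (.cons 201 (.leaf 225 1615 (.cons 321 (.leaf 297 1806 (.cons 322 (.leaf 346 2005 (.leaf 345 1998 .nil)) .nil)) .nil)) (.cons 299 (.leaf 323 1812 (.cons 201 (.leaf 225 1615 (.cons 297 (.leaf 321 1806 (.cons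 296 (.leaf 295 2169 (.cons 272 (.leaf 271 2171 (.cons 273 (.leaf 252 1985 (.leaf 300 2176 .nil)) .nil)) .nil)) .nil)) .nil)) .nil)) (.cons 323 (.leaf 299 1812 (.cons 322 (.leaf 346 2005 (.leaf 347 2004 .nil)) .nil)) .nil))) (.cons 202 (.leaf 178 1428 (.cons 179 (.leaf 203 1429 (.cons 201 (.leaf 177 1423 (.cons 298 (.leaf 225 1615 (.cons 321 (.leaf 297 1806 (.cons 322 (.leaf 346 2005 (.leaf 345 1998 .nil)) .nil)) .nil)) .nil)) .nil)) .nil)) .nil))) (.cons 252 (.cons 249 (.cons 273 (.leaf 272 1985 (.leaf 253 1994 .nil)) (.cons 224 (.leaf 225 1795 (.cons 248 (.leaf 247 1976 (.leaf 223 1787 .nil)) .nil)) .nil)) (.cons 249 (.cons 273 (.leaf 272 1985 (.cons 225 (.leaf 224 1795 (.cons 201 (.leaf 177 1420 (.cons 176 (.leaf 200 1415 (.cons 202 (.leaf 178 1421 (.cons 226 (.leaf 299 1620 (.leaf 297 1613 .nil)) .nil)) .nil)) .nil)) .nil)) .nil)) (.cons 224 (.leaf 225 1795 (.cons 248 (.leaf 247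 1976 (.leaf 223 1787 .nil)) .nil)) (.cons 272 (.leaf 273 1985 (.cons 248 (.leaf 247 1976 (.leaf 271 1978 .nil)) .nil)) .nil))) (.cons 253 (.leaf 254 2002 (.cons 229 (.leaf 230 1809 (.cons 228 (.leaf 249 1801 (.cons 204 (.leaf 180 1438 (.cons 277 (.leaf 278 2000 (.leaf 301 1639 .nil)) .nil)) .nil)) .nil)) .nil)) (.cons 253 (.leaf 254 2002 (.leaf 273 1994 .nil)) .nil)))) (.cons 226 (.cons 298 (.cons 323 (.leaf 299 1812 (.cons 322 (.leaf 346 2005 (.leaf 347 2004 .nil)) .nil)) (.cons 321 (.leaf 297 1806 (.cons 322 (.leaf 346 2005 (.leaf 345 1998 .nil)) .nil)) (.cons 299 (.leaf 202 1620 (.leaf 323 1812 .nil)) .nil))) (.cons 298 (.cons 323 (.leaf 299 1812 (.cons 322 (.leaf 346 2005 (.leaf 347 2004 .nil)) .nil)) (.cons 321 (.leaf 297 1806 (.cons 322 (.leaf 346 2005 (.leaf 345 1998 .nil)) .nil)) (.cons 299 (.leaf 323 1812 (.cons 297 (.leaf 321 1806 (.cons 296 (.leaf 295 2169 (.cons 272 (.leaf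 271 2171 (.cons 273 (.leaf 252 1985 (.leaf 300 2176 .nil)) .nil)) .nil)) .nil)) .nil)) .nil))) (.cons 202 (.leaf 178 1428 (.cons 177 (.leaf 201 1423 (.cons 179 (.leaf 203 1429 (.cons 273 (.leaf 297 1614 (.cons 252 (.leaf 272 1985 (.leaf 253 1994 .nil)) .nil)) .nil)) .nil)) .nil)) (.cons 202 (.leaf 178 1428 (.leaf 299 1620 .nil)) .nil)))) (.cons 252 (.cons 272 (.leaf 273 1985 (.cons 249 (.cons 248 (.leaf 247 1976 (.leaf 271 1978 .nil)) (.cons 225 (.leaf 224 1795 (.cons 228 (.leaf 229 1801 (.cons 298 (.leaf 322 1807 (.cons 253 (.leaf 254 2002 (.leaf 226 1803 .nil)) .nil)) .nil)) .nil)) .nil)) .nil)) (.cons 253 (.leaf 254 2002 (.cons 229 (.leaf 230 1809 (.cons 228 (.leaf 249 1801 (.cons 204 (.leaf 180 1438 (.cons 277 (.leaf 278 2000 (.leaf 301 1639 .nil)) .nil)) .nil)) .nil)) .nil)) (.cons 272 (.leaf 273 1985 (.cons 249 (.cons 248 (.leaf 247 1976 (.leaf 271 1978 .nil)) (.cons 225 (.leaf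 224 1795 (.cons 228 (.leaf 229 1801 (.cons 298 (.leaf 322 1807 (.cons 299 (.leaf 323 1821 (.cons 226 (.leaf 202 1620 (.cons 297 (.leaf 321 1806 (.cons 296 (.leaf 295 2169 (.leaf 271 2171 .nil)) .nil)) .nil)) .nil)) .nil)) .nil)) .nil)) (.cons 224 (.leaf 225 1795 (.cons 248 (.leaf 247 1976 (.leaf 223 1787 .nil)) .nil)) .nil))) .nil)) (.cons 253 (.leaf 254 2002 (.leaf 273 1994 .nil)) .nil)))) .nil))))))
noncomputable def t81 : T := .cons 252 (.leaf 272 1985 (.cons 253 (.leaf 254 2002 (.leaf 276 1993 .nil)) .nil)) (.cons 276 (.cons 248 (.leaf 249 1987 (.cons 253 (.leaf 252 1993 (.cons 277 (.leaf 254 2001 (.cons 297 (.leaf 296 2178 (.leaf 298 2186 .nil)) .nil)) .nil)) .nil)) (.cons 248 (.leaf 249 1987 (.cons 297 (.leaf 296 2178 (.cons 298 (.leaf 277 2186 (.cons 300 (.leaf 301 2184 (.cons 322 (.leaf 346 2005 (.cons 324 (.leaf 348 2015 (.cons 325 (.leaf 299 2376 (.leaf 323 2379 .nil))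 .nil)) .nil)) .nil)) .nil)) .nil)) .nil)) (.cons 252 (.leaf 253 1993 (.cons 300 (.leaf 301 2184 (.cons 324 (.leaf 348 2015 (.cons 323 (.leaf 347 2014 (.cons 228 (.leaf 299 1821 (.cons 204 (.leaf 180 1438 (.cons 205 (.leaf 181 1445 (.leaf 229 1637 .nil)) .nil)) .nil)) .nil)) .nil)) .nil)) .nil)) .nil))) (.cons 272 (.cons 247 (.leaf 248 1979 (.cons 271 (.leaf 246 1971 (.cons 299 (.leaf 300 2176 (.leaf 298 2168 .nil)) .nil)) .nil)) (.cons 295 (.leaf 296 2170 (.cons 271 (.leaf 294 2162 (.cons 299 (.leaf 300 2176 (.leaf 298 2168 .nil)) .nil)) .nil)) (.cons 296 (.leaf 295 2170 (.cons 249 (.cons 225 (.leaf 201 1606 (.cons 297 (.leaf 276 2178 (.leaf 320 1798 .nil)) .nil)) (.cons 225 (.leaf 201 1606 (.cons 320 (.leaf 297 1798 (.leaf 344 1989 .nil)) .nil)) (.cons 276 (.leaf 248 1987 (.leaf 297 2178 .nil)) (.cons 225 (.leaf 201 1606 (.cons 248 (.leaf 247 1979 (.leaf 276 1987 .nil)) .nil)) .nil))))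 .nil)) .nil))) (.cons 272 (.leaf 252 1985 (.cons 295 (.leaf 296 2170 (.cons 271 (.leaf 294 2162 (.cons 299 (.leaf 300 2176 (.leaf 298 2168 .nil)) .nil)) .nil)) .nil)) .nil)))
noncomputable def t82 : T := .cons 296 (.leaf 295 2169 (.cons 276 (.leaf 273 2178 (.leaf 277 2186 .nil)) .nil)) (.cons 276 (.leaf 277 2186 (.cons 273 (.cons 300 (.leaf 301 2184 (.cons 249 (.leaf 248 1987 (.leaf 225 1804 .nil)) .nil)) (.cons 300 (.leaf 301 2184 (.cons 299 (.leaf 272 2176 (.cons 324 (.leaf 348 2015 (.leaf 325 2376 .nil)) .nil)) .nil)) (.cons 249 (.leaf 248 1987 (.leaf 225 1804 .nil)) .nil))) .nil)) (.cons 296 (.leaf 295 2169 (.cons 299 (.cons 272 (.leaf 271 2171 (.cons 273 (.leaf 300 2176 (.cons 225 (.leaf 249 1804 (.cons 248 (.leaf 247 1979 (.cons 224 (.leaf 200 1604 (.leaf 321 1796 .nil)) .nil)) .nil)) .nil)) .nil)) (.cons 319 (.leaf 320 2362 (.cons 324 (.leaf 323 2368 (.cons 300 (.leaf 325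 2376 (.cons 301 (.leaf 273 2187 (.leaf 321 2378 .nil)) .nil)) .nil)) .nil)) (.cons 272 (.leaf 271 2171 (.cons 273 (.leaf 300 2176 (.cons 225 (.leaf 249 1804 (.cons 248 (.leaf 247 1979 (.cons 224 (.leaf 200 1604 (.leaf 201 1605 .nil)) .nil)) .nil)) .nil)) .nil)) (.cons 271 (.leaf 272 2171 (.cons 320 (.leaf 319 2362 (.cons 323 (.leaf 324 2368 (.cons 347 (.leaf 371 2199 (.cons 348 (.leaf 372 2204 (.leaf 321 2560 .nil)) .nil)) .nil)) .nil)) .nil)) .nil)))) .nil)) (.cons 296 (.leaf 295 2169 (.cons 276 (.leaf 277 2186 (.leaf 299 2177 .nil)) .nil)) .nil)))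
noncomputable def t83 : T := .cons 248 (.leaf 249 1987 (.cons 272 (.leaf 247 1979 (.cons 271 (.leaf 250 1977 (.leaf 299 2168 .nil)) .nil)) .nil)) (.cons 300 (.leaf 301 2184 (.cons 272 (.leaf 299 2176 (.cons 247 (.leaf 248 1979 (.cons 271 (.leaf 250 1977 (.leaf 246 1971 .nil)) .nil)) .nil)) .nil)) (.cons 300 (.leaf 301 2184 (.cons 272 (.leaf 299 2176 (.cons 271 (.leaf 250 1977 (.leaf 270 2160 .nil)) .nil)) .nil)) (.cons 300 (.leaf 301 2184 (.cons 272 (.leaf 299 2176 (.cons 247 (.leaf 248 1979 (.cons 271 (.leaf 246 1971 (.leaf 270 2160 .nil)) .nil)) .nil)) .nil)) (.cons 249 (.leaf 248 1987 (.cons 225 (.leaf 201 1612 (.cons 200 (.leaf 224 1607 (.cons 226 (.leaf 202 1613 (.cons 250 (.leaf 321 1805 (.cons 299 (.leaf 323 1812 (.cons 300 (.leaf 301 2184 (.cons 324 (.leaf 348 2015 (.leaf 325 2376 .nil)) .nil)) .nil)) .nil)) .nil)) .nil)) .nil)) .nil)) (.cons 249 (.leaf 248 1987 (.cons 225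 (.leaf 201 1612 (.cons 200 (.leaf 224 1607 (.cons 226 (.leaf 202 1613 (.cons 321 (.leaf 250 1805 (.cons 300 (.leaf 301 2184 (.cons 324 (.leaf 348 2015 (.cons 345 (.leaf 369 2189 (.cons 344 (.leaf 320 1990 (.leaf 368 2182 .nil)) .nil)) .nil)) .nil)) .nil)) .nil)) .nil)) .nil)) .nil)) .nil)))))
noncomputable def t84 : T := .cons 276 (.leaf 277 2186 (.cons 273 (.leaf 296 2178 (.cons 248 (.leaf 249 1987 (.cons 272 (.leaf 247 1979 (.cons 271 (.leaf 250 1977 (.leaf 299 2168 .nil)) .nil)) .nil)) .nil)) .nil)) (.cons 276 (.leaf 277 2186 (.cons 273 t83 .nil)) (.cons 296 (.leaf 295 2169 (.cons 299 (.cons 271 (.leaf 272 2171 (.cons 319 (.leaf 320 2362 (.cons 323 (.leaf 324 2368 (.cons 250 (.leaf 226 1812 (.leaf 347 2007 .nil)) .nil)) .nil)) .nil)) (.cons 272 (.leaf 271 2171 (.cons 320 (.leaf 319 2362 (.cons 321 (.leaf 300 2370 (.cons 345 (.leaf 369 2189 (.leaf 248 1988 .nil)) .nil)) .nil))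 .nil)) (.cons 320 (.leaf 319 2362 (.cons 300 (.leaf 321 2370 (.cons 301 (.leaf 273 2187 (.cons 325 (.leaf 324 2376 (.leaf 326 2384 .nil)) .nil)) .nil)) .nil)) (.cons 271 (.leaf 272 2171 (.cons 323 (.leaf 324 2368 (.cons 250 (.leaf 226 1812 (.leaf 347 2007 .nil)) .nil)) .nil)) .nil)))) .nil)) (.cons 276 (.leaf 277 2186 (.cons 296 (.leaf 273 2178 (.leaf 295 2169 .nil)) .nil)) (.cons 276 (.leaf 277 2186 (.cons 296 (.leaf 295 2169 (.leaf 299 2177 .nil)) .nil)) .nil))))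
noncomputable def t85 : T := .cons 322 (.leaf 346 2005 (.cons 250 (.cons 321 (.leaf 345 1998 (.cons 226 (.leaf 297 1806 (.cons 299 (.leaf 202 1620 (.leaf 323 1812 .nil)) .nil)) .nil)) (.cons 321 (.leaf 345 1998 (.cons 226 (.leaf 297 1806 (.cons 201 (.leaf 225 1615 (.cons 202 (.leaf 178 1428 (.leaf 299 1620 .nil)) .nil)) .nil)) .nil)) (.cons 249 (.leaf 225 1807 (.cons 248 (.leaf 247 1976 (.leaf 276 1984 .nil)) .nil)) .nil))) .nil)) (.cons 297 t84 (.cons 322 (.leaf 346 2005 (.cons 250 (.cons 249 (.leaf 225 1807 (.cons 248 (.leaf 247 1976 (.leaf 276 1984 .nil)) .nil)) (.cons 321 (.leaf 345 1998 (.cons 323 (.leaf 347 2004 (.cons 299 (.leaf 226 1812 (.cons 300 (.leaf 301 2378 (.leaf 320 2369 .nil)) .nil)) .nil)) .nil)) .nil)) .nil)) (.cons 322 (.leaf 346 2005 (.cons 297 t82 .nil)) (.cons 322 (.leaf 346 2005 (.cons 250 (.cons 249 (.leaf 225 1807 (.cons 248 (.leaf 247 1976 (.leaf 276 1984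 .nil)) .nil)) (.cons 321 (.leaf 345 1998 (.cons 297 (.leaf 226 1806 (.cons 276 (.leaf 277 2186 (.cons 296 (.leaf 273 2178 (.leaf 295 2169 .nil)) .nil)) .nil)) .nil)) (.cons 225 (.leaf 249 1807 (.cons 226 (.leaf 201 1615 (.cons 321 (.leaf 297 1806 (.leaf 345 1998 .nil)) .nil)) .nil)) .nil))) .nil)) (.cons 322 (.leaf 346 2005 (.cons 250 (.cons 249 (.leaf 225 1807 (.cons 248 (.leaf 247 1976 (.cons 224 (.leaf 223 1787 (.cons 271 (.leaf 272 1978 (.cons 321 (.leaf 345 1998 (.cons 226 (.leaf 297 1806 (.cons 299 (.leaf 202 1620 (.leaf 323 1812 .nil)) .nil)) .nil)) .nil)) .nil)) .nil)) .nil)) (.cons 225 (.leaf 249 1807 (.cons 226 (.leaf 201 1615 (.cons 321 (.leaf 297 1806 (.leaf 345 1998 .nil)) .nil)) .nil)) (.cons 249 (.leaf 225 1807 (.cons 248 (.leaf 247 1976 (.cons 224 (.leaf 223 1787 (.cons 271 (.leaf 272 1978 (.cons 321 (.leaf 345 1998 (.cons 297 (.leaf 273 1799 (.cons 296 (.leaf 295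 2169 (.cons 323 (.leaf 347 2004 (.leaf 324 2371 .nil)) .nil)) .nil)) .nil)) .nil)) .nil)) .nil)) .nil)) (.cons 225 (.leaf 249 1807 (.cons 226 (.leaf 201 1615 (.cons 202 (.leaf 178 1428 (.leaf 299 1620 .nil)) .nil)) .nil)) (.cons 323 (.leaf 347 2004 (.cons 299 (.leaf 226 1812 (.cons 324 (.leaf 348 2012 (.cons 297 (.leaf 296 2368 (.leaf 325 2379 .nil)) .nil)) .nil)) .nil)) .nil))))) .nil)) (.cons 322 (.leaf 346 2005 (.cons 250 (.cons 321 (.leaf 345 1998 (.cons 323 (.leaf 347 2004 (.cons 299 (.leaf 226 1812 (.cons 300 (.leaf 301 2378 (.leaf 320 2369 .nil)) .nil)) .nil)) .nil)) (.cons 321 (.leaf 345 1998 (.cons 226 (.leaf 297 1806 (.cons 201 (.leaf 225 1615 (.cons 202 (.leaf 178 1428 (.leaf 299 1620 .nil)) .nil)) .nil)) .nil)) (.cons 323 (.leaf 347 2004 (.cons 299 (.leaf 226 1812 (.cons 324 (.leaf 348 2012 (.cons 297 (.leaf 296 2368 (.leaf 325 2379 .nil)) .nil)) .nil)) .nil)) (.cons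 323 (.leaf 347 2004 (.cons 321 (.leaf 345 1998 (.cons 297 (.cons 296 (.leaf 295 2360 (.leaf 324 2371 .nil)) (.cons 276 (.leaf 277 2186 (.cons 324 (.leaf 325 2379 (.cons 348 (.leaf 300 2015 (.leaf 299 2012 .nil)) .nil)) .nil)) (.cons 296 (.leaf 295 2360 (.cons 276 (.leaf 273 2178 (.leaf 277 2186 .nil)) .nil)) .nil))) .nil)) .nil)) (.cons 321 (.leaf 345 1998 (.cons 297 (.leaf 226 1806 (.cons 276 (.leaf 277 2186 (.cons 296 (.leaf 273 2178 (.leaf 295 2169 .nil)) .nil)) .nil)) .nil)) .nil))))) .nil)) (.cons 322 (.leaf 346 2005 (.cons 250 (.cons 249 (.leaf 225 1807 (.cons 248 (.leaf 247 1976 (.leaf 276 1984 .nil)) .nil)) (.cons 323 (.leaf 347 2004 (.cons 299 (.leaf 226 1812 (.cons 324 (.leaf 348 2012 (.cons 297 (.leaf 296 2368 (.leaf 325 2379 .nil)) .nil)) .nil)) .nil)) .nil)) .nil)) (.cons 322 (.leaf 346 2005 (.cons 250 (.cons 323 (.leaf 347 2004 (.cons 299 (.leaf 226 1812 (.cons 324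 (.leaf 348 2012 (.cons 297 (.leaf 296 2368 (.leaf 325 2379 .nil)) .nil)) .nil)) .nil)) (.cons 321 (.leaf 345 1998 (.cons 226 (.leaf 297 1806 (.cons 202 (.leaf 178 1428 (.leaf 299 1620 .nil)) .nil)) .nil)) (.cons 321 (.leaf 345 1998 (.cons 297 (.leaf 226 1806 (.cons 276 (.leaf 277 2186 (.cons 296 (.leaf 273 2178 (.leaf 295 2169 .nil)) .nil)) .nil)) .nil)) (.cons 323 (.leaf 347 2004 (.cons 321 (.leaf 345 1998 (.cons 297 (.cons 296 (.leaf 295 2360 (.leaf 324 2371 .nil)) (.cons 276 (.leaf 277 2186 (.cons 324 (.leaf 325 2379 (.cons 348 (.leaf 300 2015 (.leaf 299 2012 .nil)) .nil)) .nil)) (.cons 296 (.leaf 295 2360 (.cons 276 (.leaf 273 2178 (.leaf 277 2186 .nil)) .nil)) .nil))) .nil)) .nil)) (.cons 323 (.leaf 347 2004 (.cons 299 (.leaf 226 1812 (.cons 321 (.leaf 345 1998 (.cons 300 (.leaf 301 2378 (.leaf 320 2369 .nil)) .nil)) .nil)) .nil)) .nil))))) .nil)) .nil))))))))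
noncomputable def t86 : T := .cons 253 (.leaf 254 2002 (.cons 229 (.leaf 230 1809 (.cons 277 (.leaf 278 2000 (.cons 228 (.leaf 249 1801 (.cons 204 (.leaf 180 1444 (.leaf 301 1639 .nil)) .nil)) .nil)) .nil)) .nil)) (.cons 276 (.cons 249 (.leaf 248 1984 (.leaf 277 1992 .nil)) (.cons 249 (.leaf 248 1984 (.cons 228 (.leaf 229 1801 (.cons 204 (.leaf 180 1438 (.leaf 299 1630 .nil)) .nil)) .nil)) (.cons 277 (.leaf 278 2003 (.cons 298 (.leaf 297 2186 (.cons 322 (.leaf 346 2005 (.cons 321 (.leaf 345 1998 (.cons 323 (.leaf 347 2004 (.cons 299 (.leaf 226 1812 (.leaf 228 1821 .nil)) .nil)) .nil)) .nil)) .nil)) .nil)) .nil))) (.cons 253 (.leaf 254 2002 (.cons 277 (.leaf 278 2000 (.cons 229 (.leaf 230 1809 (.cons 228 (.cons 204 (.leaf 180 1444 (.leaf 301 1639 .nil)) (.cons 299 (.leaf 323 1821 (.cons 301 (.leaf 325 1831 (.cons 300 (.leaf 324 1830 (.cons 205 (.leaf 276 1637 (.cons 181 (.leaf 157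 1254 (.cons 182 (.leaf 158 1261 (.leaf 206 1453 .nil)) .nil)) .nil)) .nil)) .nil)) .nil)) (.cons 204 (.leaf 180 1444 (.cons 299 (.leaf 276 1630 (.leaf 323 1821 .nil)) .nil)) .nil))) .nil)) .nil)) .nil)) (.cons 253 (.leaf 254 2002 (.cons 229 (.leaf 230 1809 (.cons 228 (.leaf 249 1801 (.cons 204 (.leaf 180 1438 (.cons 299 (.leaf 276 1630 (.leaf 323 1821 .nil)) .nil)) .nil)) .nil)) .nil)) (.cons 253 (.leaf 254 2002 (.cons 229 (.leaf 230 1809 (.cons 277 (.leaf 278 2000 (.cons 276 (.leaf 249 1992 (.cons 205 (.leaf 181 1446 (.leaf 300 1638 .nil)) .nil)) .nil)) .nil)) .nil)) (.cons 253 (.leaf 254 2002 (.cons 277 (.leaf 278 2000 (.cons 276 (.leaf 249 1992 (.cons 298 (.leaf 297 2186 (.cons 322 (.leaf 346 2005 (.cons 321 (.leaf 345 1998 (.cons 323 (.leaf 347 2004 (.cons 299 (.leaf 226 1812 (.leaf 228 1821 .nil)) .nil)) .nil)) .nil)) .nil)) .nil)) .nil)) .nil)) .nil)))))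
noncomputable def t87 : T := .cons 252 (.cons 224 (.leaf 225 1795 (.cons 248 (.leaf 247 1976 (.leaf 276 1984 .nil)) .nil)) (.cons 224 (.leaf 225 1795 (.cons 248 (.leaf 247 1976 (.leaf 223 1787 .nil)) .nil)) (.cons 224 (.leaf 225 1795 (.cons 229 (.leaf 228 1801 (.cons 253 (.leaf 254 2002 (.leaf 230 1809 .nil)) .nil)) .nil)) (.cons 277 (.leaf 276 1992 (.cons 253 (.leaf 254 2002 (.leaf 278 2000 .nil)) .nil)) .nil)))) (.cons 248 (.leaf 247 1976 (.cons 224 (.leaf 223 1787 (.cons 225 (.leaf 252 1795 (.cons 177 (.leaf 201 1420 (.cons 272 (.leaf 271 1978 (.cons 296 (.leaf 320 1797 (.cons 295 (.leaf 319 1790 (.cons 297 (.leaf 298 2169 (.leaf 321 1796 .nil)) .nil)) .nil)) .nil)) .nil)) .nil)) .nil)) .nil)) (.cons 252 (.cons 224 (.leaf 225 1795 (.cons 229 (.leaf 228 1801 (.cons 253 (.leaf 254 2002 (.leaf 230 1809 .nil)) .nil)) .nil)) (.cons 276 (.leaf 277 1992 (.cons 228 (.leaf 229 1801 (.cons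 204 (.leaf 180 1438 (.leaf 299 1630 .nil)) .nil)) .nil)) (.cons 277 (.leaf 276 1992 (.cons 253 (.leaf 254 2002 (.leaf 278 2000 .nil)) .nil)) .nil))) (.cons 248 (.leaf 247 1976 (.leaf 276 1984 .nil)) .nil)))
noncomputable def t88 : T := .cons 252 (.cons 253 (.leaf 254 2002 (.cons 229 (.leaf 230 1809 (.cons 277 (.leaf 278 2000 (.cons 276 (.leaf 249 1992 (.cons 205 (.leaf 181 1446 (.leaf 300 1638 .nil)) .nil)) .nil)) .nil)) .nil)) (.cons 249 (.cons 276 (.leaf 248 1984 (.leaf 277 1992 .nil)) (.cons 224 (.leaf 225 1795 (.cons 248 (.leaf 247 1976 (.leaf 223 1787 .nil)) .nil)) (.cons 276 (.leaf 277 1992 (.cons 228 (.leaf 229 1801 (.cons 204 (.leaf 180 1438 (.leaf 299 1630 .nil)) .nil)) .nil)) .nil))) (.cons 253 (.leaf 254 2002 (.cons 226 (.leaf 225 1803 (.cons 202 (.leaf 178 1428 (.leaf 299 1620 .nil)) .nil)) .nil)) .nil))) (.cons 249 t87 (.cons 226 (.cons 202 (.leaf 178 1428 (.leaf 299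 1620 .nil)) (.cons 202 (.leaf 178 1428 (.cons 179 (.leaf 203 1429 (.cons 201 (.leaf 177 1423 (.cons 298 (.leaf 225 1615 (.cons 321 (.leaf 297 1806 (.cons 322 (.leaf 346 2005 (.leaf 345 1998 .nil)) .nil)) .nil)) .nil)) .nil)) .nil)) (.cons 298 (.cons 299 (.leaf 323 1812 (.cons 201 (.leaf 225 1615 (.cons 297 (.leaf 321 1806 (.cons 276 (.leaf 277 2186 (.leaf 296 2177 .nil)) .nil)) .nil)) .nil)) (.cons 297 (.leaf 321 1806 (.cons 201 (.leaf 225 1615 (.cons 276 (.leaf 277 2186 (.cons 296 (.leaf 295 2169 (.leaf 299 2177 .nil)) .nil)) .nil)) .nil)) (.cons 322 (.leaf 346 2005 (.cons 321 (.leaf 297 1806 (.leaf 345 1998 .nil)) .nil)) (.cons 323 (.leaf 299 1812 (.cons 322 (.leaf 346 2005 (.leaf 347 2004 .nil)) .nil)) .nil)))) .nil))) (.cons 249 (.cons 276 (.leaf 248 1984 (.leaf 277 1995 .nil)) (.cons 276 (.leaf 277 1995 (.cons 225 (.cons 224 (.leaf 252 1795 (.cons 223 (.leaf 226 1784 (.leaf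 222 1776 .nil)) .nil)) (.cons 298 (.leaf 322 1807 (.cons 201 (.leaf 177 1420 (.leaf 226 1615 .nil)) .nil)) (.cons 177 (.leaf 201 1420 (.cons 252 (.leaf 224 1795 (.cons 229 (.leaf 228 1801 (.cons 253 (.leaf 254 2002 (.leaf 230 1809 .nil)) .nil)) .nil)) .nil)) .nil))) .nil)) (.cons 248 (.leaf 247 1976 (.cons 224 (.leaf 223 1787 (.cons 225 (.leaf 252 1795 (.cons 177 (.leaf 201 1420 (.cons 272 (.leaf 271 1978 (.cons 296 (.leaf 320 1797 (.cons 295 (.leaf 319 1790 (.cons 297 (.leaf 298 2169 (.leaf 321 1796 .nil)) .nil)) .nil)) .nil)) .nil)) .nil)) .nil)) .nil)) .nil))) (.cons 226 (.cons 323 (.leaf 299 1815 (.cons 298 (.cons 322 (.leaf 346 2005 (.leaf 347 2004 .nil)) (.cons 225 (.leaf 201 1615 (.cons 224 (.leaf 223 1784 (.cons 252 (.leaf 249 1795 (.leaf 253 1803 .nil)) .nil)) .nil)) .nil)) .nil)) (.cons 202 (.leaf 178 1428 (.cons 179 (.leaf 203 1429 (.cons 201 (.leaf 177 1423 (.cons 298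 (.leaf 225 1615 (.cons 321 (.leaf 297 1806 (.cons 322 (.leaf 346 2005 (.leaf 345 1998 .nil)) .nil)) .nil)) .nil)) .nil)) .nil)) (.cons 202 (.leaf 178 1428 (.leaf 299 1620 .nil)) .nil))) (.cons 252 t86 .nil)))))
noncomputable def t89 : T := .cons 253 (.leaf 254 2002 (.cons 250 (.leaf 273 1994 (.cons 225 (.leaf 226 1803 (.cons 249 (.leaf 224 1795 (.cons 276 (.leaf 248 1984 (.leaf 277 1992 .nil)) .nil)) .nil)) .nil)) .nil)) (.cons 253 (.leaf 254 2002 (.cons 250 (.cons 225 (.leaf 226 1803 (.cons 249 (.leaf 224 1795 (.cons 276 (.leaf 248 1984 (.leaf 277 1992 .nil)) .nil)) .nil)) (.cons 225 (.leaf 226 1803 (.cons 249 (.leaf 224 1795 (.cons 248 (.leaf 247 1976 (.leaf 276 1984 .nil)) .nil)) .nil)) (.cons 277 (.leaf 278 2000 (.cons 249 (.leaf 276 1992 (.cons 229 (.leaf 228 1801 (.leaf 230 1809 .nil)) .nil)) .nil)) (.cons 226 (.leaf 225 1803 (.cons 202 (.leaf 178 1428 (.leaf 299 1620 .nil))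 .nil)) .nil)))) .nil)) (.cons 273 (.leaf 272 1985 (.cons 276 (.cons 297 (.leaf 296 2178 (.cons 277 (.leaf 298 2186 (.cons 278 (.leaf 250 2003 (.leaf 279 2011 .nil)) .nil)) .nil)) (.cons 249 (.leaf 248 1987 (.cons 250 (.leaf 277 1992 (.cons 225 (.leaf 224 1795 (.cons 201 (.leaf 177 1420 (.leaf 298 1612 .nil)) .nil)) .nil)) .nil)) (.cons 297 (.leaf 296 2178 (.cons 300 (.leaf 301 2184 (.cons 324 (.leaf 348 2015 (.cons 323 (.leaf 347 2014 (.cons 325 (.leaf 349 2020 (.cons 322 (.leaf 298 2379 (.cons 249 (.leaf 248 1987 (.cons 346 (.leaf 299 2006 (.leaf 321 1996 .nil)) .nil)) .nil)) .nil)) .nil)) .nil)) .nil)) .nil)) (.cons 249 (.leaf 248 1987 (.cons 250 (.leaf 277 1992 (.cons 224 (.leaf 225 1795 (.cons 228 (.leaf 229 1801 (.cons 180 (.leaf 204 1438 (.cons 297 (.leaf 296 2178 (.cons 226 (.leaf 202 1614 (.leaf 321 1805 .nil)) .nil)) .nil)) .nil)) .nil)) .nil)) .nil)) .nil)))) .nil)) (.cons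 273 (.leaf 272 1985 (.cons 253 (.leaf 254 2002 (.leaf 276 1993 .nil)) .nil)) (.cons 253 (.leaf 254 2002 (.cons 273 (.leaf 272 1985 (.leaf 250 1994 .nil)) .nil)) .nil))))
noncomputable def t90 : T := .cons 252 t89 (.cons 250 t88 (.cons 298 (t85) (.cons 273 t81 (.cons 250 (.cons 252 (.cons 253 (.leaf 254 2002 (.leaf 273 1994 .nil)) (.cons 253 (.leaf 254 2002 (.cons 229 (.leaf 230 1809 (.cons 228 (.leaf 249 1801 (.cons 204 (.leaf 180 1438 (.cons 277 (.leaf 278 2000 (.leaf 301 1639 .nil)) .nil)) .nil)) .nil)) .nil)) (.cons 272 (.leaf 273 1985 (.cons 249 (.cons 248 (.leaf 247 1976 (.leaf 271 1978 .nil)) (.cons 225 (.leaf 224 1795 (.cons 228 (.leaf 229 1801 (.cons 298 (.leaf 322 1807 (.cons 201 (.leaf 177 1420 (.leaf 226 1615 .nil)) .nil)) .nil)) .nil)) .nil)) .nil)) .nil))) t80) (.cons 252 t78 (.cons 276 (.cons 277 (.cons 250 (.leaf 249 1995 (.leaf 278 2003 .nil)) (.cons 253 (.leaf 254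 2001 (.cons 273 (.leaf 252 1993 (.cons 297 (.leaf 296 2178 (.leaf 298 2186 .nil)) .nil)) .nil)) .nil)) t77) (.cons 252 (.cons 273 (.leaf 272 1985 (.cons 253 (.leaf 254 2002 (.leaf 276 1993 .nil)) .nil)) (.cons 253 (.leaf 254 2002 (.cons 250 (.cons 226 (.leaf 225 1803 (.cons 202 (.leaf 178 1428 (.cons 201 (.leaf 177 1423 (.cons 203 (.leaf 179 1429 (.cons 229 (.leaf 230 1809 (.cons 204 (.leaf 228 1608 (.cons 180 (.leaf 181 1417 (.cons 277 (.leaf 278 2000 (.leaf 205 1447 .nil)) .nil)) .nil)) .nil)) .nil)) .nil)) .nil)) .nil)) (.cons 225 (.leaf 226 1803 (.cons 249 (.leaf 224 1795 (.cons 248 (.leaf 247 1976 (.leaf 276 1984 .nil)) .nil)) .nil)) (.cons 277 (.leaf 278 2000 (.cons 249 (.leaf 276 1992 (.cons 229 (.leaf 228 1801 (.leaf 230 1809 .nil)) .nil)) .nil)) .nil))) .nil)) (.cons 273 (.leaf 272 1985 (.cons 276 t75 .nil)) (.cons 253 (.leaf 254 2002 (.cons 273 (.leaf 272 1985 (.leaf 250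 1994 .nil)) .nil)) .nil)))) (.cons 273 t74 (.cons 252 t73 (.cons 252 t72 (.cons 252 (.cons 273 (.leaf 272 1985 (.cons 253 (.leaf 254 2002 (.leaf 276 1993 .nil)) .nil)) (.cons 273 (.leaf 272 1985 (.cons 276 (.cons 300 (.leaf 301 2184 (.cons 324 (.leaf 348 2015 (.cons 323 (.leaf 347 2014 (.cons 228 (.leaf 299 1821 (.cons 204 (.leaf 180 1438 (.cons 205 (.leaf 181 1445 (.leaf 229 1637 .nil)) .nil)) .nil)) .nil)) .nil)) .nil)) (.cons 297 (.leaf 296 2178 (.cons 277 (.leaf 298 2186 (.cons 278 (.leaf 250 2003 (.leaf 279 2011 .nil)) .nil)) .nil)) .nil)) .nil)) (.cons 253 (.leaf 254 2002 (.cons 250 (.cons 226 (.leaf 225 1803 (.cons 202 (.leaf 178 1428 (.leaf 299 1620 .nil)) .nil)) (.cons 277 (.leaf 278 2000 (.cons 249 (.leaf 276 1992 (.cons 229 (.leaf 228 1801 (.leaf 230 1809 .nil)) .nil)) .nil)) .nil)) .nil)) (.cons 253 (.leaf 254 2002 (.cons 273 (.leaf 272 1985 (.leaf 250 1994 .nil)) .nil))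 .nil)))) (.cons 252 (.cons 273 (.leaf 272 1985 (.cons 253 (.leaf 254 2002 (.leaf 276 1993 .nil)) .nil)) (.cons 273 (.leaf 272 1985 (.cons 276 (.cons 249 (.leaf 248 1987 (.cons 250 (.leaf 277 1992 (.cons 225 (.leaf 224 1795 (.cons 201 (.leaf 177 1420 (.leaf 298 1612 .nil)) .nil)) .nil)) .nil)) (.cons 300 (.leaf 301 2184 (.cons 324 (.leaf 348 2015 (.cons 323 (.leaf 347 2014 (.cons 228 (.leaf 299 1821 (.cons 204 (.leaf 180 1438 (.cons 205 (.leaf 181 1445 (.leaf 229 1637 .nil)) .nil)) .nil)) .nil)) .nil)) .nil)) .nil)) .nil)) (.cons 253 (.leaf 254 2002 (.cons 250 (.cons 226 (.leaf 225 1803 (.cons 202 (.leaf 178 1428 (.leaf 299 1620 .nil)) .nil)) (.cons 277 (.leaf 278 2000 (.cons 249 (.leaf 276 1992 (.cons 229 (.leaf 228 1801 (.leaf 230 1809 .nil)) .nil)) .nil)) .nil)) .nil)) (.cons 273 (.leaf 272 1985 (.cons 253 (.leaf 254 2002 (.leaf 250 1994 .nil)) .nil)) .nil)))) (.cons 252 t71 .nil)))))))))))))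
noncomputable def t91 : T := .cons 203 (.cons 276 (.leaf 300 1628 (.cons 179 (.leaf 252 1436 (.cons 180 (.leaf 204 1437 (.leaf 156 1245 .nil)) .nil)) .nil)) (.cons 274 (.leaf 298 1622 (.cons 178 (.leaf 202 1431 (.cons 179 (.leaf 154 1239 (.leaf 250 1430 .nil)) .nil)) .nil)) (.cons 202 (.leaf 178 1431 (.cons 204 (.leaf 180 1437 (.cons 276 (.leaf 300 1628 (.cons 274 (.leaf 298 1622 (.cons 273 (.cons 252 (.leaf 272 1985 (.leaf 253 1993 .nil)) (.cons 248 (.leaf 249 1987 (.cons 272 (.leaf 247 1979 (.cons 296 (.leaf 295 2170 (.leaf 297 2178 .nil)) .nil)) .nil)) (.cons 248 (.leaf 249 1987 (.cons 253 (.leaf 252 1993 (.cons 277 (.leaf 254 2001 (.cons 250 (.leaf 278 2003 (.cons 297 (.leaf 296 2178 (.leaf 226 1614 .nil)) .nil)) .nil)) .nil)) .nil)) .nil))) .nil)) .nil)) .nil)) .nil)) .nil))) (.cons 203 (.cons 178 (.leaf 202 1431 (.cons 154 (.leaf 179 1239 (.cons 204 (.leaf 180 1437 (.cons 298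 (.leaf 274 1622 (.cons 299 (.leaf 228 1629 (.leaf 322 1814 .nil)) .nil)) .nil)) .nil)) .nil)) (.cons 178 (.leaf 202 1431 (.cons 298 (.leaf 274 1622 (.cons 299 (.leaf 322 1814 (.cons 300 (.leaf 276 1628 (.leaf 324 1820 .nil)) .nil)) .nil)) .nil)) (.cons 204 (.leaf 180 1437 (.cons 299 (.leaf 228 1629 (.cons 298 (.leaf 274 1622 (.leaf 322 1814 .nil)) .nil)) .nil)) (.cons 204 (.leaf 180 1437 (.cons 299 (.leaf 228 1629 (.cons 300 (.leaf 276 1628 (.leaf 324 1820 .nil)) .nil)) .nil)) (.cons 276 (.leaf 300 1628 (.cons 179 (.leaf 252 1436 (.cons 180 (.leaf 204 1437 (.leaf 156 1245 .nil)) .nil)) .nil)) .nil))))) (.cons 203 (.cons 178 (.leaf 202 1431 (.cons 154 (.leaf 179 1239 (.cons 204 (.leaf 180 1437 (.cons 299 (.leaf 228 1629 (.cons 300 (.leaf 276 1628 (.leaf 324 1820 .nil)) .nil)) .nil)) .nil)) .nil)) (.cons 204 (.leaf 180 1437 (.cons 299 (.leaf 228 1629 (.cons 298 (.leaf 274 1622 (.leaf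 322 1814 .nil)) .nil)) .nil)) (.cons 178 (.leaf 202 1431 (.cons 179 (.leaf 154 1239 (.cons 274 (.leaf 298 1622 (.leaf 250 1430 .nil)) .nil)) .nil)) .nil))) (.cons 299 (.cons 204 (.leaf 228 1629 (.cons 203 (.leaf 180 1437 (.cons 276 (.leaf 300 1628 (.cons 252 (.leaf 179 1436 (.cons 298 (.leaf 274 1622 (.leaf 322 1814 .nil)) .nil)) .nil)) .nil)) .nil)) (.cons 228 (.leaf 204 1629 (.cons 323 (.leaf 252 1821 (.cons 324 (.leaf 300 1820 (.leaf 348 2012 .nil)) .nil)) .nil)) (.cons 298 (.leaf 322 1814 (.cons 203 (.leaf 274 1622 (.cons 300 (.leaf 276 1628 (.leaf 324 1820 .nil)) .nil)) .nil)) (.cons 204 (.leaf 228 1629 (.cons 203 (.leaf 180 1437 (.cons 298 (.leaf 274 1622 (.leaf 322 1814 .nil)) .nil)) .nil)) .nil)))) (.cons 299 (.cons 202 (.leaf 226 1623 (.cons 298 (.leaf 322 1814 (.cons 203 (.leaf 178 1431 (.leaf 274 1622 .nil)) .nil)) .nil)) (.cons 226 (.leaf 202 1623 (.cons 250 (.leaf 323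 1815 (.cons 300 (.leaf 324 1820 (.cons 203 (.leaf 276 1628 (.cons 179 (.leaf 274 1430 (.leaf 155 1238 .nil)) .nil)) .nil)) .nil)) .nil)) (.cons 298 (.leaf 322 1814 (.cons 203 (.leaf 274 1622 (.cons 300 (.leaf 276 1628 (.leaf 324 1820 .nil)) .nil)) .nil)) (.cons 202 (.leaf 226 1623 (.cons 298 (.leaf 322 1814 (.cons 324 (.leaf 300 1820 (.cons 323 (.leaf 348 2012 (.cons 252 (.leaf 228 1821 (.cons 276 (.leaf 347 2013 (.cons 297 (.leaf 296 2368 (.cons 277 (.leaf 274 2186 (.leaf 278 2194 .nil)) .nil)) .nil)) .nil)) .nil)) .nil)) .nil)) .nil)) (.cons 226 (.leaf 202 1623 (.cons 322 (.leaf 298 1814 (.cons 323 (.leaf 250 1815 (.leaf 346 2006 .nil)) .nil)) .nil)) .nil))))) (.cons 203 (.cons 178 (.leaf 202 1431 (.cons 179 (.leaf 154 1239 (.cons 276 (.leaf 300 1628 (.leaf 252 1436 .nil)) .nil)) .nil)) (.cons 276 (.leaf 300 1628 (.cons 179 (.leaf 252 1436 (.cons 180 (.leaf 204 1437 (.leaf 156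 1245 .nil)) .nil)) .nil)) (.cons 178 (.leaf 202 1431 (.cons 154 (.leaf 179 1239 (.cons 204 (.leaf 180 1437 (.cons 299 (.leaf 228 1629 (.cons 324 (.leaf 300 1820 (.cons 323 (.leaf 348 2012 (.cons 250 (.leaf 226 1815 (.cons 346 (.leaf 322 2006 (.cons 347 (.leaf 274 2007 (.leaf 370 2198 .nil)) .nil)) .nil)) .nil)) .nil)) .nil)) .nil)) .nil)) .nil)) (.cons 178 (.leaf 202 1431 (.cons 179 (.leaf 154 1239 (.cons 180 (.leaf 204 1437 (.leaf 156 1245 .nil)) .nil)) .nil)) (.cons 202 (.leaf 178 1431 (.cons 204 (.leaf 180 1437 (.cons 299 (.leaf 226 1623 (.leaf 228 1629 .nil)) .nil)) .nil)) .nil))))) (.cons 203 (.cons 178 (.leaf 202 1431 (.cons 179 (.leaf 154 1239 (.cons 274 (.leaf 298 1622 (.leaf 250 1430 .nil)) .nil)) .nil)) (.cons 180 (.leaf 204 1437 (.cons 179 (.leaf 156 1245 (.cons 274 (.leaf 298 1622 (.leaf 250 1430 .nil)) .nil)) .nil)) (.cons 202 (.leaf 178 1431 (.cons 204 (.leaf 180 1437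 (.cons 299 (.leaf 226 1623 (.leaf 228 1629 .nil)) .nil)) .nil)) .nil))) .nil))))))
noncomputable def t92 : T := .cons 228 (.leaf 204 1629 (.cons 322 (.leaf 298 1814 (.cons 323 (.leaf 252 1821 (.leaf 346 2006 .nil)) .nil)) .nil)) (.cons 226 (.leaf 202 1623 (.cons 322 (.leaf 298 1814 (.cons 323 (.leaf 250 1815 (.leaf 346 2006 .nil)) .nil)) .nil)) (.cons 228 (.leaf 204 1629 (.cons 323 (.leaf 252 1821 (.cons 324 (.leaf 300 1820 (.leaf 348 2012 .nil)) .nil)) .nil)) (.cons 226 (.leaf 202 1623 (.cons 228 (.leaf 204 1629 (.cons 300 (.leaf 324 1820 (.cons 225 (.cons 200 (.leaf 201 1603 (.cons 199 (.leaf 224 1595 (.cons 249 (.leaf 248 1794 (.cons 229 (.leaf 250 1802 (.cons 206 (.leaf 205 1617 (.cons 230 (.leaf 207 1625 (.cons 254 (.leaf 253 1808 (.leaf 255 1816 .nil)) .nil)) .nil)) .nil)) .nil)) .nil)) .nil)) (.cons 200 (.leaf 201 1603 (.cons 224 (.leaf 252 1792 (.leaf 199 1595 .nil)) .nil))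 (.cons 200 (.leaf 201 1603 (.cons 248 (.leaf 249 1794 (.cons 253 (.leaf 252 1800 (.cons 229 (.leaf 254 1808 (.cons 206 (.leaf 205 1617 (.cons 230 (.leaf 250 1810 (.leaf 207 1625 .nil)) .nil)) .nil)) .nil)) .nil)) .nil)) (.cons 252 (.leaf 224 1792 (.leaf 253 1800 .nil)) .nil)))) .nil)) .nil)) .nil)) .nil)))
noncomputable def top : T := .cons 227 (.cons 203 (.cons 178 (.leaf 202 1431 (.cons 179 (.leaf 154 1239 (.cons 274 (.leaf 298 1622 (.leaf 250 1430 .nil)) .nil)) .nil)) (.cons 276 (.leaf 300 1628 (.cons 179 (.leaf 252 1436 (.cons 180 (.leaf 204 1437 (.leaf 156 1245 .nil)) .nil)) .nil)) (.cons 178 (.leaf 202 1431 (.cons 204 (.leaf 180 1437 (.cons 299 (.leaf 228 1629 (.cons 298 (.leaf 274 1622 (.leaf 322 1814 .nil)) .nil)) .nil)) .nil)) .nil))) (.cons 299 t92 t91)) (.cons 274 t90 (.cons 250 t70 (.cons 227 t45 (.cons 227 (t42) (.cons 299 t40 (.cons 299 t37 (.cons 299 t35 (.cons 227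 t31 (.cons 227 t29 (.cons 299 t26 (.cons 299 (.cons 323 (.cons 226 (.leaf 250 1815 (.cons 252 (.leaf 228 1821 (.cons 347 (.leaf 276 2013 (.cons 348 (.leaf 324 2012 (.leaf 372 2204 .nil)) .nil)) .nil)) .nil)) (.cons 324 (.leaf 348 2012 (.cons 300 (.leaf 227 1820 (.cons 322 (.leaf 346 2006 (.cons 321 (.leaf 320 2369 (.leaf 301 2377 .nil)) .nil)) .nil)) .nil)) (.cons 226 (.leaf 250 1815 (.cons 252 (.leaf 228 1821 (.cons 347 (.leaf 276 2013 (.cons 370 (.leaf 346 2198 (.cons 371 (.leaf 394 2390 (.cons 372 (.leaf 348 2204 (.leaf 396 2396 .nil)) .nil)) .nil)) .nil)) .nil)) .nil)) (.cons 226 (.leaf 250 1815 (.cons 252 (.leaf 228 1821 (.cons 276 (.leaf 347 2013 (.cons 322 (.leaf 346 2006 (.cons 227 (.leaf 298 1814 (.cons 300 (.leaf 203 1628 (.leaf 324 1820 .nil)) .nil)) .nil)) .nil)) .nil)) .nil)) .nil)))) t23) (.cons 299 t21 (.cons 299 t17 (.cons 227 (t13) (.cons 227 t11 (.cons 227 (.cons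 203 (.cons 178 (.leaf 202 1431 (.cons 179 (.leaf 154 1239 (.cons 180 (.leaf 204 1437 (.leaf 156 1245 .nil)) .nil)) .nil)) (.cons 178 (.leaf 202 1431 (.cons 154 (.leaf 179 1239 (.cons 298 (.leaf 274 1622 (.cons 299 (.leaf 322 1814 (.cons 300 (.leaf 276 1628 (.leaf 324 1820 .nil)) .nil)) .nil)) .nil)) .nil)) (.cons 180 (.leaf 204 1437 (.cons 179 (.leaf 156 1245 (.cons 276 (.leaf 300 1628 (.leaf 252 1436 .nil)) .nil)) .nil)) (.cons 180 (.leaf 204 1437 (.cons 202 (.leaf 178 1431 (.cons 274 (.leaf 298 1622 (.cons 299 (.leaf 226 1623 (.cons 324 (.leaf 300 1820 (.cons 323 (.leaf 348 2012 (.cons 346 (.leaf 322 2006 (.cons 347 (.leaf 250 2007 (.leaf 370 2198 .nil)) .nil)) .nil)) .nil)) .nil)) .nil)) .nil)) .nil)) .nil)))) (.cons 299 t8 t7)) (.cons 227 t5 (.cons 227 (.cons 299 (.cons 298 (.leaf 322 1814 (.cons 202 (.leaf 226 1623 (.cons 203 (.leaf 178 1431 (.leaf 274 1622 .nil)) .nil)) .nil))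 (.cons 228 (.leaf 204 1629 (.cons 323 (.leaf 252 1821 (.cons 322 (.leaf 298 1814 (.leaf 346 2006 .nil)) .nil)) .nil)) (.cons 228 (.leaf 204 1629 (.cons 323 (.leaf 252 1821 (.cons 324 (.leaf 300 1820 (.leaf 348 2012 .nil)) .nil)) .nil)) .nil))) (.cons 299 t2 t1)) .nil))))))))))))))))))

end Vale.Agent.P062.Data.D4
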