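import Vale.Agent.P062.Checker

namespace Vale.Agent.P062.Data.D5

open Vale.Agent.P062

noncomputable def t0 : T := .cons 228 (.leaf 252 1821 (.cons 204 (.leaf 227 1629 (.cons 346 (.leaf 322 2006 (.cons 347 (.leaf 370 2198 (.cons 348 (.leaf 324 2012 (.leaf 372 2204 .nil)) .nil)) .nil)) .nil)) .nil)) (.cons 252 (.leaf 228 1821 (.cons 276 (.leaf 347 2013 (.cons 324 (.leaf 348 2012 (.cons 227 (.leaf 300 1820 (.cons 203 (.leaf 179 1436 (.cons 178 (.leaf 202 1431 (.cons 274 (.leaf 298 1622 (.cons 273 (.leaf 272 1985 (.cons 249 (.leaf 248 1987 (.cons 277 (.leaf 250 1992 (.cons 278 (.leaf 279 2011 (.cons 302 (.leaf 301 2192 (.leaf 303 2200 .nil)) .nil)) .nil)) .nil)) .nil)) .nil)) .nil)) .nil)) .nil)) .nil)) .nil)) .nil)) (.cons 322 (.leaf 346 2006 (.cons 227 (.leaf 298 1814 (.cons 252 (.leaf 228 1821 (.cons 276 (.leaf 347 2013 (.cons 203 (.leaf 300 1628 (.leaf 179 1436 .nil)) .nil)) .nil))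 .nil)) .nil)) (.cons 322 (.leaf 346 2006 (.cons 227 (.leaf 298 1814 (.cons 324 (.leaf 300 1820 (.leaf 348 2012 .nil)) .nil)) .nil)) (.cons 252 (.leaf 228 1821 (.cons 322 (.leaf 346 2006 (.cons 347 (.leaf 276 2013 (.cons 348 (.leaf 324 2012 (.leaf 372 2204 .nil)) .nil)) .nil)) .nil)) .nil))))
noncomputable def t1 : T := .cons 323 (.cons 226 (.leaf 250 1815 (.cons 202 (.leaf 227 1623 (.cons 252 (.leaf 228 1821 (.cons 346 (.leaf 322 2006 (.cons 347 (.leaf 276 2013 (.leaf 370 2198 .nil)) .nil)) .nil)) .nil)) .nil)) (.cons 252 (.leaf 228 1821 (.cons 322 (.leaf 346 2006 (.cons 347 (.leaf 276 2013 (.cons 348 (.leaf 324 2012 (.leaf 372 2204 .nil)) .nil)) .nil)) .nil)) (.cons 250 (.leaf 226 1815 (.cons 322 (.leaf 346 2006 (.cons 347 (.leaf 274 2007 (.cons 348 (.leaf 324 2012 (.leaf 372 2204 .nil)) .nil)) .nil)) .nil)) (.cons 250 (.leaf 226 1815 (.cons 228 (.leaf 252 1821 (.cons 347 (.leaf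 274 2007 (.cons 348 (.leaf 324 2012 (.leaf 372 2204 .nil)) .nil)) .nil)) .nil)) (.cons 324 (.leaf 348 2012 (.cons 300 (.leaf 227 1820 (.cons 322 (.leaf 346 2006 (.cons 301 (.leaf 302 2386 (.leaf 321 2377 .nil)) .nil)) .nil)) .nil)) .nil))))) (.cons 227 (.cons 202 (.leaf 226 1623 (.cons 178 (.leaf 203 1431 (.cons 228 (.leaf 204 1629 (.cons 323 (.leaf 252 1821 (.cons 348 (.leaf 324 2012 (.cons 347 (.leaf 372 2204 (.cons 274 (.leaf 250 2007 (.cons 370 (.leaf 346 2198 (.cons 371 (.leaf 298 2199 (.leaf 394 2390 .nil)) .nil)) .nil)) .nil)) .nil)) .nil)) .nil)) .nil)) .nil)) (.cons 300 (.leaf 324 1820 (.cons 202 (.leaf 226 1623 (.cons 203 (.leaf 178 1431 (.leaf 276 1628 .nil)) .nil)) .nil)) (.cons 300 (.leaf 324 1820 (.cons 203 (.leaf 276 1628 (.cons 204 (.leaf 180 1437 (.leaf 228 1629 .nil)) .nil)) .nil)) (.cons 228 (.leaf 204 1629 (.cons 202 (.leaf 226 1623 (.cons 203 (.leaf 178 1431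 (.cons 200 (.leaf 201 1600 (.cons 229 (.leaf 230 1619 (.cons 252 (.leaf 323 1821 (.cons 276 (.leaf 300 1628 (.leaf 179 1436 .nil)) .nil)) .nil)) .nil)) .nil)) .nil)) .nil)) (.cons 228 (.leaf 204 1629 (.cons 323 (.leaf 252 1821 (.cons 324 (.leaf 300 1820 (.leaf 348 2012 .nil)) .nil)) .nil)) .nil))))) (.cons 323 (.cons 226 (.leaf 250 1815 (.cons 202 (.leaf 227 1623 (.cons 348 (.leaf 324 2012 (.cons 347 (.leaf 372 2204 (.cons 276 (.leaf 252 2013 (.cons 370 (.leaf 346 2198 (.cons 371 (.leaf 300 2205 (.leaf 394 2390 .nil)) .nil)) .nil)) .nil)) .nil)) .nil)) .nil)) (.cons 322 (.leaf 346 2006 (.cons 227 (.leaf 298 1814 (.cons 324 (.leaf 300 1820 (.leaf 348 2012 .nil)) .nil)) .nil)) (.cons 226 (.leaf 250 1815 (.cons 227 (.leaf 202 1623 (.cons 322 (.leaf 298 1814 (.leaf 346 2006 .nil)) .nil)) .nil)) (.cons 250 (.leaf 226 1815 (.cons 274 (.leaf 347 2007 (.cons 324 (.leaf 348 2012 (.cons 227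 (.leaf 300 1820 (.cons 298 (.leaf 203 1622 (.leaf 322 1813 .nil)) .nil)) .nil)) .nil)) .nil)) (.cons 226 (.leaf 250 1815 (.cons 322 (.leaf 346 2006 (.cons 348 (.leaf 324 2012 (.cons 347 (.leaf 372 2204 (.cons 276 (.leaf 252 2013 (.cons 300 (.leaf 371 2205 (.cons 321 (.leaf 320 2560 (.cons 301 (.leaf 298 2378 (.leaf 302 2386 .nil)) .nil)) .nil)) .nil)) .nil)) .nil)) .nil)) .nil)) .nil))))) (.cons 323 t0 (.cons 227 (.cons 202 (.leaf 226 1623 (.cons 178 (.leaf 203 1431 (.cons 228 (.leaf 204 1629 (.cons 323 (.leaf 252 1821 (.cons 348 (.leaf 324 2012 (.cons 347 (.leaf 372 2204 (.cons 274 (.leaf 250 2007 (.cons 370 (.leaf 346 2198 (.cons 371 (.leaf 298 2199 (.leaf 394 2390 .nil)) .nil)) .nil)) .nil)) .nil)) .nil)) .nil)) .nil)) .nil)) (.cons 228 (.leaf 204 1629 (.cons 322 (.leaf 298 1814 (.cons 323 (.leaf 252 1821 (.leaf 346 2006 .nil)) .nil)) .nil)) (.cons 202 (.leaf 226 1623 (.cons 178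 (.leaf 203 1431 (.cons 322 (.leaf 298 1814 (.cons 323 (.leaf 346 2006 (.cons 324 (.leaf 300 1820 (.leaf 348 2012 .nil)) .nil)) .nil)) .nil)) .nil)) (.cons 202 (.leaf 226 1623 (.cons 203 (.leaf 178 1431 (.cons 204 (.leaf 180 1437 (.leaf 228 1629 .nil)) .nil)) .nil)) .nil)))) (.cons 227 (.cons 204 (.leaf 228 1629 (.cons 180 (.leaf 203 1437 (.cons 322 (.leaf 298 1814 (.cons 323 (.leaf 346 2006 (.cons 250 (.leaf 226 1815 (.cons 347 (.leaf 274 2007 (.cons 276 (.leaf 252 2013 (.cons 248 (.leaf 249 1984 (.cons 277 (.leaf 278 2003 (.cons 371 (.leaf 300 2205 (.cons 372 (.leaf 348 2204 (.leaf 396 2396 .nil)) .nil)) .nil)) .nil)) .nil)) .nil)) .nil)) .nil)) .nil)) .nil)) .nil)) (.cons 298 (.leaf 322 1814 (.cons 202 (.leaf 226 1623 (.cons 203 (.leaf 178 1431 (.leaf 274 1622 .nil)) .nil)) .nil)) (.cons 228 (.leaf 204 1629 (.cons 202 (.leaf 226 1623 (.cons 203 (.leaf 178 1431 (.cons 200 (.leaf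 201 1600 (.cons 229 (.leaf 230 1619 (.cons 252 (.leaf 323 1821 (.cons 276 (.leaf 300 1628 (.leaf 179 1436 .nil)) .nil)) .nil)) .nil)) .nil)) .nil)) .nil)) (.cons 298 (.leaf 322 1814 (.cons 203 (.leaf 274 1622 (.cons 204 (.leaf 180 1437 (.leaf 228 1629 .nil)) .nil)) .nil)) (.cons 228 (.leaf 204 1629 (.cons 322 (.leaf 298 1814 (.cons 323 (.leaf 252 1821 (.leaf 346 2006 .nil)) .nil)) .nil)) .nil))))) .nil)))))
noncomputable def t2 : T := .cons 227 (.cons 204 (.leaf 228 1629 (.cons 180 (.leaf 203 1437 (.cons 322 (.leaf 298 1814 (.cons 323 (.leaf 346 2006 (.cons 324 (.leaf 300 1820 (.leaf 348 2012 .nil)) .nil)) .nil)) .nil)) .nil)) (.cons 204 (.leaf 228 1629 (.cons 203 (.leaf 180 1437 (.cons 300 (.leaf 276 1628 (.leaf 324 1820 .nil)) .nil)) .nil)) (.cons 202 (.leaf 226 1623 (.cons 322 (.leaf 298 1814 (.cons 323 (.leaf 346 2006 (.cons 324 (.leaf 300 1820 (.leaf 348 2012 .nil)) .nil)) .nil))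 .nil)) (.cons 202 (.leaf 226 1623 (.cons 228 (.leaf 204 1629 (.cons 322 (.leaf 298 1814 (.cons 323 (.leaf 252 1821 (.leaf 346 2006 .nil)) .nil)) .nil)) .nil)) .nil)))) (.cons 323 (.cons 250 (.leaf 226 1815 (.cons 228 (.leaf 252 1821 (.cons 346 (.leaf 322 2006 (.cons 347 (.leaf 274 2007 (.leaf 370 2198 .nil)) .nil)) .nil)) .nil)) (.cons 252 (.leaf 228 1821 (.cons 322 (.leaf 346 2006 (.cons 347 (.leaf 276 2013 (.cons 348 (.leaf 324 2012 (.leaf 372 2204 .nil)) .nil)) .nil)) .nil)) (.cons 250 (.leaf 226 1815 (.cons 228 (.leaf 252 1821 (.cons 347 (.leaf 274 2007 (.cons 348 (.leaf 324 2012 (.leaf 372 2204 .nil)) .nil)) .nil)) .nil)) (.cons 250 (.leaf 226 1815 (.cons 322 (.leaf 346 2006 (.cons 347 (.leaf 274 2007 (.cons 348 (.leaf 324 2012 (.leaf 372 2204 .nil)) .nil)) .nil)) .nil)) (.cons 322 (.leaf 346 2006 (.cons 324 (.leaf 348 2012 (.cons 250 (.leaf 226 1815 (.cons 252 (.leaf 228 1821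 (.cons 249 (.cons 225 (.leaf 224 1795 (.cons 272 (.leaf 273 1986 (.cons 298 (.leaf 274 1807 (.cons 297 (.leaf 296 2368 (.leaf 325 2379 .nil)) .nil)) .nil)) .nil)) (.cons 276 (.leaf 248 1984 (.leaf 277 1992 .nil)) .nil)) .nil)) .nil)) .nil)) .nil)) .nil))))) (.cons 227 (.cons 204 (.leaf 228 1629 (.cons 203 (.leaf 180 1437 (.cons 300 (.leaf 276 1628 (.leaf 324 1820 .nil)) .nil)) .nil)) (.cons 298 (.leaf 322 1814 (.cons 202 (.leaf 226 1623 (.cons 203 (.leaf 178 1431 (.leaf 274 1622 .nil)) .nil)) .nil)) (.cons 298 (.leaf 322 1814 (.cons 300 (.leaf 324 1820 (.cons 226 (.leaf 202 1623 (.cons 297 (.cons 276 (.leaf 296 2177 (.leaf 277 2185 .nil)) (.cons 272 (.leaf 273 2179 (.cons 296 (.leaf 271 2171 (.cons 320 (.leaf 319 2362 (.leaf 321 2370 .nil)) .nil)) .nil)) (.cons 272 (.leaf 273 2179 (.cons 277 (.leaf 276 2185 (.cons 301 (.leaf 278 2193 (.cons 274 (.leaf 302 2195 (.cons 321 (.leaf 320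 2370 (.leaf 250 1806 .nil)) .nil)) .nil)) .nil)) .nil)) .nil))) .nil)) .nil)) .nil)) .nil))) t1))
noncomputable def t3 : T := .cons 202 (.leaf 178 1431 (.cons 204 (.leaf 180 1437 (.cons 276 (.leaf 300 1628 (.cons 201 (.cons 228 (.leaf 200 1600 (.leaf 229 1608 .nil)) (.cons 274 (.leaf 298 1622 (.cons 176 (.leaf 177 1411 (.cons 200 (.leaf 175 1403 (.cons 224 (.leaf 223 1594 (.leaf 225 1602 .nil)) .nil)) .nil)) .nil)) (.cons 229 (.leaf 228 1608 (.cons 176 (.leaf 177 1411 (.cons 205 (.leaf 230 1616 (.cons 225 (.leaf 224 1602 (.leaf 226 1610 .nil)) .nil)) .nil)) .nil)) .nil))) .nil)) .nil)) .nil)) (.cons 202 (.leaf 178 1431 (.cons 204 (.leaf 180 1437 (.cons 276 (.leaf 300 1628 (.cons 201 (.cons 228 (.leaf 200 1600 (.leaf 229 1608 .nil)) (.cons 225 (.leaf 224 1602 (.cons 176 (.leaf 177 1411 (.cons 175 (.leaf 200 1403 (.cons 205 (.leaf 226 1610 (.cons 182 (.leaf 181 1425 (.cons 206 (.leaf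 183 1433 (.cons 230 (.leaf 229 1616 (.leaf 231 1624 .nil)) .nil)) .nil)) .nil)) .nil)) .nil)) .nil)) (.cons 228 (.leaf 229 1608 (.cons 179 (.leaf 252 1436 (.cons 131 (.leaf 155 1052 (.cons 225 (.leaf 224 1602 (.cons 205 (.leaf 226 1609 (.cons 176 (.leaf 177 1411 (.cons 182 (.leaf 181 1425 (.cons 206 (.leaf 207 1626 (.leaf 183 1433 .nil)) .nil)) .nil)) .nil)) .nil)) .nil)) .nil)) .nil)) (.cons 200 (.leaf 228 1600 (.cons 176 (.leaf 175 1403 (.leaf 177 1411 .nil)) .nil)) .nil)))) .nil)) .nil)) .nil)) (.cons 274 (.leaf 298 1622 (.cons 179 (.leaf 250 1430 (.cons 180 (.leaf 204 1437 (.leaf 156 1245 .nil)) .nil)) .nil)) (.cons 274 (.leaf 298 1622 (.cons 179 (.leaf 250 1430 (.cons 276 (.leaf 300 1628 (.leaf 252 1436 .nil)) .nil)) .nil)) .nil)))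
noncomputable def t4 : T := .cons 226 (.leaf 202 1623 (.cons 322 (.leaf 298 1814 (.cons 323 (.leaf 250 1815 (.leaf 346 2006 .nil)) .nil)) .nil)) (.cons 228 (.leaf 204 1629 (.cons 322 (.leaf 298 1814 (.cons 323 (.leaf 252 1821 (.leaf 346 2006 .nil)) .nil)) .nil)) (.cons 226 (.leaf 202 1623 (.cons 228 (.leaf 204 1629 (.cons 323 (.leaf 250 1815 (.leaf 252 1821 .nil)) .nil)) .nil)) (.cons 226 (.leaf 202 1623 (.cons 228 (.leaf 204 1629 (.cons 298 (.leaf 322 1814 (.cons 225 (.cons 200 (.leaf 201 1603 (.cons 199 (.leaf 224 1595 (.cons 249 (.leaf 248 1794 (.cons 229 (.leaf 250 1802 (.cons 206 (.leaf 205 1617 (.cons 230 (.leaf 207 1625 (.cons 254 (.leaf 253 1808 (.leaf 255 1816 .nil)) .nil)) .nil)) .nil)) .nil)) .nil)) .nil)) (.cons 200 (.leaf 201 1603 (.cons 224 (.leaf 252 1792 (.leaf 199 1595 .nil)) .nil)) (.cons 200 (.leaf 201 1603 (.cons 248 (.leaf 249 1794 (.cons 253 (.leaf 252 1800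 (.cons 229 (.leaf 254 1808 (.cons 206 (.leaf 205 1617 (.cons 230 (.leaf 250 1810 (.leaf 207 1625 .nil)) .nil)) .nil)) .nil)) .nil)) .nil)) (.cons 252 (.leaf 224 1792 (.leaf 253 1800 .nil)) .nil)))) .nil)) .nil)) .nil)) .nil)))
noncomputable def t5 : T := .cons 203 (.cons 178 (.leaf 202 1431 (.cons 179 (.leaf 154 1239 (.cons 180 (.leaf 204 1437 (.leaf 156 1245 .nil)) .nil)) .nil)) (.cons 180 (.leaf 204 1437 (.cons 179 (.leaf 156 1245 (.cons 276 (.leaf 300 1628 (.leaf 252 1436 .nil)) .nil)) .nil)) (.cons 274 (.leaf 298 1622 (.cons 179 (.leaf 250 1430 (.cons 276 (.leaf 300 1628 (.leaf 252 1436 .nil)) .nil)) .nil)) (.cons 178 (.leaf 202 1431 (.cons 204 (.leaf 180 1437 (.cons 298 (.leaf 274 1622 (.cons 299 (.leaf 228 1629 (.leaf 322 1814 .nil)) .nil)) .nil)) .nil)) .nil)))) (.cons 299 t4 (.cons 203 t3 (.cons 203 (.cons 180 (.leaf 204 1437 (.cons 202 (.leaf 178 1431 (.cons 298 (.leaf 274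 1622 (.cons 299 (.leaf 226 1623 (.leaf 322 1814 .nil)) .nil)) .nil)) .nil)) (.cons 178 (.leaf 202 1431 (.cons 179 (.leaf 154 1239 (.cons 180 (.leaf 204 1437 (.leaf 156 1245 .nil)) .nil)) .nil)) (.cons 274 (.leaf 298 1622 (.cons 179 (.leaf 250 1430 (.cons 276 (.leaf 300 1628 (.leaf 252 1436 .nil)) .nil)) .nil)) .nil))) (.cons 203 (.cons 180 (.leaf 204 1437 (.cons 202 (.leaf 178 1431 (.cons 298 (.leaf 274 1622 (.cons 299 (.leaf 226 1623 (.leaf 322 1814 .nil)) .nil)) .nil)) .nil)) (.cons 178 (.leaf 202 1431 (.cons 179 (.leaf 154 1239 (.cons 276 (.leaf 300 1628 (.leaf 252 1436 .nil)) .nil)) .nil)) (.cons 180 (.leaf 204 1437 (.cons 179 (.leaf 156 1245 (.cons 276 (.leaf 300 1628 (.leaf 252 1436 .nil)) .nil)) .nil)) .nil))) (.cons 203 (.cons 180 (.leaf 204 1437 (.cons 179 (.leaf 156 1245 (.cons 276 (.leaf 300 1628 (.leaf 252 1436 .nil)) .nil)) .nil)) (.cons 274 (.leaf 298 1622 (.cons 179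 (.leaf 250 1430 (.cons 276 (.leaf 300 1628 (.leaf 252 1436 .nil)) .nil)) .nil)) (.cons 180 (.leaf 204 1437 (.cons 179 (.leaf 156 1245 (.cons 274 (.leaf 298 1622 (.leaf 250 1430 .nil)) .nil)) .nil)) (.cons 204 (.leaf 180 1437 (.cons 276 (.leaf 300 1628 (.cons 298 (.leaf 274 1622 (.cons 299 (.leaf 228 1629 (.leaf 322 1814 .nil)) .nil)) .nil)) .nil)) .nil)))) (.cons 203 (.cons 178 (.leaf 202 1431 (.cons 179 (.leaf 154 1239 (.cons 274 (.leaf 298 1622 (.leaf 250 1430 .nil)) .nil)) .nil)) (.cons 202 (.leaf 178 1431 (.cons 276 (.leaf 300 1628 (.cons 299 (.leaf 226 1623 (.cons 252 (.leaf 179 1436 (.cons 323 (.leaf 228 1821 (.leaf 347 2013 .nil)) .nil)) .nil)) .nil)) .nil)) (.cons 274 (.leaf 298 1622 (.cons 179 (.leaf 250 1430 (.cons 276 (.leaf 300 1628 (.leaf 252 1436 .nil)) .nil)) .nil)) (.cons 202 (.leaf 178 1431 (.cons 276 (.leaf 300 1628 (.cons 299 (.leaf 226 1623 (.cons 322 (.leaf 298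 1814 (.cons 323 (.leaf 346 2006 (.cons 252 (.leaf 228 1821 (.leaf 347 2013 .nil)) .nil)) .nil)) .nil)) .nil)) .nil)) .nil)))) (.cons 203 (.cons 202 (.leaf 178 1431 (.cons 204 (.leaf 180 1437 (.cons 276 (.leaf 300 1628 (.cons 226 (.leaf 299 1623 (.cons 205 (.leaf 206 1618 (.leaf 225 1610 .nil)) .nil)) .nil)) .nil)) .nil)) (.cons 180 (.leaf 204 1437 (.cons 179 (.leaf 156 1245 (.cons 276 (.leaf 300 1628 (.leaf 252 1436 .nil)) .nil)) .nil)) (.cons 202 (.leaf 178 1431 (.cons 226 (.leaf 299 1623 (.cons 276 (.leaf 300 1628 (.cons 179 (.leaf 252 1436 (.cons 250 (.leaf 274 1429 (.leaf 155 1238 .nil)) .nil)) .nil)) .nil)) .nil)) (.cons 202 (.leaf 178 1431 (.cons 204 (.leaf 180 1437 (.cons 299 (.leaf 226 1623 (.leaf 228 1629 .nil)) .nil)) .nil)) .nil)))) (.cons 203 (.cons 178 (.leaf 202 1431 (.cons 179 (.leaf 154 1239 (.cons 180 (.leaf 204 1437 (.leaf 156 1245 .nil)) .nil)) .nil)) (.cons 180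 (.leaf 204 1437 (.cons 179 (.leaf 156 1245 (.cons 274 (.leaf 298 1622 (.leaf 250 1430 .nil)) .nil)) .nil)) (.cons 178 (.leaf 202 1431 (.cons 179 (.leaf 154 1239 (.cons 274 (.leaf 298 1622 (.leaf 250 1430 .nil)) .nil)) .nil)) (.cons 202 (.leaf 178 1431 (.cons 204 (.leaf 180 1437 (.cons 276 (.leaf 300 1628 (.cons 226 (.leaf 299 1623 (.cons 205 (.leaf 206 1618 (.leaf 225 1610 .nil)) .nil)) .nil)) .nil)) .nil)) .nil)))) .nil))))))))
noncomputable def t6 : T := .cons 276 (.leaf 300 1628 (.cons 179 (.leaf 252 1436 (.cons 180 (.leaf 204 1437 (.leaf 156 1245 .nil)) .nil)) .nil)) (.cons 274 (.leaf 298 1622 (.cons 179 (.leaf 250 1430 (.cons 180 (.leaf 204 1437 (.leaf 156 1245 .nil)) .nil)) .nil)) (.cons 276 (.leaf 300 1628 (.cons 178 (.leaf 202 1431 (.cons 179 (.leaf 154 1239 (.leaf 252 1436 .nil)) .nil)) .nil)) (.cons 202 (.leaf 178 1431 (.cons 204 (.leaf 180 1437 (.cons 276 (.leaf 300 1628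 (.cons 201 (.cons 200 (.leaf 228 1600 (.cons 176 (.leaf 175 1403 (.leaf 177 1411 .nil)) .nil)) (.cons 225 (.leaf 224 1602 (.cons 176 (.leaf 177 1411 (.cons 175 (.leaf 200 1403 (.cons 205 (.leaf 226 1610 (.cons 182 (.leaf 181 1425 (.cons 206 (.leaf 183 1433 (.cons 230 (.leaf 229 1616 (.leaf 231 1624 .nil)) .nil)) .nil)) .nil)) .nil)) .nil)) .nil)) (.cons 229 (.leaf 228 1608 (.cons 176 (.leaf 177 1411 (.cons 205 (.leaf 230 1616 (.cons 225 (.leaf 224 1602 (.leaf 226 1610 .nil)) .nil)) .nil)) .nil)) (.cons 228 (.leaf 200 1600 (.leaf 229 1608 .nil)) .nil)))) .nil)) .nil)) .nil)) .nil)))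
noncomputable def t7 : T := .cons 228 (.leaf 204 1629 (.cons 323 (.leaf 252 1821 (.cons 324 (.leaf 300 1820 (.leaf 348 2012 .nil)) .nil)) .nil)) (.cons 226 (.leaf 202 1623 (.cons 323 (.leaf 250 1815 (.cons 324 (.leaf 300 1820 (.leaf 348 2012 .nil)) .nil)) .nil)) (.cons 226 (.leaf 202 1623 (.cons 228 (.leaf 204 1629 (.cons 323 (.leaf 250 1815 (.leaf 252 1821 .nil)) .nil)) .nil)) (.cons 226 (.leaf 202 1623 (.cons 228 (.leaf 204 1629 (.cons 300 (.leaf 324 1820 (.cons 225 (.cons 200 (.leaf 201 1603 (.cons 199 (.leaf 224 1595 (.cons 249 (.leaf 248 1794 (.cons 229 (.leaf 250 1802 (.cons 206 (.leaf 205 1617 (.cons 230 (.leaf 207 1625 (.cons 254 (.leaf 253 1808 (.leaf 255 1816 .nil)) .nil)) .nil)) .nil)) .nil)) .nil)) .nil)) (.cons 200 (.leaf 201 1603 (.cons 248 (.leaf 249 1794 (.cons 253 (.leaf 252 1800 (.cons 229 (.leaf 254 1808 (.cons 206 (.leaf 205 1617 (.cons 230 (.leaf 250 1810 (.leaf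 207 1625 .nil)) .nil)) .nil)) .nil)) .nil)) .nil)) (.cons 200 (.leaf 201 1603 (.cons 224 (.leaf 252 1792 (.leaf 199 1595 .nil)) .nil)) (.cons 252 (.leaf 224 1792 (.leaf 253 1800 .nil)) .nil)))) .nil)) .nil)) .nil)) .nil)))
noncomputable def t8 : T := .cons 203 (.cons 180 (.leaf 204 1437 (.cons 202 (.leaf 178 1431 (.cons 299 (.leaf 226 1623 (.cons 179 (.leaf 156 1245 (.cons 274 (.leaf 298 1622 (.leaf 250 1430 .nil)) .nil)) .nil)) .nil)) .nil)) (.cons 180 (.leaf 204 1437 (.cons 179 (.leaf 156 1245 (.cons 276 (.leaf 300 1628 (.leaf 252 1436 .nil)) .nil)) .nil)) (.cons 178 (.leaf 202 1431 (.cons 179 (.leaf 154 1239 (.cons 274 (.leaf 298 1622 (.leaf 250 1430 .nil)) .nil)) .nil)) (.cons 202 (.leaf 178 1431 (.cons 204 (.leaf 180 1437 (.cons 276 (.leaf 300 1628 (.cons 226 (.leaf 299 1623 (.cons 205 (.leaf 206 1618 (.leaf 225 1610 .nil)) .nil)) .nil)) .nil)) .nil)) .nil)))) (.cons 299 t7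 (.cons 203 t6 (.cons 203 (.cons 276 (.leaf 300 1628 (.cons 179 (.leaf 252 1436 (.cons 180 (.leaf 204 1437 (.leaf 156 1245 .nil)) .nil)) .nil)) (.cons 274 (.leaf 298 1622 (.cons 179 (.leaf 250 1430 (.cons 180 (.leaf 204 1437 (.leaf 156 1245 .nil)) .nil)) .nil)) (.cons 276 (.leaf 300 1628 (.cons 178 (.leaf 202 1431 (.cons 179 (.leaf 154 1239 (.leaf 252 1436 .nil)) .nil)) .nil)) (.cons 178 (.leaf 202 1431 (.cons 204 (.leaf 180 1437 (.cons 299 (.leaf 228 1629 (.cons 300 (.leaf 276 1628 (.leaf 324 1820 .nil)) .nil)) .nil)) .nil)) .nil)))) (.cons 203 (.cons 178 (.leaf 202 1431 (.cons 179 (.leaf 154 1239 (.cons 180 (.leaf 204 1437 (.leaf 156 1245 .nil)) .nil)) .nil)) (.cons 204 (.leaf 180 1437 (.cons 274 (.leaf 298 1622 (.cons 299 (.leaf 228 1629 (.cons 250 (.leaf 179 1430 (.cons 323 (.leaf 226 1815 (.leaf 347 2007 .nil)) .nil)) .nil)) .nil)) .nil)) (.cons 178 (.leaf 202 1431 (.cons 179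 (.leaf 154 1239 (.cons 274 (.leaf 298 1622 (.leaf 250 1430 .nil)) .nil)) .nil)) (.cons 204 (.leaf 180 1437 (.cons 274 (.leaf 298 1622 (.cons 299 (.leaf 228 1629 (.cons 300 (.leaf 276 1628 (.leaf 324 1820 .nil)) .nil)) .nil)) .nil)) .nil)))) (.cons 203 (.cons 180 (.leaf 204 1437 (.cons 179 (.leaf 156 1245 (.cons 276 (.leaf 300 1628 (.leaf 252 1436 .nil)) .nil)) .nil)) (.cons 180 (.leaf 204 1437 (.cons 179 (.leaf 156 1245 (.cons 274 (.leaf 298 1622 (.leaf 250 1430 .nil)) .nil)) .nil)) (.cons 274 (.leaf 298 1622 (.cons 179 (.leaf 250 1430 (.cons 276 (.leaf 300 1628 (.leaf 252 1436 .nil)) .nil)) .nil)) (.cons 204 (.leaf 180 1437 (.cons 274 (.leaf 298 1622 (.cons 299 (.leaf 228 1629 (.cons 300 (.leaf 276 1628 (.leaf 324 1820 .nil)) .nil)) .nil)) .nil)) .nil)))) (.cons 203 (.cons 178 (.leaf 202 1431 (.cons 179 (.leaf 154 1239 (.cons 274 (.leaf 298 1622 (.leaf 250 1430 .nil)) .nil)) .nil))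 (.cons 276 (.leaf 300 1628 (.cons 179 (.leaf 252 1436 (.cons 154 (.leaf 178 1239 (.cons 155 (.leaf 130 1047 (.cons 156 (.leaf 180 1245 (.leaf 132 1053 .nil)) .nil)) .nil)) .nil)) .nil)) (.cons 276 (.leaf 300 1628 (.cons 179 (.leaf 252 1436 (.cons 274 (.leaf 298 1622 (.leaf 250 1430 .nil)) .nil)) .nil)) (.cons 202 (.leaf 178 1431 (.cons 274 (.leaf 298 1622 (.cons 299 (.leaf 226 1623 (.cons 300 (.leaf 276 1628 (.leaf 324 1820 .nil)) .nil)) .nil)) .nil)) .nil)))) (.cons 203 (.cons 178 (.leaf 202 1431 (.cons 179 (.leaf 154 1239 (.cons 180 (.leaf 204 1437 (.leaf 156 1245 .nil)) .nil)) .nil)) (.cons 180 (.leaf 204 1437 (.cons 179 (.leaf 156 1245 (.cons 274 (.leaf 298 1622 (.leaf 250 1430 .nil)) .nil)) .nil)) (.cons 178 (.leaf 202 1431 (.cons 179 (.leaf 154 1239 (.cons 274 (.leaf 298 1622 (.leaf 250 1430 .nil)) .nil)) .nil)) (.cons 202 (.leaf 178 1431 (.cons 204 (.leaf 180 1437 (.cons 299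 (.leaf 226 1623 (.leaf 228 1629 .nil)) .nil)) .nil)) .nil)))) (.cons 203 (.cons 180 (.leaf 204 1437 (.cons 202 (.leaf 178 1431 (.cons 299 (.leaf 226 1623 (.cons 300 (.leaf 276 1628 (.leaf 324 1820 .nil)) .nil)) .nil)) .nil)) (.cons 178 (.leaf 202 1431 (.cons 179 (.leaf 154 1239 (.cons 276 (.leaf 300 1628 (.leaf 252 1436 .nil)) .nil)) .nil)) (.cons 180 (.leaf 204 1437 (.cons 179 (.leaf 156 1245 (.cons 276 (.leaf 300 1628 (.leaf 252 1436 .nil)) .nil)) .nil)) (.cons 202 (.leaf 178 1431 (.cons 204 (.leaf 180 1437 (.cons 299 (.leaf 226 1623 (.leaf 228 1629 .nil)) .nil)) .nil)) .nil)))) .nil))))))))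
noncomputable def t9 : T := .cons 228 (.leaf 252 1821 (.cons 348 (.leaf 324 2012 (.cons 347 (.leaf 372 2204 (.cons 274 (.leaf 250 2007 (.cons 370 (.leaf 346 2198 (.cons 371 (.leaf 298 2199 (.leaf 394 2390 .nil)) .nil)) .nil)) .nil)) .nil)) .nil)) (.cons 324 (.leaf 348 2012 (.cons 227 (.leaf 300 1820 (.cons 202 (.leaf 226 1623 (.cons 203 (.leaf 178 1431 (.cons 252 (.leaf 228 1821 (.cons 276 (.leaf 347 2013 (.leaf 179 1436 .nil)) .nil)) .nil)) .nil)) .nil)) .nil)) (.cons 226 (.leaf 250 1815 (.cons 227 (.leaf 202 1623 (.cons 324 (.leaf 300 1820 (.leaf 348 2012 .nil)) .nil)) .nil)) (.cons 250 (.leaf 226 1815 (.cons 228 (.leaf 252 1821 (.cons 347 (.leaf 274 2007 (.cons 370 (.leaf 346 2198 (.cons 371 (.leaf 394 2390 (.cons 372 (.leaf 348 2204 (.leaf 396 2396 .nil)) .nil)) .nil)) .nil)) .nil)) .nil)) (.cons 250 (.leaf 226 1815 (.cons 228 (.leaf 252 1821 (.cons 347 (.leaf 274 2007 (.cons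 370 (.leaf 346 2198 (.cons 371 (.leaf 394 2390 (.cons 300 (.leaf 276 2205 (.cons 324 (.leaf 227 1820 (.leaf 395 2397 .nil)) .nil)) .nil)) .nil)) .nil)) .nil)) .nil)) .nil))))
noncomputable def t10 : T := .cons 227 (.cons 300 (.leaf 324 1820 (.cons 202 (.leaf 226 1623 (.cons 203 (.leaf 178 1431 (.leaf 276 1628 .nil)) .nil)) .nil)) (.cons 298 (.leaf 322 1814 (.cons 202 (.leaf 226 1623 (.cons 203 (.leaf 178 1431 (.leaf 274 1622 .nil)) .nil)) .nil)) (.cons 298 (.leaf 322 1814 (.cons 203 (.leaf 274 1622 (.cons 300 (.leaf 276 1628 (.leaf 324 1820 .nil)) .nil)) .nil)) (.cons 226 (.leaf 202 1623 (.cons 298 (.leaf 322 1814 (.cons 300 (.leaf 324 1820 (.cons 297 (.cons 276 (.leaf 296 2177 (.leaf 277 2185 .nil)) (.cons 272 (.leaf 273 2179 (.cons 296 (.leaf 271 2171 (.cons 320 (.leaf 319 2362 (.leaf 321 2370 .nil)) .nil)) .nil)) (.cons 272 (.leaf 273 2179 (.cons 277 (.leaf 276 2185 (.cons 301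 (.leaf 278 2193 (.cons 274 (.leaf 302 2195 (.cons 321 (.leaf 320 2370 (.leaf 250 1806 .nil)) .nil)) .nil)) .nil)) .nil)) .nil))) .nil)) .nil)) .nil)) .nil)))) (.cons 323 (.cons 250 (.leaf 226 1815 (.cons 347 (.leaf 274 2007 (.cons 348 (.leaf 324 2012 (.leaf 372 2204 .nil)) .nil)) .nil)) (.cons 252 (.leaf 228 1821 (.cons 322 (.leaf 346 2006 (.cons 347 (.leaf 276 2013 (.cons 348 (.leaf 324 2012 (.leaf 372 2204 .nil)) .nil)) .nil)) .nil)) (.cons 250 (.leaf 226 1815 (.cons 346 (.leaf 322 2006 (.cons 347 (.leaf 274 2007 (.leaf 370 2198 .nil)) .nil)) .nil)) (.cons 250 (.leaf 226 1815 (.cons 252 (.leaf 228 1821 (.cons 322 (.leaf 346 2006 (.cons 324 (.leaf 348 2012 (.cons 321 (.cons 300 (.leaf 320 2369 (.leaf 301 2377 .nil)) (.cons 296 (.leaf 297 2371 (.cons 320 (.leaf 295 2363 (.cons 344 (.leaf 343 2554 (.leaf 345 2562 .nil)) .nil)) .nil)) (.cons 301 (.leaf 300 2377 (.cons 296 (.leaf 297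 2371 (.cons 325 (.leaf 302 2385 (.cons 349 (.leaf 350 2576 (.cons 277 (.leaf 276 2023 (.cons 278 (.leaf 253 2000 (.leaf 254 2029 .nil)) .nil)) .nil)) .nil)) .nil)) .nil)) .nil))) .nil)) .nil)) .nil)) .nil)) .nil)))) (.cons 323 (.cons 228 (.leaf 252 1821 (.cons 346 (.leaf 322 2006 (.cons 347 (.leaf 370 2198 (.cons 348 (.leaf 324 2012 (.leaf 372 2204 .nil)) .nil)) .nil)) .nil)) (.cons 324 (.leaf 348 2012 (.cons 227 (.leaf 300 1820 (.cons 202 (.leaf 226 1623 (.cons 203 (.leaf 178 1431 (.cons 252 (.leaf 228 1821 (.cons 276 (.leaf 347 2013 (.leaf 179 1436 .nil)) .nil)) .nil)) .nil)) .nil)) .nil)) (.cons 322 (.leaf 346 2006 (.cons 227 (.leaf 298 1814 (.cons 202 (.leaf 226 1623 (.cons 203 (.leaf 178 1431 (.cons 252 (.leaf 228 1821 (.cons 276 (.leaf 300 1628 (.leaf 347 2013 .nil)) .nil)) .nil)) .nil)) .nil)) .nil)) (.cons 322 (.leaf 346 2006 (.cons 298 (.leaf 227 1814 (.cons 324 (.leaf 348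 2012 (.cons 297 (.leaf 296 2368 (.leaf 325 2379 .nil)) .nil)) .nil)) .nil)) .nil)))) (.cons 323 (.cons 322 (.leaf 346 2006 (.cons 298 (.leaf 227 1814 (.cons 324 (.leaf 348 2012 (.cons 297 (.leaf 296 2368 (.leaf 325 2379 .nil)) .nil)) .nil)) .nil)) (.cons 250 (.leaf 226 1815 (.cons 347 (.leaf 274 2007 (.cons 348 (.leaf 324 2012 (.leaf 372 2204 .nil)) .nil)) .nil)) (.cons 250 (.leaf 226 1815 (.cons 346 (.leaf 322 2006 (.cons 347 (.leaf 274 2007 (.leaf 370 2198 .nil)) .nil)) .nil)) .nil))) (.cons 323 t9 (.cons 323 (.cons 322 (.leaf 346 2006 (.cons 298 (.leaf 227 1814 (.cons 324 (.leaf 348 2012 (.cons 297 (.leaf 296 2368 (.leaf 325 2379 .nil)) .nil)) .nil)) .nil)) (.cons 252 (.leaf 228 1821 (.cons 276 (.leaf 347 2013 (.cons 324 (.leaf 348 2012 (.cons 227 (.leaf 300 1820 (.cons 203 (.leaf 179 1436 (.cons 178 (.leaf 202 1431 (.cons 274 (.leaf 298 1622 (.cons 253 (.leaf 254 2002 (.leaf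 273 1993 .nil)) .nil)) .nil)) .nil)) .nil)) .nil)) .nil)) .nil)) (.cons 322 (.leaf 346 2006 (.cons 227 (.leaf 298 1814 (.cons 252 (.leaf 228 1821 (.cons 276 (.leaf 347 2013 (.cons 203 (.leaf 300 1628 (.leaf 179 1436 .nil)) .nil)) .nil)) .nil)) .nil)) (.cons 252 (.leaf 228 1821 (.cons 276 (.leaf 347 2013 (.cons 322 (.leaf 346 2006 (.cons 324 (.leaf 348 2012 (.cons 300 (.leaf 227 1820 (.cons 301 (.leaf 302 2386 (.leaf 321 2377 .nil)) .nil)) .nil)) .nil)) .nil)) .nil)) (.cons 252 (.leaf 228 1821 (.cons 322 (.leaf 346 2006 (.cons 347 (.leaf 276 2013 (.cons 348 (.leaf 324 2012 (.leaf 372 2204 .nil)) .nil)) .nil)) .nil)) .nil))))) (.cons 323 (.cons 226 (.leaf 250 1815 (.cons 227 (.leaf 202 1623 (.cons 322 (.leaf 298 1814 (.leaf 346 2006 .nil)) .nil)) .nil)) (.cons 322 (.leaf 346 2006 (.cons 227 (.leaf 298 1814 (.cons 252 (.leaf 228 1821 (.cons 276 (.leaf 347 2013 (.cons 203 (.leaf 300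 1628 (.leaf 179 1436 .nil)) .nil)) .nil)) .nil)) .nil)) (.cons 250 (.leaf 226 1815 (.cons 228 (.leaf 252 1821 (.cons 347 (.leaf 274 2007 (.cons 370 (.leaf 346 2198 (.cons 371 (.leaf 394 2390 (.cons 372 (.leaf 348 2204 (.leaf 396 2396 .nil)) .nil)) .nil)) .nil)) .nil)) .nil)) (.cons 226 (.leaf 250 1815 (.cons 202 (.leaf 227 1623 (.cons 252 (.leaf 228 1821 (.cons 347 (.leaf 276 2013 (.cons 372 (.leaf 348 2204 (.cons 371 (.leaf 396 2396 (.cons 298 (.leaf 274 2199 (.cons 394 (.leaf 370 2390 (.cons 395 (.leaf 322 2391 (.leaf 418 2582 .nil)) .nil)) .nil)) .nil)) .nil)) .nil)) .nil)) .nil)) .nil)) .nil)))) .nil))))))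
noncomputable def t11 : T := .cons 323 (.cons 250 (.leaf 226 1815 (.cons 347 (.leaf 274 2007 (.cons 348 (.leaf 324 2012 (.leaf 372 2204 .nil)) .nil)) .nil)) (.cons 250 (.leaf 226 1815 (.cons 346 (.leaf 322 2006 (.cons 347 (.leaf 274 2007 (.leaf 370 2198 .nil)) .nil)) .nil)) (.cons 322 (.leaf 346 2006 (.cons 324 (.leaf 348 2012 (.cons 300 (.leaf 227 1820 (.cons 301 (.leaf 302 2386 (.leaf 321 2377 .nil)) .nil)) .nil)) .nil)) .nil))) (.cons 323 (.cons 252 (.leaf 228 1821 (.cons 250 (.leaf 226 1815 (.cons 322 (.leaf 346 2006 (.cons 324 (.leaf 348 2012 (.cons 249 (.cons 225 (.leaf 224 1795 (.cons 272 (.leaf 273 1986 (.cons 298 (.leaf 227 1814 (.leaf 274 1807 .nil)) .nil)) .nil)) (.cons 276 (.leaf 248 1984 (.leaf 347 2013 .nil)) .nil)) .nil)) .nil)) .nil)) .nil)) (.cons 250 (.leaf 226 1815 (.cons 347 (.leaf 274 2007 (.cons 348 (.leaf 324 2012 (.leaf 372 2204 .nil)) .nil)) .nil)) (.cons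 252 (.leaf 228 1821 (.cons 346 (.leaf 322 2006 (.cons 347 (.leaf 276 2013 (.leaf 370 2198 .nil)) .nil)) .nil)) (.cons 322 (.leaf 346 2006 (.cons 298 (.leaf 227 1814 (.cons 324 (.leaf 348 2012 (.cons 297 (.leaf 296 2368 (.leaf 325 2379 .nil)) .nil)) .nil)) .nil)) .nil)))) (.cons 323 (.cons 250 (.leaf 226 1815 (.cons 347 (.leaf 274 2007 (.cons 348 (.leaf 324 2012 (.leaf 372 2204 .nil)) .nil)) .nil)) (.cons 228 (.leaf 252 1821 (.cons 227 (.leaf 204 1629 (.cons 324 (.leaf 300 1820 (.leaf 348 2012 .nil)) .nil)) .nil)) (.cons 252 (.leaf 228 1821 (.cons 226 (.leaf 250 1815 (.cons 347 (.leaf 276 2013 (.cons 370 (.leaf 346 2198 (.cons 371 (.leaf 394 2390 (.cons 372 (.leaf 348 2204 (.leaf 396 2396 .nil)) .nil)) .nil)) .nil)) .nil)) .nil)) (.cons 228 (.leaf 252 1821 (.cons 204 (.leaf 227 1629 (.cons 250 (.leaf 226 1815 (.cons 347 (.leaf 274 2007 (.cons 370 (.leaf 346 2198 (.cons 371 (.leaf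 394 2390 (.cons 300 (.leaf 276 2205 (.cons 395 (.leaf 324 2397 (.cons 396 (.leaf 372 2396 (.leaf 420 2588 .nil)) .nil)) .nil)) .nil)) .nil)) .nil)) .nil)) .nil)) .nil)) .nil)))) (.cons 323 (.cons 226 (.leaf 250 1815 (.cons 228 (.leaf 252 1821 (.cons 346 (.leaf 322 2006 (.cons 347 (.leaf 370 2198 (.cons 348 (.leaf 324 2012 (.leaf 372 2204 .nil)) .nil)) .nil)) .nil)) .nil)) (.cons 226 (.leaf 250 1815 (.cons 228 (.leaf 252 1821 (.cons 227 (.leaf 204 1629 (.cons 324 (.leaf 300 1820 (.leaf 348 2012 .nil)) .nil)) .nil)) .nil)) (.cons 228 (.leaf 252 1821 (.cons 227 (.leaf 204 1629 (.cons 322 (.leaf 298 1814 (.leaf 346 2006 .nil)) .nil)) .nil)) (.cons 322 (.leaf 346 2006 (.cons 324 (.leaf 348 2012 (.cons 300 (.leaf 227 1820 (.cons 301 (.leaf 302 2386 (.leaf 321 2377 .nil)) .nil)) .nil)) .nil)) .nil)))) (.cons 323 (.cons 250 (.leaf 226 1815 (.cons 346 (.leaf 322 2006 (.cons 347 (.leaf 274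 2007 (.leaf 370 2198 .nil)) .nil)) .nil)) (.cons 226 (.leaf 250 1815 (.cons 252 (.leaf 228 1821 (.cons 347 (.leaf 276 2013 (.cons 370 (.leaf 346 2198 (.cons 371 (.leaf 394 2390 (.cons 372 (.leaf 348 2204 (.leaf 396 2396 .nil)) .nil)) .nil)) .nil)) .nil)) .nil)) (.cons 252 (.leaf 228 1821 (.cons 276 (.leaf 347 2013 (.cons 322 (.leaf 346 2006 (.cons 227 (.leaf 298 1814 (.cons 203 (.leaf 300 1628 (.leaf 179 1436 .nil)) .nil)) .nil)) .nil)) .nil)) (.cons 226 (.leaf 250 1815 (.cons 252 (.leaf 228 1821 (.cons 347 (.leaf 276 2013 (.cons 372 (.leaf 348 2204 (.cons 371 (.leaf 396 2396 (.cons 298 (.leaf 274 2199 (.cons 322 (.leaf 227 1814 (.leaf 395 2391 .nil)) .nil)) .nil)) .nil)) .nil)) .nil)) .nil)) (.cons 322 (.leaf 346 2006 (.cons 226 (.leaf 250 1815 (.cons 227 (.leaf 298 1814 (.cons 228 (.leaf 204 1629 (.leaf 252 1821 .nil)) .nil)) .nil)) .nil)) .nil))))) (.cons 323 (.cons 322 (.leaf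 346 2006 (.cons 324 (.leaf 348 2012 (.cons 300 (.leaf 227 1820 (.cons 301 (.leaf 302 2386 (.leaf 321 2377 .nil)) .nil)) .nil)) .nil)) (.cons 252 (.leaf 228 1821 (.cons 276 (.leaf 347 2013 (.cons 324 (.leaf 348 2012 (.cons 227 (.leaf 300 1820 (.cons 203 (.leaf 179 1436 (.cons 180 (.leaf 204 1437 (.cons 274 (.leaf 298 1622 (.cons 253 (.leaf 254 2002 (.leaf 273 1993 .nil)) .nil)) .nil)) .nil)) .nil)) .nil)) .nil)) .nil)) (.cons 228 (.leaf 252 1821 (.cons 227 (.leaf 204 1629 (.cons 322 (.leaf 298 1814 (.leaf 346 2006 .nil)) .nil)) .nil)) (.cons 228 (.leaf 252 1821 (.cons 346 (.leaf 322 2006 (.cons 347 (.leaf 370 2198 (.cons 348 (.leaf 324 2012 (.leaf 372 2204 .nil)) .nil)) .nil)) .nil)) .nil)))) .nil)))))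
noncomputable def t12 : T := .cons 226 (.leaf 250 1815 (.cons 252 (.leaf 228 1821 (.cons 347 (.leaf 276 2013 (.cons 348 (.leaf 324 2012 (.leaf 372 2204 .nil)) .nil)) .nil)) .nil)) (.cons 250 (.leaf 226 1815 (.cons 347 (.leaf 274 2007 (.cons 348 (.leaf 324 2012 (.leaf 372 2204 .nil)) .nil)) .nil)) (.cons 252 (.leaf 228 1821 (.cons 346 (.leaf 322 2006 (.cons 347 (.leaf 276 2013 (.leaf 370 2198 .nil)) .nil)) .nil)) (.cons 252 (.leaf 228 1821 (.cons 250 (.leaf 226 1815 (.cons 322 (.leaf 346 2006 (.cons 324 (.leaf 348 2012 (.cons 321 (.cons 296 (.leaf 297 2371 (.cons 320 (.leaf 300 2369 (.leaf 295 2363 .nil)) .nil)) (.cons 296 (.leaf 297 2371 (.cons 320 (.leaf 295 2363 (.cons 344 (.leaf 343 2554 (.leaf 345 2562 .nil)) .nil)) .nil)) (.cons 300 (.leaf 320 2369 (.leaf 301 2377 .nil)) (.cons 301 (.leaf 300 2377 (.cons 296 (.leaf 297 2371 (.cons 325 (.leaf 302 2385 (.cons 349 (.leaf 350 2576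 (.cons 277 (.leaf 276 2023 (.cons 278 (.leaf 253 2000 (.leaf 254 2029 .nil)) .nil)) .nil)) .nil)) .nil)) .nil)) .nil)))) .nil)) .nil)) .nil)) .nil)) .nil)))
noncomputable def t13 : T := .cons 323 (.cons 226 (.leaf 250 1815 (.cons 252 (.leaf 228 1821 (.cons 347 (.leaf 276 2013 (.cons 348 (.leaf 324 2012 (.leaf 372 2204 .nil)) .nil)) .nil)) .nil)) (.cons 322 (.leaf 346 2006 (.cons 324 (.leaf 348 2012 (.cons 300 (.leaf 227 1820 (.cons 301 (.leaf 302 2386 (.leaf 321 2377 .nil)) .nil)) .nil)) .nil)) (.cons 226 (.leaf 250 1815 (.cons 252 (.leaf 228 1821 (.cons 347 (.leaf 276 2013 (.cons 370 (.leaf 346 2198 (.cons 371 (.leaf 394 2390 (.cons 372 (.leaf 348 2204 (.leaf 396 2396 .nil)) .nil)) .nil)) .nil)) .nil)) .nil)) (.cons 228 (.leaf 252 1821 (.cons 204 (.leaf 227 1629 (.cons 250 (.leaf 226 1815 (.cons 347 (.leaf 274 2007 (.cons 370 (.leaf 346 2198 (.cons 371 (.leaf 394 2390 (.cons 300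 (.leaf 276 2205 (.cons 395 (.leaf 324 2397 (.cons 396 (.leaf 372 2396 (.leaf 420 2588 .nil)) .nil)) .nil)) .nil)) .nil)) .nil)) .nil)) .nil)) .nil)) .nil)))) (.cons 227 (.cons 298 (.leaf 322 1814 (.cons 203 (.leaf 274 1622 (.cons 204 (.leaf 180 1437 (.leaf 228 1629 .nil)) .nil)) .nil)) (.cons 300 (.leaf 324 1820 (.cons 203 (.leaf 276 1628 (.cons 204 (.leaf 180 1437 (.leaf 228 1629 .nil)) .nil)) .nil)) (.cons 298 (.leaf 322 1814 (.cons 203 (.leaf 274 1622 (.cons 300 (.leaf 276 1628 (.leaf 324 1820 .nil)) .nil)) .nil)) (.cons 228 (.leaf 204 1629 (.cons 298 (.leaf 322 1814 (.cons 300 (.leaf 324 1820 (.cons 297 (.cons 276 (.leaf 296 2177 (.leaf 277 2185 .nil)) (.cons 272 (.leaf 273 2179 (.cons 296 (.leaf 271 2171 (.cons 320 (.leaf 319 2362 (.leaf 321 2370 .nil)) .nil)) .nil)) (.cons 273 (.leaf 272 2179 (.cons 274 (.leaf 301 2187 (.cons 276 (.leaf 277 2185 (.cons 248 (.leaf 249 1987 (.cons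 252 (.leaf 253 1993 (.cons 229 (.leaf 205 1637 (.cons 230 (.leaf 250 1810 (.leaf 231 1818 .nil)) .nil)) .nil)) .nil)) .nil)) .nil)) .nil)) .nil))) .nil)) .nil)) .nil)) .nil)))) (.cons 323 t12 t11))
noncomputable def t14 : T := .cons 227 (.cons 202 (.leaf 226 1623 (.cons 228 (.leaf 204 1629 (.cons 298 (.leaf 322 1814 (.cons 323 (.leaf 252 1821 (.cons 348 (.leaf 324 2012 (.cons 347 (.leaf 372 2204 (.cons 370 (.leaf 346 2198 (.cons 371 (.leaf 274 2199 (.leaf 394 2390 .nil)) .nil)) .nil)) .nil)) .nil)) .nil)) .nil)) .nil)) (.cons 202 (.leaf 226 1623 (.cons 203 (.leaf 178 1431 (.cons 298 (.leaf 274 1622 (.leaf 322 1814 .nil)) .nil)) .nil)) (.cons 228 (.leaf 204 1629 (.cons 202 (.leaf 226 1623 (.cons 203 (.leaf 178 1431 (.cons 200 (.leaf 201 1600 (.cons 229 (.leaf 230 1619 (.cons 252 (.leaf 323 1821 (.cons 179 (.leaf 276 1436 (.leaf 155 1244 .nil)) .nil)) .nil)) .nil)) .nil)) .nil)) .nil))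 (.cons 298 (.leaf 322 1814 (.cons 203 (.leaf 274 1622 (.cons 204 (.leaf 180 1437 (.leaf 228 1629 .nil)) .nil)) .nil)) .nil)))) (.cons 227 (.cons 204 (.leaf 228 1629 (.cons 180 (.leaf 203 1437 (.cons 322 (.leaf 298 1814 (.cons 323 (.leaf 346 2006 (.cons 250 (.leaf 226 1815 (.cons 347 (.leaf 274 2007 (.cons 348 (.leaf 324 2012 (.leaf 372 2204 .nil)) .nil)) .nil)) .nil)) .nil)) .nil)) .nil)) (.cons 202 (.leaf 226 1623 (.cons 203 (.leaf 178 1431 (.cons 204 (.leaf 180 1437 (.leaf 228 1629 .nil)) .nil)) .nil)) (.cons 298 (.leaf 322 1814 (.cons 203 (.leaf 274 1622 (.cons 204 (.leaf 180 1437 (.leaf 228 1629 .nil)) .nil)) .nil)) (.cons 202 (.leaf 226 1623 (.cons 203 (.leaf 178 1431 (.cons 298 (.leaf 274 1622 (.leaf 322 1814 .nil)) .nil)) .nil)) (.cons 204 (.leaf 228 1629 (.cons 226 (.leaf 202 1623 (.cons 298 (.leaf 322 1814 (.cons 323 (.leaf 250 1815 (.cons 348 (.leaf 324 2012 (.cons 347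 (.leaf 372 2204 (.cons 370 (.leaf 346 2198 (.cons 371 (.leaf 274 2199 (.leaf 394 2390 .nil)) .nil)) .nil)) .nil)) .nil)) .nil)) .nil)) .nil)) .nil))))) (.cons 323 (.cons 228 (.leaf 252 1821 (.cons 204 (.leaf 227 1629 (.cons 346 (.leaf 322 2006 (.cons 347 (.leaf 370 2198 (.cons 348 (.leaf 324 2012 (.leaf 372 2204 .nil)) .nil)) .nil)) .nil)) .nil)) (.cons 228 (.leaf 252 1821 (.cons 204 (.leaf 227 1629 (.cons 348 (.leaf 324 2012 (.cons 347 (.leaf 372 2204 (.cons 274 (.leaf 250 2007 (.cons 370 (.leaf 346 2198 (.cons 371 (.leaf 298 2199 (.leaf 394 2390 .nil)) .nil)) .nil)) .nil)) .nil)) .nil)) .nil)) (.cons 322 (.leaf 346 2006 (.cons 298 (.leaf 227 1814 (.cons 324 (.leaf 348 2012 (.cons 297 (.leaf 296 2368 (.leaf 325 2379 .nil)) .nil)) .nil)) .nil)) (.cons 228 (.leaf 252 1821 (.cons 227 (.leaf 204 1629 (.cons 298 (.leaf 322 1814 (.cons 348 (.leaf 324 2012 (.cons 347 (.leaf 372 2204 (.cons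 274 (.leaf 203 1622 (.leaf 250 2007 .nil)) .nil)) .nil)) .nil)) .nil)) .nil)) (.cons 252 (.leaf 228 1821 (.cons 346 (.leaf 322 2006 (.cons 347 (.leaf 276 2013 (.leaf 370 2198 .nil)) .nil)) .nil)) .nil))))) (.cons 323 (.cons 226 (.leaf 250 1815 (.cons 202 (.leaf 227 1623 (.cons 346 (.leaf 322 2006 (.cons 347 (.leaf 370 2198 (.cons 348 (.leaf 324 2012 (.leaf 372 2204 .nil)) .nil)) .nil)) .nil)) .nil)) (.cons 322 (.leaf 346 2006 (.cons 298 (.leaf 227 1814 (.cons 324 (.leaf 348 2012 (.cons 297 (.leaf 296 2368 (.leaf 325 2379 .nil)) .nil)) .nil)) .nil)) (.cons 250 (.leaf 226 1815 (.cons 347 (.leaf 274 2007 (.cons 348 (.leaf 324 2012 (.leaf 372 2204 .nil)) .nil)) .nil)) (.cons 226 (.leaf 250 1815 (.cons 227 (.leaf 202 1623 (.cons 322 (.leaf 298 1814 (.leaf 346 2006 .nil)) .nil)) .nil)) .nil)))) (.cons 323 (.cons 226 (.leaf 250 1815 (.cons 227 (.leaf 202 1623 (.cons 228 (.leaf 204 1629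 (.leaf 252 1821 .nil)) .nil)) .nil)) (.cons 252 (.leaf 228 1821 (.cons 347 (.leaf 276 2013 (.cons 348 (.leaf 324 2012 (.leaf 372 2204 .nil)) .nil)) .nil)) (.cons 250 (.leaf 226 1815 (.cons 347 (.leaf 274 2007 (.cons 348 (.leaf 324 2012 (.leaf 372 2204 .nil)) .nil)) .nil)) .nil))) (.cons 323 (.cons 228 (.leaf 252 1821 (.cons 346 (.leaf 322 2006 (.cons 347 (.leaf 370 2198 (.cons 348 (.leaf 324 2012 (.leaf 372 2204 .nil)) .nil)) .nil)) .nil)) (.cons 226 (.leaf 250 1815 (.cons 202 (.leaf 227 1623 (.cons 346 (.leaf 322 2006 (.cons 347 (.leaf 370 2198 (.cons 348 (.leaf 324 2012 (.leaf 372 2204 .nil)) .nil)) .nil)) .nil)) .nil)) (.cons 252 (.leaf 228 1821 (.cons 347 (.leaf 276 2013 (.cons 348 (.leaf 324 2012 (.leaf 372 2204 .nil)) .nil)) .nil)) (.cons 252 (.leaf 228 1821 (.cons 346 (.leaf 322 2006 (.cons 347 (.leaf 276 2013 (.leaf 370 2198 .nil)) .nil)) .nil)) (.cons 322 (.leaf 346 2006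 (.cons 298 (.leaf 227 1814 (.cons 324 (.leaf 348 2012 (.cons 297 (.leaf 296 2368 (.leaf 325 2379 .nil)) .nil)) .nil)) .nil)) .nil))))) .nil)))))
noncomputable def t15 : T := .cons 202 (.leaf 226 1623 (.cons 203 (.leaf 178 1431 (.cons 298 (.leaf 274 1622 (.leaf 322 1814 .nil)) .nil)) .nil)) (.cons 202 (.leaf 226 1623 (.cons 203 (.leaf 178 1431 (.cons 204 (.leaf 180 1437 (.leaf 228 1629 .nil)) .nil)) .nil)) (.cons 298 (.leaf 322 1814 (.cons 203 (.leaf 274 1622 (.cons 204 (.leaf 180 1437 (.leaf 228 1629 .nil)) .nil)) .nil)) (.cons 226 (.leaf 202 1623 (.cons 228 (.leaf 204 1629 (.cons 298 (.leaf 322 1814 (.cons 225 (.cons 200 (.leaf 201 1603 (.cons 199 (.leaf 224 1595 (.cons 249 (.leaf 248 1794 (.cons 229 (.leaf 250 1802 (.cons 206 (.leaf 205 1617 (.cons 230 (.leaf 207 1625 (.cons 254 (.leaf 253 1808 (.leaf 255 1816 .nil)) .nil)) .nil)) .nil)) .nil)) .nil)) .nil)) (.cons 200 (.leaf 201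 1603 (.cons 224 (.leaf 252 1792 (.leaf 199 1595 .nil)) .nil)) (.cons 200 (.leaf 201 1603 (.cons 248 (.leaf 249 1794 (.cons 253 (.leaf 252 1800 (.cons 229 (.leaf 254 1808 (.cons 206 (.leaf 205 1617 (.cons 230 (.leaf 250 1810 (.leaf 207 1625 .nil)) .nil)) .nil)) .nil)) .nil)) .nil)) (.cons 252 (.leaf 224 1792 (.leaf 253 1800 .nil)) .nil)))) .nil)) .nil)) .nil)) .nil)))
noncomputable def t16 : T := .cons 323 (.cons 252 (.leaf 228 1821 (.cons 250 (.leaf 226 1815 (.cons 322 (.leaf 346 2006 (.cons 324 (.leaf 348 2012 (.cons 249 (.cons 225 (.leaf 224 1795 (.cons 272 (.leaf 273 1986 (.cons 298 (.leaf 227 1814 (.leaf 274 1807 .nil)) .nil)) .nil)) (.cons 276 (.leaf 248 1984 (.leaf 347 2013 .nil)) .nil)) .nil)) .nil)) .nil)) .nil)) (.cons 252 (.leaf 228 1821 (.cons 346 (.leaf 322 2006 (.cons 347 (.leaf 276 2013 (.leaf 370 2198 .nil)) .nil)) .nil)) (.cons 226 (.leaf 250 1815 (.cons 202 (.leaf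 227 1623 (.cons 346 (.leaf 322 2006 (.cons 347 (.leaf 370 2198 (.cons 348 (.leaf 324 2012 (.leaf 372 2204 .nil)) .nil)) .nil)) .nil)) .nil)) (.cons 252 (.leaf 228 1821 (.cons 250 (.leaf 226 1815 (.cons 347 (.leaf 274 2007 (.leaf 276 2013 .nil)) .nil)) .nil)) (.cons 226 (.leaf 250 1815 (.cons 227 (.leaf 202 1623 (.cons 322 (.leaf 298 1814 (.leaf 346 2006 .nil)) .nil)) .nil)) .nil))))) (.cons 227 t15 (.cons 323 (.cons 250 (.leaf 226 1815 (.cons 347 (.leaf 274 2007 (.cons 348 (.leaf 324 2012 (.leaf 372 2204 .nil)) .nil)) .nil)) (.cons 252 (.leaf 228 1821 (.cons 346 (.leaf 322 2006 (.cons 347 (.leaf 276 2013 (.leaf 370 2198 .nil)) .nil)) .nil)) (.cons 250 (.leaf 226 1815 (.cons 252 (.leaf 228 1821 (.cons 322 (.leaf 346 2006 (.cons 324 (.leaf 348 2012 (.cons 249 (.cons 225 (.leaf 224 1795 (.cons 272 (.leaf 273 1986 (.cons 298 (.leaf 274 1807 (.cons 297 (.leaf 296 2368 (.leaf 325 2379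 .nil)) .nil)) .nil)) .nil)) (.cons 276 (.leaf 248 1984 (.leaf 277 1992 .nil)) .nil)) .nil)) .nil)) .nil)) .nil)) .nil))) t14))
noncomputable def t17 : T := .cons 202 (.leaf 226 1623 (.cons 203 (.leaf 178 1431 (.cons 300 (.leaf 276 1628 (.leaf 324 1820 .nil)) .nil)) .nil)) (.cons 228 (.leaf 204 1629 (.cons 202 (.leaf 226 1623 (.cons 178 (.leaf 203 1431 (.cons 323 (.leaf 252 1821 (.cons 346 (.leaf 322 2006 (.cons 347 (.leaf 370 2198 (.cons 348 (.leaf 324 2012 (.leaf 372 2204 .nil)) .nil)) .nil)) .nil)) .nil)) .nil)) .nil)) (.cons 228 (.leaf 204 1629 (.cons 202 (.leaf 226 1623 (.cons 203 (.leaf 178 1431 (.cons 200 (.leaf 201 1600 (.cons 229 (.leaf 230 1619 (.cons 252 (.leaf 323 1821 (.cons 276 (.leaf 300 1628 (.leaf 179 1436 .nil)) .nil)) .nil)) .nil)) .nil)) .nil)) .nil)) (.cons 300 (.leaf 324 1820 (.cons 203 (.leaf 276 1628 (.cons 204 (.leaf 180 1437 (.leaf 228 1629 .nil)) .nil))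 .nil)) (.cons 228 (.leaf 204 1629 (.cons 202 (.leaf 226 1623 (.cons 300 (.leaf 324 1820 (.cons 323 (.leaf 252 1821 (.cons 346 (.leaf 322 2006 (.cons 347 (.leaf 370 2198 (.cons 371 (.leaf 276 2205 (.cons 372 (.leaf 348 2204 (.leaf 396 2396 .nil)) .nil)) .nil)) .nil)) .nil)) .nil)) .nil)) .nil)) .nil))))
noncomputable def t18 : T := .cons 202 (.leaf 226 1623 (.cons 203 (.leaf 178 1431 (.cons 300 (.leaf 276 1628 (.leaf 324 1820 .nil)) .nil)) .nil)) (.cons 300 (.leaf 324 1820 (.cons 203 (.leaf 276 1628 (.cons 204 (.leaf 180 1437 (.leaf 228 1629 .nil)) .nil)) .nil)) (.cons 226 (.leaf 202 1623 (.cons 204 (.leaf 228 1629 (.cons 180 (.leaf 203 1437 (.cons 323 (.leaf 250 1815 (.cons 346 (.leaf 322 2006 (.cons 347 (.leaf 370 2198 (.cons 348 (.leaf 324 2012 (.leaf 372 2204 .nil)) .nil)) .nil)) .nil)) .nil)) .nil)) .nil)) (.cons 226 (.leaf 202 1623 (.cons 204 (.leaf 228 1629 (.cons 203 (.leaf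 180 1437 (.cons 205 (.leaf 206 1618 (.cons 224 (.leaf 225 1601 (.cons 250 (.leaf 323 1815 (.cons 179 (.leaf 274 1430 (.leaf 155 1238 .nil)) .nil)) .nil)) .nil)) .nil)) .nil)) .nil)) (.cons 226 (.leaf 202 1623 (.cons 204 (.leaf 228 1629 (.cons 300 (.leaf 324 1820 (.cons 323 (.leaf 250 1815 (.cons 346 (.leaf 322 2006 (.cons 347 (.leaf 370 2198 (.cons 371 (.leaf 276 2205 (.cons 372 (.leaf 348 2204 (.leaf 396 2396 .nil)) .nil)) .nil)) .nil)) .nil)) .nil)) .nil)) .nil)) .nil))))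
noncomputable def t19 : T := .cons 252 (.leaf 228 1821 (.cons 250 (.leaf 226 1815 (.cons 322 (.leaf 346 2006 (.cons 324 (.leaf 348 2012 (.cons 321 (.cons 300 (.leaf 320 2369 (.leaf 301 2377 .nil)) (.cons 347 (.leaf 274 2007 (.leaf 276 2013 .nil)) .nil)) .nil)) .nil)) .nil)) .nil)) (.cons 250 (.leaf 226 1815 (.cons 346 (.leaf 322 2006 (.cons 347 (.leaf 274 2007 (.leaf 370 2198 .nil)) .nil)) .nil)) (.cons 252 (.leaf 228 1821 (.cons 346 (.leaf 322 2006 (.cons 347 (.leaf 276 2013 (.leaf 370 2198 .nil)) .nil)) .nil)) (.cons 252 (.leaf 228 1821 (.cons 250 (.leaf 226 1815 (.cons 347 (.leaf 274 2007 (.leaf 276 2013 .nil)) .nil)) .nil)) (.cons 252 (.leaf 228 1821 (.cons 250 (.leaf 226 1815 (.cons 322 (.leaf 346 2006 (.cons 324 (.leaf 348 2012 (.cons 321 (.cons 300 (.leaf 320 2369 (.leaf 301 2377 .nil)) (.cons 296 (.leaf 297 2371 (.cons 320 (.leaf 295 2363 (.cons 344 (.leaf 343 2554 (.leaf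 345 2562 .nil)) .nil)) .nil)) (.cons 301 (.leaf 300 2377 (.cons 296 (.leaf 297 2371 (.cons 325 (.leaf 302 2385 (.cons 349 (.leaf 350 2576 (.cons 277 (.leaf 276 2023 (.cons 278 (.leaf 253 2000 (.leaf 254 2029 .nil)) .nil)) .nil)) .nil)) .nil)) .nil)) .nil))) .nil)) .nil)) .nil)) .nil)) .nil))))
noncomputable def t20 : T := .cons 226 (.leaf 202 1623 (.cons 228 (.leaf 204 1629 (.cons 300 (.leaf 324 1820 (.cons 225 (.cons 200 (.leaf 201 1603 (.cons 199 (.leaf 224 1595 (.cons 249 (.leaf 248 1794 (.cons 229 (.leaf 250 1802 (.cons 206 (.leaf 205 1617 (.cons 230 (.leaf 207 1625 (.cons 254 (.leaf 253 1808 (.leaf 255 1816 .nil)) .nil)) .nil)) .nil)) .nil)) .nil)) .nil)) (.cons 200 (.leaf 201 1603 (.cons 248 (.leaf 249 1794 (.cons 253 (.leaf 252 1800 (.cons 229 (.leaf 254 1808 (.cons 206 (.leaf 205 1617 (.cons 230 (.leaf 250 1810 (.leaf 207 1625 .nil)) .nil)) .nil)) .nil)) .nil)) .nil)) (.cons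 200 (.leaf 201 1603 (.cons 224 (.leaf 252 1792 (.leaf 199 1595 .nil)) .nil)) (.cons 252 (.leaf 224 1792 (.leaf 253 1800 .nil)) .nil)))) .nil)) .nil)) .nil)) (.cons 202 (.leaf 226 1623 (.cons 203 (.leaf 178 1431 (.cons 204 (.leaf 180 1437 (.leaf 228 1629 .nil)) .nil)) .nil)) (.cons 300 (.leaf 324 1820 (.cons 202 (.leaf 226 1623 (.cons 203 (.leaf 178 1431 (.leaf 276 1628 .nil)) .nil)) .nil)) (.cons 300 (.leaf 324 1820 (.cons 203 (.leaf 276 1628 (.cons 204 (.leaf 180 1437 (.leaf 228 1629 .nil)) .nil)) .nil)) .nil)))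
noncomputable def t21 : T := .cons 323 (.cons 228 (.leaf 252 1821 (.cons 227 (.leaf 204 1629 (.cons 324 (.leaf 300 1820 (.leaf 348 2012 .nil)) .nil)) .nil)) (.cons 250 (.leaf 226 1815 (.cons 346 (.leaf 322 2006 (.cons 347 (.leaf 274 2007 (.leaf 370 2198 .nil)) .nil)) .nil)) .nil)) (.cons 227 t20 (.cons 323 t19 (.cons 227 t18 (.cons 227 t17 (.cons 323 (.cons 226 (.leaf 250 1815 (.cons 202 (.leaf 227 1623 (.cons 346 (.leaf 322 2006 (.cons 347 (.leaf 370 2198 (.cons 348 (.leaf 324 2012 (.leaf 372 2204 .nil)) .nil)) .nil)) .nil)) .nil)) (.cons 322 (.leaf 346 2006 (.cons 324 (.leaf 348 2012 (.cons 300 (.leaf 227 1820 (.cons 301 (.leaf 302 2386 (.leaf 321 2377 .nil)) .nil)) .nil)) .nil)) (.cons 250 (.leaf 226 1815 (.cons 346 (.leaf 322 2006 (.cons 347 (.leaf 274 2007 (.leaf 370 2198 .nil)) .nil)) .nil)) (.cons 226 (.leaf 250 1815 (.cons 227 (.leaf 202 1623 (.cons 300 (.leaf 324 1820 (.cons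 276 (.leaf 203 1628 (.cons 347 (.leaf 252 2013 (.leaf 371 2205 .nil)) .nil)) .nil)) .nil)) .nil)) .nil)))) (.cons 323 (.cons 228 (.leaf 252 1821 (.cons 227 (.leaf 204 1629 (.cons 324 (.leaf 300 1820 (.leaf 348 2012 .nil)) .nil)) .nil)) (.cons 324 (.leaf 348 2012 (.cons 300 (.leaf 227 1820 (.cons 322 (.leaf 346 2006 (.cons 301 (.leaf 302 2386 (.leaf 321 2377 .nil)) .nil)) .nil)) .nil)) (.cons 252 (.leaf 228 1821 (.cons 346 (.leaf 322 2006 (.cons 347 (.leaf 276 2013 (.leaf 370 2198 .nil)) .nil)) .nil)) .nil))) (.cons 323 (.cons 226 (.leaf 250 1815 (.cons 202 (.leaf 227 1623 (.cons 346 (.leaf 322 2006 (.cons 347 (.leaf 370 2198 (.cons 348 (.leaf 324 2012 (.leaf 372 2204 .nil)) .nil)) .nil)) .nil)) .nil)) (.cons 252 (.leaf 228 1821 (.cons 346 (.leaf 322 2006 (.cons 347 (.leaf 276 2013 (.leaf 370 2198 .nil)) .nil)) .nil)) (.cons 226 (.leaf 250 1815 (.cons 227 (.leaf 202 1623 (.cons 228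 (.leaf 204 1629 (.leaf 252 1821 .nil)) .nil)) .nil)) .nil))) (.cons 323 (.cons 226 (.leaf 250 1815 (.cons 227 (.leaf 202 1623 (.cons 228 (.leaf 204 1629 (.leaf 252 1821 .nil)) .nil)) .nil)) (.cons 250 (.leaf 226 1815 (.cons 346 (.leaf 322 2006 (.cons 347 (.leaf 274 2007 (.leaf 370 2198 .nil)) .nil)) .nil)) (.cons 252 (.leaf 228 1821 (.cons 346 (.leaf 322 2006 (.cons 347 (.leaf 276 2013 (.leaf 370 2198 .nil)) .nil)) .nil)) .nil))) .nil))))))))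
noncomputable def t22 : T := .cons 203 (.cons 180 (.leaf 204 1437 (.cons 202 (.leaf 178 1431 (.cons 299 (.leaf 226 1623 (.cons 300 (.leaf 276 1628 (.leaf 324 1820 .nil)) .nil)) .nil)) .nil)) (.cons 276 (.leaf 300 1628 (.cons 179 (.leaf 252 1436 (.cons 180 (.leaf 204 1437 (.leaf 156 1245 .nil)) .nil)) .nil)) (.cons 202 (.leaf 178 1431 (.cons 180 (.leaf 204 1437 (.cons 156 (.leaf 179 1245 (.cons 299 (.leaf 226 1623 (.cons 322 (.leaf 298 1814 (.cons 323 (.leaf 346 2006 (.cons 324 (.leaf 300 1820 (.leaf 348 2012 .nil)) .nil)) .nil)) .nil)) .nil)) .nil)) .nil)) (.cons 202 (.leaf 178 1431 (.cons 180 (.leaf 204 1437 (.cons 179 (.leaf 156 1245 (.cons 181 (.leaf 182 1426 (.cons 200 (.leaf 201 1409 (.cons 226 (.leaf 299 1623 (.cons 155 (.leaf 250 1238 (.leaf 131 1046 .nil)) .nil)) .nil)) .nil)) .nil)) .nil)) .nil)) (.cons 276 (.leaf 300 1628 (.cons 178 (.leaf 202 1431 (.cons 179 (.leaf 154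 1239 (.leaf 252 1436 .nil)) .nil)) .nil)) .nil))))) (.cons 203 (.cons 178 (.leaf 202 1431 (.cons 179 (.leaf 154 1239 (.cons 180 (.leaf 204 1437 (.leaf 156 1245 .nil)) .nil)) .nil)) (.cons 274 (.leaf 298 1622 (.cons 179 (.leaf 250 1430 (.cons 180 (.leaf 204 1437 (.leaf 156 1245 .nil)) .nil)) .nil)) (.cons 274 (.leaf 298 1622 (.cons 178 (.leaf 202 1431 (.cons 179 (.leaf 154 1239 (.leaf 250 1430 .nil)) .nil)) .nil)) (.cons 202 (.leaf 178 1431 (.cons 180 (.leaf 204 1437 (.cons 274 (.leaf 298 1622 (.cons 299 (.leaf 226 1623 (.cons 324 (.leaf 300 1820 (.cons 323 (.leaf 348 2012 (.cons 346 (.leaf 322 2006 (.cons 347 (.leaf 250 2007 (.leaf 370 2198 .nil)) .nil)) .nil)) .nil)) .nil)) .nil)) .nil)) .nil)) .nil)))) (.cons 203 (.cons 276 (.leaf 300 1628 (.cons 179 (.leaf 252 1436 (.cons 180 (.leaf 204 1437 (.leaf 156 1245 .nil)) .nil)) .nil)) (.cons 202 (.leaf 178 1431 (.cons 180 (.leaf 204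 1437 (.cons 179 (.leaf 156 1245 (.cons 181 (.leaf 182 1426 (.cons 200 (.leaf 201 1409 (.cons 226 (.leaf 299 1623 (.cons 155 (.leaf 250 1238 (.leaf 131 1046 .nil)) .nil)) .nil)) .nil)) .nil)) .nil)) .nil)) (.cons 276 (.leaf 300 1628 (.cons 178 (.leaf 202 1431 (.cons 179 (.leaf 154 1239 (.leaf 252 1436 .nil)) .nil)) .nil)) (.cons 202 (.leaf 178 1431 (.cons 180 (.leaf 204 1437 (.cons 299 (.leaf 226 1623 (.cons 300 (.leaf 276 1628 (.leaf 324 1820 .nil)) .nil)) .nil)) .nil)) .nil)))) (.cons 203 (.cons 178 (.leaf 202 1431 (.cons 180 (.leaf 204 1437 (.cons 298 (.leaf 274 1622 (.cons 299 (.leaf 322 1814 (.cons 300 (.leaf 276 1628 (.leaf 324 1820 .nil)) .nil)) .nil)) .nil)) .nil)) (.cons 178 (.leaf 202 1431 (.cons 179 (.leaf 154 1239 (.cons 180 (.leaf 204 1437 (.leaf 156 1245 .nil)) .nil)) .nil)) (.cons 180 (.leaf 204 1437 (.cons 179 (.leaf 156 1245 (.cons 276 (.leaf 300 1628 (.leaf 252 1436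 .nil)) .nil)) .nil)) (.cons 274 (.leaf 298 1622 (.cons 178 (.leaf 202 1431 (.cons 179 (.leaf 154 1239 (.leaf 250 1430 .nil)) .nil)) .nil)) .nil)))) (.cons 203 (.cons 180 (.leaf 204 1437 (.cons 202 (.leaf 178 1431 (.cons 298 (.leaf 274 1622 (.cons 299 (.leaf 226 1623 (.leaf 322 1814 .nil)) .nil)) .nil)) .nil)) (.cons 178 (.leaf 202 1431 (.cons 179 (.leaf 154 1239 (.cons 180 (.leaf 204 1437 (.leaf 156 1245 .nil)) .nil)) .nil)) (.cons 180 (.leaf 204 1437 (.cons 179 (.leaf 156 1245 (.cons 274 (.leaf 298 1622 (.leaf 250 1430 .nil)) .nil)) .nil)) (.cons 274 (.leaf 298 1622 (.cons 178 (.leaf 202 1431 (.cons 179 (.leaf 154 1239 (.leaf 250 1430 .nil)) .nil)) .nil)) .nil)))) (.cons 203 (.cons 180 (.leaf 204 1437 (.cons 179 (.leaf 156 1245 (.cons 276 (.leaf 300 1628 (.leaf 252 1436 .nil)) .nil)) .nil)) (.cons 274 (.leaf 298 1622 (.cons 179 (.leaf 250 1430 (.cons 180 (.leaf 204 1437 (.leaf 156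 1245 .nil)) .nil)) .nil)) (.cons 274 (.leaf 298 1622 (.cons 179 (.leaf 250 1430 (.cons 276 (.leaf 300 1628 (.leaf 252 1436 .nil)) .nil)) .nil)) (.cons 180 (.leaf 204 1437 (.cons 298 (.leaf 274 1622 (.cons 299 (.leaf 322 1814 (.cons 300 (.leaf 276 1628 (.leaf 324 1820 .nil)) .nil)) .nil)) .nil)) .nil)))) (.cons 203 (.cons 178 (.leaf 202 1431 (.cons 180 (.leaf 204 1437 (.cons 298 (.leaf 274 1622 (.cons 299 (.leaf 322 1814 (.cons 300 (.leaf 276 1628 (.leaf 324 1820 .nil)) .nil)) .nil)) .nil)) .nil)) (.cons 276 (.leaf 300 1628 (.cons 179 (.leaf 252 1436 (.cons 180 (.leaf 204 1437 (.leaf 156 1245 .nil)) .nil)) .nil)) (.cons 178 (.leaf 202 1431 (.cons 179 (.leaf 154 1239 (.cons 180 (.leaf 204 1437 (.leaf 156 1245 .nil)) .nil)) .nil)) (.cons 178 (.leaf 202 1431 (.cons 154 (.leaf 179 1239 (.cons 298 (.leaf 274 1622 (.cons 299 (.leaf 322 1814 (.cons 300 (.leaf 276 1628 (.leaf 324 1820 .nil))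 .nil)) .nil)) .nil)) .nil)) .nil)))) .nil))))))
noncomputable def t23 : T := .cons 203 (.cons 180 (.leaf 204 1437 (.cons 202 (.leaf 178 1431 (.cons 299 (.leaf 226 1623 (.cons 179 (.leaf 156 1245 (.cons 274 (.leaf 298 1622 (.leaf 250 1430 .nil)) .nil)) .nil)) .nil)) .nil)) (.cons 180 (.leaf 204 1437 (.cons 179 (.leaf 156 1245 (.cons 276 (.leaf 300 1628 (.leaf 252 1436 .nil)) .nil)) .nil)) (.cons 274 (.leaf 298 1622 (.cons 179 (.leaf 250 1430 (.cons 276 (.leaf 300 1628 (.leaf 252 1436 .nil)) .nil)) .nil)) (.cons 180 (.leaf 204 1437 (.cons 202 (.leaf 178 1431 (.cons 299 (.leaf 226 1623 (.cons 300 (.leaf 276 1628 (.leaf 324 1820 .nil)) .nil)) .nil)) .nil)) .nil)))) (.cons 299 (.cons 298 (.leaf 322 1814 (.cons 300 (.leaf 324 1820 (.cons 226 (.leaf 202 1623 (.cons 297 (.cons 276 (.leaf 296 2177 (.leaf 277 2185 .nil)) (.cons 272 (.leaf 273 2179 (.cons 296 (.leaf 271 2171 (.cons 320 (.leaf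 319 2362 (.leaf 321 2370 .nil)) .nil)) .nil)) (.cons 272 (.leaf 273 2179 (.cons 277 (.leaf 276 2185 (.cons 301 (.leaf 278 2193 (.cons 274 (.leaf 302 2195 (.cons 321 (.leaf 320 2370 (.leaf 250 1806 .nil)) .nil)) .nil)) .nil)) .nil)) .nil))) .nil)) .nil)) .nil)) (.cons 322 (.leaf 298 1814 (.cons 323 (.leaf 346 2006 (.cons 324 (.leaf 300 1820 (.leaf 348 2012 .nil)) .nil)) .nil)) (.cons 226 (.leaf 202 1623 (.cons 323 (.leaf 250 1815 (.cons 324 (.leaf 300 1820 (.leaf 348 2012 .nil)) .nil)) .nil)) (.cons 226 (.leaf 202 1623 (.cons 322 (.leaf 298 1814 (.cons 323 (.leaf 250 1815 (.leaf 346 2006 .nil)) .nil)) .nil)) .nil)))) (.cons 203 (.cons 274 (.leaf 298 1622 (.cons 179 (.leaf 250 1430 (.cons 276 (.leaf 300 1628 (.leaf 252 1436 .nil)) .nil)) .nil)) (.cons 276 (.leaf 300 1628 (.cons 179 (.leaf 252 1436 (.cons 180 (.leaf 204 1437 (.leaf 156 1245 .nil)) .nil)) .nil)) (.cons 274 (.leaf 298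 1622 (.cons 178 (.leaf 202 1431 (.cons 179 (.leaf 154 1239 (.leaf 250 1430 .nil)) .nil)) .nil)) (.cons 274 (.leaf 298 1622 (.cons 276 (.leaf 300 1628 (.cons 202 (.leaf 178 1431 (.cons 204 (.leaf 180 1437 (.cons 273 (.cons 252 (.leaf 272 1985 (.leaf 253 1993 .nil)) (.cons 248 (.leaf 249 1987 (.cons 272 (.leaf 247 1979 (.cons 296 (.leaf 295 2170 (.leaf 297 2178 .nil)) .nil)) .nil)) (.cons 248 (.leaf 249 1987 (.cons 253 (.leaf 252 1993 (.cons 277 (.leaf 254 2001 (.cons 250 (.leaf 278 2003 (.cons 297 (.leaf 296 2178 (.leaf 226 1614 .nil)) .nil)) .nil)) .nil)) .nil)) .nil))) .nil)) .nil)) .nil)) .nil)) .nil)))) t22))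
noncomputable def t24 : T := .cons 178 (.leaf 202 1431 (.cons 204 (.leaf 180 1437 (.cons 276 (.leaf 300 1628 (.cons 299 (.leaf 228 1629 (.cons 179 (.leaf 154 1239 (.leaf 252 1436 .nil)) .nil)) .nil)) .nil)) .nil)) (.cons 204 (.leaf 180 1437 (.cons 178 (.leaf 202 1431 (.cons 179 (.leaf 154 1239 (.cons 176 (.leaf 177 1408 (.cons 205 (.leaf 206 1427 (.cons 228 (.leaf 299 1629 (.cons 155 (.leaf 252 1244 (.leaf 131 1052 .nil)) .nil)) .nil)) .nil)) .nil)) .nil)) .nil)) (.cons 276 (.leaf 300 1628 (.cons 178 (.leaf 202 1431 (.cons 179 (.leaf 154 1239 (.leaf 252 1436 .nil)) .nil)) .nil)) (.cons 276 (.leaf 300 1628 (.cons 179 (.leaf 252 1436 (.cons 180 (.leaf 204 1437 (.leaf 156 1245 .nil)) .nil)) .nil)) (.cons 204 (.leaf 180 1437 (.cons 178 (.leaf 202 1431 (.cons 276 (.leaf 300 1628 (.cons 299 (.leaf 228 1629 (.cons 322 (.leaf 298 1814 (.cons 323 (.leaf 346 2006 (.cons 347 (.leaf 252 2013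 (.cons 348 (.leaf 324 2012 (.leaf 372 2204 .nil)) .nil)) .nil)) .nil)) .nil)) .nil)) .nil)) .nil)) (.cons 204 (.leaf 180 1437 (.cons 178 (.leaf 202 1431 (.cons 154 (.leaf 179 1239 (.cons 299 (.leaf 228 1629 (.cons 300 (.leaf 276 1628 (.leaf 324 1820 .nil)) .nil)) .nil)) .nil)) .nil)) .nil)))))
noncomputable def t25 : T := .cons 180 (.leaf 204 1437 (.cons 179 (.leaf 156 1245 (.cons 274 (.leaf 298 1622 (.leaf 250 1430 .nil)) .nil)) .nil)) (.cons 274 (.leaf 298 1622 (.cons 178 (.leaf 202 1431 (.cons 179 (.leaf 154 1239 (.leaf 250 1430 .nil)) .nil)) .nil)) (.cons 204 (.leaf 180 1437 (.cons 178 (.leaf 202 1431 (.cons 154 (.leaf 179 1239 (.cons 299 (.leaf 228 1629 (.cons 322 (.leaf 298 1814 (.cons 323 (.leaf 346 2006 (.cons 324 (.leaf 300 1820 (.leaf 348 2012 .nil)) .nil)) .nil)) .nil)) .nil)) .nil)) .nil)) (.cons 204 (.leaf 180 1437 (.cons 178 (.leaf 202 1431 (.cons 179 (.leaf 154 1239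 (.cons 176 (.leaf 177 1408 (.cons 205 (.leaf 206 1427 (.cons 228 (.leaf 299 1629 (.cons 155 (.leaf 252 1244 (.leaf 131 1052 .nil)) .nil)) .nil)) .nil)) .nil)) .nil)) .nil)) (.cons 204 (.leaf 180 1437 (.cons 178 (.leaf 202 1431 (.cons 274 (.leaf 298 1622 (.cons 299 (.leaf 228 1629 (.cons 324 (.leaf 300 1820 (.cons 323 (.leaf 348 2012 (.cons 346 (.leaf 322 2006 (.cons 347 (.leaf 250 2007 (.leaf 370 2198 .nil)) .nil)) .nil)) .nil)) .nil)) .nil)) .nil)) .nil)) .nil))))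
noncomputable def t26 : T := .cons 298 (.leaf 322 1814 (.cons 300 (.leaf 324 1820 (.cons 228 (.leaf 204 1629 (.cons 297 (.cons 276 (.leaf 296 2177 (.leaf 277 2185 .nil)) (.cons 272 (.leaf 273 2179 (.cons 296 (.leaf 271 2171 (.cons 320 (.leaf 319 2362 (.leaf 321 2370 .nil)) .nil)) .nil)) (.cons 273 (.leaf 272 2179 (.cons 274 (.leaf 301 2187 (.cons 276 (.leaf 277 2185 (.cons 248 (.leaf 249 1987 (.cons 252 (.leaf 323 1821 (.leaf 253 1993 .nil)) .nil)) .nil)) .nil)) .nil)) .nil))) .nil)) .nil)) .nil)) (.cons 322 (.leaf 298 1814 (.cons 323 (.leaf 346 2006 (.cons 324 (.leaf 300 1820 (.leaf 348 2012 .nil)) .nil)) .nil)) (.cons 228 (.leaf 204 1629 (.cons 323 (.leaf 252 1821 (.cons 324 (.leaf 300 1820 (.leaf 348 2012 .nil)) .nil)) .nil)) (.cons 228 (.leaf 204 1629 (.cons 322 (.leaf 298 1814 (.cons 323 (.leaf 252 1821 (.leaf 346 2006 .nil)) .nil)) .nil)) (.cons 298 (.leaf 322 1814 (.cons 300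 (.leaf 324 1820 (.cons 228 (.leaf 204 1629 (.cons 297 (.cons 276 (.leaf 296 2177 (.leaf 277 2185 .nil)) (.cons 272 (.leaf 273 2179 (.cons 296 (.leaf 271 2171 (.cons 320 (.leaf 319 2362 (.leaf 321 2370 .nil)) .nil)) .nil)) (.cons 273 (.leaf 272 2179 (.cons 274 (.leaf 301 2187 (.cons 276 (.leaf 277 2185 (.cons 248 (.leaf 249 1987 (.cons 252 (.leaf 253 1993 (.cons 229 (.leaf 205 1637 (.cons 230 (.leaf 250 1810 (.leaf 231 1818 .nil)) .nil)) .nil)) .nil)) .nil)) .nil)) .nil)) .nil))) .nil)) .nil)) .nil)) .nil))))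
noncomputable def t27 : T := .cons 203 (.cons 178 (.leaf 202 1431 (.cons 179 (.leaf 154 1239 (.cons 180 (.leaf 204 1437 (.leaf 156 1245 .nil)) .nil)) .nil)) (.cons 178 (.leaf 202 1431 (.cons 179 (.leaf 154 1239 (.cons 274 (.leaf 298 1622 (.leaf 250 1430 .nil)) .nil)) .nil)) (.cons 180 (.leaf 204 1437 (.cons 298 (.leaf 274 1622 (.cons 299 (.leaf 322 1814 (.cons 300 (.leaf 276 1628 (.leaf 324 1820 .nil)) .nil)) .nil)) .nil)) .nil))) (.cons 299 t26 (.cons 203 (.cons 276 (.leaf 300 1628 (.cons 179 (.leaf 252 1436 (.cons 180 (.leaf 204 1437 (.leaf 156 1245 .nil)) .nil)) .nil)) (.cons 180 (.leaf 204 1437 (.cons 179 (.leaf 156 1245 (.cons 274 (.leaf 298 1622 (.leaf 250 1430 .nil)) .nil)) .nil)) (.cons 276 (.leaf 300 1628 (.cons 178 (.leaf 202 1431 (.cons 179 (.leaf 154 1239 (.leaf 252 1436 .nil)) .nil)) .nil)) (.cons 276 (.leaf 300 1628 (.cons 274 (.leaf 298 1622 (.cons 204 (.leaf 180 1437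 (.cons 202 (.leaf 178 1431 (.cons 277 (.cons 250 (.leaf 249 1995 (.leaf 278 2003 .nil)) (.cons 253 (.leaf 254 2001 (.cons 252 (.leaf 273 1993 (.cons 301 (.leaf 302 2192 (.leaf 228 1636 .nil)) .nil)) .nil)) .nil)) .nil)) .nil)) .nil)) .nil)) .nil)))) (.cons 203 t25 (.cons 203 t24 (.cons 203 (.cons 178 (.leaf 202 1431 (.cons 179 (.leaf 154 1239 (.cons 180 (.leaf 204 1437 (.leaf 156 1245 .nil)) .nil)) .nil)) (.cons 178 (.leaf 202 1431 (.cons 179 (.leaf 154 1239 (.cons 274 (.leaf 298 1622 (.leaf 250 1430 .nil)) .nil)) .nil)) (.cons 180 (.leaf 204 1437 (.cons 179 (.leaf 156 1245 (.cons 274 (.leaf 298 1622 (.leaf 250 1430 .nil)) .nil)) .nil)) (.cons 178 (.leaf 202 1431 (.cons 204 (.leaf 180 1437 (.cons 298 (.leaf 274 1622 (.cons 299 (.leaf 228 1629 (.leaf 322 1814 .nil)) .nil)) .nil)) .nil)) .nil)))) (.cons 203 (.cons 180 (.leaf 204 1437 (.cons 179 (.leaf 156 1245 (.cons 276 (.leaf 300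 1628 (.leaf 252 1436 .nil)) .nil)) .nil)) (.cons 204 (.leaf 180 1437 (.cons 178 (.leaf 202 1431 (.cons 179 (.leaf 154 1239 (.cons 176 (.leaf 177 1408 (.cons 205 (.leaf 206 1427 (.cons 228 (.leaf 299 1629 (.cons 155 (.leaf 252 1244 (.leaf 131 1052 .nil)) .nil)) .nil)) .nil)) .nil)) .nil)) .nil)) (.cons 276 (.leaf 300 1628 (.cons 178 (.leaf 202 1431 (.cons 179 (.leaf 154 1239 (.leaf 252 1436 .nil)) .nil)) .nil)) (.cons 178 (.leaf 202 1431 (.cons 204 (.leaf 180 1437 (.cons 299 (.leaf 228 1629 (.cons 300 (.leaf 276 1628 (.leaf 324 1820 .nil)) .nil)) .nil)) .nil)) .nil)))) (.cons 203 (.cons 178 (.leaf 202 1431 (.cons 179 (.leaf 154 1239 (.cons 274 (.leaf 298 1622 (.leaf 250 1430 .nil)) .nil)) .nil)) (.cons 276 (.leaf 300 1628 (.cons 178 (.leaf 202 1431 (.cons 179 (.leaf 154 1239 (.leaf 252 1436 .nil)) .nil)) .nil)) (.cons 274 (.leaf 298 1622 (.cons 179 (.leaf 250 1430 (.cons 276 (.leaf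 300 1628 (.leaf 252 1436 .nil)) .nil)) .nil)) (.cons 178 (.leaf 202 1431 (.cons 298 (.leaf 274 1622 (.cons 299 (.leaf 322 1814 (.cons 300 (.leaf 276 1628 (.leaf 324 1820 .nil)) .nil)) .nil)) .nil)) .nil)))) .nil)))))))
noncomputable def t28 : T := .cons 202 (.leaf 178 1431 (.cons 204 (.leaf 180 1437 (.cons 276 (.leaf 300 1628 (.cons 201 (.cons 228 (.leaf 200 1600 (.leaf 229 1608 .nil)) (.cons 274 (.leaf 298 1622 (.cons 176 (.leaf 177 1411 (.cons 200 (.leaf 175 1403 (.cons 224 (.leaf 223 1594 (.leaf 225 1602 .nil)) .nil)) .nil)) .nil)) (.cons 229 (.leaf 228 1608 (.cons 176 (.leaf 177 1411 (.cons 205 (.leaf 230 1616 (.cons 225 (.leaf 224 1602 (.leaf 226 1610 .nil)) .nil)) .nil)) .nil)) .nil))) .nil)) .nil)) .nil)) (.cons 202 (.leaf 178 1431 (.cons 204 (.leaf 180 1437 (.cons 276 (.leaf 300 1628 (.cons 201 (.cons 228 (.leaf 200 1600 (.leaf 229 1608 .nil)) (.cons 225 (.leaf 224 1602 (.cons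 176 (.leaf 177 1411 (.cons 175 (.leaf 200 1403 (.cons 205 (.leaf 226 1610 (.cons 182 (.leaf 181 1425 (.cons 206 (.leaf 183 1433 (.cons 230 (.leaf 229 1616 (.leaf 231 1624 .nil)) .nil)) .nil)) .nil)) .nil)) .nil)) .nil)) (.cons 228 (.leaf 229 1608 (.cons 179 (.leaf 252 1436 (.cons 131 (.leaf 155 1052 (.cons 225 (.leaf 224 1602 (.cons 205 (.leaf 226 1609 (.cons 176 (.leaf 177 1411 (.cons 182 (.leaf 181 1425 (.cons 206 (.leaf 207 1626 (.leaf 183 1433 .nil)) .nil)) .nil)) .nil)) .nil)) .nil)) .nil)) .nil)) (.cons 200 (.leaf 228 1600 (.cons 176 (.leaf 175 1403 (.leaf 177 1411 .nil)) .nil)) .nil)))) .nil)) .nil)) .nil)) (.cons 274 (.leaf 298 1622 (.cons 178 (.leaf 202 1431 (.cons 179 (.leaf 154 1239 (.leaf 250 1430 .nil)) .nil)) .nil)) (.cons 276 (.leaf 300 1628 (.cons 179 (.leaf 252 1436 (.cons 180 (.leaf 204 1437 (.leaf 156 1245 .nil)) .nil)) .nil)) .nil)))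
noncomputable def t29 : T := .cons 226 (.leaf 202 1623 (.cons 228 (.leaf 204 1629 (.cons 300 (.leaf 324 1820 (.cons 225 (.cons 200 (.leaf 201 1603 (.cons 199 (.leaf 224 1595 (.cons 249 (.leaf 248 1794 (.cons 229 (.leaf 250 1802 (.cons 206 (.leaf 205 1617 (.cons 230 (.leaf 207 1625 (.cons 254 (.leaf 253 1808 (.leaf 255 1816 .nil)) .nil)) .nil)) .nil)) .nil)) .nil)) .nil)) (.cons 200 (.leaf 201 1603 (.cons 224 (.leaf 252 1792 (.leaf 199 1595 .nil)) .nil)) (.cons 200 (.leaf 201 1603 (.cons 248 (.leaf 249 1794 (.cons 253 (.leaf 252 1800 (.cons 229 (.leaf 254 1808 (.cons 206 (.leaf 205 1617 (.cons 230 (.leaf 250 1810 (.leaf 207 1625 .nil)) .nil)) .nil)) .nil)) .nil)) .nil)) (.cons 252 (.leaf 224 1792 (.leaf 253 1800 .nil)) .nil)))) .nil)) .nil)) .nil)) (.cons 298 (.leaf 322 1814 (.cons 300 (.leaf 324 1820 (.cons 228 (.leaf 204 1629 (.cons 297 (.cons 276 (.leaf 296 2177 (.leaf 277 2185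 .nil)) (.cons 272 (.leaf 273 2179 (.cons 296 (.leaf 271 2171 (.cons 320 (.leaf 319 2362 (.leaf 321 2370 .nil)) .nil)) .nil)) (.cons 273 (.leaf 272 2179 (.cons 274 (.leaf 301 2187 (.cons 276 (.leaf 277 2185 (.cons 248 (.leaf 249 1987 (.cons 252 (.leaf 253 1993 (.cons 229 (.leaf 205 1637 (.cons 230 (.leaf 250 1810 (.leaf 231 1818 .nil)) .nil)) .nil)) .nil)) .nil)) .nil)) .nil)) .nil))) .nil)) .nil)) .nil)) (.cons 298 (.leaf 322 1814 (.cons 300 (.leaf 324 1820 (.cons 226 (.leaf 202 1623 (.cons 297 (.cons 276 (.leaf 296 2177 (.leaf 277 2185 .nil)) (.cons 272 (.leaf 273 2179 (.cons 296 (.leaf 271 2171 (.cons 320 (.leaf 319 2362 (.leaf 321 2370 .nil)) .nil)) .nil)) (.cons 272 (.leaf 273 2179 (.cons 277 (.leaf 276 2185 (.cons 301 (.leaf 278 2193 (.cons 274 (.leaf 302 2195 (.cons 321 (.leaf 320 2370 (.leaf 250 1806 .nil)) .nil)) .nil)) .nil)) .nil)) .nil))) .nil)) .nil)) .nil)) (.cons 226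 (.leaf 202 1623 (.cons 228 (.leaf 204 1629 (.cons 298 (.leaf 322 1814 (.cons 225 (.cons 200 (.leaf 201 1603 (.cons 199 (.leaf 224 1595 (.cons 249 (.leaf 248 1794 (.cons 229 (.leaf 250 1802 (.cons 206 (.leaf 205 1617 (.cons 230 (.leaf 207 1625 (.cons 254 (.leaf 253 1808 (.leaf 255 1816 .nil)) .nil)) .nil)) .nil)) .nil)) .nil)) .nil)) (.cons 200 (.leaf 201 1603 (.cons 224 (.leaf 252 1792 (.leaf 199 1595 .nil)) .nil)) (.cons 200 (.leaf 201 1603 (.cons 248 (.leaf 249 1794 (.cons 253 (.leaf 252 1800 (.cons 229 (.leaf 254 1808 (.cons 206 (.leaf 205 1617 (.cons 230 (.leaf 250 1810 (.leaf 207 1625 .nil)) .nil)) .nil)) .nil)) .nil)) .nil)) (.cons 252 (.leaf 224 1792 (.leaf 253 1800 .nil)) .nil)))) .nil)) .nil)) .nil)) (.cons 300 (.leaf 324 1820 (.cons 298 (.leaf 322 1814 (.cons 228 (.leaf 204 1629 (.cons 226 (.leaf 202 1623 (.cons 225 (.cons 200 (.leaf 201 1603 (.cons 224 (.leaf 252 1792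 (.leaf 199 1595 .nil)) .nil)) (.cons 248 (.leaf 249 1794 (.cons 200 (.leaf 201 1603 (.cons 224 (.leaf 199 1595 (.leaf 247 1786 .nil)) .nil)) .nil)) (.cons 200 (.leaf 201 1603 (.cons 253 (.leaf 252 1800 (.cons 229 (.leaf 254 1808 (.cons 205 (.leaf 206 1617 (.cons 277 (.leaf 276 1638 (.cons 278 (.leaf 301 2193 (.leaf 302 1644 .nil)) .nil)) .nil)) .nil)) .nil)) .nil)) (.cons 252 (.leaf 224 1792 (.leaf 253 1800 .nil)) .nil)))) .nil)) .nil)) .nil)) .nil)) .nil))))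
noncomputable def t30 : T := .cons 203 (.cons 178 (.leaf 202 1431 (.cons 179 (.leaf 154 1239 (.cons 180 (.leaf 204 1437 (.leaf 156 1245 .nil)) .nil)) .nil)) (.cons 276 (.leaf 300 1628 (.cons 179 (.leaf 252 1436 (.cons 180 (.leaf 204 1437 (.leaf 156 1245 .nil)) .nil)) .nil)) (.cons 178 (.leaf 202 1431 (.cons 179 (.leaf 154 1239 (.cons 274 (.leaf 298 1622 (.leaf 250 1430 .nil)) .nil)) .nil)) (.cons 178 (.leaf 202 1431 (.cons 298 (.leaf 274 1622 (.cons 299 (.leaf 322 1814 (.cons 300 (.leaf 276 1628 (.leaf 324 1820 .nil)) .nil)) .nil)) .nil)) .nil)))) (.cons 299 t29 (.cons 203 t28 (.cons 203 (.cons 178 (.leaf 202 1431 (.cons 179 (.leaf 154 1239 (.cons 180 (.leaf 204 1437 (.leaf 156 1245 .nil)) .nil)) .nil)) (.cons 178 (.leaf 202 1431 (.cons 179 (.leaf 154 1239 (.cons 276 (.leaf 300 1628 (.leaf 252 1436 .nil)) .nil)) .nil)) (.cons 204 (.leaf 180 1437 (.cons 228 (.leaf 299 1629 (.cons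 276 (.leaf 300 1628 (.cons 179 (.leaf 252 1436 (.cons 154 (.leaf 178 1239 (.cons 155 (.leaf 130 1047 (.leaf 131 1052 .nil)) .nil)) .nil)) .nil)) .nil)) .nil)) (.cons 204 (.leaf 180 1437 (.cons 228 (.leaf 299 1629 (.cons 276 (.leaf 300 1628 (.cons 179 (.leaf 252 1436 (.cons 155 (.leaf 131 1052 (.cons 130 (.leaf 154 1047 (.cons 132 (.leaf 156 1053 (.cons 226 (.leaf 250 1238 (.cons 205 (.leaf 206 1618 (.leaf 225 1609 .nil)) .nil)) .nil)) .nil)) .nil)) .nil)) .nil)) .nil)) .nil)) (.cons 178 (.leaf 202 1431 (.cons 204 (.leaf 180 1437 (.cons 299 (.leaf 228 1629 (.cons 300 (.leaf 276 1628 (.leaf 324 1820 .nil)) .nil)) .nil)) .nil)) .nil))))) (.cons 203 (.cons 178 (.leaf 202 1431 (.cons 179 (.leaf 154 1239 (.cons 180 (.leaf 204 1437 (.leaf 156 1245 .nil)) .nil)) .nil)) (.cons 180 (.leaf 204 1437 (.cons 179 (.leaf 156 1245 (.cons 274 (.leaf 298 1622 (.leaf 250 1430 .nil)) .nil)) .nil)) (.cons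 178 (.leaf 202 1431 (.cons 179 (.leaf 154 1239 (.cons 274 (.leaf 298 1622 (.leaf 250 1430 .nil)) .nil)) .nil)) (.cons 178 (.leaf 202 1431 (.cons 204 (.leaf 180 1437 (.cons 298 (.leaf 274 1622 (.cons 299 (.leaf 228 1629 (.leaf 322 1814 .nil)) .nil)) .nil)) .nil)) .nil)))) (.cons 203 (.cons 180 (.leaf 204 1437 (.cons 298 (.leaf 274 1622 (.cons 299 (.leaf 322 1814 (.cons 300 (.leaf 276 1628 (.leaf 324 1820 .nil)) .nil)) .nil)) .nil)) (.cons 204 (.leaf 180 1437 (.cons 228 (.leaf 299 1629 (.cons 274 (.leaf 298 1622 (.cons 179 (.leaf 250 1430 (.cons 155 (.leaf 252 1244 (.leaf 131 1052 .nil)) .nil)) .nil)) .nil)) .nil)) (.cons 204 (.leaf 180 1437 (.cons 228 (.leaf 299 1629 (.cons 276 (.leaf 300 1628 (.cons 179 (.leaf 252 1436 (.cons 154 (.leaf 178 1239 (.cons 155 (.leaf 130 1047 (.leaf 131 1052 .nil)) .nil)) .nil)) .nil)) .nil)) .nil)) (.cons 274 (.leaf 298 1622 (.cons 179 (.leaf 250 1430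 (.cons 276 (.leaf 300 1628 (.leaf 252 1436 .nil)) .nil)) .nil)) .nil)))) (.cons 203 (.cons 178 (.leaf 202 1431 (.cons 179 (.leaf 154 1239 (.cons 274 (.leaf 298 1622 (.leaf 250 1430 .nil)) .nil)) .nil)) (.cons 178 (.leaf 202 1431 (.cons 179 (.leaf 154 1239 (.cons 276 (.leaf 300 1628 (.leaf 252 1436 .nil)) .nil)) .nil)) (.cons 274 (.leaf 298 1622 (.cons 179 (.leaf 250 1430 (.cons 276 (.leaf 300 1628 (.leaf 252 1436 .nil)) .nil)) .nil)) (.cons 178 (.leaf 202 1431 (.cons 298 (.leaf 274 1622 (.cons 299 (.leaf 322 1814 (.cons 300 (.leaf 276 1628 (.leaf 324 1820 .nil)) .nil)) .nil)) .nil)) .nil)))) (.cons 203 (.cons 178 (.leaf 202 1431 (.cons 179 (.leaf 154 1239 (.cons 180 (.leaf 204 1437 (.leaf 156 1245 .nil)) .nil)) .nil)) (.cons 178 (.leaf 202 1431 (.cons 179 (.leaf 154 1239 (.cons 276 (.leaf 300 1628 (.leaf 252 1436 .nil)) .nil)) .nil)) (.cons 180 (.leaf 204 1437 (.cons 298 (.leaf 274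 1622 (.cons 299 (.leaf 322 1814 (.cons 300 (.leaf 276 1628 (.leaf 324 1820 .nil)) .nil)) .nil)) .nil)) .nil))) .nil)))))))
noncomputable def t31 : T := .cons 300 (.leaf 324 1820 (.cons 298 (.leaf 322 1814 (.cons 228 (.leaf 204 1629 (.cons 226 (.leaf 202 1623 (.cons 225 (.cons 200 (.leaf 201 1603 (.cons 224 (.leaf 252 1792 (.leaf 199 1595 .nil)) .nil)) (.cons 248 (.leaf 249 1794 (.cons 200 (.leaf 201 1603 (.cons 224 (.leaf 199 1595 (.leaf 247 1786 .nil)) .nil)) .nil)) (.cons 200 (.leaf 201 1603 (.cons 249 (.leaf 248 1794 (.cons 229 (.leaf 250 1802 (.cons 253 (.leaf 252 1800 (.leaf 254 1808 .nil)) .nil)) .nil)) .nil)) (.cons 252 (.leaf 224 1792 (.leaf 253 1800 .nil)) .nil)))) .nil)) .nil)) .nil)) .nil)) (.cons 298 (.leaf 322 1814 (.cons 300 (.leaf 324 1820 (.cons 228 (.leaf 204 1629 (.cons 297 (.cons 276 (.leaf 296 2177 (.leaf 277 2185 .nil)) (.cons 272 (.leaf 273 2179 (.cons 296 (.leaf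 271 2171 (.cons 320 (.leaf 319 2362 (.leaf 321 2370 .nil)) .nil)) .nil)) (.cons 273 (.leaf 272 2179 (.cons 274 (.leaf 301 2187 (.cons 276 (.leaf 277 2185 (.cons 248 (.leaf 249 1987 (.cons 252 (.leaf 253 1993 (.cons 229 (.leaf 205 1637 (.cons 230 (.leaf 250 1810 (.leaf 231 1818 .nil)) .nil)) .nil)) .nil)) .nil)) .nil)) .nil)) .nil))) .nil)) .nil)) .nil)) (.cons 298 (.leaf 322 1814 (.cons 300 (.leaf 324 1820 (.cons 226 (.leaf 202 1623 (.cons 297 (.cons 276 (.leaf 296 2177 (.leaf 277 2185 .nil)) (.cons 272 (.leaf 273 2179 (.cons 296 (.leaf 271 2171 (.cons 320 (.leaf 319 2362 (.leaf 321 2370 .nil)) .nil)) .nil)) (.cons 272 (.leaf 273 2179 (.cons 277 (.leaf 276 2185 (.cons 301 (.leaf 278 2193 (.cons 274 (.leaf 302 2195 (.cons 321 (.leaf 320 2370 (.leaf 250 1806 .nil)) .nil)) .nil)) .nil)) .nil)) .nil))) .nil)) .nil)) .nil)) (.cons 226 (.leaf 202 1623 (.cons 228 (.leaf 204 1629 (.cons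 300 (.leaf 324 1820 (.cons 225 (.cons 200 (.leaf 201 1603 (.cons 199 (.leaf 224 1595 (.cons 249 (.leaf 248 1794 (.cons 229 (.leaf 250 1802 (.cons 206 (.leaf 205 1617 (.cons 230 (.leaf 207 1625 (.cons 254 (.leaf 253 1808 (.leaf 255 1816 .nil)) .nil)) .nil)) .nil)) .nil)) .nil)) .nil)) (.cons 200 (.leaf 201 1603 (.cons 248 (.leaf 249 1794 (.cons 253 (.leaf 252 1800 (.cons 229 (.leaf 254 1808 (.cons 206 (.leaf 205 1617 (.cons 230 (.leaf 250 1810 (.leaf 207 1625 .nil)) .nil)) .nil)) .nil)) .nil)) .nil)) (.cons 200 (.leaf 201 1603 (.cons 224 (.leaf 252 1792 (.leaf 199 1595 .nil)) .nil)) (.cons 252 (.leaf 224 1792 (.leaf 253 1800 .nil)) .nil)))) .nil)) .nil)) .nil)) (.cons 226 (.leaf 202 1623 (.cons 228 (.leaf 204 1629 (.cons 298 (.leaf 322 1814 (.cons 225 (.cons 200 (.leaf 201 1603 (.cons 199 (.leaf 224 1595 (.cons 249 (.leaf 248 1794 (.cons 229 (.leaf 250 1802 (.cons 206 (.leaf 205 1617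 (.cons 230 (.leaf 207 1625 (.cons 254 (.leaf 253 1808 (.leaf 255 1816 .nil)) .nil)) .nil)) .nil)) .nil)) .nil)) .nil)) (.cons 200 (.leaf 201 1603 (.cons 224 (.leaf 252 1792 (.leaf 199 1595 .nil)) .nil)) (.cons 200 (.leaf 201 1603 (.cons 248 (.leaf 249 1794 (.cons 253 (.leaf 252 1800 (.cons 229 (.leaf 254 1808 (.cons 206 (.leaf 205 1617 (.cons 230 (.leaf 250 1810 (.leaf 207 1625 .nil)) .nil)) .nil)) .nil)) .nil)) .nil)) (.cons 252 (.leaf 224 1792 (.leaf 253 1800 .nil)) .nil)))) .nil)) .nil)) .nil)) (.cons 300 (.leaf 324 1820 (.cons 298 (.leaf 322 1814 (.cons 228 (.leaf 204 1629 (.cons 226 (.leaf 202 1623 (.cons 225 (.cons 200 (.leaf 201 1603 (.cons 224 (.leaf 252 1792 (.leaf 199 1595 .nil)) .nil)) (.cons 248 (.leaf 249 1794 (.cons 200 (.leaf 201 1603 (.cons 224 (.leaf 199 1595 (.leaf 247 1786 .nil)) .nil)) .nil)) (.cons 200 (.leaf 201 1603 (.cons 253 (.leaf 252 1800 (.cons 229 (.leaf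 254 1808 (.cons 205 (.leaf 206 1617 (.cons 277 (.leaf 276 1638 (.cons 278 (.leaf 301 2193 (.leaf 302 1644 .nil)) .nil)) .nil)) .nil)) .nil)) .nil)) (.cons 252 (.leaf 224 1792 (.leaf 253 1800 .nil)) .nil)))) .nil)) .nil)) .nil)) .nil)) .nil)))))
noncomputable def t32 : T := .cons 323 (.cons 228 (.leaf 252 1821 (.cons 227 (.leaf 204 1629 (.cons 324 (.leaf 300 1820 (.leaf 348 2012 .nil)) .nil)) .nil)) (.cons 226 (.leaf 250 1815 (.cons 227 (.leaf 202 1623 (.cons 322 (.leaf 298 1814 (.leaf 346 2006 .nil)) .nil)) .nil)) (.cons 226 (.leaf 250 1815 (.cons 252 (.leaf 228 1821 (.cons 347 (.leaf 276 2013 (.cons 348 (.leaf 324 2012 (.leaf 372 2204 .nil)) .nil)) .nil)) .nil)) .nil))) (.cons 227 t31 (.cons 323 (.cons 252 (.leaf 228 1821 (.cons 346 (.leaf 322 2006 (.cons 347 (.leaf 276 2013 (.leaf 370 2198 .nil)) .nil)) .nil)) (.cons 250 (.leaf 226 1815 (.cons 346 (.leaf 322 2006 (.cons 347 (.leaf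 274 2007 (.leaf 370 2198 .nil)) .nil)) .nil)) (.cons 252 (.leaf 228 1821 (.cons 347 (.leaf 276 2013 (.cons 348 (.leaf 324 2012 (.leaf 372 2204 .nil)) .nil)) .nil)) (.cons 250 (.leaf 226 1815 (.cons 252 (.leaf 228 1821 (.cons 322 (.leaf 346 2006 (.cons 324 (.leaf 348 2012 (.cons 321 (.cons 296 (.leaf 297 2371 (.cons 320 (.leaf 300 2369 (.leaf 295 2363 .nil)) .nil)) (.cons 297 (.leaf 296 2371 (.cons 298 (.leaf 325 2379 (.cons 345 (.leaf 344 2562 (.leaf 274 1998 .nil)) .nil)) .nil)) (.cons 300 (.leaf 320 2369 (.leaf 301 2377 .nil)) .nil))) .nil)) .nil)) .nil)) .nil)) .nil)))) (.cons 323 (.cons 322 (.leaf 346 2006 (.cons 227 (.leaf 298 1814 (.cons 324 (.leaf 300 1820 (.leaf 348 2012 .nil)) .nil)) .nil)) (.cons 252 (.leaf 228 1821 (.cons 347 (.leaf 276 2013 (.cons 348 (.leaf 324 2012 (.leaf 372 2204 .nil)) .nil)) .nil)) (.cons 228 (.leaf 252 1821 (.cons 227 (.leaf 204 1629 (.cons 322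 (.leaf 298 1814 (.leaf 346 2006 .nil)) .nil)) .nil)) .nil))) (.cons 323 (.cons 226 (.leaf 250 1815 (.cons 346 (.leaf 322 2006 (.cons 347 (.leaf 370 2198 (.cons 348 (.leaf 324 2012 (.leaf 372 2204 .nil)) .nil)) .nil)) .nil)) (.cons 226 (.leaf 250 1815 (.cons 227 (.leaf 202 1623 (.cons 324 (.leaf 300 1820 (.leaf 348 2012 .nil)) .nil)) .nil)) (.cons 322 (.leaf 346 2006 (.cons 227 (.leaf 298 1814 (.cons 324 (.leaf 300 1820 (.leaf 348 2012 .nil)) .nil)) .nil)) (.cons 226 (.leaf 250 1815 (.cons 227 (.leaf 202 1623 (.cons 322 (.leaf 298 1814 (.leaf 346 2006 .nil)) .nil)) .nil)) .nil)))) (.cons 323 (.cons 226 (.leaf 250 1815 (.cons 252 (.leaf 228 1821 (.cons 347 (.leaf 276 2013 (.cons 348 (.leaf 324 2012 (.leaf 372 2204 .nil)) .nil)) .nil)) .nil)) (.cons 250 (.leaf 226 1815 (.cons 347 (.leaf 274 2007 (.cons 348 (.leaf 324 2012 (.leaf 372 2204 .nil)) .nil)) .nil)) (.cons 252 (.leaf 228 1821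 (.cons 347 (.leaf 276 2013 (.cons 348 (.leaf 324 2012 (.leaf 372 2204 .nil)) .nil)) .nil)) (.cons 250 (.leaf 226 1815 (.cons 228 (.leaf 252 1821 (.cons 204 (.leaf 227 1629 (.cons 347 (.leaf 274 2007 (.cons 370 (.leaf 346 2198 (.cons 371 (.leaf 394 2390 (.cons 372 (.leaf 348 2204 (.leaf 396 2396 .nil)) .nil)) .nil)) .nil)) .nil)) .nil)) .nil)) (.cons 252 (.leaf 228 1821 (.cons 250 (.leaf 226 1815 (.cons 347 (.leaf 274 2007 (.leaf 276 2013 .nil)) .nil)) .nil)) (.cons 324 (.leaf 348 2012 (.cons 226 (.leaf 250 1815 (.cons 227 (.leaf 202 1623 (.leaf 300 1820 .nil)) .nil)) .nil)) .nil)))))) (.cons 323 (.cons 226 (.leaf 250 1815 (.cons 252 (.leaf 228 1821 (.cons 347 (.leaf 276 2013 (.cons 348 (.leaf 324 2012 (.leaf 372 2204 .nil)) .nil)) .nil)) .nil)) (.cons 228 (.leaf 252 1821 (.cons 227 (.leaf 204 1629 (.cons 322 (.leaf 298 1814 (.leaf 346 2006 .nil)) .nil)) .nil)) (.cons 226 (.leaf 250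 1815 (.cons 202 (.leaf 227 1623 (.cons 346 (.leaf 322 2006 (.cons 347 (.leaf 370 2198 (.cons 348 (.leaf 324 2012 (.leaf 372 2204 .nil)) .nil)) .nil)) .nil)) .nil)) .nil))) (.cons 323 (.cons 226 (.leaf 250 1815 (.cons 202 (.leaf 227 1623 (.cons 252 (.leaf 228 1821 (.cons 347 (.leaf 276 2013 (.cons 370 (.leaf 346 2198 (.cons 371 (.leaf 394 2390 (.cons 372 (.leaf 348 2204 (.leaf 396 2396 .nil)) .nil)) .nil)) .nil)) .nil)) .nil)) .nil)) (.cons 322 (.leaf 346 2006 (.cons 227 (.leaf 298 1814 (.cons 228 (.leaf 204 1629 (.leaf 252 1821 .nil)) .nil)) .nil)) (.cons 322 (.leaf 346 2006 (.cons 226 (.leaf 250 1815 (.cons 227 (.leaf 202 1623 (.leaf 298 1814 .nil)) .nil)) .nil)) (.cons 250 (.leaf 226 1815 (.cons 252 (.leaf 228 1821 (.cons 347 (.leaf 274 2007 (.leaf 276 2013 .nil)) .nil)) .nil)) .nil)))) .nil)))))))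
noncomputable def t33 : T := .cons 250 (.leaf 226 1815 (.cons 346 (.leaf 322 2006 (.cons 347 (.leaf 274 2007 (.leaf 370 2198 .nil)) .nil)) .nil)) (.cons 346 (.leaf 322 2006 (.cons 228 (.leaf 252 1821 (.cons 347 (.leaf 370 2198 (.cons 348 (.leaf 324 2012 (.leaf 372 2204 .nil)) .nil)) .nil)) .nil)) (.cons 250 (.leaf 226 1815 (.cons 347 (.leaf 274 2007 (.cons 348 (.leaf 324 2012 (.leaf 372 2204 .nil)) .nil)) .nil)) (.cons 322 (.leaf 346 2006 (.cons 324 (.leaf 348 2012 (.cons 250 (.leaf 226 1815 (.cons 252 (.leaf 228 1821 (.cons 321 (.cons 296 (.leaf 297 2371 (.cons 320 (.leaf 300 2369 (.leaf 295 2363 .nil)) .nil)) (.cons 296 (.leaf 297 2371 (.cons 320 (.leaf 295 2363 (.cons 344 (.leaf 343 2554 (.leaf 345 2562 .nil)) .nil)) .nil)) (.cons 296 (.leaf 297 2371 (.cons 301 (.leaf 300 2377 (.cons 325 (.leaf 302 2385 (.cons 345 (.leaf 344 2562 (.cons 274 (.leaf 298 1998 (.cons 253 (.leaf 254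 2002 (.leaf 273 1994 .nil)) .nil)) .nil)) .nil)) .nil)) .nil)) (.cons 300 (.leaf 320 2369 (.leaf 301 2377 .nil)) .nil)))) .nil)) .nil)) .nil)) .nil)) .nil)))
noncomputable def t34 : T := .cons 227 (.cons 202 (.leaf 226 1623 (.cons 203 (.leaf 178 1431 (.cons 274 (.leaf 298 1622 (.cons 204 (.leaf 180 1437 (.leaf 228 1629 .nil)) .nil)) .nil)) .nil)) (.cons 228 (.leaf 204 1629 (.cons 322 (.leaf 298 1814 (.cons 323 (.leaf 252 1821 (.leaf 346 2006 .nil)) .nil)) .nil)) (.cons 202 (.leaf 226 1623 (.cons 203 (.leaf 178 1431 (.cons 298 (.leaf 274 1622 (.leaf 322 1814 .nil)) .nil)) .nil)) (.cons 226 (.leaf 202 1623 (.cons 323 (.leaf 250 1815 (.cons 228 (.leaf 204 1629 (.leaf 252 1821 .nil)) .nil)) .nil)) .nil)))) (.cons 323 t33 (.cons 227 (.cons 226 (.leaf 202 1623 (.cons 228 (.leaf 204 1629 (.cons 300 (.leaf 324 1820 (.cons 225 (.cons 200 (.leaf 201 1603 (.cons 199 (.leaf 224 1595 (.cons 249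 (.leaf 248 1794 (.cons 229 (.leaf 250 1802 (.cons 206 (.leaf 205 1617 (.cons 230 (.leaf 207 1625 (.cons 254 (.leaf 253 1808 (.leaf 255 1816 .nil)) .nil)) .nil)) .nil)) .nil)) .nil)) .nil)) (.cons 200 (.leaf 201 1603 (.cons 248 (.leaf 249 1794 (.cons 253 (.leaf 252 1800 (.cons 229 (.leaf 254 1808 (.cons 206 (.leaf 205 1617 (.cons 230 (.leaf 250 1810 (.leaf 207 1625 .nil)) .nil)) .nil)) .nil)) .nil)) .nil)) (.cons 200 (.leaf 201 1603 (.cons 224 (.leaf 252 1792 (.leaf 199 1595 .nil)) .nil)) (.cons 252 (.leaf 224 1792 (.leaf 253 1800 .nil)) .nil)))) .nil)) .nil)) .nil)) (.cons 298 (.leaf 322 1814 (.cons 274 (.leaf 203 1622 (.cons 300 (.leaf 324 1820 (.cons 273 (.leaf 272 2176 (.leaf 301 2187 .nil)) .nil)) .nil)) .nil)) (.cons 202 (.leaf 226 1623 (.cons 203 (.leaf 178 1431 (.cons 298 (.leaf 274 1622 (.leaf 322 1814 .nil)) .nil)) .nil)) .nil))) (.cons 323 (.cons 228 (.leaf 252 1821 (.cons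 227 (.leaf 204 1629 (.cons 324 (.leaf 300 1820 (.leaf 348 2012 .nil)) .nil)) .nil)) (.cons 228 (.leaf 252 1821 (.cons 227 (.leaf 204 1629 (.cons 322 (.leaf 298 1814 (.leaf 346 2006 .nil)) .nil)) .nil)) (.cons 322 (.leaf 346 2006 (.cons 227 (.leaf 298 1814 (.cons 324 (.leaf 300 1820 (.leaf 348 2012 .nil)) .nil)) .nil)) (.cons 228 (.leaf 252 1821 (.cons 324 (.leaf 348 2012 (.cons 346 (.leaf 322 2006 (.cons 347 (.leaf 370 2198 (.cons 274 (.leaf 250 2007 (.cons 298 (.leaf 371 2199 (.cons 297 (.leaf 296 2368 (.cons 300 (.leaf 325 2376 (.cons 273 (.leaf 272 2176 (.leaf 301 2187 .nil)) .nil)) .nil)) .nil)) .nil)) .nil)) .nil)) .nil)) .nil)) .nil)))) (.cons 227 (.cons 204 (.leaf 228 1629 (.cons 203 (.leaf 180 1437 (.cons 274 (.leaf 298 1622 (.cons 250 (.leaf 179 1430 (.cons 323 (.leaf 226 1815 (.leaf 347 2007 .nil)) .nil)) .nil)) .nil)) .nil)) (.cons 228 (.leaf 204 1629 (.cons 323 (.leaf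 252 1821 (.cons 324 (.leaf 300 1820 (.leaf 348 2012 .nil)) .nil)) .nil)) (.cons 226 (.leaf 202 1623 (.cons 323 (.leaf 250 1815 (.cons 324 (.leaf 300 1820 (.leaf 348 2012 .nil)) .nil)) .nil)) (.cons 202 (.leaf 226 1623 (.cons 203 (.leaf 178 1431 (.cons 180 (.leaf 204 1437 (.cons 179 (.leaf 156 1245 (.cons 274 (.leaf 298 1622 (.leaf 250 1430 .nil)) .nil)) .nil)) .nil)) .nil)) .nil)))) (.cons 227 (.cons 202 (.leaf 226 1623 (.cons 178 (.leaf 203 1431 (.cons 228 (.leaf 204 1629 (.cons 322 (.leaf 298 1814 (.cons 323 (.leaf 252 1821 (.leaf 346 2006 .nil)) .nil)) .nil)) .nil)) .nil)) (.cons 202 (.leaf 226 1623 (.cons 203 (.leaf 178 1431 (.cons 298 (.leaf 274 1622 (.leaf 322 1814 .nil)) .nil)) .nil)) (.cons 228 (.leaf 204 1629 (.cons 323 (.leaf 252 1821 (.cons 324 (.leaf 300 1820 (.leaf 348 2012 .nil)) .nil)) .nil)) .nil))) (.cons 323 (.cons 226 (.leaf 250 1815 (.cons 227 (.leaf 202 1623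 (.cons 322 (.leaf 298 1814 (.leaf 346 2006 .nil)) .nil)) .nil)) (.cons 226 (.leaf 250 1815 (.cons 227 (.leaf 202 1623 (.cons 324 (.leaf 300 1820 (.leaf 348 2012 .nil)) .nil)) .nil)) (.cons 322 (.leaf 346 2006 (.cons 227 (.leaf 298 1814 (.cons 324 (.leaf 300 1820 (.leaf 348 2012 .nil)) .nil)) .nil)) (.cons 226 (.leaf 250 1815 (.cons 346 (.leaf 322 2006 (.cons 347 (.leaf 370 2198 (.cons 348 (.leaf 324 2012 (.leaf 372 2204 .nil)) .nil)) .nil)) .nil)) .nil)))) (.cons 323 (.cons 228 (.leaf 252 1821 (.cons 227 (.leaf 204 1629 (.cons 324 (.leaf 300 1820 (.leaf 348 2012 .nil)) .nil)) .nil)) (.cons 226 (.leaf 250 1815 (.cons 227 (.leaf 202 1623 (.cons 228 (.leaf 204 1629 (.leaf 252 1821 .nil)) .nil)) .nil)) (.cons 250 (.leaf 226 1815 (.cons 346 (.leaf 322 2006 (.cons 347 (.leaf 274 2007 (.leaf 370 2198 .nil)) .nil)) .nil)) .nil))) .nil)))))))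
noncomputable def t35 : T := .cons 228 (.leaf 204 1629 (.cons 226 (.leaf 202 1623 (.cons 300 (.leaf 324 1820 (.cons 225 (.cons 200 (.leaf 201 1603 (.cons 199 (.leaf 224 1595 (.cons 249 (.leaf 248 1794 (.cons 229 (.leaf 250 1802 (.cons 206 (.leaf 205 1617 (.cons 230 (.leaf 207 1625 (.cons 254 (.leaf 253 1808 (.leaf 255 1816 .nil)) .nil)) .nil)) .nil)) .nil)) .nil)) .nil)) (.cons 200 (.leaf 201 1603 (.cons 248 (.leaf 249 1794 (.cons 253 (.leaf 252 1800 (.cons 229 (.leaf 254 1808 (.cons 206 (.leaf 205 1617 (.cons 230 (.leaf 250 1810 (.leaf 207 1625 .nil)) .nil)) .nil)) .nil)) .nil)) .nil)) (.cons 200 (.leaf 201 1603 (.cons 224 (.leaf 252 1792 (.leaf 199 1595 .nil)) .nil)) (.cons 252 (.leaf 224 1792 (.leaf 253 1800 .nil)) .nil)))) .nil)) .nil)) .nil)) (.cons 300 (.leaf 324 1820 (.cons 202 (.leaf 226 1623 (.cons 203 (.leaf 178 1431 (.leaf 276 1628 .nil)) .nil)) .nil)) (.cons 204 (.leaf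 228 1629 (.cons 202 (.leaf 226 1623 (.cons 203 (.leaf 178 1431 (.leaf 180 1437 .nil)) .nil)) .nil)) (.cons 300 (.leaf 324 1820 (.cons 203 (.leaf 276 1628 (.cons 204 (.leaf 180 1437 (.leaf 228 1629 .nil)) .nil)) .nil)) .nil)))
noncomputable def t36 : T := .cons 348 (.leaf 324 2012 (.cons 226 (.leaf 250 1815 (.cons 228 (.leaf 252 1821 (.cons 346 (.leaf 322 2006 (.cons 347 (.leaf 370 2198 (.leaf 372 2204 .nil)) .nil)) .nil)) .nil)) .nil)) (.cons 348 (.leaf 324 2012 (.cons 226 (.leaf 250 1815 (.cons 346 (.leaf 322 2006 (.cons 347 (.leaf 370 2198 (.leaf 372 2204 .nil)) .nil)) .nil)) .nil)) (.cons 252 (.leaf 228 1821 (.cons 346 (.leaf 322 2006 (.cons 347 (.leaf 276 2013 (.leaf 370 2198 .nil)) .nil)) .nil)) (.cons 252 (.leaf 228 1821 (.cons 347 (.leaf 276 2013 (.cons 348 (.leaf 324 2012 (.leaf 372 2204 .nil)) .nil)) .nil)) (.cons 322 (.leaf 346 2006 (.cons 324 (.leaf 348 2012 (.cons 252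 (.leaf 228 1821 (.cons 250 (.leaf 226 1815 (.cons 321 (.cons 300 (.leaf 320 2369 (.leaf 301 2377 .nil)) (.cons 296 (.leaf 297 2371 (.cons 320 (.leaf 295 2363 (.cons 344 (.leaf 343 2554 (.leaf 345 2562 .nil)) .nil)) .nil)) (.cons 296 (.leaf 297 2371 (.cons 301 (.leaf 300 2377 (.cons 325 (.leaf 302 2385 (.cons 349 (.leaf 350 2576 (.cons 277 (.leaf 276 2023 (.cons 278 (.leaf 253 2000 (.leaf 254 2029 .nil)) .nil)) .nil)) .nil)) .nil)) .nil)) .nil))) .nil)) .nil)) .nil)) .nil)) .nil))))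
noncomputable def t37 : T := .cons 227 (.cons 228 (.leaf 204 1629 (.cons 322 (.leaf 298 1814 (.cons 323 (.leaf 252 1821 (.leaf 346 2006 .nil)) .nil)) .nil)) (.cons 202 (.leaf 226 1623 (.cons 322 (.leaf 298 1814 (.cons 323 (.leaf 346 2006 (.cons 324 (.leaf 300 1820 (.leaf 348 2012 .nil)) .nil)) .nil)) .nil)) (.cons 202 (.leaf 226 1623 (.cons 203 (.leaf 178 1431 (.cons 204 (.leaf 180 1437 (.leaf 228 1629 .nil)) .nil)) .nil)) .nil))) (.cons 323 t36 (.cons 227 t35 (.cons 323 (.cons 226 (.leaf 250 1815 (.cons 202 (.leaf 227 1623 (.cons 346 (.leaf 322 2006 (.cons 347 (.leaf 370 2198 (.cons 348 (.leaf 324 2012 (.leaf 372 2204 .nil)) .nil)) .nil)) .nil)) .nil)) (.cons 226 (.leaf 250 1815 (.cons 202 (.leaf 227 1623 (.cons 348 (.leaf 324 2012 (.cons 347 (.leaf 372 2204 (.cons 276 (.leaf 252 2013 (.cons 370 (.leaf 346 2198 (.cons 371 (.leaf 300 2205 (.leaf 394 2390 .nil)) .nil)) .nil)) .nil))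 .nil)) .nil)) .nil)) (.cons 322 (.leaf 346 2006 (.cons 226 (.leaf 250 1815 (.cons 227 (.leaf 202 1623 (.leaf 298 1814 .nil)) .nil)) .nil)) (.cons 324 (.leaf 348 2012 (.cons 226 (.leaf 250 1815 (.cons 227 (.leaf 202 1623 (.leaf 300 1820 .nil)) .nil)) .nil)) (.cons 322 (.leaf 346 2006 (.cons 227 (.leaf 298 1814 (.cons 324 (.leaf 300 1820 (.leaf 348 2012 .nil)) .nil)) .nil)) (.cons 348 (.leaf 324 2012 (.cons 226 (.leaf 250 1815 (.cons 346 (.leaf 322 2006 (.cons 347 (.leaf 370 2198 (.leaf 372 2204 .nil)) .nil)) .nil)) .nil)) .nil)))))) (.cons 227 (.cons 202 (.leaf 226 1623 (.cons 203 (.leaf 178 1431 (.cons 276 (.leaf 300 1628 (.cons 204 (.leaf 180 1437 (.leaf 228 1629 .nil)) .nil)) .nil)) .nil)) (.cons 226 (.leaf 202 1623 (.cons 322 (.leaf 298 1814 (.cons 323 (.leaf 250 1815 (.leaf 346 2006 .nil)) .nil)) .nil)) (.cons 228 (.leaf 204 1629 (.cons 322 (.leaf 298 1814 (.cons 323 (.leaf 252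 1821 (.leaf 346 2006 .nil)) .nil)) .nil)) .nil))) (.cons 227 (.cons 202 (.leaf 226 1623 (.cons 203 (.leaf 178 1431 (.cons 300 (.leaf 276 1628 (.leaf 324 1820 .nil)) .nil)) .nil)) (.cons 204 (.leaf 228 1629 (.cons 180 (.leaf 203 1437 (.cons 322 (.leaf 298 1814 (.cons 323 (.leaf 346 2006 (.cons 324 (.leaf 300 1820 (.leaf 348 2012 .nil)) .nil)) .nil)) .nil)) .nil)) (.cons 226 (.leaf 202 1623 (.cons 204 (.leaf 228 1629 (.cons 322 (.leaf 298 1814 (.cons 323 (.leaf 250 1815 (.leaf 346 2006 .nil)) .nil)) .nil)) .nil)) .nil))) (.cons 323 (.cons 228 (.leaf 252 1821 (.cons 346 (.leaf 322 2006 (.cons 347 (.leaf 370 2198 (.cons 348 (.leaf 324 2012 (.leaf 372 2204 .nil)) .nil)) .nil)) .nil)) (.cons 228 (.leaf 252 1821 (.cons 227 (.leaf 204 1629 (.cons 324 (.leaf 300 1820 (.leaf 348 2012 .nil)) .nil)) .nil)) (.cons 228 (.leaf 252 1821 (.cons 227 (.leaf 204 1629 (.cons 322 (.leaf 298 1814 (.leaf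 346 2006 .nil)) .nil)) .nil)) (.cons 322 (.leaf 346 2006 (.cons 227 (.leaf 298 1814 (.cons 324 (.leaf 300 1820 (.leaf 348 2012 .nil)) .nil)) .nil)) .nil)))) (.cons 323 (.cons 226 (.leaf 250 1815 (.cons 202 (.leaf 227 1623 (.cons 252 (.leaf 228 1821 (.cons 346 (.leaf 322 2006 (.cons 347 (.leaf 276 2013 (.leaf 370 2198 .nil)) .nil)) .nil)) .nil)) .nil)) (.cons 226 (.leaf 250 1815 (.cons 227 (.leaf 202 1623 (.cons 322 (.leaf 298 1814 (.leaf 346 2006 .nil)) .nil)) .nil)) (.cons 226 (.leaf 250 1815 (.cons 202 (.leaf 227 1623 (.cons 252 (.leaf 228 1821 (.cons 347 (.leaf 276 2013 (.cons 370 (.leaf 346 2198 (.cons 371 (.leaf 394 2390 (.cons 372 (.leaf 348 2204 (.leaf 396 2396 .nil)) .nil)) .nil)) .nil)) .nil)) .nil)) .nil)) (.cons 226 (.leaf 250 1815 (.cons 202 (.leaf 227 1623 (.cons 252 (.leaf 228 1821 (.cons 347 (.leaf 276 2013 (.cons 348 (.leaf 324 2012 (.leaf 372 2204 .nil)) .nil)) .nil))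 .nil)) .nil)) (.cons 322 (.leaf 346 2006 (.cons 227 (.leaf 298 1814 (.cons 228 (.leaf 204 1629 (.leaf 252 1821 .nil)) .nil)) .nil)) (.cons 252 (.leaf 228 1821 (.cons 346 (.leaf 322 2006 (.cons 347 (.leaf 276 2013 (.leaf 370 2198 .nil)) .nil)) .nil)) .nil)))))) .nil)))))))
noncomputable def t38 : T := .cons 203 (.cons 178 (.leaf 202 1431 (.cons 179 (.leaf 154 1239 (.cons 274 (.leaf 298 1622 (.leaf 250 1430 .nil)) .nil)) .nil)) (.cons 204 (.leaf 180 1437 (.cons 298 (.leaf 274 1622 (.cons 299 (.leaf 228 1629 (.leaf 322 1814 .nil)) .nil)) .nil)) (.cons 202 (.leaf 178 1431 (.cons 204 (.leaf 180 1437 (.cons 276 (.leaf 300 1628 (.cons 226 (.leaf 299 1623 (.cons 205 (.leaf 206 1618 (.leaf 225 1610 .nil)) .nil)) .nil)) .nil)) .nil)) .nil))) (.cons 299 (.cons 322 (.leaf 298 1814 (.cons 323 (.leaf 346 2006 (.cons 324 (.leaf 300 1820 (.leaf 348 2012 .nil)) .nil)) .nil)) (.cons 226 (.leaf 202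 1623 (.cons 204 (.leaf 228 1629 (.cons 323 (.leaf 250 1815 (.cons 324 (.leaf 300 1820 (.leaf 348 2012 .nil)) .nil)) .nil)) .nil)) (.cons 226 (.leaf 202 1623 (.cons 204 (.leaf 228 1629 (.cons 322 (.leaf 298 1814 (.cons 323 (.leaf 250 1815 (.leaf 346 2006 .nil)) .nil)) .nil)) .nil)) (.cons 298 (.leaf 322 1814 (.cons 300 (.leaf 324 1820 (.cons 226 (.leaf 202 1623 (.cons 228 (.leaf 204 1629 (.cons 229 (.cons 250 (.leaf 230 1810 (.leaf 249 1802 .nil)) (.cons 205 (.leaf 206 1617 (.cons 253 (.leaf 254 1808 (.cons 277 (.leaf 276 1638 (.cons 278 (.leaf 301 2193 (.leaf 302 1644 .nil)) .nil)) .nil)) .nil)) .nil)) .nil)) .nil)) .nil)) .nil)) .nil)))) (.cons 203 (.cons 202 (.leaf 178 1431 (.cons 204 (.leaf 180 1437 (.cons 276 (.leaf 300 1628 (.cons 201 (.cons 225 (.leaf 224 1602 (.cons 176 (.leaf 177 1411 (.cons 175 (.leaf 200 1403 (.cons 205 (.leaf 226 1610 (.cons 182 (.leaf 181 1425 (.cons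 206 (.leaf 183 1433 (.cons 230 (.leaf 229 1616 (.leaf 231 1624 .nil)) .nil)) .nil)) .nil)) .nil)) .nil)) .nil)) (.cons 229 (.leaf 228 1608 (.cons 176 (.leaf 177 1411 (.cons 205 (.leaf 230 1616 (.cons 225 (.leaf 224 1602 (.leaf 226 1610 .nil)) .nil)) .nil)) .nil)) (.cons 200 (.leaf 228 1600 (.cons 176 (.leaf 175 1403 (.leaf 177 1411 .nil)) .nil)) (.cons 228 (.leaf 200 1600 (.leaf 229 1608 .nil)) .nil)))) .nil)) .nil)) .nil)) (.cons 274 (.leaf 298 1622 (.cons 250 (.leaf 179 1430 (.cons 276 (.leaf 300 1628 (.cons 249 (.leaf 248 1984 (.leaf 277 1995 .nil)) .nil)) .nil)) .nil)) (.cons 178 (.leaf 202 1431 (.cons 179 (.leaf 154 1239 (.cons 274 (.leaf 298 1622 (.leaf 250 1430 .nil)) .nil)) .nil)) .nil))) (.cons 299 (.cons 204 (.leaf 228 1629 (.cons 322 (.leaf 298 1814 (.cons 323 (.leaf 346 2006 (.cons 324 (.leaf 300 1820 (.leaf 348 2012 .nil)) .nil)) .nil)) .nil)) (.cons 204 (.leaf 228 1629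 (.cons 203 (.leaf 180 1437 (.cons 300 (.leaf 276 1628 (.leaf 324 1820 .nil)) .nil)) .nil)) (.cons 204 (.leaf 228 1629 (.cons 203 (.leaf 180 1437 (.cons 298 (.leaf 274 1622 (.leaf 322 1814 .nil)) .nil)) .nil)) (.cons 298 (.leaf 322 1814 (.cons 203 (.leaf 274 1622 (.cons 300 (.leaf 276 1628 (.leaf 324 1820 .nil)) .nil)) .nil)) .nil)))) (.cons 203 (.cons 180 (.leaf 204 1437 (.cons 179 (.leaf 156 1245 (.cons 154 (.leaf 178 1239 (.cons 155 (.leaf 130 1047 (.cons 250 (.leaf 274 1430 (.leaf 226 1238 .nil)) .nil)) .nil)) .nil)) .nil)) (.cons 202 (.leaf 178 1431 (.cons 299 (.leaf 226 1623 (.cons 300 (.leaf 276 1628 (.leaf 324 1820 .nil)) .nil)) .nil)) (.cons 204 (.leaf 180 1437 (.cons 276 (.leaf 300 1628 (.cons 299 (.leaf 228 1629 (.cons 226 (.leaf 202 1623 (.cons 205 (.leaf 206 1618 (.cons 224 (.leaf 225 1601 (.cons 250 (.leaf 323 1815 (.cons 179 (.leaf 274 1430 (.leaf 155 1238 .nil)) .nil))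 .nil)) .nil)) .nil)) .nil)) .nil)) .nil)) (.cons 178 (.leaf 202 1431 (.cons 204 (.leaf 180 1437 (.cons 299 (.leaf 228 1629 (.cons 300 (.leaf 276 1628 (.leaf 324 1820 .nil)) .nil)) .nil)) .nil)) .nil)))) (.cons 299 (.cons 202 (.leaf 226 1623 (.cons 203 (.leaf 178 1431 (.cons 300 (.leaf 276 1628 (.leaf 324 1820 .nil)) .nil)) .nil)) (.cons 202 (.leaf 226 1623 (.cons 203 (.leaf 178 1431 (.cons 298 (.leaf 274 1622 (.leaf 322 1814 .nil)) .nil)) .nil)) (.cons 298 (.leaf 322 1814 (.cons 203 (.leaf 274 1622 (.cons 300 (.leaf 276 1628 (.leaf 324 1820 .nil)) .nil)) .nil)) (.cons 202 (.leaf 226 1623 (.cons 322 (.leaf 298 1814 (.cons 323 (.leaf 346 2006 (.cons 324 (.leaf 300 1820 (.leaf 348 2012 .nil)) .nil)) .nil)) .nil)) .nil)))) (.cons 203 (.cons 178 (.leaf 202 1431 (.cons 179 (.leaf 154 1239 (.cons 180 (.leaf 204 1437 (.leaf 156 1245 .nil)) .nil)) .nil)) (.cons 204 (.leaf 180 1437 (.cons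 298 (.leaf 274 1622 (.cons 299 (.leaf 228 1629 (.leaf 322 1814 .nil)) .nil)) .nil)) (.cons 178 (.leaf 202 1431 (.cons 179 (.leaf 154 1239 (.cons 274 (.leaf 298 1622 (.leaf 250 1430 .nil)) .nil)) .nil)) .nil))) .nil))))))
noncomputable def t39 : T := .cons 276 (.leaf 300 1628 (.cons 179 (.leaf 252 1436 (.cons 180 (.leaf 204 1437 (.leaf 156 1245 .nil)) .nil)) .nil)) (.cons 180 (.leaf 204 1437 (.cons 178 (.leaf 202 1431 (.cons 179 (.leaf 154 1239 (.leaf 156 1245 .nil)) .nil)) .nil)) (.cons 276 (.leaf 300 1628 (.cons 178 (.leaf 202 1431 (.cons 179 (.leaf 154 1239 (.leaf 252 1436 .nil)) .nil)) .nil)) (.cons 204 (.leaf 180 1437 (.cons 202 (.leaf 178 1431 (.cons 276 (.leaf 300 1628 (.cons 201 (.cons 176 (.leaf 177 1411 (.cons 224 (.leaf 225 1602 (.cons 229 (.leaf 228 1608 (.cons 200 (.leaf 175 1403 (.leaf 223 1594 .nil)) .nil)) .nil)) .nil)) (.cons 225 (.leaf 224 1602 (.cons 176 (.leaf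 177 1411 (.cons 175 (.leaf 200 1403 (.cons 205 (.leaf 226 1610 (.cons 182 (.leaf 181 1425 (.cons 206 (.leaf 183 1433 (.cons 230 (.leaf 229 1616 (.leaf 231 1624 .nil)) .nil)) .nil)) .nil)) .nil)) .nil)) .nil)) (.cons 176 (.leaf 177 1411 (.cons 224 (.leaf 225 1602 (.cons 229 (.leaf 228 1608 (.cons 205 (.leaf 230 1616 (.cons 182 (.leaf 181 1425 (.cons 206 (.leaf 226 1618 (.leaf 183 1433 .nil)) .nil)) .nil)) .nil)) .nil)) .nil)) (.cons 228 (.leaf 200 1600 (.leaf 229 1608 .nil)) (.cons 200 (.leaf 228 1600 (.cons 176 (.leaf 175 1403 (.leaf 177 1411 .nil)) .nil)) .nil))))) .nil)) .nil)) .nil)) .nil)))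
noncomputable def t40 : T := .cons 300 (.leaf 324 1820 (.cons 298 (.leaf 322 1814 (.cons 228 (.leaf 204 1629 (.cons 226 (.leaf 202 1623 (.cons 225 (.cons 200 (.leaf 201 1603 (.cons 224 (.leaf 252 1792 (.leaf 199 1595 .nil)) .nil)) (.cons 200 (.leaf 201 1603 (.cons 224 (.leaf 199 1595 (.cons 248 (.leaf 247 1786 (.leaf 249 1794 .nil)) .nil)) .nil)) (.cons 200 (.leaf 201 1603 (.cons 253 (.leaf 252 1800 (.cons 229 (.leaf 254 1808 (.cons 205 (.leaf 206 1617 (.cons 277 (.leaf 276 1638 (.cons 278 (.leaf 301 2193 (.leaf 302 1644 .nil)) .nil)) .nil)) .nil)) .nil)) .nil)) (.cons 252 (.leaf 323 1821 (.leaf 224 1792 .nil)) .nil)))) .nil)) .nil)) .nil)) .nil)) (.cons 324 (.leaf 300 1820 (.cons 202 (.leaf 226 1623 (.cons 322 (.leaf 298 1814 (.cons 323 (.leaf 346 2006 (.leaf 348 2012 .nil)) .nil)) .nil)) .nil)) (.cons 228 (.leaf 204 1629 (.cons 322 (.leaf 298 1814 (.cons 323 (.leaf 252 1821 (.leaf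 346 2006 .nil)) .nil)) .nil)) (.cons 228 (.leaf 204 1629 (.cons 323 (.leaf 252 1821 (.cons 324 (.leaf 300 1820 (.leaf 348 2012 .nil)) .nil)) .nil)) (.cons 300 (.leaf 324 1820 (.cons 298 (.leaf 322 1814 (.cons 228 (.leaf 204 1629 (.cons 226 (.leaf 202 1623 (.cons 225 (.cons 200 (.leaf 201 1603 (.cons 224 (.leaf 252 1792 (.leaf 199 1595 .nil)) .nil)) (.cons 248 (.leaf 249 1794 (.cons 200 (.leaf 201 1603 (.cons 224 (.leaf 199 1595 (.leaf 247 1786 .nil)) .nil)) .nil)) (.cons 200 (.leaf 201 1603 (.cons 253 (.leaf 252 1800 (.cons 229 (.leaf 254 1808 (.cons 205 (.leaf 206 1617 (.cons 277 (.leaf 276 1638 (.cons 278 (.leaf 301 2193 (.leaf 302 1644 .nil)) .nil)) .nil)) .nil)) .nil)) .nil)) (.cons 252 (.leaf 224 1792 (.leaf 253 1800 .nil)) .nil)))) .nil)) .nil)) .nil)) .nil)) .nil))))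
noncomputable def t41 : T := .cons 203 (.cons 178 (.leaf 202 1431 (.cons 154 (.leaf 179 1239 (.cons 204 (.leaf 180 1437 (.cons 299 (.leaf 228 1629 (.cons 300 (.leaf 276 1628 (.leaf 324 1820 .nil)) .nil)) .nil)) .nil)) .nil)) (.cons 178 (.leaf 202 1431 (.cons 154 (.leaf 179 1239 (.cons 298 (.leaf 274 1622 (.cons 299 (.leaf 322 1814 (.cons 300 (.leaf 276 1628 (.leaf 324 1820 .nil)) .nil)) .nil)) .nil)) .nil)) (.cons 204 (.leaf 180 1437 (.cons 298 (.leaf 274 1622 (.cons 299 (.leaf 228 1629 (.leaf 322 1814 .nil)) .nil)) .nil)) (.cons 178 (.leaf 202 1431 (.cons 179 (.leaf 154 1239 (.cons 276 (.leaf 300 1628 (.leaf 252 1436 .nil)) .nil)) .nil)) .nil)))) (.cons 299 t40 (.cons 203 t39 (.cons 299 (.cons 202 (.leaf 226 1623 (.cons 203 (.leaf 178 1431 (.cons 300 (.leaf 276 1628 (.leaf 324 1820 .nil)) .nil)) .nil)) (.cons 298 (.leaf 322 1814 (.cons 202 (.leaf 226 1623 (.cons 203 (.leaf 178 1431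 (.leaf 274 1622 .nil)) .nil)) .nil)) (.cons 298 (.leaf 322 1814 (.cons 203 (.leaf 274 1622 (.cons 300 (.leaf 276 1628 (.leaf 324 1820 .nil)) .nil)) .nil)) (.cons 202 (.leaf 226 1623 (.cons 298 (.leaf 322 1814 (.cons 324 (.leaf 300 1820 (.cons 323 (.leaf 348 2012 (.cons 252 (.leaf 228 1821 (.cons 276 (.leaf 347 2013 (.cons 297 (.leaf 296 2368 (.cons 277 (.leaf 274 2186 (.leaf 278 2194 .nil)) .nil)) .nil)) .nil)) .nil)) .nil)) .nil)) .nil)) .nil)))) (.cons 203 (.cons 178 (.leaf 202 1431 (.cons 179 (.leaf 154 1239 (.cons 252 (.leaf 276 1436 (.cons 180 (.leaf 204 1437 (.leaf 156 1245 .nil)) .nil)) .nil)) .nil)) (.cons 202 (.leaf 178 1431 (.cons 298 (.leaf 274 1622 (.cons 299 (.leaf 226 1623 (.leaf 322 1814 .nil)) .nil)) .nil)) (.cons 204 (.leaf 180 1437 (.cons 298 (.leaf 274 1622 (.cons 299 (.leaf 228 1629 (.leaf 322 1814 .nil)) .nil)) .nil)) .nil))) (.cons 203 (.cons 178 (.leaf 202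 1431 (.cons 179 (.leaf 154 1239 (.cons 276 (.leaf 300 1628 (.leaf 252 1436 .nil)) .nil)) .nil)) (.cons 180 (.leaf 204 1437 (.cons 156 (.leaf 179 1245 (.cons 298 (.leaf 274 1622 (.cons 299 (.leaf 322 1814 (.cons 300 (.leaf 276 1628 (.leaf 324 1820 .nil)) .nil)) .nil)) .nil)) .nil)) (.cons 202 (.leaf 178 1431 (.cons 298 (.leaf 274 1622 (.cons 299 (.leaf 226 1623 (.leaf 322 1814 .nil)) .nil)) .nil)) .nil))) (.cons 299 (.cons 204 (.leaf 228 1629 (.cons 322 (.leaf 298 1814 (.cons 323 (.leaf 346 2006 (.cons 324 (.leaf 300 1820 (.leaf 348 2012 .nil)) .nil)) .nil)) .nil)) (.cons 298 (.leaf 322 1814 (.cons 202 (.leaf 226 1623 (.cons 203 (.leaf 178 1431 (.leaf 274 1622 .nil)) .nil)) .nil)) (.cons 202 (.leaf 226 1623 (.cons 178 (.leaf 203 1431 (.cons 228 (.leaf 204 1629 (.cons 323 (.leaf 252 1821 (.cons 324 (.leaf 300 1820 (.leaf 348 2012 .nil)) .nil)) .nil)) .nil)) .nil)) .nil))) (.cons 299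 (.cons 298 (.leaf 322 1814 (.cons 203 (.leaf 274 1622 (.cons 204 (.leaf 180 1437 (.leaf 228 1629 .nil)) .nil)) .nil)) (.cons 204 (.leaf 228 1629 (.cons 203 (.leaf 180 1437 (.cons 300 (.leaf 276 1628 (.leaf 324 1820 .nil)) .nil)) .nil)) (.cons 298 (.leaf 322 1814 (.cons 203 (.leaf 274 1622 (.cons 300 (.leaf 276 1628 (.leaf 324 1820 .nil)) .nil)) .nil)) (.cons 228 (.leaf 204 1629 (.cons 323 (.leaf 252 1821 (.cons 324 (.leaf 300 1820 (.leaf 348 2012 .nil)) .nil)) .nil)) .nil)))) (.cons 299 (.cons 298 (.leaf 322 1814 (.cons 203 (.leaf 274 1622 (.cons 204 (.leaf 180 1437 (.leaf 228 1629 .nil)) .nil)) .nil)) (.cons 204 (.leaf 228 1629 (.cons 203 (.leaf 180 1437 (.cons 300 (.leaf 276 1628 (.leaf 324 1820 .nil)) .nil)) .nil)) (.cons 298 (.leaf 322 1814 (.cons 202 (.leaf 226 1623 (.cons 203 (.leaf 178 1431 (.leaf 274 1622 .nil)) .nil)) .nil)) (.cons 322 (.leaf 298 1814 (.cons 323 (.leaf 346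 2006 (.cons 324 (.leaf 300 1820 (.leaf 348 2012 .nil)) .nil)) .nil)) .nil)))) .nil))))))))
noncomputable def t42 : T := .cons 249 (.leaf 248 1984 (.cons 277 (.leaf 274 1995 (.leaf 278 2003 .nil)) .nil)) (.cons 277 (.leaf 278 2003 (.cons 274 (.cons 301 (.leaf 302 2192 (.cons 273 (.leaf 300 2184 (.cons 253 (.leaf 252 1993 (.leaf 254 2001 .nil)) .nil)) .nil)) (.cons 301 (.leaf 302 2192 (.cons 273 (.leaf 300 2184 (.cons 272 (.leaf 252 1985 (.leaf 271 1977 .nil)) .nil)) .nil)) (.cons 298 (.leaf 297 2186 (.cons 301 (.leaf 302 2192 (.cons 322 (.leaf 346 2005 (.leaf 227 1813 .nil)) .nil)) .nil)) (.cons 298 (.leaf 297 2186 (.cons 227 (.leaf 203 1622 (.leaf 322 1813 .nil)) .nil)) .nil)))) .nil)) (.cons 249 (.leaf 248 1984 (.cons 252 (.cons 225 (.leaf 224 1795 (.cons 253 (.leaf 226 1803 (.cons 254 (.leaf 274 2002 (.leaf 255 2010 .nil)) .nil)) .nil)) (.cons 273 (.leaf 272 1986 (.cons 253 (.leaf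 274 1993 (.cons 254 (.leaf 255 2010 (.cons 227 (.leaf 226 1811 (.cons 203 (.leaf 300 1628 (.leaf 179 1436 .nil)) .nil)) .nil)) .nil)) .nil)) (.cons 225 (.leaf 224 1795 (.cons 226 (.leaf 253 1803 (.cons 202 (.leaf 178 1428 (.cons 273 (.leaf 272 1986 (.leaf 297 1613 .nil)) .nil)) .nil)) .nil)) (.cons 273 (.leaf 272 1986 (.cons 225 (.leaf 224 1795 (.cons 274 (.cons 201 (.leaf 177 1420 (.leaf 298 1612 .nil)) (.cons 177 (.leaf 201 1420 (.cons 296 (.leaf 297 2178 (.cons 300 (.leaf 301 2184 (.cons 227 (.leaf 203 1628 (.leaf 324 1823 .nil)) .nil)) .nil)) .nil)) (.cons 296 (.leaf 297 2178 (.cons 298 (.leaf 322 1807 (.cons 227 (.leaf 203 1622 (.cons 300 (.leaf 301 2184 (.leaf 324 1823 .nil)) .nil)) .nil)) .nil)) .nil))) .nil)) .nil)) .nil)))) .nil)) (.cons 249 (.leaf 248 1984 (.cons 277 (.leaf 278 2003 (.leaf 252 1992 .nil)) .nil)) .nil)))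
noncomputable def t43 : T := .cons 273 (.leaf 272 1986 (.cons 253 (.leaf 274 1993 (.cons 229 (.leaf 228 1801 (.leaf 230 1809 .nil)) .nil)) .nil)) (.cons 228 (.leaf 229 1801 (.cons 204 (.leaf 180 1438 (.cons 181 (.leaf 205 1445 (.cons 203 (.leaf 179 1439 (.cons 227 (.leaf 300 1628 (.cons 202 (.leaf 178 1431 (.cons 201 (.leaf 200 1600 (.cons 177 (.leaf 176 1411 (.cons 274 (.leaf 298 1622 (.leaf 226 1423 .nil)) .nil)) .nil)) .nil)) .nil)) .nil)) .nil)) .nil)) .nil)) (.cons 273 (.leaf 272 1986 (.cons 253 (.leaf 274 1993 (.cons 229 (.leaf 230 1809 (.cons 181 (.leaf 205 1446 (.cons 254 (.leaf 255 2010 (.cons 227 (.leaf 226 1811 (.cons 300 (.leaf 203 1628 (.leaf 324 1829 .nil)) .nil)) .nil)) .nil)) .nil)) .nil)) .nil)) (.cons 273 (.leaf 272 1986 (.cons 253 (.leaf 274 1993 (.cons 254 (.leaf 255 2010 (.cons 227 (.leaf 226 1811 (.cons 203 (.leaf 300 1628 (.leaf 179 1436 .nil)) .nil)) .nil))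 .nil)) .nil)) (.cons 228 (.leaf 229 1801 (.cons 204 (.leaf 180 1438 (.cons 181 (.leaf 205 1445 (.cons 203 (.leaf 179 1439 (.cons 300 (.leaf 227 1628 (.cons 272 (.leaf 273 1986 (.cons 324 (.leaf 348 2015 (.cons 325 (.leaf 301 1828 (.leaf 349 2020 .nil)) .nil)) .nil)) .nil)) .nil)) .nil)) .nil)) .nil)) .nil))))
noncomputable def t44 : T := .cons 225 (.leaf 224 1795 (.cons 253 (.leaf 226 1803 (.cons 254 (.leaf 274 2002 (.leaf 255 2010 .nil)) .nil)) .nil)) (.cons 228 (.leaf 229 1801 (.cons 204 (.leaf 180 1438 (.cons 203 (.leaf 179 1439 (.cons 205 (.leaf 181 1445 (.cons 225 (.leaf 224 1795 (.cons 202 (.leaf 226 1610 (.cons 177 (.leaf 178 1419 (.cons 201 (.leaf 274 1420 (.leaf 176 1411 .nil)) .nil)) .nil)) .nil)) .nil)) .nil)) .nil)) .nil)) (.cons 228 (.leaf 229 1801 (.cons 204 (.leaf 180 1438 (.cons 181 (.leaf 205 1445 (.cons 203 (.leaf 179 1439 (.cons 227 (.leaf 300 1628 (.cons 202 (.leaf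 178 1431 (.cons 201 (.leaf 200 1600 (.cons 177 (.leaf 176 1411 (.cons 274 (.leaf 298 1622 (.leaf 226 1423 .nil)) .nil)) .nil)) .nil)) .nil)) .nil)) .nil)) .nil)) .nil)) (.cons 224 (.leaf 225 1795 (.cons 228 (.leaf 229 1801 (.cons 204 (.leaf 180 1438 (.cons 181 (.leaf 205 1445 (.cons 203 (.leaf 179 1439 (.cons 300 (.leaf 227 1628 (.cons 324 (.leaf 348 2015 (.cons 325 (.leaf 301 1828 (.leaf 349 2020 .nil)) .nil)) .nil)) .nil)) .nil)) .nil)) .nil)) .nil)) .nil)))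
noncomputable def t45 : T := .cons 249 (.leaf 248 1984 (.cons 252 (.leaf 277 1992 (.cons 225 (.leaf 224 1795 (.cons 253 (.leaf 226 1803 (.cons 254 (.leaf 274 2002 (.leaf 255 2010 .nil)) .nil)) .nil)) .nil)) .nil)) (.cons 249 (.leaf 248 1984 (.cons 252 (.cons 225 (.leaf 224 1795 (.cons 253 (.leaf 226 1803 (.cons 254 (.leaf 274 2002 (.leaf 255 2010 .nil)) .nil)) .nil)) (.cons 273 (.leaf 272 1986 (.cons 225 (.leaf 224 1795 (.cons 274 (.cons 201 (.leaf 177 1420 (.leaf 298 1612 .nil)) (.cons 177 (.leaf 201 1420 (.cons 296 (.leaf 297 2178 (.cons 300 (.leaf 301 2184 (.cons 227 (.leaf 203 1628 (.leaf 324 1823 .nil)) .nil)) .nil)) .nil)) (.cons 296 (.leaf 297 2178 (.cons 298 (.leaf 322 1807 (.cons 227 (.leaf 203 1622 (.cons 300 (.leaf 301 2184 (.leaf 324 1823 .nil)) .nil)) .nil)) .nil)) .nil))) .nil)) .nil)) (.cons 273 (.leaf 272 1986 (.cons 253 (.leaf 274 1993 (.cons 229 (.leaf 230 1809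 (.cons 181 (.leaf 205 1446 (.cons 254 (.leaf 255 2010 (.cons 227 (.leaf 226 1811 (.cons 300 (.leaf 203 1628 (.leaf 324 1829 .nil)) .nil)) .nil)) .nil)) .nil)) .nil)) .nil)) (.cons 225 (.leaf 224 1795 (.cons 226 (.leaf 253 1803 (.cons 202 (.leaf 178 1428 (.cons 273 (.leaf 272 1986 (.leaf 297 1613 .nil)) .nil)) .nil)) .nil)) .nil)))) .nil)) (.cons 277 (.leaf 278 2003 (.cons 274 (.cons 298 (.leaf 297 2186 (.cons 301 (.leaf 302 2192 (.cons 322 (.leaf 346 2005 (.leaf 227 1813 .nil)) .nil)) .nil)) (.cons 301 (.leaf 302 2192 (.cons 273 (.leaf 300 2184 (.cons 272 (.leaf 252 1985 (.leaf 271 1977 .nil)) .nil)) .nil)) (.cons 298 (.leaf 297 2186 (.cons 227 (.leaf 203 1622 (.leaf 322 1813 .nil)) .nil)) .nil))) .nil)) (.cons 249 (.leaf 248 1984 (.cons 277 (.leaf 278 2003 (.leaf 252 1992 .nil)) .nil)) (.cons 277 (.leaf 278 2003 (.cons 249 (.leaf 248 1984 (.leaf 274 1995 .nil)) .nil)) .nil))))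
noncomputable def t46 : T := .cons 224 (.leaf 225 1795 (.cons 228 (.leaf 229 1801 (.cons 204 (.leaf 180 1438 (.cons 276 (.leaf 277 1992 (.cons 181 (.leaf 205 1445 (.cons 203 (.leaf 179 1439 (.cons 227 (.leaf 300 1628 (.cons 202 (.leaf 178 1431 (.cons 201 (.leaf 200 1600 (.cons 177 (.leaf 176 1411 (.cons 274 (.leaf 298 1622 (.leaf 226 1423 .nil)) .nil)) .nil)) .nil)) .nil)) .nil)) .nil)) .nil)) .nil)) .nil)) .nil)) (.cons 225 (.leaf 224 1795 (.cons 229 (.leaf 228 1801 (.cons 253 (.leaf 226 1803 (.leaf 230 1809 .nil)) .nil)) .nil)) (.cons 277 (.leaf 276 1992 (.cons 224 (.leaf 225 1795 (.cons 253 (.leaf 278 2000 (.cons 230 (.leaf 229 1809 (.cons 254 (.leaf 274 2002 (.leaf 231 1817 .nil)) .nil)) .nil)) .nil)) .nil)) (.cons 277 (.leaf 276 1992 (.cons 228 (.leaf 229 1801 (.cons 180 (.leaf 204 1438 (.cons 253 (.leaf 278 2000 (.cons 254 (.leaf 274 2002 (.cons 227 (.leaf 226 1811 (.leaf 255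 1819 .nil)) .nil)) .nil)) .nil)) .nil)) .nil)) (.cons 277 (.leaf 276 1992 (.cons 224 (.leaf 225 1795 (.cons 253 (.leaf 278 2000 (.cons 254 (.leaf 274 2002 (.cons 227 (.leaf 226 1811 (.cons 231 (.leaf 230 1817 (.cons 255 (.leaf 228 1819 (.leaf 232 1825 .nil)) .nil)) .nil)) .nil)) .nil)) .nil)) .nil)) .nil))))
noncomputable def t47 : T := .cons 228 (.leaf 229 1801 (.cons 204 (.leaf 180 1438 (.cons 181 (.leaf 205 1445 (.cons 203 (.leaf 179 1439 (.cons 300 (.leaf 227 1628 (.cons 272 (.leaf 273 1986 (.cons 324 (.leaf 348 2015 (.cons 325 (.leaf 301 1828 (.leaf 349 2020 .nil)) .nil)) .nil)) .nil)) .nil)) .nil)) .nil)) .nil)) (.cons 228 (.leaf 229 1801 (.cons 204 (.leaf 180 1438 (.cons 203 (.leaf 179 1439 (.cons 205 (.leaf 181 1445 (.cons 225 (.leaf 224 1795 (.cons 202 (.leaf 226 1610 (.cons 177 (.leaf 178 1419 (.cons 201 (.leaf 274 1420 (.leaf 176 1411 .nil)) .nil)) .nil)) .nil)) .nil))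 .nil)) .nil)) .nil)) (.cons 273 (.leaf 272 1986 (.cons 225 (.leaf 224 1795 (.cons 274 (.cons 201 (.leaf 177 1420 (.leaf 298 1612 .nil)) (.cons 177 (.leaf 201 1420 (.cons 296 (.leaf 297 2178 (.cons 300 (.leaf 301 2184 (.cons 227 (.leaf 203 1628 (.leaf 324 1823 .nil)) .nil)) .nil)) .nil)) (.cons 296 (.leaf 297 2178 (.cons 298 (.leaf 322 1807 (.cons 227 (.leaf 203 1622 (.cons 300 (.leaf 301 2184 (.leaf 324 1823 .nil)) .nil)) .nil)) .nil)) .nil))) .nil)) .nil)) (.cons 273 (.leaf 272 1986 (.cons 225 (.leaf 224 1795 (.cons 228 (.leaf 229 1801 (.cons 204 (.leaf 180 1438 (.cons 205 (.leaf 181 1445 (.cons 226 (.leaf 227 1609 (.cons 202 (.leaf 178 1428 (.leaf 297 1613 .nil)) .nil)) .nil)) .nil)) .nil)) .nil)) .nil)) .nil)))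
noncomputable def t48 : T := .cons 224 (.leaf 225 1795 (.cons 273 (.leaf 272 1986 (.cons 253 (.leaf 274 1993 (.cons 230 (.leaf 229 1809 (.cons 254 (.leaf 255 2010 (.leaf 231 1817 .nil)) .nil)) .nil)) .nil)) .nil)) (.cons 224 (.leaf 225 1795 (.cons 229 (.leaf 228 1801 (.cons 253 (.leaf 230 1809 (.cons 254 (.leaf 274 2002 (.leaf 255 2010 .nil)) .nil)) .nil)) .nil)) (.cons 273 (.leaf 272 1986 (.cons 225 (.leaf 224 1795 (.cons 228 (.leaf 229 1801 (.cons 204 (.leaf 180 1438 (.cons 205 (.leaf 181 1445 (.cons 226 (.leaf 227 1609 (.cons 202 (.leaf 178 1428 (.leaf 297 1613 .nil)) .nil)) .nil)) .nil)) .nil)) .nil)) .nil)) (.cons 228 (.leaf 229 1801 (.cons 180 (.leaf 204 1438 (.cons 273 (.leaf 272 1986 (.cons 274 (.leaf 253 1993 (.cons 297 (.leaf 296 2178 (.cons 226 (.leaf 202 1614 (.leaf 321 1805 .nil)) .nil)) .nil)) .nil)) .nil)) .nil)) (.cons 224 (.leaf 225 1795 (.cons 273 (.leaf 272 1986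 (.cons 274 (.leaf 253 1993 (.cons 296 (.leaf 297 2178 (.cons 300 (.leaf 301 2184 (.cons 324 (.leaf 348 2015 (.leaf 227 1823 .nil)) .nil)) .nil)) .nil)) .nil)) .nil)) .nil))))
noncomputable def t49 : T := .cons 276 (.cons 277 (.leaf 278 2003 (.cons 274 (.leaf 249 1995 (.cons 253 (.leaf 254 2001 (.cons 252 (.leaf 273 1993 (.cons 225 (.leaf 226 1803 (.cons 229 (.leaf 230 1809 (.cons 205 (.leaf 181 1446 (.leaf 300 1638 .nil)) .nil)) .nil)) .nil)) .nil)) .nil)) .nil)) (.cons 277 (.leaf 278 2003 (.cons 274 (.cons 253 (.leaf 254 2001 (.cons 252 (.leaf 273 1993 (.cons 225 (.leaf 226 1803 (.cons 229 (.leaf 230 1809 (.cons 205 (.leaf 181 1446 (.leaf 300 1638 .nil)) .nil)) .nil)) .nil)) .nil)) (.cons 298 (.leaf 297 2186 (.cons 301 (.leaf 302 2192 (.cons 273 (.leaf 300 2184 (.cons 272 (.leaf 252 1985 (.leaf 271 1977 .nil)) .nil)) .nil)) .nil)) (.cons 298 (.leaf 297 2186 (.cons 301 (.leaf 302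 2192 (.cons 322 (.leaf 346 2005 (.leaf 227 1813 .nil)) .nil)) .nil)) .nil))) .nil)) (.cons 249 (.leaf 248 1984 (.cons 252 t48 .nil)) (.cons 249 (.leaf 248 1984 (.cons 277 (.leaf 274 1995 (.leaf 278 2003 .nil)) .nil)) (.cons 249 (.leaf 248 1984 (.cons 277 (.leaf 278 2003 (.leaf 252 1992 .nil)) .nil)) .nil))))) (.cons 276 (.cons 249 (.leaf 248 1984 (.cons 252 (.leaf 277 1992 (.cons 228 (.leaf 229 1801 (.cons 204 (.leaf 180 1438 (.cons 181 (.leaf 205 1445 (.cons 203 (.leaf 179 1439 (.cons 300 (.leaf 227 1628 (.cons 272 (.leaf 273 1986 (.cons 324 (.leaf 348 2015 (.cons 325 (.leaf 301 1828 (.leaf 349 2020 .nil)) .nil)) .nil)) .nil)) .nil)) .nil)) .nil)) .nil)) .nil)) .nil)) (.cons 277 (.leaf 278 2003 (.cons 274 (.cons 298 (.leaf 297 2186 (.cons 301 (.leaf 302 2192 (.cons 273 (.leaf 300 2184 (.cons 272 (.leaf 252 1985 (.leaf 271 1977 .nil)) .nil)) .nil)) .nil)) (.cons 301 (.leaf 302 2192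 (.cons 273 (.leaf 300 2184 (.cons 272 (.leaf 252 1985 (.leaf 271 1977 .nil)) .nil)) .nil)) (.cons 298 (.leaf 297 2186 (.cons 227 (.leaf 203 1622 (.leaf 322 1813 .nil)) .nil)) .nil))) .nil)) (.cons 249 (.leaf 248 1984 (.cons 252 t47 .nil)) (.cons 249 (.leaf 248 1984 (.cons 277 (.leaf 274 1995 (.leaf 278 2003 .nil)) .nil)) .nil)))) (.cons 249 (.cons 248 (.leaf 276 1984 (.cons 223 (.leaf 224 1787 (.cons 247 (.leaf 274 1976 (.leaf 222 1779 .nil)) .nil)) .nil)) (.cons 252 t46 (.cons 248 (.cons 223 (.leaf 224 1787 (.cons 247 (.leaf 274 1976 (.leaf 222 1779 .nil)) .nil)) (.cons 224 (.leaf 223 1787 (.cons 225 (.leaf 252 1795 (.cons 272 (.leaf 271 1978 (.cons 201 (.leaf 177 1414 (.leaf 296 1605 .nil)) .nil)) .nil)) .nil)) (.cons 227 (.leaf 228 1793 (.cons 247 (.leaf 274 1976 (.leaf 226 1785 .nil)) .nil)) .nil))) (.cons 248 (.leaf 276 1984 (.cons 223 (.leaf 224 1787 (.cons 227 (.leaf 228 1793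 (.cons 247 (.leaf 222 1779 (.leaf 226 1785 .nil)) .nil)) .nil)) .nil)) (.cons 248 (.leaf 276 1984 (.cons 227 (.leaf 228 1793 (.cons 247 (.leaf 274 1976 (.leaf 226 1785 .nil)) .nil)) .nil)) .nil))))) (.cons 276 t45 (.cons 276 (.cons 277 (.leaf 278 2003 (.cons 274 (.leaf 249 1995 (.cons 298 (.leaf 297 2186 (.cons 301 (.leaf 302 2192 (.cons 322 (.leaf 346 2005 (.leaf 227 1813 .nil)) .nil)) .nil)) .nil)) .nil)) (.cons 249 (.leaf 248 1984 (.cons 252 t44 .nil)) (.cons 277 (.leaf 278 2003 (.cons 274 (.cons 298 (.leaf 297 2186 (.cons 301 (.leaf 302 2192 (.cons 322 (.leaf 346 2005 (.leaf 227 1813 .nil)) .nil)) .nil)) (.cons 253 (.leaf 254 2001 (.cons 252 (.leaf 273 1993 (.cons 225 (.leaf 226 1803 (.cons 229 (.leaf 230 1809 (.cons 205 (.leaf 181 1446 (.leaf 300 1638 .nil)) .nil)) .nil)) .nil)) .nil)) .nil)) .nil)) (.cons 277 (.leaf 278 2003 (.cons 249 (.leaf 248 1984 (.leaf 252 1992 .nil))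 .nil)) .nil)))) (.cons 276 (.cons 277 (.leaf 278 2003 (.cons 249 (.leaf 248 1984 (.leaf 274 1995 .nil)) .nil)) (.cons 249 (.leaf 248 1984 (.cons 252 t43 .nil)) (.cons 277 (.leaf 278 2003 (.cons 274 (.cons 253 (.leaf 254 2001 (.cons 252 (.leaf 273 1993 (.cons 229 (.leaf 230 1809 (.cons 205 (.leaf 181 1446 (.leaf 300 1638 .nil)) .nil)) .nil)) .nil)) (.cons 301 (.leaf 302 2192 (.cons 273 (.leaf 300 2184 (.cons 272 (.leaf 252 1985 (.leaf 271 1977 .nil)) .nil)) .nil)) (.cons 298 (.leaf 297 2186 (.cons 301 (.leaf 302 2192 (.cons 322 (.leaf 346 2005 (.leaf 227 1813 .nil)) .nil)) .nil)) .nil))) .nil)) (.cons 249 (.leaf 248 1984 (.cons 277 (.leaf 278 2003 (.leaf 252 1992 .nil)) .nil)) .nil)))) (.cons 276 t42 .nil))))))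
noncomputable def t50 : T := .cons 225 (.leaf 224 1795 (.cons 229 (.leaf 228 1801 (.cons 253 (.leaf 226 1803 (.leaf 230 1809 .nil)) .nil)) .nil)) (.cons 273 (.leaf 272 1986 (.cons 229 (.leaf 228 1801 (.cons 253 (.leaf 230 1809 (.leaf 274 1994 .nil)) .nil)) .nil)) (.cons 273 (.leaf 272 1986 (.cons 224 (.leaf 225 1795 (.cons 253 (.leaf 274 1994 (.cons 230 (.leaf 229 1809 (.cons 254 (.leaf 231 1817 (.cons 226 (.leaf 227 1811 (.cons 178 (.leaf 202 1428 (.cons 255 (.leaf 276 2010 (.cons 279 (.leaf 278 2008 (.leaf 280 2016 .nil)) .nil)) .nil)) .nil)) .nil)) .nil)) .nil)) .nil)) .nil)) (.cons 273 (.leaf 272 1986 (.cons 225 (.leaf 224 1795 (.cons 253 (.leaf 226 1803 (.leaf 274 1994 .nil)) .nil)) .nil)) (.cons 273 (.leaf 272 1986 (.cons 225 (.leaf 224 1795 (.cons 228 (.leaf 229 1801 (.cons 204 (.leaf 180 1438 (.cons 226 (.cons 202 (.leaf 178 1428 (.leaf 297 1613 .nil)) (.cons 205 (.leaf 227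 1609 (.cons 297 (.leaf 321 1805 (.cons 298 (.leaf 322 1804 (.cons 201 (.leaf 274 1612 (.cons 176 (.leaf 200 1415 (.cons 177 (.leaf 153 1228 (.leaf 152 1223 .nil)) .nil)) .nil)) .nil)) .nil)) .nil)) (.cons 202 (.leaf 178 1428 (.cons 205 (.leaf 203 1610 (.leaf 227 1609 .nil)) .nil)) .nil))) .nil)) .nil)) .nil)) .nil)) .nil))))
noncomputable def t51 : T := .cons 276 (.leaf 277 1992 (.cons 225 (.leaf 224 1795 (.cons 228 (.leaf 229 1801 (.cons 204 (.leaf 180 1438 (.cons 203 (.leaf 179 1439 (.cons 205 (.leaf 181 1445 (.cons 202 (.leaf 226 1610 (.cons 177 (.leaf 178 1419 (.cons 201 (.leaf 274 1420 (.leaf 176 1411 .nil)) .nil)) .nil)) .nil)) .nil)) .nil)) .nil)) .nil)) .nil)) (.cons 273 (.leaf 272 1986 (.cons 225 (.leaf 224 1795 (.cons 228 (.leaf 229 1801 (.cons 204 (.leaf 180 1438 (.cons 226 (.cons 202 (.leaf 178 1428 (.leaf 297 1613 .nil)) (.cons 205 (.leaf 227 1609 (.cons 297 (.leaf 321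 1805 (.cons 298 (.leaf 322 1804 (.cons 201 (.leaf 274 1612 (.cons 176 (.leaf 200 1415 (.cons 177 (.leaf 153 1228 (.leaf 152 1223 .nil)) .nil)) .nil)) .nil)) .nil)) .nil)) (.cons 202 (.leaf 178 1428 (.cons 205 (.leaf 203 1610 (.leaf 227 1609 .nil)) .nil)) .nil))) .nil)) .nil)) .nil)) .nil)) (.cons 276 (.leaf 277 1992 (.cons 273 (.leaf 272 1986 (.cons 225 (.leaf 224 1795 (.cons 274 (.cons 201 (.leaf 177 1420 (.leaf 298 1612 .nil)) (.cons 177 (.leaf 201 1420 (.cons 296 (.leaf 297 2178 (.cons 300 (.leaf 301 2184 (.cons 227 (.leaf 203 1628 (.leaf 324 1823 .nil)) .nil)) .nil)) .nil)) (.cons 296 (.leaf 297 2178 (.cons 298 (.leaf 322 1807 (.cons 227 (.leaf 203 1622 (.cons 300 (.leaf 301 2184 (.leaf 324 1823 .nil)) .nil)) .nil)) .nil)) .nil))) .nil)) .nil)) .nil)) (.cons 276 (.leaf 277 1992 (.cons 228 (.leaf 229 1801 (.cons 204 (.leaf 180 1438 (.cons 181 (.leaf 205 1445 (.cons 203 (.leaf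 179 1439 (.cons 300 (.leaf 227 1628 (.cons 272 (.leaf 273 1986 (.cons 324 (.leaf 348 2015 (.cons 325 (.leaf 301 1828 (.leaf 349 2020 .nil)) .nil)) .nil)) .nil)) .nil)) .nil)) .nil)) .nil)) .nil)) (.cons 276 (.leaf 277 1992 (.cons 225 (.leaf 224 1795 (.cons 228 (.leaf 229 1801 (.cons 204 (.leaf 180 1438 (.cons 205 (.leaf 181 1445 (.cons 226 (.leaf 227 1609 (.cons 202 (.leaf 178 1428 (.cons 273 (.leaf 272 1986 (.leaf 297 1613 .nil)) .nil)) .nil)) .nil)) .nil)) .nil)) .nil)) .nil)) .nil))))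
noncomputable def t52 : T := .cons 253 (.cons 225 (.leaf 226 1803 (.cons 224 (.leaf 249 1795 (.cons 278 (.leaf 277 2000 (.cons 230 (.leaf 229 1809 (.cons 254 (.leaf 274 2002 (.leaf 231 1817 .nil)) .nil)) .nil)) .nil)) .nil)) (.cons 225 (.leaf 226 1803 (.cons 224 (.leaf 249 1795 (.cons 278 (.leaf 277 2000 (.cons 230 (.leaf 229 1809 (.cons 254 (.leaf 231 1817 (.leaf 279 2008 .nil)) .nil)) .nil)) .nil)) .nil)) (.cons 225 (.leaf 226 1803 (.cons 249 (.leaf 224 1795 (.cons 273 (.leaf 272 1986 (.leaf 274 1994 .nil)) .nil)) .nil)) (.cons 274 (.leaf 254 2002 (.leaf 273 1994 .nil)) .nil)))) (.cons 249 t51 (.cons 249 (.cons 225 (.leaf 224 1795 (.cons 229 (.leaf 228 1801 (.cons 253 (.leaf 226 1803 (.leaf 230 1809 .nil)) .nil)) .nil)) (.cons 225 (.leaf 224 1795 (.cons 226 (.leaf 253 1803 (.cons 202 (.leaf 178 1428 (.cons 273 (.leaf 272 1986 (.leaf 297 1613 .nil)) .nil)) .nil)) .nil)) (.cons 228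 (.leaf 229 1801 (.cons 204 (.leaf 180 1438 (.cons 272 (.leaf 273 1986 (.cons 276 (.leaf 277 1992 (.cons 181 (.leaf 205 1445 (.cons 203 (.leaf 179 1439 (.cons 300 (.leaf 227 1628 (.cons 324 (.leaf 348 2015 (.cons 325 (.leaf 301 1828 (.leaf 349 2020 .nil)) .nil)) .nil)) .nil)) .nil)) .nil)) .nil)) .nil)) .nil)) .nil))) (.cons 253 (.cons 225 (.leaf 226 1803 (.cons 229 (.leaf 230 1809 (.cons 278 (.leaf 277 2000 (.cons 254 (.leaf 274 2002 (.leaf 279 2008 .nil)) .nil)) .nil)) .nil)) (.cons 225 (.leaf 226 1803 (.cons 229 (.leaf 230 1809 (.cons 278 (.leaf 277 2000 (.cons 254 (.leaf 279 2008 (.cons 181 (.leaf 205 1452 (.cons 255 (.leaf 276 2010 (.cons 228 (.leaf 227 1819 (.leaf 256 1827 .nil)) .nil)) .nil)) .nil)) .nil)) .nil)) .nil)) (.cons 226 (.leaf 225 1803 (.cons 202 (.leaf 178 1428 (.cons 229 (.leaf 230 1809 (.cons 274 (.leaf 273 1994 (.cons 177 (.leaf 201 1423 (.cons 203 (.leaf 179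 1429 (.cons 227 (.leaf 298 1621 (.cons 204 (.leaf 180 1437 (.cons 205 (.leaf 206 1618 (.cons 181 (.leaf 276 1446 (.leaf 182 1425 .nil)) .nil)) .nil)) .nil)) .nil)) .nil)) .nil)) .nil)) .nil)) .nil)) (.cons 274 (.leaf 254 2002 (.leaf 273 1994 .nil)) .nil)))) (.cons 253 (.cons 225 (.leaf 226 1803 (.cons 224 (.leaf 249 1795 (.cons 230 (.leaf 229 1809 (.cons 254 (.leaf 274 2002 (.leaf 231 1817 .nil)) .nil)) .nil)) .nil)) (.cons 225 (.leaf 226 1803 (.cons 224 (.leaf 249 1795 (.cons 230 (.leaf 229 1809 (.cons 254 (.leaf 231 1817 (.cons 255 (.leaf 276 2010 (.cons 279 (.leaf 278 2008 (.leaf 280 2016 .nil)) .nil)) .nil)) .nil)) .nil)) .nil)) (.cons 225 (.leaf 226 1803 (.cons 249 (.leaf 224 1795 (.cons 273 (.leaf 272 1986 (.leaf 274 1994 .nil)) .nil)) .nil)) (.cons 274 (.leaf 254 2002 (.leaf 273 1994 .nil)) .nil)))) (.cons 253 (.cons 225 (.leaf 226 1803 (.cons 224 (.leaf 249 1795 (.cons 278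 (.leaf 277 2000 (.cons 230 (.leaf 229 1809 (.cons 254 (.leaf 274 2002 (.leaf 231 1817 .nil)) .nil)) .nil)) .nil)) .nil)) (.cons 277 (.leaf 278 2000 (.cons 225 (.leaf 226 1803 (.cons 249 (.leaf 224 1795 (.leaf 276 1992 .nil)) .nil)) .nil)) (.cons 254 (.leaf 274 2002 (.cons 226 (.leaf 225 1803 (.leaf 227 1811 .nil)) .nil)) (.cons 254 (.leaf 274 2002 (.cons 278 (.leaf 277 2000 (.leaf 279 2008 .nil)) .nil)) .nil)))) (.cons 253 (.cons 254 (.leaf 274 2002 (.cons 278 (.leaf 277 2000 (.leaf 279 2008 .nil)) .nil)) (.cons 229 (.leaf 230 1809 (.cons 228 (.leaf 249 1801 (.cons 204 (.leaf 180 1438 (.cons 277 (.leaf 278 2000 (.leaf 301 1639 .nil)) .nil)) .nil)) .nil)) (.cons 274 (.leaf 254 2002 (.leaf 273 1994 .nil)) .nil))) (.cons 253 (.cons 225 (.leaf 226 1803 (.cons 224 (.leaf 249 1795 (.cons 278 (.leaf 277 2000 (.cons 254 (.leaf 274 2002 (.leaf 279 2008 .nil)) .nil)) .nil)) .nil)) (.cons 225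 (.leaf 226 1803 (.cons 277 (.leaf 278 2000 (.cons 249 (.leaf 224 1795 (.leaf 276 1992 .nil)) .nil)) .nil)) (.cons 225 (.leaf 226 1803 (.cons 249 (.leaf 224 1795 (.cons 273 (.leaf 272 1986 (.leaf 274 1994 .nil)) .nil)) .nil)) (.cons 274 (.leaf 254 2002 (.leaf 273 1994 .nil)) .nil)))) .nil)))))))
noncomputable def t53 : T := .cons 277 (.leaf 278 2003 (.cons 274 (.leaf 249 1995 (.cons 298 (.leaf 297 2186 (.cons 301 (.leaf 302 2192 (.cons 322 (.leaf 346 2005 (.leaf 227 1813 .nil)) .nil)) .nil)) .nil)) .nil)) (.cons 277 (.leaf 278 2003 (.cons 274 (.cons 298 (.leaf 297 2186 (.cons 301 (.leaf 302 2192 (.cons 322 (.leaf 346 2005 (.leaf 227 1813 .nil)) .nil)) .nil)) (.cons 253 (.leaf 254 2001 (.cons 301 (.leaf 302 2192 (.cons 273 (.leaf 252 1993 (.leaf 300 2184 .nil)) .nil)) .nil)) (.cons 253 (.leaf 254 2001 (.cons 252 (.leaf 273 1993 (.cons 229 (.leaf 230 1809 (.cons 205 (.leaf 181 1446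 (.leaf 300 1638 .nil)) .nil)) .nil)) .nil)) .nil))) .nil)) (.cons 249 (.leaf 248 1984 (.cons 252 (.cons 224 (.leaf 225 1795 (.cons 273 (.leaf 272 1986 (.cons 253 (.leaf 274 1993 (.cons 230 (.leaf 229 1809 (.cons 254 (.leaf 255 2010 (.leaf 231 1817 .nil)) .nil)) .nil)) .nil)) .nil)) (.cons 224 (.leaf 225 1795 (.cons 228 (.leaf 229 1801 (.cons 204 (.leaf 180 1438 (.cons 181 (.leaf 205 1445 (.cons 203 (.leaf 179 1439 (.cons 300 (.leaf 227 1628 (.cons 324 (.leaf 348 2015 (.cons 325 (.leaf 301 1828 (.leaf 349 2020 .nil)) .nil)) .nil)) .nil)) .nil)) .nil)) .nil)) .nil)) (.cons 273 (.leaf 272 1986 (.cons 274 (.leaf 253 1993 (.cons 224 (.leaf 225 1795 (.cons 296 (.leaf 297 2178 (.cons 300 (.leaf 301 2184 (.cons 227 (.leaf 203 1628 (.leaf 324 1823 .nil)) .nil)) .nil)) .nil)) .nil)) .nil)) (.cons 228 (.leaf 229 1801 (.cons 180 (.leaf 204 1438 (.cons 273 (.leaf 272 1986 (.cons 274 (.leaf 253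 1993 (.cons 296 (.leaf 297 2178 (.cons 300 (.leaf 301 2184 (.cons 227 (.leaf 203 1628 (.leaf 324 1823 .nil)) .nil)) .nil)) .nil)) .nil)) .nil)) .nil)) .nil)))) .nil)) (.cons 249 (.leaf 248 1984 (.cons 277 (.leaf 278 2003 (.leaf 252 1992 .nil)) .nil)) .nil)))
noncomputable def t54 : T := .leaf 248 1984 (.cons 252 (.cons 228 (.leaf 229 1801 (.cons 180 (.leaf 204 1438 (.cons 273 (.leaf 272 1986 (.cons 274 (.leaf 253 1993 (.cons 297 (.leaf 296 2178 (.cons 226 (.leaf 202 1614 (.leaf 321 1805 .nil)) .nil)) .nil)) .nil)) .nil)) .nil)) (.cons 224 (.leaf 225 1795 (.cons 229 (.leaf 228 1801 (.cons 253 (.leaf 230 1809 (.cons 254 (.leaf 274 2002 (.leaf 255 2010 .nil)) .nil)) .nil)) .nil)) (.cons 225 (.leaf 224 1795 (.cons 228 (.leaf 229 1801 (.cons 204 (.leaf 180 1438 (.cons 203 (.leaf 179 1439 (.cons 205 (.leaf 181 1445 (.cons 202 (.leaf 226 1610 (.cons 177 (.leaf 178 1419 (.cons 201 (.leaf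 274 1420 (.leaf 176 1411 .nil)) .nil)) .nil)) .nil)) .nil)) .nil)) .nil)) .nil)) (.cons 273 (.leaf 272 1986 (.cons 253 (.leaf 274 1993 (.cons 225 (.leaf 224 1795 (.leaf 226 1803 .nil)) .nil)) .nil)) (.cons 228 (.leaf 229 1801 (.cons 180 (.leaf 204 1438 (.cons 225 (.leaf 224 1795 (.cons 226 (.leaf 253 1803 (.cons 202 (.leaf 178 1428 (.cons 273 (.leaf 272 1986 (.leaf 297 1613 .nil)) .nil)) .nil)) .nil)) .nil)) .nil)) .nil))))) .nil)
noncomputable def t55 : T := .cons 249 (.leaf 248 1984 (.cons 252 (.leaf 277 1992 (.cons 228 (.leaf 229 1801 (.cons 180 (.leaf 204 1438 (.cons 273 (.leaf 272 1986 (.cons 274 (.leaf 253 1993 (.cons 297 (.leaf 296 2178 (.cons 226 (.leaf 202 1614 (.leaf 321 1805 .nil)) .nil)) .nil)) .nil)) .nil)) .nil)) .nil)) .nil)) (.cons 277 (.leaf 278 2003 (.cons 274 (.cons 298 (.leaf 297 2186 (.cons 253 (.leaf 254 2001 (.cons 252 (.leaf 273 1993 (.cons 225 (.leaf 226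 1803 (.cons 229 (.leaf 230 1809 (.cons 205 (.leaf 181 1446 (.leaf 300 1638 .nil)) .nil)) .nil)) .nil)) .nil)) .nil)) (.cons 298 (.leaf 297 2186 (.cons 301 (.leaf 302 2192 (.cons 273 (.leaf 300 2184 (.cons 272 (.leaf 252 1985 (.leaf 271 1977 .nil)) .nil)) .nil)) .nil)) (.cons 298 (.leaf 297 2186 (.cons 301 (.leaf 302 2192 (.cons 322 (.leaf 346 2005 (.cons 321 (.leaf 345 1998 (.cons 323 (.leaf 347 2004 (.cons 324 (.leaf 300 2377 (.cons 253 (.leaf 254 2001 (.cons 348 (.leaf 325 2022 (.leaf 349 2568 .nil)) .nil)) .nil)) .nil)) .nil)) .nil)) .nil)) .nil)) (.cons 253 (.leaf 254 2001 (.cons 301 (.leaf 302 2192 (.cons 273 (.leaf 252 1993 (.leaf 300 2184 .nil)) .nil)) .nil)) (.cons 253 (.leaf 254 2001 (.cons 252 (.leaf 273 1993 (.cons 297 (.leaf 298 2186 (.cons 301 (.leaf 302 2192 (.cons 228 (.leaf 204 1636 (.leaf 325 1831 .nil)) .nil)) .nil)) .nil)) .nil)) .nil))))) .nil)) (.cons 249 t54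 (.cons 277 (.leaf 278 2003 (.cons 249 (.leaf 248 1984 (.leaf 274 1995 .nil)) .nil)) (.cons 249 (.leaf 248 1984 (.cons 277 (.leaf 278 2003 (.leaf 252 1992 .nil)) .nil)) .nil))))
noncomputable def t56 : T := .cons 298 (.cons 322 (.leaf 346 2005 (.leaf 227 1813 .nil)) (.cons 226 (.cons 203 (.leaf 227 1621 (.cons 202 (.leaf 178 1428 (.leaf 179 1429 .nil)) .nil)) (.cons 178 (.leaf 202 1428 (.cons 201 (.leaf 225 1615 (.cons 297 (.leaf 321 1806 (.cons 276 (.leaf 277 2186 (.cons 296 (.leaf 273 2178 (.leaf 295 2169 .nil)) .nil)) .nil)) .nil)) .nil)) (.cons 227 (.leaf 203 1621 (.cons 225 (.leaf 201 1615 (.cons 224 (.leaf 223 1784 (.cons 199 (.leaf 200 1595 (.cons 248 (.leaf 247 1786 (.cons 249 (.leaf 276 1984 (.leaf 228 1793 .nil)) .nil)) .nil)) .nil)) .nil)) .nil)) .nil))) (.cons 322 (.leaf 346 2005 (.cons 249 (.leaf 225 1807 (.cons 248 (.leaf 247 1976 (.leaf 276 1984 .nil)) .nil)) .nil))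 .nil))) (.cons 298 (.cons 322 (.leaf 346 2005 (.leaf 227 1813 .nil)) (.cons 322 (.leaf 346 2005 (.cons 321 (.leaf 345 1998 (.cons 297 (.leaf 226 1806 (.cons 296 (.leaf 295 2169 (.cons 323 (.leaf 347 2004 (.leaf 324 2371 .nil)) .nil)) .nil)) .nil)) .nil)) (.cons 227 (.leaf 203 1622 (.cons 226 (.cons 297 (.leaf 321 1806 (.cons 276 (.leaf 277 2186 (.cons 296 (.leaf 273 2178 (.leaf 295 2169 .nil)) .nil)) .nil)) (.cons 202 (.leaf 178 1428 (.cons 201 (.leaf 177 1423 (.leaf 225 1615 .nil)) .nil)) .nil)) .nil)) .nil))) (.cons 276 (.cons 277 (.leaf 249 1995 (.leaf 278 2003 .nil)) (.cons 277 (.leaf 278 2003 (.cons 253 (.leaf 254 2001 (.cons 301 (.leaf 302 2192 (.cons 273 (.leaf 300 2184 (.cons 272 (.leaf 271 1977 (.cons 296 (.leaf 295 2170 (.leaf 297 2178 .nil)) .nil)) .nil)) .nil)) .nil)) .nil)) (.cons 273 (.cons 272 (.leaf 271 1977 (.cons 296 (.leaf 295 2170 (.leaf 297 2178 .nil)) .nil))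 (.cons 249 (.leaf 248 1984 (.cons 297 (.leaf 296 2178 (.cons 226 (.leaf 202 1614 (.leaf 321 1805 .nil)) .nil)) .nil)) (.cons 248 (.leaf 249 1984 (.cons 272 (.leaf 247 1979 (.leaf 271 1977 .nil)) .nil)) .nil))) .nil))) (.cons 298 (.cons 322 (.leaf 346 2005 (.leaf 227 1813 .nil)) (.cons 227 (.leaf 203 1622 (.cons 226 (.cons 202 (.leaf 178 1428 (.cons 201 (.leaf 177 1423 (.leaf 225 1615 .nil)) .nil)) (.cons 225 (.leaf 201 1615 (.cons 224 (.leaf 223 1784 (.cons 199 (.leaf 200 1595 (.cons 248 (.leaf 247 1786 (.cons 228 (.leaf 249 1793 (.cons 205 (.leaf 204 1609 (.cons 229 (.leaf 230 1810 (.leaf 206 1617 .nil)) .nil)) .nil)) .nil)) .nil)) .nil)) .nil)) (.cons 202 (.leaf 178 1428 (.cons 297 (.leaf 273 1614 (.leaf 321 1806 .nil)) .nil)) .nil))) .nil)) (.cons 322 (.leaf 346 2005 (.cons 321 (.leaf 345 1998 (.cons 297 (.leaf 226 1806 (.cons 296 (.leaf 295 2169 (.cons 323 (.leaf 347 2004 (.leaf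 324 2371 .nil)) .nil)) .nil)) .nil)) .nil)) .nil))) (.cons 276 (.cons 277 (.leaf 249 1995 (.leaf 278 2003 .nil)) (.cons 273 (.cons 248 (.leaf 249 1984 (.cons 272 (.leaf 247 1979 (.leaf 271 1977 .nil)) .nil)) (.cons 272 (.leaf 271 1977 (.cons 296 (.leaf 295 2170 (.leaf 297 2178 .nil)) .nil)) (.cons 249 (.leaf 248 1984 (.cons 297 (.leaf 296 2178 (.cons 300 (.leaf 301 2184 (.cons 203 (.leaf 227 1628 (.cons 321 (.leaf 345 1997 (.cons 320 (.leaf 344 1990 (.cons 322 (.leaf 346 1996 (.cons 225 (.leaf 298 1804 (.cons 200 (.leaf 224 1607 (.cons 201 (.leaf 177 1420 (.leaf 176 1415 .nil)) .nil)) .nil)) .nil)) .nil)) .nil)) .nil)) .nil)) .nil)) .nil)) .nil))) (.cons 277 (.leaf 278 2003 (.cons 298 (.leaf 297 2186 (.cons 301 (.leaf 302 2192 (.cons 322 (.leaf 346 2005 (.leaf 227 1813 .nil)) .nil)) .nil)) .nil)) .nil))) (.cons 298 (.cons 322 (.leaf 346 2005 (.leaf 227 1813 .nil)) (.cons 226 (.cons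 227 (.leaf 203 1621 (.cons 202 (.leaf 178 1428 (.cons 201 (.leaf 177 1423 (.leaf 225 1615 .nil)) .nil)) .nil)) (.cons 201 (.leaf 225 1615 (.cons 202 (.leaf 178 1428 (.leaf 177 1423 .nil)) .nil)) (.cons 227 (.leaf 203 1621 (.cons 225 (.leaf 201 1615 (.cons 224 (.leaf 223 1784 (.cons 199 (.leaf 200 1595 (.cons 248 (.leaf 247 1786 (.cons 249 (.leaf 276 1984 (.leaf 228 1793 .nil)) .nil)) .nil)) .nil)) .nil)) .nil)) (.cons 203 (.leaf 227 1621 (.cons 202 (.leaf 178 1428 (.leaf 179 1429 .nil)) .nil)) .nil)))) (.cons 322 (.leaf 346 2005 (.cons 249 (.leaf 225 1807 (.cons 248 (.leaf 247 1976 (.leaf 276 1984 .nil)) .nil)) .nil)) .nil))) .nil)))))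
noncomputable def t57 : T := .cons 248 (.leaf 276 1984 (.cons 223 (.leaf 224 1787 (.cons 228 (.leaf 227 1793 (.cons 252 (.leaf 229 1801 (.cons 272 (.leaf 271 1978 (.leaf 273 1986 .nil)) .nil)) .nil)) .nil)) .nil)) (.cons 252 (.cons 228 (.leaf 229 1801 (.cons 204 (.leaf 180 1438 (.cons 272 (.leaf 273 1986 (.cons 276 (.leaf 277 1992 (.cons 181 (.leaf 205 1445 (.cons 203 (.leaf 179 1439 (.cons 300 (.leaf 227 1628 (.cons 324 (.leaf 348 2015 (.cons 325 (.leaf 301 1828 (.leaf 349 2020 .nil)) .nil)) .nil)) .nil)) .nil)) .nil)) .nil)) .nil)) .nil)) (.cons 225 (.leaf 224 1795 (.cons 229 (.leaf 228 1801 (.cons 253 (.leaf 226 1803 (.leaf 230 1809 .nil)) .nil)) .nil)) (.cons 225 (.leaf 224 1795 (.cons 226 (.leaf 253 1803 (.cons 202 (.leaf 178 1428 (.cons 273 (.leaf 272 1986 (.leaf 297 1613 .nil)) .nil)) .nil)) .nil)) .nil))) (.cons 252 (.cons 228 (.leaf 229 1801 (.cons 180 (.leaf 204 1438 (.cons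 248 (.leaf 227 1793 (.cons 272 (.leaf 271 1978 (.leaf 273 1986 .nil)) .nil)) .nil)) .nil)) (.cons 225 (.leaf 224 1795 (.cons 226 (.leaf 253 1803 (.cons 202 (.leaf 178 1428 (.cons 273 (.leaf 272 1986 (.leaf 297 1613 .nil)) .nil)) .nil)) .nil)) (.cons 228 (.leaf 229 1801 (.cons 180 (.leaf 204 1438 (.cons 224 (.leaf 225 1795 (.cons 248 (.leaf 223 1787 (.leaf 227 1793 .nil)) .nil)) .nil)) .nil)) .nil))) (.cons 248 (.leaf 276 1984 (.cons 223 (.leaf 224 1787 (.cons 227 (.leaf 228 1793 (.cons 247 (.leaf 222 1779 (.leaf 226 1785 .nil)) .nil)) .nil)) .nil)) (.cons 248 (.leaf 276 1984 (.cons 272 (.leaf 271 1978 (.cons 224 (.leaf 223 1787 (.cons 252 (.leaf 225 1795 (.leaf 273 1986 .nil)) .nil)) .nil)) .nil)) (.cons 248 (.leaf 276 1984 (.cons 227 (.leaf 228 1793 (.cons 226 (.leaf 247 1785 (.cons 178 (.leaf 202 1428 (.cons 272 (.leaf 271 1978 (.cons 252 (.leaf 273 1986 (.cons 253 (.leaf 225 1803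 (.leaf 254 1811 .nil)) .nil)) .nil)) .nil)) .nil)) .nil)) .nil)) .nil)))))
noncomputable def t58 : T := .cons 253 (.cons 274 (.leaf 254 2002 (.leaf 273 1994 .nil)) (.cons 226 (.leaf 225 1803 (.cons 178 (.leaf 202 1428 (.cons 254 (.leaf 227 1811 (.cons 278 (.leaf 277 2000 (.leaf 279 2008 .nil)) .nil)) .nil)) .nil)) (.cons 225 (.leaf 226 1803 (.cons 249 (.leaf 224 1795 (.cons 273 (.leaf 272 1986 (.leaf 274 1994 .nil)) .nil)) .nil)) .nil))) (.cons 249 (.cons 273 (.leaf 272 1986 (.cons 225 (.leaf 224 1795 (.cons 228 (.leaf 229 1801 (.cons 204 (.leaf 180 1438 (.cons 226 (.cons 202 (.leaf 178 1428 (.leaf 297 1613 .nil)) (.cons 205 (.leaf 227 1609 (.cons 297 (.leaf 321 1805 (.cons 298 (.leaf 322 1804 (.cons 201 (.leaf 274 1612 (.cons 176 (.leaf 200 1415 (.cons 177 (.leaf 153 1228 (.leaf 152 1223 .nil)) .nil)) .nil)) .nil)) .nil)) .nil)) (.cons 202 (.leaf 178 1428 (.cons 205 (.leaf 203 1610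 (.leaf 227 1609 .nil)) .nil)) .nil))) .nil)) .nil)) .nil)) .nil)) (.cons 228 (.leaf 229 1801 (.cons 180 (.leaf 204 1438 (.cons 224 (.leaf 225 1795 (.cons 248 (.leaf 223 1787 (.leaf 227 1793 .nil)) .nil)) .nil)) .nil)) (.cons 272 (.leaf 273 1986 (.cons 224 (.leaf 225 1795 (.cons 248 (.leaf 223 1787 (.leaf 271 1978 .nil)) .nil)) .nil)) (.cons 228 (.leaf 229 1801 (.cons 180 (.leaf 204 1438 (.cons 248 (.leaf 227 1793 (.cons 272 (.leaf 271 1978 (.leaf 273 1986 .nil)) .nil)) .nil)) .nil)) .nil)))) (.cons 249 (.cons 228 (.leaf 229 1801 (.cons 180 (.leaf 204 1438 (.cons 248 (.leaf 227 1793 (.cons 272 (.leaf 271 1978 (.leaf 273 1986 .nil)) .nil)) .nil)) .nil)) (.cons 272 (.leaf 273 1986 (.cons 224 (.leaf 225 1795 (.cons 248 (.leaf 223 1787 (.leaf 271 1978 .nil)) .nil)) .nil)) (.cons 225 (.leaf 224 1795 (.cons 229 (.leaf 228 1801 (.cons 253 (.leaf 226 1803 (.leaf 230 1809 .nil)) .nil)) .nil))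 .nil))) (.cons 253 (.cons 274 (.leaf 254 2002 (.leaf 273 1994 .nil)) (.cons 226 (.leaf 225 1803 (.cons 178 (.leaf 202 1428 (.cons 254 (.leaf 227 1811 (.cons 278 (.leaf 277 2000 (.leaf 279 2008 .nil)) .nil)) .nil)) .nil)) (.cons 226 (.leaf 225 1803 (.cons 202 (.leaf 178 1428 (.cons 229 (.leaf 230 1809 (.cons 274 (.leaf 273 1994 (.cons 177 (.leaf 201 1423 (.cons 203 (.leaf 179 1429 (.cons 298 (.leaf 227 1621 (.cons 277 (.leaf 278 2000 (.cons 321 (.leaf 297 1806 (.cons 322 (.leaf 346 2005 (.leaf 345 1998 .nil)) .nil)) .nil)) .nil)) .nil)) .nil)) .nil)) .nil)) .nil)) .nil)) .nil))) (.cons 253 (.cons 225 (.leaf 226 1803 (.cons 229 (.leaf 230 1809 (.cons 249 (.leaf 224 1795 (.leaf 228 1801 .nil)) .nil)) .nil)) (.cons 229 (.leaf 230 1809 (.cons 228 (.leaf 249 1801 (.cons 204 (.leaf 180 1438 (.cons 277 (.leaf 278 2000 (.leaf 301 1639 .nil)) .nil)) .nil)) .nil)) (.cons 226 (.leaf 225 1803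 (.cons 178 (.leaf 202 1428 (.cons 254 (.leaf 274 2002 (.leaf 227 1811 .nil)) .nil)) .nil)) .nil))) (.cons 253 (.cons 229 (.leaf 230 1809 (.cons 228 (.leaf 249 1801 (.cons 204 (.leaf 180 1438 (.cons 277 (.leaf 278 2000 (.leaf 301 1639 .nil)) .nil)) .nil)) .nil)) (.cons 274 (.leaf 254 2002 (.leaf 273 1994 .nil)) .nil)) .nil)))))
noncomputable def t59 : T := .cons 202 (.leaf 178 1428 (.cons 177 (.leaf 201 1423 (.cons 203 (.leaf 179 1429 (.cons 227 (.leaf 298 1621 (.cons 180 (.leaf 204 1437 (.cons 276 (.leaf 300 1628 (.cons 277 (.leaf 278 2003 (.cons 253 (.leaf 254 2001 (.cons 252 (.leaf 273 1993 (.leaf 225 1803 .nil)) .nil)) .nil)) .nil)) .nil)) .nil)) .nil)) .nil)) .nil)) (.cons 227 (.cons 203 (.leaf 298 1621 (.leaf 179 1430 .nil)) (.cons 298 (.leaf 322 1813 (.cons 225 (.leaf 201 1615 (.cons 224 (.leaf 223 1784 (.leaf 252 1792 .nil)) .nil)) .nil)) (.cons 203 (.leaf 179 1430 (.cons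 180 (.leaf 204 1437 (.cons 276 (.leaf 300 1628 (.cons 277 (.leaf 278 2003 (.cons 253 (.leaf 254 2001 (.cons 252 (.leaf 273 1993 (.leaf 225 1803 .nil)) .nil)) .nil)) .nil)) .nil)) .nil)) .nil))) (.cons 202 (.leaf 178 1428 (.cons 201 (.leaf 177 1423 (.cons 203 (.leaf 179 1429 (.cons 225 (.leaf 298 1615 (.cons 224 (.leaf 223 1784 (.leaf 204 1602 .nil)) .nil)) .nil)) .nil)) .nil)) (.cons 202 (.leaf 178 1428 (.cons 201 (.leaf 177 1423 (.cons 225 (.leaf 298 1615 (.cons 224 (.leaf 223 1784 (.cons 252 (.leaf 227 1792 (.leaf 253 1803 .nil)) .nil)) .nil)) .nil)) .nil)) (.cons 202 (.leaf 178 1428 (.cons 203 (.leaf 179 1429 (.cons 201 (.leaf 177 1423 (.cons 204 (.cons 180 (.leaf 227 1437 (.leaf 181 1417 .nil)) (.cons 180 (.leaf 181 1417 (.cons 228 (.leaf 252 1438 (.leaf 229 1608 .nil)) .nil)) (.cons 225 (.leaf 205 1610 (.leaf 224 1602 .nil)) .nil))) .nil)) .nil)) .nil)) (.cons 202 (.leaf 178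 1428 (.cons 177 (.leaf 201 1423 (.cons 203 (.leaf 179 1429 (.cons 227 (.leaf 298 1621 (.cons 180 (.leaf 204 1437 (.cons 276 (.leaf 300 1628 (.cons 277 (.leaf 278 2003 (.cons 253 (.leaf 254 2001 (.cons 252 (.leaf 273 1993 (.cons 301 (.leaf 302 2192 (.cons 325 (.leaf 349 2023 (.leaf 228 1831 .nil)) .nil)) .nil)) .nil)) .nil)) .nil)) .nil)) .nil)) .nil)) .nil)) .nil)) (.cons 202 (.leaf 178 1428 (.cons 203 (.leaf 179 1429 (.cons 227 (.leaf 298 1621 (.cons 180 (.leaf 204 1437 (.cons 276 (.leaf 300 1628 (.cons 277 (.leaf 278 2003 (.cons 253 (.leaf 254 2001 (.cons 252 (.leaf 273 1993 (.leaf 225 1803 .nil)) .nil)) .nil)) .nil)) .nil)) .nil)) .nil)) .nil)) .nil))))))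
noncomputable def t60 : T := .cons 273 (.cons 272 (.leaf 252 1985 (.leaf 271 1977 .nil)) (.cons 272 (.leaf 271 1977 (.cons 247 (.leaf 248 1979 (.cons 296 (.leaf 295 2170 (.cons 276 (.leaf 297 2178 (.cons 277 (.leaf 278 2003 (.cons 301 (.leaf 300 2184 (.leaf 302 2192 .nil)) .nil)) .nil)) .nil)) .nil)) .nil)) (.cons 276 (.cons 252 (.leaf 253 1993 (.cons 277 (.leaf 278 2003 (.cons 297 (.leaf 296 2178 (.leaf 298 2186 .nil)) .nil)) .nil)) (.cons 277 (.leaf 278 2003 (.cons 301 (.leaf 300 2184 (.leaf 302 2192 .nil)) .nil)) (.cons 252 (.leaf 253 1993 (.cons 296 (.leaf 297 2178 (.cons 300 (.leaf 301 2184 (.cons 227 (.leaf 203 1628 (.leaf 324 1823 .nil)) .nil)) .nil)) .nil)) .nil))) .nil))) (.cons 273 (.cons 272 (.leaf 252 1985 (.leaf 271 1977 .nil)) (.cons 272 (.leaf 271 1977 (.cons 247 (.leaf 248 1979 (.cons 296 (.leaf 295 2170 (.cons 276 (.leaf 297 2178 (.cons 277 (.leaf 278 2003 (.cons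 301 (.leaf 300 2184 (.leaf 302 2192 .nil)) .nil)) .nil)) .nil)) .nil)) .nil)) (.cons 252 (.leaf 253 1994 (.cons 276 (.cons 277 (.leaf 278 2003 (.cons 297 (.leaf 296 2178 (.leaf 298 2186 .nil)) .nil)) (.cons 297 (.leaf 296 2178 (.cons 202 (.leaf 226 1614 (.cons 300 (.leaf 301 2184 (.cons 324 (.leaf 348 2015 (.cons 323 (.leaf 347 2014 (.cons 325 (.leaf 349 2020 (.cons 322 (.leaf 298 2379 (.cons 345 (.leaf 321 1997 (.leaf 346 2570 .nil)) .nil)) .nil)) .nil)) .nil)) .nil)) .nil)) .nil)) (.cons 277 (.leaf 278 2003 (.cons 301 (.leaf 300 2184 (.leaf 302 2192 .nil)) .nil)) .nil))) .nil)) .nil))) (.cons 298 (.cons 227 (.leaf 203 1622 (.leaf 322 1813 .nil)) (.cons 322 (.leaf 346 2005 (.cons 321 (.leaf 345 1998 (.cons 297 (.leaf 226 1806 (.cons 296 (.leaf 295 2169 (.cons 323 (.leaf 347 2004 (.leaf 324 2371 .nil)) .nil)) .nil)) .nil)) .nil)) (.cons 227 (.leaf 203 1622 (.cons 226 (.cons 201 (.leaf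 225 1615 (.cons 202 (.leaf 178 1428 (.leaf 177 1423 .nil)) .nil)) (.cons 297 (.leaf 321 1806 (.cons 276 (.leaf 277 2186 (.cons 296 (.leaf 273 2178 (.leaf 295 2169 .nil)) .nil)) .nil)) .nil)) .nil)) .nil))) (.cons 298 (.cons 226 (.cons 201 (.leaf 225 1615 (.cons 321 (.leaf 297 1806 (.cons 322 (.leaf 346 2005 (.leaf 227 1813 .nil)) .nil)) .nil)) (.cons 201 (.leaf 225 1615 (.cons 321 (.leaf 297 1806 (.cons 322 (.leaf 346 2005 (.leaf 345 1998 .nil)) .nil)) .nil)) (.cons 201 (.leaf 225 1615 (.cons 202 (.leaf 178 1428 (.leaf 177 1423 .nil)) .nil)) (.cons 203 (.leaf 227 1621 (.cons 202 (.leaf 178 1428 (.leaf 179 1429 .nil)) .nil)) .nil)))) (.cons 322 (.leaf 346 2005 (.cons 321 (.leaf 345 1998 (.cons 297 (.leaf 226 1806 (.cons 296 (.leaf 295 2169 (.cons 323 (.leaf 347 2004 (.leaf 324 2371 .nil)) .nil)) .nil)) .nil)) .nil)) (.cons 226 (.cons 201 (.leaf 225 1615 (.cons 202 (.leaf 178 1428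 (.leaf 177 1423 .nil)) .nil)) (.cons 227 (.leaf 203 1621 (.cons 225 (.leaf 201 1615 (.cons 224 (.leaf 223 1784 (.leaf 252 1792 .nil)) .nil)) .nil)) (.cons 203 (.leaf 227 1621 (.cons 202 (.leaf 178 1428 (.leaf 179 1429 .nil)) .nil)) .nil))) (.cons 322 (.leaf 346 2005 (.leaf 227 1813 .nil)) .nil)))) (.cons 273 (.cons 272 (.leaf 252 1985 (.leaf 271 1977 .nil)) (.cons 272 (.leaf 271 1977 (.cons 247 (.leaf 248 1979 (.cons 296 (.leaf 295 2170 (.cons 276 (.leaf 297 2178 (.cons 277 (.leaf 278 2003 (.cons 301 (.leaf 300 2184 (.leaf 302 2192 .nil)) .nil)) .nil)) .nil)) .nil)) .nil)) (.cons 276 (.cons 252 (.leaf 253 1993 (.cons 277 (.leaf 278 2003 (.cons 301 (.leaf 300 2184 (.leaf 302 2192 .nil)) .nil)) .nil)) (.cons 277 (.leaf 278 2003 (.cons 301 (.leaf 300 2184 (.leaf 302 2192 .nil)) .nil)) (.cons 252 (.leaf 253 1993 (.cons 300 (.leaf 301 2184 (.cons 227 (.leaf 203 1628 (.leaf 324 1823 .nil))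 .nil)) .nil)) (.cons 253 (.leaf 252 1993 (.cons 277 (.leaf 278 2003 (.leaf 254 2001 .nil)) .nil)) .nil)))) .nil))) (.cons 226 t59 .nil)))))
noncomputable def t61 : T := .cons 252 (.cons 224 (.leaf 225 1795 (.cons 228 (.leaf 229 1801 (.cons 204 (.leaf 180 1438 (.cons 276 (.leaf 248 1984 (.leaf 277 1992 .nil)) .nil)) .nil)) .nil)) (.cons 224 (.leaf 225 1795 (.cons 228 (.leaf 229 1801 (.cons 248 (.leaf 223 1787 (.leaf 227 1793 .nil)) .nil)) .nil)) (.cons 224 (.leaf 225 1795 (.cons 228 (.leaf 229 1801 (.cons 204 (.leaf 180 1438 (.cons 276 (.leaf 277 1992 (.cons 181 (.leaf 205 1445 (.cons 203 (.leaf 179 1439 (.cons 227 (.leaf 300 1628 (.cons 202 (.leaf 178 1431 (.cons 201 (.leaf 200 1600 (.cons 177 (.leaf 176 1411 (.cons 274 (.leaf 298 1622 (.leaf 226 1423 .nil)) .nil)) .nil)) .nil)) .nil)) .nil)) .nil)) .nil)) .nil)) .nil)) .nil)) (.cons 276 (.leaf 248 1984 (.leaf 277 1992 .nil)) .nil))))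 (.cons 252 (.cons 224 (.leaf 225 1795 (.cons 228 (.leaf 229 1801 (.cons 204 (.leaf 180 1438 (.cons 276 (.leaf 277 1992 (.cons 181 (.leaf 205 1445 (.cons 203 (.leaf 179 1439 (.cons 227 (.leaf 300 1628 (.cons 202 (.leaf 178 1431 (.cons 201 (.leaf 200 1600 (.cons 177 (.leaf 176 1411 (.cons 274 (.leaf 298 1622 (.leaf 226 1423 .nil)) .nil)) .nil)) .nil)) .nil)) .nil)) .nil)) .nil)) .nil)) .nil)) .nil)) (.cons 273 (.leaf 272 1986 (.cons 229 (.leaf 228 1801 (.cons 253 (.leaf 230 1809 (.leaf 274 1994 .nil)) .nil)) .nil)) (.cons 277 (.leaf 276 1992 (.cons 224 (.leaf 225 1795 (.cons 229 (.leaf 228 1801 (.cons 253 (.leaf 230 1809 (.leaf 278 2000 .nil)) .nil)) .nil)) .nil)) (.cons 276 (.leaf 277 1992 (.cons 225 (.leaf 224 1795 (.cons 226 (.leaf 253 1803 (.cons 202 (.leaf 178 1428 (.cons 273 (.leaf 272 1986 (.leaf 297 1613 .nil)) .nil)) .nil)) .nil)) .nil)) .nil)))) (.cons 248 (.cons 227 (.leaf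 228 1793 (.cons 247 (.leaf 274 1976 (.leaf 226 1785 .nil)) .nil)) (.cons 272 (.leaf 271 1978 (.cons 224 (.leaf 223 1787 (.cons 252 (.leaf 225 1795 (.leaf 273 1986 .nil)) .nil)) .nil)) .nil)) (.cons 248 (.leaf 276 1984 (.cons 227 (.leaf 228 1793 (.cons 247 (.leaf 274 1976 (.leaf 226 1785 .nil)) .nil)) .nil)) (.cons 248 (.leaf 276 1984 (.cons 272 (.leaf 271 1978 (.cons 224 (.leaf 223 1787 (.cons 252 (.leaf 225 1795 (.leaf 273 1986 .nil)) .nil)) .nil)) .nil)) .nil))))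
noncomputable def t62 : T := .cons 249 t61 (.cons 274 t60 (.cons 252 t58 (.cons 249 t57 (.cons 274 t56 (.cons 276 t55 (.cons 276 t53 (.cons 252 t52 (.cons 249 (.cons 248 (.leaf 276 1984 (.cons 223 (.leaf 224 1787 (.cons 247 (.leaf 274 1976 (.leaf 222 1779 .nil)) .nil)) .nil)) (.cons 252 t50 (.cons 252 (.cons 273 (.leaf 272 1986 (.cons 225 (.leaf 224 1795 (.cons 253 (.leaf 226 1803 (.leaf 274 1994 .nil)) .nil)) .nil)) (.cons 228 (.leaf 229 1801 (.cons 180 (.leaf 204 1438 (.cons 224 (.leaf 225 1795 (.cons 248 (.leaf 223 1787 (.leaf 227 1793 .nil)) .nil)) .nil)) .nil)) (.cons 273 (.leaf 272 1986 (.cons 228 (.leaf 229 1801 (.cons 180 (.leaf 204 1438 (.cons 227 (.leaf 248 1793 (.cons 253 (.leaf 274 1994 (.cons 254 (.leaf 226 1811 (.leaf 255 1819 .nil)) .nil)) .nil)) .nil)) .nil)) .nil)) .nil))) (.cons 248 (.leaf 276 1984 (.cons 223 (.leaf 224 1787 (.cons 228 (.leaf 227 1793 (.cons 252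 (.leaf 229 1801 (.cons 272 (.leaf 271 1978 (.leaf 273 1986 .nil)) .nil)) .nil)) .nil)) .nil)) (.cons 248 (.leaf 276 1984 (.cons 227 (.leaf 228 1793 (.cons 247 (.leaf 274 1976 (.leaf 226 1785 .nil)) .nil)) .nil)) .nil))))) t49))))))))
noncomputable def t63 : T := .cons 273 (.leaf 272 1985 (.cons 276 (.leaf 253 1993 (.cons 297 (.leaf 296 2178 (.cons 249 (.leaf 248 1987 (.cons 298 (.leaf 277 2186 (.cons 322 (.leaf 346 2005 (.leaf 225 1804 .nil)) .nil)) .nil)) .nil)) .nil)) .nil)) (.cons 253 (.leaf 254 2002 (.cons 250 (.cons 229 (.leaf 230 1809 (.cons 228 (.leaf 249 1801 (.cons 204 (.leaf 180 1438 (.cons 299 (.leaf 276 1630 (.leaf 323 1821 .nil)) .nil)) .nil)) .nil)) (.cons 226 (.leaf 225 1803 (.cons 202 (.leaf 178 1428 (.leaf 299 1620 .nil)) .nil)) (.cons 277 (.leaf 278 2000 (.cons 249 (.leaf 276 1992 (.cons 225 (.leaf 224 1795 (.leaf 226 1803 .nil)) .nil)) .nil)) .nil))) .nil)) (.cons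 273 (.leaf 272 1985 (.cons 276 (.cons 297 (.leaf 296 2178 (.cons 249 (.leaf 248 1987 (.cons 298 (.leaf 277 2186 (.cons 322 (.leaf 346 2005 (.leaf 225 1804 .nil)) .nil)) .nil)) .nil)) (.cons 297 (.leaf 296 2178 (.cons 277 (.leaf 298 2186 (.cons 278 (.leaf 250 2003 (.leaf 279 2011 .nil)) .nil)) .nil)) (.cons 249 (.leaf 248 1987 (.cons 250 (.leaf 277 1992 (.cons 224 (.leaf 225 1795 (.cons 228 (.leaf 229 1801 (.cons 204 (.leaf 180 1438 (.leaf 299 1630 .nil)) .nil)) .nil)) .nil)) .nil)) (.cons 249 (.leaf 248 1987 (.cons 297 (.leaf 296 2178 (.cons 225 (.cons 224 (.leaf 250 1795 (.leaf 200 1607 .nil)) (.cons 298 (.leaf 201 1612 (.leaf 322 1804 .nil)) .nil)) .nil)) .nil)) .nil)))) .nil)) (.cons 273 (.leaf 272 1985 (.cons 253 (.leaf 254 2002 (.leaf 250 1994 .nil)) .nil)) .nil)))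
noncomputable def t64 : T := .cons 253 (.leaf 254 2002 (.cons 273 (.leaf 272 1985 (.leaf 276 1993 .nil)) .nil)) (.cons 273 (.leaf 272 1985 (.cons 276 (.cons 249 (.leaf 248 1987 (.cons 297 (.leaf 296 2178 (.cons 298 (.leaf 277 2186 (.cons 322 (.leaf 346 2005 (.leaf 225 1804 .nil)) .nil)) .nil)) .nil)) (.cons 297 (.leaf 296 2178 (.cons 277 (.leaf 298 2186 (.cons 278 (.leaf 250 2003 (.leaf 279 2011 .nil)) .nil)) .nil)) (.cons 249 (.leaf 248 1987 (.cons 297 (.leaf 296 2178 (.cons 225 (.cons 224 (.leaf 250 1795 (.leaf 200 1607 .nil)) (.cons 298 (.leaf 201 1612 (.leaf 322 1804 .nil)) .nil)) .nil)) .nil)) (.cons 249 (.leaf 248 1987 (.cons 250 (.leaf 277 1992 (.cons 224 (.leaf 225 1795 (.cons 228 (.leaf 229 1801 (.cons 204 (.leaf 180 1438 (.leaf 299 1630 .nil)) .nil)) .nil)) .nil)) .nil)) .nil)))) .nil)) (.cons 253 (.leaf 254 2002 (.cons 250 (.cons 277 (.leaf 278 2000 (.cons 226 (.leaf 225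 1803 (.cons 202 (.leaf 178 1428 (.leaf 299 1620 .nil)) .nil)) .nil)) (.cons 226 (.leaf 225 1803 (.cons 202 (.leaf 178 1428 (.leaf 299 1620 .nil)) .nil)) (.cons 277 (.leaf 278 2000 (.cons 276 (.leaf 249 1992 (.cons 297 (.leaf 298 2186 (.cons 301 (.leaf 302 2192 (.cons 228 (.leaf 204 1636 (.leaf 325 1831 .nil)) .nil)) .nil)) .nil)) .nil)) .nil))) .nil)) (.cons 253 (.leaf 254 2002 (.cons 273 (.leaf 272 1985 (.leaf 250 1994 .nil)) .nil)) .nil)))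
noncomputable def t65 : T := .cons 253 (.leaf 254 2002 (.cons 250 (.leaf 273 1994 (.cons 277 (.leaf 278 2000 (.cons 226 (.leaf 225 1803 (.cons 202 (.leaf 178 1428 (.leaf 299 1620 .nil)) .nil)) .nil)) .nil)) .nil)) (.cons 273 (.leaf 272 1985 (.cons 276 (.cons 296 (.leaf 297 2178 (.cons 300 (.leaf 301 2184 (.cons 324 (.leaf 348 2015 (.cons 323 (.leaf 347 2014 (.cons 228 (.leaf 299 1821 (.cons 204 (.leaf 180 1438 (.cons 205 (.leaf 181 1445 (.leaf 229 1637 .nil)) .nil)) .nil)) .nil)) .nil)) .nil)) .nil)) (.cons 297 (.leaf 296 2178 (.cons 277 (.leaf 298 2186 (.cons 278 (.leaf 250 2003 (.leaf 279 2011 .nil)) .nil)) .nil)) (.cons 300 (.leaf 301 2184 (.cons 324 (.leaf 348 2015 (.cons 323 (.leaf 347 2014 (.cons 228 (.leaf 299 1821 (.cons 204 (.leaf 180 1438 (.cons 205 (.leaf 181 1445 (.leaf 229 1637 .nil)) .nil)) .nil)) .nil)) .nil)) .nil)) .nil))) .nil)) (.cons 253 (.leaf 254 2002 (.cons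 250 (.cons 277 (.leaf 278 2000 (.cons 226 (.leaf 225 1803 (.cons 202 (.leaf 178 1428 (.leaf 299 1620 .nil)) .nil)) .nil)) (.cons 226 (.leaf 225 1803 (.cons 202 (.leaf 178 1428 (.leaf 299 1620 .nil)) .nil)) (.cons 277 (.leaf 278 2000 (.cons 276 (.leaf 249 1992 (.cons 229 (.leaf 230 1809 (.cons 205 (.leaf 181 1446 (.leaf 300 1638 .nil)) .nil)) .nil)) .nil)) .nil))) .nil)) (.cons 253 (.leaf 254 2002 (.cons 273 (.leaf 272 1985 (.leaf 276 1993 .nil)) .nil)) .nil)))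
noncomputable def t66 : T := .cons 273 (.leaf 272 1985 (.cons 276 (.leaf 253 1993 (.cons 249 (.leaf 248 1987 (.cons 297 (.leaf 296 2178 (.cons 298 (.leaf 277 2186 (.cons 322 (.leaf 346 2005 (.leaf 225 1804 .nil)) .nil)) .nil)) .nil)) .nil)) .nil)) (.cons 253 (.leaf 254 2002 (.cons 250 (.cons 226 (.leaf 225 1803 (.cons 202 (.leaf 178 1428 (.leaf 299 1620 .nil)) .nil)) (.cons 277 (.leaf 278 2000 (.cons 276 (.leaf 249 1992 (.cons 229 (.leaf 230 1809 (.cons 205 (.leaf 181 1446 (.leaf 300 1638 .nil)) .nil)) .nil)) .nil)) .nil)) .nil)) (.cons 273 (.leaf 272 1985 (.cons 276 (.cons 249 (.leaf 248 1987 (.cons 297 (.leaf 296 2178 (.cons 298 (.leaf 277 2186 (.cons 322 (.leaf 346 2005 (.leaf 225 1804 .nil)) .nil)) .nil)) .nil)) (.cons 300 (.leaf 301 2184 (.cons 297 (.leaf 296 2178 (.cons 277 (.leaf 298 2186 (.cons 278 (.leaf 250 2003 (.leaf 279 2011 .nil)) .nil)) .nil)) .nil)) (.cons 249 (.leaf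 248 1987 (.cons 297 (.leaf 296 2178 (.cons 225 (.cons 224 (.leaf 250 1795 (.leaf 200 1607 .nil)) (.cons 298 (.leaf 201 1612 (.leaf 322 1804 .nil)) .nil)) .nil)) .nil)) (.cons 248 (.leaf 249 1987 (.cons 301 (.leaf 300 2184 (.cons 277 (.leaf 302 2192 (.cons 278 (.leaf 250 2003 (.leaf 279 2011 .nil)) .nil)) .nil)) .nil)) .nil)))) .nil)) (.cons 273 (.leaf 272 1985 (.cons 253 (.leaf 254 2002 (.leaf 250 1994 .nil)) .nil)) .nil)))
noncomputable def t67 : T := .cons 273 (.leaf 272 1985 (.cons 253 (.leaf 254 2002 (.leaf 276 1993 .nil)) .nil)) (.cons 253 (.leaf 254 2002 (.cons 250 (.cons 229 (.leaf 230 1809 (.cons 228 (.leaf 249 1801 (.cons 204 (.leaf 180 1438 (.cons 299 (.leaf 276 1630 (.leaf 323 1821 .nil)) .nil)) .nil)) .nil)) (.cons 226 (.leaf 225 1803 (.cons 202 (.leaf 178 1428 (.leaf 299 1620 .nil)) .nil)) (.cons 226 (.leaf 225 1803 (.cons 178 (.leaf 202 1428 (.cons 229 (.leaf 230 1809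 (.cons 249 (.leaf 228 1801 (.cons 248 (.leaf 247 1976 (.leaf 276 1984 .nil)) .nil)) .nil)) .nil)) .nil)) .nil))) .nil)) (.cons 273 (.leaf 272 1985 (.cons 276 (.cons 300 (.leaf 301 2184 (.cons 324 (.leaf 348 2015 (.cons 323 (.leaf 347 2014 (.cons 228 (.leaf 299 1821 (.cons 204 (.leaf 180 1438 (.cons 205 (.leaf 181 1445 (.leaf 229 1637 .nil)) .nil)) .nil)) .nil)) .nil)) .nil)) (.cons 249 (.leaf 248 1987 (.cons 297 (.leaf 296 2178 (.cons 225 (.cons 224 (.leaf 250 1795 (.leaf 200 1607 .nil)) (.cons 298 (.leaf 201 1612 (.leaf 322 1804 .nil)) .nil)) .nil)) .nil)) .nil)) .nil)) (.cons 273 (.leaf 272 1985 (.cons 253 (.leaf 254 2002 (.leaf 250 1994 .nil)) .nil)) .nil)))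
noncomputable def t68 : T := .cons 296 (.leaf 297 2178 (.cons 301 (.leaf 300 2184 (.cons 277 (.leaf 302 2192 (.cons 278 (.leaf 250 2003 (.cons 252 (.leaf 253 1993 (.leaf 279 2011 .nil)) .nil)) .nil)) .nil)) .nil)) (.cons 296 (.leaf 297 2178 (.cons 301 (.leaf 300 2184 (.cons 277 (.leaf 302 2192 (.cons 254 (.leaf 253 2001 (.cons 278 (.leaf 250 2003 (.leaf 255 2009 .nil)) .nil)) .nil)) .nil)) .nil)) (.cons 296 (.leaf 297 2178 (.cons 301 (.leaf 300 2184 (.cons 277 (.leaf 302 2192 (.cons 278 (.leaf 250 2003 (.cons 252 (.leaf 279 2011 (.cons 228 (.leaf 204 1636 (.cons 299 (.leaf 323 1821 (.leaf 298 2194 .nil)) .nil)) .nil)) .nil)) .nil)) .nil)) .nil)) (.cons 253 (.leaf 252 1993 (.cons 277 (.leaf 254 2001 (.cons 301 (.leaf 300 2184 (.leaf 302 2192 .nil)) .nil)) .nil)) (.cons 252 (.leaf 253 1993 (.cons 297 (.leaf 296 2178 (.cons 277 (.leaf 298 2186 (.cons 278 (.leaf 250 2003 (.leaf 279 2011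 .nil)) .nil)) .nil)) .nil)) (.cons 252 (.leaf 253 1993 (.cons 300 (.leaf 301 2184 (.cons 324 (.leaf 348 2015 (.cons 323 (.leaf 347 2014 (.cons 228 (.leaf 299 1821 (.cons 204 (.leaf 180 1438 (.cons 205 (.leaf 181 1445 (.leaf 229 1637 .nil)) .nil)) .nil)) .nil)) .nil)) .nil)) .nil)) .nil)))))
noncomputable def t69 : T := .cons 272 (.leaf 252 1985 (.cons 299 (.leaf 300 2176 (.cons 271 (.leaf 250 1977 (.leaf 298 2168 .nil)) .nil)) .nil)) (.cons 276 (.cons 297 (.leaf 296 2178 (.cons 277 (.leaf 298 2186 (.cons 301 (.leaf 300 2184 (.leaf 302 2192 .nil)) .nil)) .nil)) (.cons 249 (.leaf 248 1987 (.cons 277 (.leaf 250 1995 (.cons 301 (.leaf 300 2184 (.leaf 302 2192 .nil)) .nil)) .nil)) (.cons 249 (.leaf 248 1987 (.cons 250 (.leaf 277 1995 (.cons 297 (.leaf 296 2178 (.cons 226 (.leaf 202 1614 (.leaf 321 1805 .nil)) .nil)) .nil)) .nil)) (.cons 249 (.leaf 248 1987 (.cons 297 (.leaf 296 2178 (.cons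 300 (.leaf 301 2184 (.cons 324 (.leaf 348 2015 (.cons 298 (.cons 322 (.leaf 346 2005 (.leaf 225 1804 .nil)) (.cons 225 (.leaf 201 1612 (.cons 200 (.leaf 224 1607 (.cons 226 (.leaf 202 1613 (.cons 321 (.leaf 250 1805 (.cons 299 (.leaf 320 2370 (.leaf 325 2376 .nil)) .nil)) .nil)) .nil)) .nil)) (.cons 322 (.leaf 346 2005 (.cons 325 (.leaf 299 2376 (.leaf 323 2379 .nil)) .nil)) .nil))) .nil)) .nil)) .nil)) .nil)) .nil)))) (.cons 272 (.leaf 252 1985 (.cons 299 (.leaf 300 2176 (.cons 247 (.leaf 248 1979 (.cons 271 (.leaf 246 1971 (.leaf 298 2168 .nil)) .nil)) .nil)) .nil)) (.cons 272 (.leaf 252 1985 (.cons 247 (.leaf 248 1979 (.cons 271 (.leaf 250 1977 (.leaf 246 1971 .nil)) .nil)) .nil)) .nil)))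
noncomputable def t70 : T := .cons 273 (.leaf 272 1985 (.cons 253 (.leaf 254 2002 (.leaf 276 1993 .nil)) .nil)) (.cons 253 (.leaf 254 2002 (.cons 250 (.cons 229 (.leaf 230 1809 (.cons 228 (.leaf 249 1801 (.cons 204 (.leaf 180 1438 (.cons 299 (.leaf 276 1630 (.leaf 323 1821 .nil)) .nil)) .nil)) .nil)) (.cons 226 (.leaf 225 1803 (.cons 202 (.leaf 178 1428 (.leaf 299 1620 .nil)) .nil)) (.cons 229 (.leaf 230 1809 (.cons 277 (.leaf 278 2000 (.cons 276 (.leaf 249 1992 (.cons 205 (.leaf 181 1446 (.leaf 300 1638 .nil)) .nil)) .nil)) .nil)) .nil))) .nil)) (.cons 273 (.leaf 272 1985 (.cons 276 (.cons 248 (.leaf 249 1987 (.cons 301 (.leaf 300 2184 (.cons 277 (.leaf 302 2192 (.cons 278 (.leaf 250 2003 (.leaf 279 2011 .nil)) .nil)) .nil)) .nil)) (.cons 300 (.leaf 301 2184 (.cons 324 (.leaf 348 2015 (.cons 323 (.leaf 347 2014 (.cons 228 (.leaf 299 1821 (.cons 204 (.leaf 180 1438 (.cons 205 (.leaf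 181 1445 (.leaf 229 1637 .nil)) .nil)) .nil)) .nil)) .nil)) .nil)) (.cons 249 (.leaf 248 1987 (.cons 250 (.leaf 277 1992 (.cons 224 (.leaf 225 1795 (.cons 228 (.leaf 229 1801 (.cons 204 (.leaf 180 1438 (.leaf 299 1630 .nil)) .nil)) .nil)) .nil)) .nil)) .nil))) .nil)) (.cons 253 (.leaf 254 2002 (.cons 273 (.leaf 272 1985 (.leaf 250 1994 .nil)) .nil)) .nil)))
noncomputable def t71 : T := .cons 250 (.leaf 278 2003 (.cons 297 (.leaf 298 2186 (.cons 273 (.leaf 296 2178 (.cons 301 (.leaf 300 2184 (.leaf 302 2192 .nil)) .nil)) .nil)) .nil)) (.cons 253 (.leaf 254 2001 (.cons 301 (.leaf 302 2192 (.cons 300 (.leaf 273 2184 (.cons 324 (.leaf 348 2021 (.leaf 229 1830 .nil)) .nil)) .nil)) .nil)) (.cons 250 (.leaf 278 2003 (.cons 253 (.leaf 254 2001 (.cons 252 (.leaf 273 1993 (.cons 225 (.leaf 226 1803 (.cons 229 (.leaf 230 1809 (.cons 205 (.leaf 181 1446 (.leaf 300 1638 .nil)) .nil)) .nil)) .nil))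 .nil)) .nil)) (.cons 250 (.leaf 278 2003 (.cons 253 (.leaf 254 2001 (.cons 298 (.leaf 297 2186 (.cons 301 (.leaf 302 2192 (.cons 322 (.leaf 346 2005 (.cons 252 (.leaf 273 1993 (.cons 228 (.leaf 204 1636 (.leaf 325 1831 .nil)) .nil)) .nil)) .nil)) .nil)) .nil)) .nil)) (.cons 250 (.leaf 278 2003 (.cons 253 (.leaf 254 2001 (.cons 298 (.leaf 297 2186 (.cons 301 (.leaf 302 2192 (.cons 322 (.leaf 346 2005 (.cons 323 (.leaf 347 2004 (.cons 226 (.leaf 299 1812 (.cons 178 (.leaf 202 1428 (.cons 321 (.leaf 345 1998 (.cons 324 (.leaf 300 2377 (.cons 348 (.leaf 325 2022 (.leaf 349 2568 .nil)) .nil)) .nil)) .nil)) .nil)) .nil)) .nil)) .nil)) .nil)) .nil)) .nil)) .nil))))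
noncomputable def t72 : T := .cons 252 (.leaf 253 1993 (.cons 248 (.leaf 249 1987 (.cons 300 (.leaf 301 2184 (.cons 324 (.leaf 348 2015 (.cons 323 (.leaf 347 2014 (.cons 228 (.leaf 299 1821 (.cons 204 (.leaf 180 1438 (.cons 205 (.leaf 181 1445 (.leaf 229 1637 .nil)) .nil)) .nil)) .nil)) .nil)) .nil)) .nil)) .nil)) (.cons 249 (.leaf 248 1987 (.cons 297 (.leaf 296 2178 (.cons 300 (.leaf 301 2184 (.cons 324 (.leaf 348 2015 (.cons 298 (.cons 322 (.leaf 346 2005 (.leaf 225 1804 .nil)) (.cons 225 (.leaf 201 1612 (.cons 200 (.leaf 224 1607 (.cons 226 (.leaf 202 1613 (.cons 321 (.leaf 250 1805 (.cons 299 (.leaf 320 2370 (.leaf 325 2376 .nil)) .nil)) .nil)) .nil)) .nil)) (.cons 322 (.leaf 346 2005 (.cons 325 (.leaf 299 2376 (.leaf 323 2379 .nil)) .nil)) .nil))) .nil)) .nil)) .nil)) .nil)) (.cons 252 (.leaf 253 1993 (.cons 296 (.leaf 297 2178 (.cons 300 (.leaf 301 2184 (.cons 324 (.leaf 348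 2015 (.cons 323 (.leaf 347 2014 (.cons 228 (.leaf 299 1821 (.cons 204 (.leaf 180 1438 (.cons 205 (.leaf 181 1445 (.leaf 229 1637 .nil)) .nil)) .nil)) .nil)) .nil)) .nil)) .nil)) .nil)) (.cons 252 (.leaf 253 1993 (.cons 249 (.leaf 248 1987 (.cons 297 (.leaf 296 2178 (.cons 225 (.cons 224 (.leaf 250 1795 (.leaf 200 1607 .nil)) (.cons 298 (.leaf 201 1612 (.leaf 322 1804 .nil)) .nil)) .nil)) .nil)) .nil)) .nil)))
noncomputable def t73 : T := .cons 277 (.cons 253 (.leaf 254 2001 (.cons 301 (.leaf 302 2192 (.cons 300 (.leaf 273 2184 (.cons 324 (.leaf 348 2021 (.leaf 229 1830 .nil)) .nil)) .nil)) .nil)) (.cons 249 (.leaf 250 1995 (.cons 273 (.leaf 248 1987 (.cons 297 (.leaf 296 2178 (.leaf 298 2186 .nil)) .nil)) .nil)) (.cons 250 (.leaf 249 1995 (.leaf 278 2003 .nil)) .nil))) (.cons 273 t72 (.cons 273 (.cons 248 (.leaf 249 1987 (.cons 297 (.leaf 296 2178 (.cons 277 (.leaf 298 2186 (.cons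 301 (.leaf 300 2184 (.leaf 302 2192 .nil)) .nil)) .nil)) .nil)) (.cons 248 (.leaf 249 1987 (.cons 252 (.leaf 253 1993 (.cons 297 (.leaf 296 2178 (.cons 277 (.leaf 298 2186 (.cons 278 (.leaf 279 2011 (.cons 302 (.leaf 301 2192 (.leaf 303 2200 .nil)) .nil)) .nil)) .nil)) .nil)) .nil)) (.cons 253 (.leaf 252 1993 (.cons 248 (.leaf 249 1987 (.cons 277 (.leaf 254 2001 (.cons 301 (.leaf 300 2184 (.leaf 302 2192 .nil)) .nil)) .nil)) .nil)) (.cons 248 (.leaf 249 1987 (.cons 253 (.leaf 252 1993 (.cons 277 (.leaf 254 2001 (.cons 297 (.leaf 296 2178 (.leaf 298 2186 .nil)) .nil)) .nil)) .nil)) (.cons 252 (.leaf 253 1993 (.cons 296 (.leaf 297 2178 (.cons 300 (.leaf 301 2184 (.cons 324 (.leaf 348 2015 (.cons 323 (.leaf 347 2014 (.cons 228 (.leaf 299 1821 (.cons 204 (.leaf 180 1438 (.cons 205 (.leaf 181 1445 (.leaf 229 1637 .nil)) .nil)) .nil)) .nil)) .nil)) .nil)) .nil)) .nil)) .nil))))) (.cons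 277 (.cons 253 (.leaf 254 2001 (.cons 298 (.leaf 297 2186 (.cons 278 (.leaf 250 2003 (.leaf 299 2194 .nil)) .nil)) .nil)) (.cons 253 (.leaf 254 2001 (.cons 298 (.leaf 297 2186 (.cons 278 (.leaf 299 2194 (.cons 302 (.leaf 301 2192 (.leaf 303 2200 .nil)) .nil)) .nil)) .nil)) (.cons 250 (.leaf 249 1995 (.cons 253 (.leaf 254 2001 (.cons 298 (.leaf 297 2186 (.cons 301 (.leaf 302 2192 (.cons 322 (.leaf 346 2005 (.cons 323 (.leaf 347 2004 (.cons 226 (.leaf 299 1812 (.cons 178 (.leaf 202 1428 (.cons 321 (.leaf 345 1998 (.cons 324 (.leaf 300 2377 (.cons 348 (.leaf 325 2022 (.leaf 349 2568 .nil)) .nil)) .nil)) .nil)) .nil)) .nil)) .nil)) .nil)) .nil)) .nil)) .nil)) (.cons 250 (.leaf 249 1995 (.leaf 278 2003 .nil)) .nil)))) (.cons 277 (.cons 297 (.leaf 298 2186 (.cons 273 (.leaf 296 2178 (.cons 301 (.leaf 300 2184 (.leaf 302 2192 .nil)) .nil)) .nil)) (.cons 250 (.leaf 249 1995 (.leaf 278 2003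 .nil)) .nil)) (.cons 277 t71 (.cons 277 (.cons 253 (.leaf 254 2001 (.cons 301 (.leaf 302 2192 (.cons 300 (.leaf 273 2184 (.cons 324 (.leaf 348 2021 (.leaf 229 1830 .nil)) .nil)) .nil)) .nil)) (.cons 250 (.leaf 249 1995 (.leaf 278 2003 .nil)) .nil)) (.cons 277 (.cons 249 (.leaf 250 1995 (.cons 273 (.leaf 248 1987 (.cons 297 (.leaf 296 2178 (.leaf 298 2186 .nil)) .nil)) .nil)) (.cons 253 (.leaf 254 2001 (.cons 252 (.leaf 273 1993 (.cons 301 (.leaf 302 2192 (.cons 228 (.leaf 204 1636 (.leaf 325 1831 .nil)) .nil)) .nil)) .nil)) (.cons 250 (.leaf 249 1995 (.leaf 278 2003 .nil)) .nil))) (.cons 277 (.cons 249 (.leaf 250 1995 (.cons 273 (.leaf 248 1987 (.cons 297 (.leaf 296 2178 (.leaf 298 2186 .nil)) .nil)) .nil)) (.cons 253 (.leaf 254 2001 (.cons 252 (.leaf 273 1993 (.cons 278 (.leaf 279 2011 (.cons 298 (.leaf 297 2186 (.leaf 299 2194 .nil)) .nil)) .nil)) .nil)) (.cons 250 (.leaf 249 1995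 (.leaf 278 2003 .nil)) .nil))) .nil))))))))
noncomputable def t74 : T := .cons 253 (.leaf 254 2002 (.cons 273 (.leaf 272 1985 (.leaf 276 1993 .nil)) .nil)) (.cons 253 (.leaf 254 2002 (.cons 250 (.cons 229 (.leaf 230 1809 (.cons 277 (.leaf 278 2000 (.cons 276 (.leaf 249 1992 (.cons 205 (.leaf 181 1446 (.leaf 300 1638 .nil)) .nil)) .nil)) .nil)) (.cons 225 (.leaf 226 1803 (.cons 249 (.leaf 224 1795 (.cons 248 (.leaf 247 1976 (.leaf 276 1984 .nil)) .nil)) .nil)) (.cons 226 (.leaf 225 1803 (.cons 202 (.leaf 178 1428 (.cons 201 (.leaf 177 1423 (.cons 203 (.leaf 179 1429 (.cons 229 (.leaf 230 1809 (.cons 204 (.leaf 228 1608 (.cons 180 (.leaf 181 1417 (.cons 277 (.leaf 278 2000 (.leaf 205 1447 .nil)) .nil)) .nil)) .nil)) .nil)) .nil)) .nil)) .nil)) .nil))) .nil)) (.cons 273 (.leaf 272 1985 (.cons 276 (.cons 296 (.leaf 297 2178 (.cons 301 (.leaf 300 2184 (.cons 277 (.leaf 302 2192 (.cons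 278 (.leaf 250 2003 (.leaf 279 2011 .nil)) .nil)) .nil)) .nil)) (.cons 297 (.leaf 296 2178 (.cons 300 (.leaf 301 2184 (.cons 324 (.leaf 348 2015 (.cons 323 (.leaf 347 2014 (.cons 325 (.leaf 349 2020 (.cons 322 (.leaf 298 2379 (.cons 249 (.leaf 248 1987 (.cons 346 (.leaf 321 1996 (.leaf 345 2570 .nil)) .nil)) .nil)) .nil)) .nil)) .nil)) .nil)) .nil)) (.cons 248 (.leaf 249 1987 (.cons 301 (.leaf 300 2184 (.cons 277 (.leaf 302 2192 (.cons 278 (.leaf 250 2003 (.leaf 279 2011 .nil)) .nil)) .nil)) .nil)) (.cons 249 (.leaf 248 1987 (.cons 250 (.leaf 277 1992 (.cons 224 (.leaf 225 1795 (.cons 228 (.leaf 229 1801 (.cons 180 (.leaf 204 1438 (.cons 297 (.leaf 296 2178 (.cons 226 (.leaf 202 1614 (.leaf 321 1805 .nil)) .nil)) .nil)) .nil)) .nil)) .nil)) .nil)) .nil)))) .nil)) (.cons 273 (.leaf 272 1985 (.cons 253 (.leaf 254 2002 (.leaf 250 1994 .nil)) .nil)) .nil)))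
noncomputable def t75 : T := .cons 249 (.cons 273 (.leaf 272 1985 (.leaf 253 1994 .nil)) (.cons 224 (.leaf 225 1795 (.cons 229 (.leaf 228 1801 (.cons 253 (.leaf 254 2002 (.leaf 230 1809 .nil)) .nil)) .nil)) (.cons 273 (.leaf 272 1985 (.cons 225 (.leaf 224 1795 (.cons 201 (.leaf 177 1420 (.cons 176 (.leaf 200 1415 (.cons 202 (.leaf 178 1421 (.cons 226 (.leaf 299 1620 (.leaf 297 1613 .nil)) .nil)) .nil)) .nil)) .nil)) .nil)) .nil))) (.cons 249 (.cons 273 (.leaf 272 1985 (.cons 225 (.leaf 224 1795 (.cons 201 (.leaf 177 1420 (.cons 176 (.leaf 200 1415 (.cons 202 (.leaf 178 1421 (.cons 226 (.leaf 299 1620 (.leaf 297 1613 .nil)) .nil)) .nil)) .nil)) .nil)) .nil)) (.cons 248 (.leaf 247 1976 (.cons 224 (.leaf 223 1787 (.leaf 225 1795 .nil)) .nil)) (.cons 272 (.leaf 273 1985 (.cons 248 (.leaf 247 1976 (.leaf 271 1978 .nil)) .nil)) .nil))) (.cons 253 (.leaf 254 2002 (.cons 229 (.leaf 230 1809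 (.cons 228 (.leaf 249 1801 (.cons 204 (.leaf 180 1438 (.cons 277 (.leaf 278 2000 (.leaf 301 1639 .nil)) .nil)) .nil)) .nil)) .nil)) (.cons 253 (.leaf 254 2002 (.leaf 273 1994 .nil)) .nil)))
noncomputable def t76 : T := .cons 202 (.leaf 178 1428 (.leaf 299 1620 .nil)) (.cons 299 (.leaf 323 1815 (.cons 298 (.cons 297 (.leaf 321 1806 (.cons 225 (.leaf 201 1615 (.cons 322 (.leaf 346 2005 (.leaf 249 1807 .nil)) .nil)) .nil)) (.cons 297 (.leaf 321 1806 (.cons 296 (.leaf 295 2169 (.cons 272 (.leaf 271 2171 (.cons 273 (.leaf 300 2176 (.cons 247 (.leaf 248 1979 (.cons 225 (.leaf 201 1615 (.cons 320 (.leaf 319 2362 (.leaf 249 1798 .nil)) .nil)) .nil)) .nil)) .nil)) .nil)) .nil)) (.cons 322 (.leaf 346 2005 (.cons 225 (.leaf 201 1615 (.leaf 249 1807 .nil)) .nil)) (.cons 297 (.leaf 321 1806 (.cons 296 (.leaf 295 2169 (.cons 272 (.leaf 271 2171 (.cons 273 (.leaf 300 2176 (.cons 247 (.leaf 248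 1979 (.cons 320 (.leaf 319 2362 (.cons 344 (.leaf 368 2181 (.leaf 249 1989 .nil)) .nil)) .nil)) .nil)) .nil)) .nil)) .nil)) (.cons 322 (.leaf 346 2005 (.cons 321 (.leaf 297 1806 (.leaf 345 1998 .nil)) .nil)) .nil))))) .nil)) (.cons 202 (.leaf 178 1428 (.cons 179 (.leaf 203 1429 (.cons 201 (.leaf 177 1423 (.cons 298 (.leaf 225 1615 (.cons 321 (.leaf 297 1806 (.cons 322 (.leaf 346 2005 (.leaf 345 1998 .nil)) .nil)) .nil)) .nil)) .nil)) .nil)) .nil))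
noncomputable def t77 : T := .cons 252 (.cons 253 (.leaf 254 2002 (.leaf 273 1994 .nil)) (.cons 253 (.leaf 254 2002 (.cons 229 (.leaf 230 1809 (.cons 228 (.leaf 249 1801 (.cons 204 (.leaf 180 1438 (.cons 277 (.leaf 278 2000 (.leaf 301 1639 .nil)) .nil)) .nil)) .nil)) .nil)) (.cons 272 (.leaf 273 1985 (.cons 249 (.cons 248 (.leaf 247 1976 (.leaf 271 1978 .nil)) (.cons 225 (.leaf 224 1795 (.cons 228 (.leaf 229 1801 (.cons 298 (.leaf 322 1807 (.cons 299 (.leaf 323 1821 (.cons 226 (.leaf 202 1620 (.leaf 201 1615 .nil)) .nil)) .nil)) .nil)) .nil)) .nil)) .nil)) .nil))) (.cons 226 (.cons 202 (.leaf 178 1428 (.leaf 299 1620 .nil)) (.cons 202 (.leaf 178 1428 (.cons 179 (.leaf 203 1429 (.cons 201 (.leaf 177 1423 (.cons 298 (.leaf 225 1615 (.cons 321 (.leaf 297 1806 (.cons 322 (.leaf 346 2005 (.leaf 345 1998 .nil)) .nil)) .nil)) .nil)) .nil)) .nil)) (.cons 299 (.leaf 323 1815 (.cons 225 (.cons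 298 (.leaf 201 1615 (.cons 322 (.leaf 346 2005 (.leaf 249 1807 .nil)) .nil)) (.cons 224 (.leaf 223 1784 (.cons 252 (.leaf 249 1795 (.leaf 253 1803 .nil)) .nil)) (.cons 223 (.leaf 224 1784 (.cons 252 (.leaf 253 1803 (.cons 298 (.leaf 201 1615 (.cons 321 (.leaf 297 1806 (.cons 322 (.leaf 346 2005 (.leaf 345 1998 .nil)) .nil)) .nil)) .nil)) .nil)) .nil))) .nil)) .nil))) (.cons 252 (.cons 253 (.leaf 254 2002 (.leaf 273 1994 .nil)) (.cons 253 (.leaf 254 2002 (.cons 229 (.leaf 230 1809 (.cons 228 (.leaf 249 1801 (.cons 204 (.leaf 180 1438 (.cons 277 (.leaf 278 2000 (.leaf 301 1639 .nil)) .nil)) .nil)) .nil)) .nil)) (.cons 249 (.cons 224 (.leaf 225 1795 (.cons 248 (.leaf 247 1976 (.leaf 223 1787 .nil)) .nil)) (.cons 273 (.leaf 272 1985 (.cons 225 (.leaf 224 1795 (.cons 201 (.leaf 177 1420 (.leaf 298 1612 .nil)) .nil)) .nil)) (.cons 272 (.leaf 273 1985 (.cons 248 (.leaf 247 1976 (.leaf 271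 1978 .nil)) .nil)) .nil))) .nil))) (.cons 226 t76 (.cons 226 (.cons 202 (.leaf 178 1428 (.leaf 299 1620 .nil)) (.cons 298 (.cons 321 (.leaf 297 1806 (.cons 322 (.leaf 346 2005 (.leaf 345 1998 .nil)) .nil)) (.cons 299 (.leaf 323 1812 (.cons 201 (.leaf 225 1615 (.cons 297 (.leaf 321 1806 (.cons 296 (.leaf 295 2169 (.cons 272 (.leaf 271 2171 (.cons 273 (.leaf 252 1985 (.leaf 300 2176 .nil)) .nil)) .nil)) .nil)) .nil)) .nil)) (.cons 323 (.leaf 299 1812 (.cons 322 (.leaf 346 2005 (.leaf 347 2004 .nil)) .nil)) .nil))) (.cons 202 (.leaf 178 1428 (.cons 179 (.leaf 203 1429 (.cons 201 (.leaf 177 1423 (.cons 298 (.leaf 225 1615 (.cons 321 (.leaf 297 1806 (.cons 322 (.leaf 346 2005 (.leaf 345 1998 .nil)) .nil)) .nil)) .nil)) .nil)) .nil)) .nil))) (.cons 252 t75 (.cons 226 (.cons 202 (.leaf 178 1428 (.leaf 299 1620 .nil)) (.cons 298 (.cons 321 (.leaf 297 1806 (.cons 322 (.leaf 346 2005 (.leaf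 345 1998 .nil)) .nil)) (.cons 299 (.leaf 323 1812 (.cons 297 (.leaf 321 1806 (.cons 296 (.leaf 295 2169 (.cons 272 (.leaf 271 2171 (.cons 273 (.leaf 252 1985 (.leaf 300 2176 .nil)) .nil)) .nil)) .nil)) .nil)) (.cons 323 (.leaf 299 1812 (.cons 322 (.leaf 346 2005 (.leaf 347 2004 .nil)) .nil)) .nil))) (.cons 202 (.leaf 178 1428 (.cons 177 (.leaf 201 1423 (.cons 179 (.leaf 203 1429 (.cons 273 (.leaf 297 1614 (.cons 252 (.leaf 272 1985 (.leaf 253 1994 .nil)) .nil)) .nil)) .nil)) .nil)) .nil))) (.cons 252 (.cons 272 (.leaf 273 1985 (.cons 249 (.cons 248 (.leaf 247 1976 (.leaf 271 1978 .nil)) (.cons 225 (.leaf 224 1795 (.cons 228 (.leaf 229 1801 (.cons 298 (.leaf 322 1807 (.cons 299 (.leaf 323 1821 (.cons 226 (.leaf 202 1620 (.leaf 253 1803 .nil)) .nil)) .nil)) .nil)) .nil)) .nil)) .nil)) (.cons 253 (.leaf 254 2002 (.cons 229 (.leaf 230 1809 (.cons 228 (.leaf 249 1801 (.cons 204 (.leaf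 180 1438 (.cons 277 (.leaf 278 2000 (.leaf 301 1639 .nil)) .nil)) .nil)) .nil)) .nil)) (.cons 272 (.leaf 273 1985 (.cons 249 (.cons 248 (.leaf 247 1976 (.leaf 271 1978 .nil)) (.cons 225 (.leaf 224 1795 (.cons 228 (.leaf 229 1801 (.cons 298 (.leaf 322 1807 (.cons 299 (.leaf 323 1821 (.cons 226 (.leaf 202 1620 (.cons 297 (.leaf 321 1806 (.cons 296 (.leaf 295 2169 (.leaf 271 2171 .nil)) .nil)) .nil)) .nil)) .nil)) .nil)) .nil)) (.cons 224 (.leaf 225 1795 (.cons 248 (.leaf 247 1976 (.leaf 223 1787 .nil)) .nil)) .nil))) .nil)) (.cons 253 (.leaf 254 2002 (.leaf 273 1994 .nil)) .nil)))) .nil)))))))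
noncomputable def t78 : T := .cons 252 (.leaf 272 1985 (.cons 253 (.leaf 254 2002 (.leaf 276 1993 .nil)) .nil)) (.cons 276 (.cons 248 (.leaf 249 1987 (.cons 252 (.leaf 253 1993 (.cons 300 (.leaf 301 2184 (.cons 324 (.leaf 348 2015 (.cons 323 (.leaf 347 2014 (.cons 228 (.leaf 299 1821 (.cons 204 (.leaf 180 1438 (.cons 205 (.leaf 181 1445 (.leaf 229 1637 .nil)) .nil)) .nil)) .nil)) .nil)) .nil)) .nil)) .nil)) (.cons 248 (.leaf 249 1987 (.cons 297 (.leaf 296 2178 (.cons 277 (.leaf 298 2186 (.cons 301 (.leaf 300 2184 (.leaf 302 2192 .nil)) .nil)) .nil)) .nil)) (.cons 253 (.leaf 252 1993 (.cons 248 (.leaf 249 1987 (.cons 277 (.leaf 254 2001 (.cons 297 (.leaf 296 2178 (.leaf 298 2186 .nil)) .nil)) .nil)) .nil)) (.cons 252 (.leaf 253 1993 (.cons 300 (.leaf 301 2184 (.cons 324 (.leaf 348 2015 (.cons 323 (.leaf 347 2014 (.cons 228 (.leaf 299 1821 (.cons 204 (.leaf 180 1438 (.cons 205 (.leaf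 181 1445 (.leaf 229 1637 .nil)) .nil)) .nil)) .nil)) .nil)) .nil)) .nil)) .nil)))) (.cons 272 (.cons 295 (.leaf 296 2170 (.cons 271 (.leaf 294 2162 (.cons 247 (.leaf 248 1979 (.leaf 246 1971 .nil)) .nil)) .nil)) (.cons 299 (.leaf 300 2176 (.cons 247 (.leaf 248 1979 (.cons 271 (.leaf 246 1971 (.leaf 298 2168 .nil)) .nil)) .nil)) (.cons 295 (.leaf 296 2170 (.cons 271 (.leaf 294 2162 (.cons 299 (.leaf 300 2176 (.leaf 298 2168 .nil)) .nil)) .nil)) (.cons 247 (.leaf 248 1979 (.cons 296 (.leaf 295 2170 (.cons 276 (.leaf 297 2178 (.cons 300 (.leaf 299 2176 (.leaf 301 2184 .nil)) .nil)) .nil)) .nil)) .nil)))) (.cons 272 (.leaf 252 1985 (.cons 299 (.leaf 300 2176 (.cons 247 (.leaf 248 1979 (.cons 271 (.leaf 246 1971 (.leaf 298 2168 .nil)) .nil)) .nil)) .nil)) .nil)))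
noncomputable def t79 : T := .cons 277 (.cons 249 (.leaf 250 1995 (.cons 273 (.leaf 248 1987 (.cons 297 (.leaf 296 2178 (.leaf 298 2186 .nil)) .nil)) .nil)) (.cons 254 (.leaf 253 2001 (.cons 297 (.leaf 298 2186 (.cons 278 (.leaf 255 2009 (.cons 302 (.leaf 301 2192 (.leaf 303 2200 .nil)) .nil)) .nil)) .nil)) (.cons 250 (.leaf 249 1995 (.leaf 278 2003 .nil)) .nil))) (.cons 273 (.cons 248 (.leaf 249 1987 (.cons 272 (.leaf 247 1979 (.cons 296 (.leaf 295 2170 (.leaf 297 2178 .nil)) .nil)) .nil)) (.cons 300 (.leaf 301 2184 (.cons 272 (.leaf 299 2176 (.cons 296 (.leaf 295 2170 (.leaf 297 2178 .nil)) .nil)) .nil)) (.cons 300 (.leaf 301 2184 (.cons 248 (.leaf 249 1987 (.cons 272 (.leaf 247 1979 (.leaf 299 2176 .nil)) .nil)) .nil)) (.cons 249 (.leaf 248 1987 (.cons 297 (.leaf 296 2178 (.cons 300 (.leaf 301 2184 (.cons 324 (.leaf 348 2015 (.cons 298 (.cons 322 (.leaf 346 2005 (.leaf 225 1804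 .nil)) (.cons 225 (.leaf 201 1612 (.cons 200 (.leaf 224 1607 (.cons 226 (.leaf 202 1613 (.cons 321 (.leaf 250 1805 (.cons 299 (.leaf 320 2370 (.leaf 325 2376 .nil)) .nil)) .nil)) .nil)) .nil)) (.cons 322 (.leaf 346 2005 (.cons 325 (.leaf 299 2376 (.leaf 323 2379 .nil)) .nil)) .nil))) .nil)) .nil)) .nil)) .nil)) .nil)))) (.cons 273 (.cons 296 (.leaf 297 2178 (.cons 272 (.leaf 295 2170 (.cons 300 (.leaf 299 2176 (.leaf 301 2184 .nil)) .nil)) .nil)) (.cons 297 (.leaf 296 2178 (.cons 248 (.leaf 249 1987 (.cons 247 (.leaf 272 1979 (.cons 277 (.leaf 298 2186 (.cons 254 (.leaf 253 2001 (.cons 278 (.leaf 255 2009 (.cons 302 (.leaf 301 2192 (.leaf 303 2200 .nil)) .nil)) .nil)) .nil)) .nil)) .nil)) .nil)) (.cons 300 (.leaf 301 2184 (.cons 248 (.leaf 249 1987 (.cons 272 (.leaf 247 1979 (.leaf 299 2176 .nil)) .nil)) .nil)) (.cons 297 (.leaf 296 2178 (.cons 248 (.leaf 249 1987 (.cons 272 (.leaf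 247 1979 (.cons 200 (.leaf 224 1604 (.cons 298 (.leaf 277 2186 (.cons 299 (.leaf 300 2176 (.leaf 271 2168 .nil)) .nil)) .nil)) .nil)) .nil)) .nil)) (.cons 297 (.leaf 296 2178 (.cons 248 (.leaf 249 1987 (.cons 277 (.leaf 298 2186 (.cons 301 (.leaf 300 2184 (.leaf 302 2192 .nil)) .nil)) .nil)) .nil)) .nil))))) (.cons 277 (.cons 250 (.leaf 249 1995 (.leaf 278 2003 .nil)) (.cons 254 (.leaf 253 2001 (.cons 278 (.leaf 255 2009 (.cons 298 (.leaf 297 2186 (.leaf 299 2194 .nil)) .nil)) .nil)) (.cons 250 (.leaf 249 1995 (.cons 253 (.leaf 254 2001 (.cons 298 (.leaf 297 2186 (.cons 301 (.leaf 302 2192 (.cons 322 (.leaf 346 2005 (.cons 323 (.leaf 347 2004 (.cons 226 (.leaf 299 1812 (.cons 178 (.leaf 202 1428 (.cons 321 (.leaf 345 1998 (.cons 324 (.leaf 300 2377 (.cons 348 (.leaf 325 2022 (.leaf 349 2568 .nil)) .nil)) .nil)) .nil)) .nil)) .nil)) .nil)) .nil)) .nil)) .nil)) .nil)) .nil))) (.cons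 277 (.cons 250 (.leaf 278 2003 (.cons 297 (.leaf 298 2186 (.cons 273 (.leaf 296 2178 (.cons 301 (.leaf 300 2184 (.leaf 302 2192 .nil)) .nil)) .nil)) .nil)) (.cons 253 (.leaf 254 2001 (.cons 301 (.leaf 302 2192 (.cons 300 (.leaf 273 2184 (.cons 324 (.leaf 348 2021 (.leaf 229 1830 .nil)) .nil)) .nil)) .nil)) (.cons 278 (.leaf 250 2003 (.cons 254 (.leaf 253 2001 (.leaf 255 2009 .nil)) .nil)) .nil))) (.cons 277 (.cons 278 (.leaf 250 2003 (.cons 254 (.leaf 253 2001 (.leaf 255 2009 .nil)) .nil)) (.cons 301 (.leaf 302 2192 (.cons 253 (.leaf 254 2001 (.cons 273 (.leaf 300 2184 (.cons 248 (.leaf 249 1987 (.cons 272 (.leaf 247 1979 (.cons 296 (.leaf 295 2170 (.leaf 297 2178 .nil)) .nil)) .nil)) .nil)) .nil)) .nil)) (.cons 250 (.leaf 249 1995 (.leaf 278 2003 .nil)) .nil))) (.cons 277 (.cons 278 (.leaf 250 2003 (.cons 254 (.leaf 253 2001 (.leaf 255 2009 .nil)) .nil)) (.cons 301 (.leaf 302 2192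 (.cons 253 (.leaf 254 2001 (.cons 300 (.leaf 273 2184 (.cons 324 (.leaf 348 2021 (.leaf 229 1830 .nil)) .nil)) .nil)) .nil)) (.cons 250 (.leaf 249 1995 (.leaf 278 2003 .nil)) .nil))) (.cons 277 (.cons 249 (.leaf 250 1995 (.cons 273 (.leaf 248 1987 (.cons 297 (.leaf 296 2178 (.leaf 298 2186 .nil)) .nil)) .nil)) (.cons 254 (.leaf 253 2001 (.cons 278 (.leaf 255 2009 (.cons 298 (.leaf 297 2186 (.leaf 299 2194 .nil)) .nil)) .nil)) (.cons 250 (.leaf 249 1995 (.leaf 278 2003 .nil)) .nil))) .nil)))))))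
noncomputable def t80 : T := .cons 253 (.leaf 254 2002 (.cons 277 (.leaf 278 2000 (.cons 229 (.leaf 230 1809 (.cons 228 (.leaf 249 1801 (.cons 204 (.leaf 180 1444 (.leaf 301 1639 .nil)) .nil)) .nil)) .nil)) .nil)) (.cons 276 (.cons 277 (.leaf 249 1992 (.leaf 278 2003 .nil)) (.cons 249 (.leaf 248 1984 (.cons 228 (.leaf 229 1801 (.cons 204 (.leaf 180 1438 (.leaf 299 1630 .nil)) .nil)) .nil)) (.cons 277 (.leaf 278 2003 (.cons 298 (.leaf 297 2186 (.cons 301 (.leaf 302 2192 (.cons 322 (.leaf 346 2005 (.cons 323 (.leaf 347 2004 (.cons 299 (.leaf 226 1812 (.leaf 228 1821 .nil)) .nil)) .nil)) .nil)) .nil)) .nil)) .nil))) (.cons 253 (.leaf 254 2002 (.cons 229 (.leaf 230 1809 (.cons 228 (.leaf 249 1801 (.cons 204 (.leaf 180 1438 (.cons 299 (.leaf 276 1630 (.leaf 323 1821 .nil)) .nil)) .nil)) .nil)) .nil)) (.cons 253 (.leaf 254 2002 (.cons 277 (.leaf 278 2000 (.cons 229 (.leaf 230 1809 (.cons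 228 (.cons 204 (.leaf 180 1444 (.leaf 301 1639 .nil)) (.cons 299 (.leaf 323 1821 (.cons 202 (.leaf 226 1620 (.cons 301 (.leaf 325 1831 (.cons 300 (.leaf 302 2195 (.leaf 324 1830 .nil)) .nil)) .nil)) .nil)) (.cons 204 (.leaf 180 1444 (.cons 299 (.leaf 276 1630 (.leaf 323 1821 .nil)) .nil)) .nil))) .nil)) .nil)) .nil)) (.cons 253 (.leaf 254 2002 (.cons 229 (.leaf 230 1809 (.cons 277 (.leaf 278 2000 (.cons 276 (.leaf 249 1992 (.cons 205 (.leaf 181 1446 (.leaf 300 1638 .nil)) .nil)) .nil)) .nil)) .nil)) (.cons 253 (.leaf 254 2002 (.cons 277 (.leaf 278 2000 (.cons 276 (.leaf 249 1992 (.cons 297 (.leaf 298 2186 (.cons 301 (.leaf 302 2192 (.cons 228 (.leaf 204 1636 (.leaf 325 1831 .nil)) .nil)) .nil)) .nil)) .nil)) .nil)) .nil)))))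
noncomputable def t81 : T := .cons 298 (.cons 323 (.leaf 299 1812 (.cons 201 (.leaf 225 1615 (.cons 202 (.leaf 178 1428 (.leaf 177 1423 .nil)) .nil)) .nil)) (.cons 201 (.leaf 225 1615 (.cons 321 (.leaf 297 1806 (.cons 322 (.leaf 346 2005 (.leaf 345 1998 .nil)) .nil)) .nil)) (.cons 323 (.leaf 299 1812 (.cons 322 (.leaf 346 2005 (.leaf 347 2004 .nil)) .nil)) .nil))) (.cons 202 (.leaf 178 1428 (.cons 179 (.leaf 203 1429 (.cons 201 (.leaf 177 1423 (.cons 298 (.leaf 225 1615 (.cons 321 (.leaf 297 1806 (.cons 322 (.leaf 346 2005 (.leaf 345 1998 .nil)) .nil)) .nil)) .nil)) .nil)) .nil)) (.cons 298 (.cons 323 (.leaf 299 1812 (.cons 201 (.leaf 225 1615 (.cons 322 (.leaf 346 2005 (.leaf 347 2004 .nil)) .nil)) .nil)) (.cons 201 (.leaf 225 1615 (.cons 321 (.leaf 297 1806 (.cons 322 (.leaf 346 2005 (.leaf 345 1998 .nil)) .nil)) .nil)) (.cons 299 (.leaf 323 1812 (.cons 201 (.leaf 225 1615 (.cons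 297 (.leaf 321 1806 (.cons 276 (.leaf 277 2186 (.leaf 296 2177 .nil)) .nil)) .nil)) .nil)) (.cons 323 (.leaf 299 1812 (.cons 322 (.leaf 346 2005 (.leaf 347 2004 .nil)) .nil)) .nil)))) (.cons 202 (.leaf 178 1428 (.leaf 299 1620 .nil)) .nil)))
noncomputable def t82 : T := .cons 252 (.cons 253 (.leaf 254 2002 (.cons 229 (.leaf 230 1809 (.cons 228 (.leaf 249 1801 (.cons 204 (.leaf 180 1438 (.cons 299 (.leaf 276 1630 (.leaf 323 1821 .nil)) .nil)) .nil)) .nil)) .nil)) (.cons 249 (.cons 276 (.leaf 248 1984 (.leaf 277 1992 .nil)) (.cons 224 (.leaf 225 1795 (.cons 248 (.leaf 247 1976 (.leaf 223 1787 .nil)) .nil)) (.cons 276 (.leaf 277 1992 (.cons 224 (.leaf 225 1795 (.cons 228 (.leaf 229 1801 (.cons 204 (.leaf 180 1438 (.leaf 299 1630 .nil)) .nil)) .nil)) .nil)) .nil))) (.cons 253 (.leaf 254 2002 (.cons 226 (.leaf 225 1803 (.cons 202 (.leaf 178 1428 (.leaf 299 1620 .nil)) .nil)) .nil)) (.cons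 253 (.leaf 254 2002 (.cons 229 (.leaf 230 1809 (.cons 277 (.leaf 278 2000 (.cons 276 (.leaf 249 1992 (.cons 205 (.leaf 181 1446 (.leaf 300 1638 .nil)) .nil)) .nil)) .nil)) .nil)) .nil)))) (.cons 226 (.cons 202 (.leaf 178 1428 (.leaf 299 1620 .nil)) (.cons 202 (.leaf 178 1428 (.cons 179 (.leaf 203 1429 (.cons 201 (.leaf 177 1423 (.cons 298 (.leaf 225 1615 (.cons 321 (.leaf 297 1806 (.cons 322 (.leaf 346 2005 (.leaf 345 1998 .nil)) .nil)) .nil)) .nil)) .nil)) .nil)) (.cons 299 (.leaf 323 1815 (.cons 225 (.cons 223 (.leaf 224 1784 (.cons 252 (.leaf 253 1803 (.cons 298 (.leaf 201 1615 (.cons 321 (.leaf 297 1806 (.cons 322 (.leaf 346 2005 (.leaf 249 1807 .nil)) .nil)) .nil)) .nil)) .nil)) (.cons 224 (.leaf 223 1784 (.cons 252 (.leaf 249 1795 (.leaf 253 1803 .nil)) .nil)) (.cons 223 (.leaf 224 1784 (.cons 298 (.leaf 201 1615 (.cons 322 (.leaf 346 2005 (.leaf 249 1807 .nil)) .nil)) .nil))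 (.cons 298 (.leaf 201 1615 (.cons 322 (.leaf 346 2005 (.leaf 249 1807 .nil)) .nil)) (.cons 223 (.leaf 224 1784 (.cons 252 (.leaf 253 1803 (.cons 298 (.leaf 201 1615 (.cons 321 (.leaf 297 1806 (.cons 322 (.leaf 346 2005 (.leaf 345 1998 .nil)) .nil)) .nil)) .nil)) .nil)) .nil))))) .nil)) .nil))) (.cons 249 (.cons 248 (.leaf 247 1976 (.leaf 276 1984 .nil)) (.cons 248 (.leaf 247 1976 (.cons 224 (.leaf 223 1787 (.cons 225 (.leaf 252 1795 (.cons 177 (.leaf 201 1420 (.cons 272 (.leaf 271 1978 (.cons 296 (.leaf 320 1797 (.cons 295 (.leaf 319 1790 (.cons 297 (.leaf 298 2169 (.leaf 321 1796 .nil)) .nil)) .nil)) .nil)) .nil)) .nil)) .nil)) .nil)) (.cons 252 (.cons 277 (.leaf 276 1992 (.cons 253 (.leaf 254 2002 (.leaf 278 2000 .nil)) .nil)) (.cons 224 (.leaf 225 1795 (.cons 229 (.leaf 228 1801 (.cons 253 (.leaf 254 2002 (.leaf 230 1809 .nil)) .nil)) .nil)) (.cons 276 (.leaf 277 1992 (.cons 224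 (.leaf 225 1795 (.cons 228 (.leaf 229 1801 (.cons 204 (.leaf 180 1438 (.leaf 299 1630 .nil)) .nil)) .nil)) .nil)) .nil))) .nil))) (.cons 226 t81 (.cons 249 (.cons 248 (.leaf 247 1976 (.leaf 276 1984 .nil)) (.cons 248 (.leaf 247 1976 (.cons 224 (.leaf 223 1787 (.cons 225 (.leaf 252 1795 (.cons 177 (.leaf 201 1420 (.cons 272 (.leaf 271 1978 (.cons 296 (.leaf 320 1797 (.cons 295 (.leaf 319 1790 (.cons 297 (.leaf 298 2169 (.leaf 321 1796 .nil)) .nil)) .nil)) .nil)) .nil)) .nil)) .nil)) .nil)) (.cons 276 (.leaf 277 1995 (.cons 225 (.cons 177 (.leaf 201 1420 (.cons 224 (.leaf 252 1795 (.cons 223 (.leaf 226 1784 (.leaf 222 1776 .nil)) .nil)) .nil)) (.cons 201 (.leaf 177 1420 (.cons 298 (.leaf 226 1615 (.leaf 322 1807 .nil)) .nil)) (.cons 252 (.leaf 224 1795 (.cons 253 (.leaf 254 2002 (.leaf 226 1803 .nil)) .nil)) (.cons 252 (.leaf 224 1795 (.cons 177 (.leaf 201 1420 (.cons 229 (.leaf 228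 1801 (.cons 253 (.leaf 254 2002 (.leaf 230 1809 .nil)) .nil)) .nil)) .nil)) .nil)))) .nil)) .nil))) (.cons 252 t80 .nil)))))
noncomputable def t83 : T := .cons 253 (.leaf 254 2002 (.cons 250 (.leaf 273 1994 (.cons 229 (.leaf 230 1809 (.cons 228 (.leaf 249 1801 (.cons 204 (.leaf 180 1438 (.cons 299 (.leaf 276 1630 (.leaf 323 1821 .nil)) .nil)) .nil)) .nil)) .nil)) .nil)) (.cons 253 (.leaf 254 2002 (.cons 250 (.cons 229 (.leaf 230 1809 (.cons 228 (.leaf 249 1801 (.cons 204 (.leaf 180 1438 (.cons 299 (.leaf 276 1630 (.leaf 323 1821 .nil)) .nil)) .nil)) .nil)) (.cons 226 (.leaf 225 1803 (.cons 202 (.leaf 178 1428 (.leaf 299 1620 .nil)) .nil)) (.cons 229 (.leaf 230 1809 (.cons 277 (.leaf 278 2000 (.cons 276 (.leaf 249 1992 (.cons 205 (.leaf 181 1446 (.leaf 300 1638 .nil)) .nil)) .nil)) .nil)) .nil))) .nil)) (.cons 273 (.leaf 272 1985 (.cons 276 (.cons 249 (.leaf 248 1987 (.cons 250 (.leaf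 277 1992 (.cons 224 (.leaf 225 1795 (.cons 228 (.leaf 229 1801 (.cons 204 (.leaf 180 1438 (.leaf 299 1630 .nil)) .nil)) .nil)) .nil)) .nil)) (.cons 300 (.leaf 301 2184 (.cons 324 (.leaf 348 2015 (.cons 323 (.leaf 347 2014 (.cons 228 (.leaf 299 1821 (.cons 204 (.leaf 180 1438 (.cons 205 (.leaf 181 1445 (.leaf 229 1637 .nil)) .nil)) .nil)) .nil)) .nil)) .nil)) (.cons 297 (.leaf 296 2178 (.cons 249 (.leaf 248 1987 (.cons 298 (.leaf 277 2186 (.cons 322 (.leaf 346 2005 (.leaf 225 1804 .nil)) .nil)) .nil)) .nil)) .nil))) .nil)) (.cons 273 (.leaf 272 1985 (.cons 253 (.leaf 254 2002 (.leaf 276 1993 .nil)) .nil)) (.cons 273 (.leaf 272 1985 (.cons 253 (.leaf 254 2002 (.leaf 250 1994 .nil)) .nil)) .nil))))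
noncomputable def t84 : T := .cons 252 t83 (.cons 250 t82 (.cons 276 t79 (.cons 273 t78 (.cons 250 (t77) (.cons 252 t74 (.cons 276 t73 (.cons 252 t70 (.cons 273 t69 (.cons 273 (.cons 272 (.leaf 252 1985 (.cons 299 (.leaf 300 2176 (.cons 271 (.leaf 250 1977 (.leaf 298 2168 .nil)) .nil)) .nil)) (.cons 276 t68 (.cons 272 (.cons 299 (.leaf 300 2176 (.cons 271 (.leaf 250 1977 (.leaf 298 2168 .nil)) .nil)) (.cons 296 (.leaf 295 2170 (.cons 247 (.leaf 248 1979 (.cons 276 (.leaf 297 2178 (.cons 300 (.leaf 299 2176 (.leaf 301 2184 .nil)) .nil)) .nil)) .nil)) (.cons 296 (.leaf 295 2170 (.cons 247 (.leaf 248 1979 (.cons 271 (.leaf 250 1977 (.leaf 246 1971 .nil)) .nil)) .nil)) .nil))) (.cons 272 (.leaf 252 1985 (.cons 247 (.leaf 248 1979 (.cons 296 (.leaf 295 2170 (.cons 271 (.leaf 246 1971 (.cons 199 (.leaf 223 1596 (.cons 297 (.leaf 276 2178 (.cons 270 (.leaf 298 2160 (.leaf 269 2152 .nil))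 .nil)) .nil)) .nil)) .nil)) .nil)) .nil)) (.cons 272 (.leaf 252 1985 (.cons 296 (.leaf 295 2170 (.cons 247 (.leaf 248 1979 (.cons 276 (.leaf 297 2178 (.cons 300 (.leaf 299 2176 (.leaf 301 2184 .nil)) .nil)) .nil)) .nil)) .nil)) .nil))))) (.cons 252 t67 (.cons 252 t66 (.cons 252 t65 (.cons 252 t64 (.cons 252 t63 .nil))))))))))))))
noncomputable def t85 : T := .cons 227 (.cons 226 (.leaf 202 1623 (.cons 228 (.leaf 204 1629 (.cons 300 (.leaf 324 1820 (.cons 225 (.cons 200 (.leaf 201 1603 (.cons 199 (.leaf 224 1595 (.cons 249 (.leaf 248 1794 (.cons 229 (.leaf 250 1802 (.cons 206 (.leaf 205 1617 (.cons 230 (.leaf 207 1625 (.cons 254 (.leaf 253 1808 (.leaf 255 1816 .nil)) .nil)) .nil)) .nil)) .nil)) .nil)) .nil)) (.cons 200 (.leaf 201 1603 (.cons 224 (.leaf 252 1792 (.leaf 199 1595 .nil)) .nil)) (.cons 200 (.leaf 201 1603 (.cons 248 (.leaf 249 1794 (.cons 253 (.leaf 252 1800 (.cons 229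 (.leaf 254 1808 (.cons 206 (.leaf 205 1617 (.cons 230 (.leaf 250 1810 (.leaf 207 1625 .nil)) .nil)) .nil)) .nil)) .nil)) .nil)) (.cons 252 (.leaf 224 1792 (.leaf 253 1800 .nil)) .nil)))) .nil)) .nil)) .nil)) (.cons 298 (.leaf 322 1814 (.cons 202 (.leaf 226 1623 (.cons 203 (.leaf 178 1431 (.leaf 274 1622 .nil)) .nil)) .nil)) (.cons 298 (.leaf 322 1814 (.cons 203 (.leaf 274 1622 (.cons 204 (.leaf 180 1437 (.leaf 228 1629 .nil)) .nil)) .nil)) .nil))) (.cons 227 (.cons 298 (.leaf 322 1814 (.cons 202 (.leaf 226 1623 (.cons 203 (.leaf 178 1431 (.leaf 274 1622 .nil)) .nil)) .nil)) (.cons 300 (.leaf 324 1820 (.cons 203 (.leaf 276 1628 (.cons 204 (.leaf 180 1437 (.leaf 228 1629 .nil)) .nil)) .nil)) (.cons 228 (.leaf 204 1629 (.cons 323 (.leaf 252 1821 (.cons 324 (.leaf 300 1820 (.leaf 348 2012 .nil)) .nil)) .nil)) .nil))) (.cons 227 (.cons 202 (.leaf 226 1623 (.cons 204 (.leaf 228 1629 (.cons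 322 (.leaf 298 1814 (.cons 323 (.leaf 346 2006 (.cons 324 (.leaf 300 1820 (.leaf 348 2012 .nil)) .nil)) .nil)) .nil)) .nil)) (.cons 202 (.leaf 226 1623 (.cons 203 (.leaf 178 1431 (.cons 204 (.leaf 180 1437 (.leaf 228 1629 .nil)) .nil)) .nil)) (.cons 298 (.leaf 322 1814 (.cons 203 (.leaf 274 1622 (.cons 204 (.leaf 180 1437 (.leaf 228 1629 .nil)) .nil)) .nil)) (.cons 202 (.leaf 226 1623 (.cons 203 (.leaf 178 1431 (.cons 300 (.leaf 276 1628 (.leaf 324 1820 .nil)) .nil)) .nil)) .nil)))) (.cons 227 (.cons 202 (.leaf 226 1623 (.cons 203 (.leaf 178 1431 (.cons 204 (.leaf 180 1437 (.leaf 228 1629 .nil)) .nil)) .nil)) (.cons 202 (.leaf 226 1623 (.cons 203 (.leaf 178 1431 (.cons 300 (.leaf 276 1628 (.leaf 324 1820 .nil)) .nil)) .nil)) (.cons 204 (.leaf 228 1629 (.cons 322 (.leaf 298 1814 (.cons 323 (.leaf 346 2006 (.cons 324 (.leaf 300 1820 (.leaf 348 2012 .nil)) .nil)) .nil)) .nil)) .nil)))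 (.cons 323 (.cons 228 (.leaf 252 1821 (.cons 204 (.leaf 227 1629 (.cons 346 (.leaf 322 2006 (.cons 347 (.leaf 370 2198 (.cons 348 (.leaf 324 2012 (.leaf 372 2204 .nil)) .nil)) .nil)) .nil)) .nil)) (.cons 252 (.leaf 228 1821 (.cons 347 (.leaf 276 2013 (.cons 348 (.leaf 324 2012 (.leaf 372 2204 .nil)) .nil)) .nil)) (.cons 322 (.leaf 346 2006 (.cons 298 (.leaf 227 1814 (.cons 324 (.leaf 348 2012 (.cons 297 (.leaf 296 2368 (.leaf 325 2379 .nil)) .nil)) .nil)) .nil)) (.cons 252 (.leaf 228 1821 (.cons 346 (.leaf 322 2006 (.cons 347 (.leaf 276 2013 (.leaf 370 2198 .nil)) .nil)) .nil)) .nil)))) (.cons 323 (.cons 226 (.leaf 250 1815 (.cons 202 (.leaf 227 1623 (.cons 346 (.leaf 322 2006 (.cons 347 (.leaf 370 2198 (.cons 348 (.leaf 324 2012 (.leaf 372 2204 .nil)) .nil)) .nil)) .nil)) .nil)) (.cons 250 (.leaf 226 1815 (.cons 347 (.leaf 274 2007 (.cons 348 (.leaf 324 2012 (.leaf 372 2204 .nil))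 .nil)) .nil)) (.cons 322 (.leaf 346 2006 (.cons 298 (.leaf 227 1814 (.cons 324 (.leaf 348 2012 (.cons 297 (.leaf 296 2368 (.leaf 325 2379 .nil)) .nil)) .nil)) .nil)) (.cons 250 (.leaf 226 1815 (.cons 346 (.leaf 322 2006 (.cons 347 (.leaf 274 2007 (.leaf 370 2198 .nil)) .nil)) .nil)) .nil)))) (.cons 227 (.cons 204 (.leaf 228 1629 (.cons 203 (.leaf 180 1437 (.cons 300 (.leaf 276 1628 (.leaf 324 1820 .nil)) .nil)) .nil)) (.cons 226 (.leaf 202 1623 (.cons 250 (.leaf 323 1815 (.cons 300 (.leaf 324 1820 (.cons 203 (.leaf 276 1628 (.cons 274 (.leaf 298 1621 (.leaf 179 1430 .nil)) .nil)) .nil)) .nil)) .nil)) (.cons 226 (.leaf 202 1623 (.cons 204 (.leaf 228 1629 (.cons 203 (.leaf 180 1437 (.cons 205 (.leaf 206 1618 (.cons 224 (.leaf 225 1601 (.cons 250 (.leaf 323 1815 (.cons 274 (.leaf 298 1621 (.leaf 179 1430 .nil)) .nil)) .nil)) .nil)) .nil)) .nil)) .nil)) (.cons 202 (.leaf 226 1623 (.cons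 228 (.leaf 204 1629 (.cons 323 (.leaf 252 1821 (.cons 324 (.leaf 300 1820 (.leaf 348 2012 .nil)) .nil)) .nil)) .nil)) .nil)))) (.cons 227 (.cons 202 (.leaf 226 1623 (.cons 203 (.leaf 178 1431 (.cons 204 (.leaf 180 1437 (.leaf 228 1629 .nil)) .nil)) .nil)) (.cons 298 (.leaf 322 1814 (.cons 203 (.leaf 274 1622 (.cons 204 (.leaf 180 1437 (.leaf 228 1629 .nil)) .nil)) .nil)) (.cons 298 (.leaf 322 1814 (.cons 202 (.leaf 226 1623 (.cons 203 (.leaf 178 1431 (.leaf 274 1622 .nil)) .nil)) .nil)) (.cons 202 (.leaf 226 1623 (.cons 228 (.leaf 204 1629 (.cons 322 (.leaf 298 1814 (.cons 323 (.leaf 252 1821 (.leaf 346 2006 .nil)) .nil)) .nil)) .nil)) .nil)))) .nil)))))))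
noncomputable def t86 : T := .cons 227 (.cons 202 (.leaf 226 1623 (.cons 228 (.leaf 204 1629 (.cons 298 (.leaf 322 1814 (.cons 323 (.leaf 252 1821 (.cons 348 (.leaf 324 2012 (.cons 347 (.leaf 372 2204 (.cons 274 (.leaf 203 1622 (.leaf 250 2007 .nil)) .nil)) .nil)) .nil)) .nil)) .nil)) .nil)) (.cons 204 (.leaf 228 1629 (.cons 322 (.leaf 298 1814 (.cons 323 (.leaf 346 2006 (.cons 324 (.leaf 300 1820 (.leaf 348 2012 .nil)) .nil)) .nil)) .nil)) (.cons 202 (.leaf 226 1623 (.cons 203 (.leaf 178 1431 (.cons 300 (.leaf 276 1628 (.leaf 324 1820 .nil)) .nil)) .nil)) (.cons 202 (.leaf 226 1623 (.cons 228 (.leaf 204 1629 (.cons 322 (.leaf 298 1814 (.cons 323 (.leaf 252 1821 (.leaf 346 2006 .nil)) .nil)) .nil)) .nil)) .nil)))) (.cons 323 (.cons 252 (.leaf 228 1821 (.cons 346 (.leaf 322 2006 (.cons 347 (.leaf 276 2013 (.leaf 370 2198 .nil)) .nil)) .nil)) (.cons 250 (.leaf 226 1815 (.cons 346 (.leaf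 322 2006 (.cons 347 (.leaf 274 2007 (.leaf 370 2198 .nil)) .nil)) .nil)) (.cons 252 (.leaf 228 1821 (.cons 347 (.leaf 276 2013 (.cons 348 (.leaf 324 2012 (.leaf 372 2204 .nil)) .nil)) .nil)) (.cons 250 (.leaf 226 1815 (.cons 252 (.leaf 228 1821 (.cons 322 (.leaf 346 2006 (.cons 324 (.leaf 348 2012 (.cons 253 (.cons 229 (.leaf 230 1809 (.cons 273 (.leaf 274 1994 (.cons 249 (.leaf 272 1986 (.cons 224 (.leaf 225 1795 (.cons 248 (.leaf 276 1984 (.leaf 223 1787 .nil)) .nil)) .nil)) .nil)) .nil)) (.cons 230 (.leaf 229 1809 (.cons 254 (.leaf 231 1817 (.cons 278 (.leaf 277 2000 (.leaf 279 2008 .nil)) .nil)) .nil)) (.cons 274 (.leaf 254 2002 (.leaf 273 1994 .nil)) .nil))) .nil)) .nil)) .nil)) .nil)) .nil)))) t85)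
noncomputable def top : T := .cons 299 t86 (.cons 274 t84 (.cons 250 t62 (.cons 227 t41 (.cons 227 (t38) (.cons 299 t37 (.cons 299 (t34) (.cons 299 (t32) (.cons 227 t30 (.cons 227 t27 (.cons 227 t23 (.cons 299 t21 (.cons 299 t16 (.cons 299 t13 (.cons 299 (.cons 323 (.cons 226 (.leaf 250 1815 (.cons 252 (.leaf 228 1821 (.cons 347 (.leaf 276 2013 (.cons 348 (.leaf 324 2012 (.leaf 372 2204 .nil)) .nil)) .nil)) .nil)) (.cons 322 (.leaf 346 2006 (.cons 324 (.leaf 348 2012 (.cons 300 (.leaf 227 1820 (.cons 301 (.leaf 302 2386 (.leaf 321 2377 .nil)) .nil)) .nil)) .nil)) (.cons 226 (.leaf 250 1815 (.cons 252 (.leaf 228 1821 (.cons 347 (.leaf 276 2013 (.cons 370 (.leaf 346 2198 (.cons 371 (.leaf 394 2390 (.cons 372 (.leaf 348 2204 (.leaf 396 2396 .nil)) .nil)) .nil)) .nil)) .nil)) .nil)) (.cons 250 (.leaf 226 1815 (.cons 346 (.leaf 322 2006 (.cons 347 (.leaf 274 2007 (.leaf 370 2198 .nil))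 .nil)) .nil)) .nil)))) t10) (.cons 227 t8 (.cons 227 t5 (.cons 299 t2 .nil)))))))))))))))))

end Vale.Agent.P062.Data.D5
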